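import Claimed.Agent.R256.Hz.Grp

/-!
# Row 256, unit HZ, file 8: THE HIGH PAIRS      (chief helper82; prefix `hz_`)      03 l.966-990

For a pair of caps `a, a'`, `V = |a - a'| d(ks)`.   Fibre quantities (`ω` exact index, `i` final interval, `b` position bin of length `q(kf)`, offset `po (G.Qi kf i) T_i ω`):
`e ω = ∫ ‖F(ω,·)‖² dν_ω`,   `g_a i b ω = ∫_{bin b} ‖uf (vc a) i (ω,·)‖² dν_ω`.      `Σ_b g_a i b ω ≤ e ω` (contraction `hz_br_contr`).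
 (H1) `hz_high_abs`    pure measure theory:  `Σ_i Σ_{(d,b)} (∫_{Y_{i,d}} (g g')^(1/2))^(3/2) ≤ (Σ_{i,d} (∫_{Y_{i,d}} e)²)^(1/2) (Σ_i ∫ e⁻¹ Σ_b g g')^(1/2)`
 (H2) `hz_kin_root`    KIN-M at the root, `δ = s`:  `Σ_{i,d} (∫_{sq i d} ‖F‖²)² ≤ CK (n+1) s · 4 s^(-2τ) κ w · e`
 (H3) `hz_cross_int`   (FX) integrated over the exact index
 (H4) `hz_high`        assembly
-/

set_option autoImplicit false

namespace Claimed.Agent.R256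

open MeasureTheory
open scoped ENNReal

/-- Cauchy-Schwarz for finite sums in `ℝ≥0∞` -/
theorem hz_ha_cs {ι : Type*} (s : Finset ι) (f g : ι → ℝ≥0∞) :
    ∑ i ∈ s, f i * g i ≤ (∑ i ∈ s, f i ^ 2) ^ (1 / 2 : ℝ) * (∑ i ∈ s, g i ^ 2) ^ (1 / 2 : ℝ) := by
  have h := ENNReal.inner_le_Lp_mul_Lq s f g Real.HolderConjugate.two_two
  simpa only [ENNReal.rpow_two] using h

theorem hz_ha_half_sq (x : ℝ≥0∞) : (x ^ (1 / 2 : ℝ)) ^ 2 = x := by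
  rw [← ENNReal.rpow_natCast, ← ENNReal.rpow_mul]
  norm_num

theorem hz_ha_half_mul (x : ℝ≥0∞) : x ^ (1 / 2 : ℝ) * x ^ (1 / 2 : ℝ) = x := by
  rw [← sq, hz_ha_half_sq]

/-- one cell: all bins -/
theorem hz_ha_cell {Ω : Type} [MeasurableSpace Ω] (ν : Measure Ω) (e : Ω → ℝ≥0∞) (he : AEMeasurable e ν) (hfin : ∀ᵐ ω ∂ν, e ω < ∞)
    (g g' : ℤ → Ω → ℝ≥0∞) (hg : ∀ b, AEMeasurable (g b) ν) (hg' : ∀ b, AEMeasurable (g' b) ν)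
    (hs : ∀ᵐ ω ∂ν, ∑' b, g b ω ≤ e ω) (hs' : ∀ᵐ ω ∂ν, ∑' b, g' b ω ≤ e ω) (B : Finset ℤ) :
    ∑ b ∈ B, (∫⁻ ω, (g b ω * g' b ω) ^ (1 / 2 : ℝ) ∂ν) ^ (3 / 2 : ℝ)
      ≤ (∫⁻ ω, e ω ∂ν) * (∫⁻ ω, (e ω)⁻¹ * ∑' b, g b ω * g' b ω ∂ν) ^ (1 / 2 : ℝ) := by
  obtain ⟨a, ha⟩ : ∃ a : ℤ → ℝ≥0∞, a = fun b => ∫⁻ ω, (g b ω * g' b ω) ^ (1 / 2 : ℝ) ∂ν := ⟨_, rfl⟩
  obtain ⟨M, hM⟩ : ∃ M : ℝ≥0∞, M = ∫⁻ ω, e ω ∂ν := ⟨_, rfl⟩
  obtain ⟨N, hN⟩ : ∃ N : ℝ≥0∞, N = ∫⁻ ω, (e ω)⁻¹ * ∑' b, g b ω * g' b ω ∂ν := ⟨_, rfl⟩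
  -- S1
  have S1 : ∀ b, a b ^ 2 ≤ M * ∫⁻ ω, (e ω)⁻¹ * (g b ω * g' b ω) ∂ν := by
    intro b
    have hpt : ∀ᵐ ω ∂ν, (g b ω * g' b ω) ^ (1 / 2 : ℝ) ≤ e ω ^ (1 / 2 : ℝ) * ((e ω)⁻¹ * (g b ω * g' b ω)) ^ (1 / 2 : ℝ) := by
      filter_upwards [hfin, hs] with ω h1 h2
      by_cases h0 : e ω = 0
      · have : g b ω = 0 := by
          have := (ENNReal.le_tsum b).trans h2
          rw [h0] at this
          exact le_antisymm this bot_le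
        rw [this, zero_mul, ENNReal.zero_rpow_of_pos (by norm_num)]
        exact bot_le
      · rw [← ENNReal.mul_rpow_of_nonneg _ _ (by norm_num), ← mul_assoc, ENNReal.mul_inv_cancel h0 h1.ne, one_mul]
    have m1 : AEMeasurable (fun ω => e ω ^ (1 / 2 : ℝ)) ν := he.pow_const _
    have m2 : AEMeasurable (fun ω => ((e ω)⁻¹ * (g b ω * g' b ω)) ^ (1 / 2 : ℝ)) ν := (he.inv.mul ((hg b).mul (hg' b))).pow_const _
    have h2 := hy_lcs ν m1 m2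
    simp only [hz_ha_half_sq] at h2
    rw [ha, hM]
    refine le_trans ?_ h2
    gcongr
    exact lintegral_mono_ae hpt
  -- S2
  have S2 : ∑ b ∈ B, a b ≤ M := by
    have e2 : ∑ b ∈ B, a b = ∫⁻ ω, ∑ b ∈ B, (g b ω * g' b ω) ^ (1 / 2 : ℝ) ∂ν := by
      rw [ha]
      exact (lintegral_finsetSum' B (f := fun b ω => (g b ω * g' b ω) ^ (1 / 2 : ℝ)) (fun b _ => ((hg b).mul (hg' b)).pow_const _)).symm
    rw [e2, hM]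
    refine lintegral_mono_ae ?_
    filter_upwards [hs, hs'] with ω h1 h2
    calc ∑ b ∈ B, (g b ω * g' b ω) ^ (1 / 2 : ℝ) = ∑ b ∈ B, g b ω ^ (1 / 2 : ℝ) * g' b ω ^ (1 / 2 : ℝ) :=
          Finset.sum_congr rfl fun b _ => ENNReal.mul_rpow_of_nonneg _ _ (by norm_num)
      _ ≤ (∑ b ∈ B, (g b ω ^ (1 / 2 : ℝ)) ^ 2) ^ (1 / 2 : ℝ) * (∑ b ∈ B, (g' b ω ^ (1 / 2 : ℝ)) ^ 2) ^ (1 / 2 : ℝ) := hz_ha_cs _ _ _
      _ = (∑ b ∈ B, g b ω) ^ (1 / 2 : ℝ) * (∑ b ∈ B, g' b ω) ^ (1 / 2 : ℝ) := by simp only [hz_ha_half_sq]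
      _ ≤ e ω ^ (1 / 2 : ℝ) * e ω ^ (1 / 2 : ℝ) := by
          gcongr
          · exact (ENNReal.sum_le_tsum B).trans h1
          · exact (ENNReal.sum_le_tsum B).trans h2
      _ = e ω := hz_ha_half_mul _
  -- S3
  have S3 : ∑ b ∈ B, ∫⁻ ω, (e ω)⁻¹ * (g b ω * g' b ω) ∂ν ≤ N := by
    have e3 : ∑ b ∈ B, ∫⁻ ω, (e ω)⁻¹ * (g b ω * g' b ω) ∂ν = ∫⁻ ω, ∑ b ∈ B, (e ω)⁻¹ * (g b ω * g' b ω) ∂ν :=
      (lintegral_finsetSum' B (f := fun b ω => (e ω)⁻¹ * (g b ω * g' b ω)) (fun b _ => he.inv.mul ((hg b).mul (hg' b)))).symm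
    rw [e3, hN]
    refine lintegral_mono fun ω => ?_
    rw [← Finset.mul_sum]
    gcongr
    exact ENNReal.sum_le_tsum B
  have S4 : ∑ b ∈ B, a b ^ 2 ≤ M * N := by
    calc ∑ b ∈ B, a b ^ 2 ≤ ∑ b ∈ B, M * ∫⁻ ω, (e ω)⁻¹ * (g b ω * g' b ω) ∂ν := Finset.sum_le_sum fun b _ => S1 b
      _ = M * ∑ b ∈ B, ∫⁻ ω, (e ω)⁻¹ * (g b ω * g' b ω) ∂ν := by rw [Finset.mul_sum]
      _ ≤ M * N := by gcongr
  have e32 : ∀ x : ℝ≥0∞, x ^ (3 / 2 : ℝ) = x ^ (1 / 2 : ℝ) * x := by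
    intro x
    conv_rhs => rw [← ENNReal.rpow_one x, ← ENNReal.rpow_mul, ← ENNReal.rpow_add_of_nonneg _ _ (by norm_num) (by norm_num)]
    norm_num
  have fin : ∑ b ∈ B, a b ^ (3 / 2 : ℝ) ≤ M * N ^ (1 / 2 : ℝ) := by
    calc ∑ b ∈ B, a b ^ (3 / 2 : ℝ) = ∑ b ∈ B, a b ^ (1 / 2 : ℝ) * a b := Finset.sum_congr rfl fun b _ => e32 _
      _ ≤ (∑ b ∈ B, (a b ^ (1 / 2 : ℝ)) ^ 2) ^ (1 / 2 : ℝ) * (∑ b ∈ B, a b ^ 2) ^ (1 / 2 : ℝ) := hz_ha_cs _ _ _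
      _ = (∑ b ∈ B, a b) ^ (1 / 2 : ℝ) * (∑ b ∈ B, a b ^ 2) ^ (1 / 2 : ℝ) := by simp only [hz_ha_half_sq]
      _ ≤ M ^ (1 / 2 : ℝ) * (M * N) ^ (1 / 2 : ℝ) := by gcongr
      _ = M * N ^ (1 / 2 : ℝ) := by rw [ENNReal.mul_rpow_of_nonneg _ _ (by norm_num), ← mul_assoc, hz_ha_half_mul]
  rw [ha, hM, hN] at fin
  exact fin

/-- **(H1)**.   For fixed `(i,d)`, `a_b = ∫_{Y} (g g')^(1/2)`:  `Σ_b a_b^(3/2) ≤ (Σ_b a_b)^(1/2) (Σ_b a_b²)^(1/2)` (Cauchy-Schwarz);   `Σ_b a_b ≤ ∫_Y (Σ g)^(1/2) (Σ g')^(1/2) ≤ ∫_Y e =: M`;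
`a_b² ≤ (∫_Y e)(∫_Y e⁻¹ g g')` (Cauchy-Schwarz in `ω`; `e = 0 ⇒ g = 0`; `e < ∞` a.e. or the right side is infinite), so `Σ_b a_b² ≤ M N`, `N = ∫_Y e⁻¹ Σ_b g g'`.   Then `Σ_{i,d} M N^(1/2) ≤ (Σ M²)^(1/2) (Σ N)^(1/2)`, the `Y i d` are disjoint in `d`.   ~450 l. -/
theorem hz_high_abs {Ω : Type} [MeasurableSpace Ω] (μ : Measure Ω) (I : Finset ℕ) (D : ℕ → Finset (ℤ × ℤ × ℤ)) (Y : ℕ → ℤ × ℤ → Set Ω)
    (hY : ∀ i d, MeasurableSet (Y i d)) (hYd : ∀ i d d', d ≠ d' → Disjoint (Y i d) (Y i d')) (e : Ω → ℝ≥0∞) (he : AEMeasurable e μ) (hfin : ∀ᵐ ω ∂μ, e ω < ∞)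
    (g g' : ℕ → ℤ → Ω → ℝ≥0∞) (hg : ∀ i b, AEMeasurable (g i b) μ) (hg' : ∀ i b, AEMeasurable (g' i b) μ)
    (hs : ∀ i, ∀ᵐ ω ∂μ, ∑' b, g i b ω ≤ e ω) (hs' : ∀ i, ∀ᵐ ω ∂μ, ∑' b, g' i b ω ≤ e ω) :
    ∑ i ∈ I, ∑ c ∈ D i, (∫⁻ ω in Y i (c.1, c.2.1), (g i c.2.2 ω * g' i c.2.2 ω) ^ (1 / 2 : ℝ) ∂μ) ^ (3 / 2 : ℝ)
      ≤ (∑ i ∈ I, ∑ d ∈ (D i).image (fun c => (c.1, c.2.1)), (∫⁻ ω in Y i d, e ω ∂μ) ^ 2) ^ (1 / 2 : ℝ) *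
        (∑ i ∈ I, ∫⁻ ω, (e ω)⁻¹ * ∑' b, g i b ω * g' i b ω ∂μ) ^ (1 / 2 : ℝ) := by
  obtain ⟨Mf, hMf⟩ : ∃ Mf : ℕ → ℤ × ℤ → ℝ≥0∞, Mf = fun i d => ∫⁻ ω in Y i d, e ω ∂μ := ⟨_, rfl⟩
  obtain ⟨Nf, hNf⟩ : ∃ Nf : ℕ → ℤ × ℤ → ℝ≥0∞, Nf = fun i d => ∫⁻ ω in Y i d, (e ω)⁻¹ * ∑' b, g i b ω * g' i b ω ∂μ := ⟨_, rfl⟩
  obtain ⟨D', hD'⟩ : ∃ D' : ℕ → Finset (ℤ × ℤ), D' = fun i => (D i).image (fun c => (c.1, c.2.1)) := ⟨_, rfl⟩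
  have A : ∀ i, ∑ c ∈ D i, (∫⁻ ω in Y i (c.1, c.2.1), (g i c.2.2 ω * g' i c.2.2 ω) ^ (1 / 2 : ℝ) ∂μ) ^ (3 / 2 : ℝ)
      ≤ ∑ d ∈ D' i, Mf i d * Nf i d ^ (1 / 2 : ℝ) := by
    intro i
    rw [hD']
    rw [← Finset.sum_fiberwise_of_maps_to (s := D i) (t := (D i).image (fun c => (c.1, c.2.1))) (g := fun c => (c.1, c.2.1))
      (fun c hc => Finset.mem_image_of_mem _ hc)]
    refine Finset.sum_le_sum fun d _ => ?_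
    have h := hz_ha_cell (μ.restrict (Y i d)) e he.restrict (ae_restrict_of_ae hfin) (g i) (g' i) (fun b => (hg i b).restrict)
      (fun b => (hg' i b).restrict) (ae_restrict_of_ae (hs i)) (ae_restrict_of_ae (hs' i))
      (((D i).filter (fun c => (c.1, c.2.1) = d)).image (fun c => c.2.2))
    rw [Finset.sum_image (by
      intro c hc c' hc' hcc
      have h1 := (Finset.mem_filter.1 hc).2
      have h2 := (Finset.mem_filter.1 hc').2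
      have h3 : (c.1, c.2.1) = (c'.1, c'.2.1) := h1.trans h2.symm
      have h4 : c.2.2 = c'.2.2 := hcc
      exact Prod.ext (Prod.mk.inj h3).1 (Prod.ext (Prod.mk.inj h3).2 h4))] at h
    refine le_trans (le_of_eq ?_) (h.trans (le_of_eq ?_))
    · refine Finset.sum_congr rfl fun c hc => ?_
      rw [(Finset.mem_filter.1 hc).2]
    · rw [hMf, hNf]
  have C : ∀ i, ∑ d ∈ D' i, Nf i d ≤ ∫⁻ ω, (e ω)⁻¹ * ∑' b, g i b ω * g' i b ω ∂μ := by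
    intro i
    rw [hNf]
    simp only
    rw [← lintegral_biUnion_finset (fun d _ d' _ hdd => hYd i d d' hdd) (fun d _ => hY i d)]
    exact setLIntegral_le_lintegral _ _
  calc ∑ i ∈ I, ∑ c ∈ D i, (∫⁻ ω in Y i (c.1, c.2.1), (g i c.2.2 ω * g' i c.2.2 ω) ^ (1 / 2 : ℝ) ∂μ) ^ (3 / 2 : ℝ)
      ≤ ∑ i ∈ I, ∑ d ∈ D' i, Mf i d * Nf i d ^ (1 / 2 : ℝ) := Finset.sum_le_sum fun i _ => A i
    _ = ∑ x ∈ I.sigma D', Mf x.1 x.2 * Nf x.1 x.2 ^ (1 / 2 : ℝ) := Finset.sum_sigma' I D' (fun i d => Mf i d * Nf i d ^ (1 / 2 : ℝ))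
    _ ≤ (∑ x ∈ I.sigma D', Mf x.1 x.2 ^ 2) ^ (1 / 2 : ℝ) * (∑ x ∈ I.sigma D', (Nf x.1 x.2 ^ (1 / 2 : ℝ)) ^ 2) ^ (1 / 2 : ℝ) := hz_ha_cs _ _ _
    _ = (∑ i ∈ I, ∑ d ∈ D' i, Mf i d ^ 2) ^ (1 / 2 : ℝ) * (∑ i ∈ I, ∑ d ∈ D' i, Nf i d) ^ (1 / 2 : ℝ) := by
        simp only [hz_ha_half_sq]
        rw [Finset.sum_sigma' I D' (fun i d => Mf i d ^ 2), Finset.sum_sigma' I D' (fun i d => Nf i d)]
    _ ≤ (∑ i ∈ I, ∑ d ∈ D' i, Mf i d ^ 2) ^ (1 / 2 : ℝ) * (∑ i ∈ I, ∫⁻ ω, (e ω)⁻¹ * ∑' b, g i b ω * g' i b ω ∂μ) ^ (1 / 2 : ℝ) := by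
        gcongr with i _
        exact C i
    _ = _ := by rw [hMf, hD']

/-- the test which covers a tilted box of the normalised base coordinates and the square number `(u, u')` of the normal box -/
def hzH2T (Q : CyT) (l0 R x b y : ℝ) (u u' : ℤ) : CyT :=
  { Q with
    x := Q.x + x * Q.r
    b := Q.b + b * (l0 * Q.r)
    y := Q.y + 2 * Q.x * (b * (l0 * Q.r)) + y * (l0 * Q.r ^ 2)
    r := R * Q.r
    c := Q.c + 2 * u * Q.f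
    d := Q.d + 2 * u' * (l0 * Q.f) }

theorem hz_h2_eqns_cite : True := by
  have := @hzH2T.eq_1
  trivial

theorem hz_h2_in (Q : CyT) (hr : 0 < Q.r) (l0 R x b y : ℝ) (hl0 : 0 < l0) (u u' : ℤ) (z : Cy5)
    (h1 : |(cyBase Q l0 z).1 - x| ≤ R) (h2 : |(cyBase Q l0 z).2.1 - b| ≤ R)
    (h3 : |(cyBase Q l0 z).2.2 - y - 2 * x * ((cyBase Q l0 z).2.1 - b)| ≤ R ^ 2)
    (h4 : |cyVel Q z - 2 * u * Q.f| ≤ Q.f) (h5 : |cyPos Q z - 2 * u' * (l0 * Q.f)| ≤ l0 * Q.f) : cyIn (hzH2T Q l0 R x b y u u') l0 z := by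
  have hlr : 0 < l0 * Q.r := mul_pos hl0 hr
  have hlr2 : 0 < l0 * Q.r ^ 2 := by positivity
  refine ⟨?_, ?_, ?_, ?_, ?_⟩
  · show |z.X - (Q.x + x * Q.r)| ≤ R * Q.r
    have e : z.X - (Q.x + x * Q.r) = ((cyBase Q l0 z).1 - x) * Q.r := by
      simp only [cyBase]; field_simp; ring
    rw [e, abs_mul, abs_of_pos hr]
    exact mul_le_mul_of_nonneg_right h1 hr.le
  · show |z.B - (Q.b + b * (l0 * Q.r))| ≤ l0 * (R * Q.r)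
    have e : z.B - (Q.b + b * (l0 * Q.r)) = ((cyBase Q l0 z).2.1 - b) * (l0 * Q.r) := by
      simp only [cyBase]; field_simp; ring
    rw [e, abs_mul, abs_of_pos hlr]
    calc |(cyBase Q l0 z).2.1 - b| * (l0 * Q.r) ≤ R * (l0 * Q.r) := mul_le_mul_of_nonneg_right h2 hlr.le
      _ = l0 * (R * Q.r) := by ring
  · show |cyTilt (hzH2T Q l0 R x b y u u') z| ≤ l0 * (R * Q.r) ^ 2
    have e : cyTilt (hzH2T Q l0 R x b y u u') z = ((cyBase Q l0 z).2.2 - y - 2 * x * ((cyBase Q l0 z).2.1 - b)) * (l0 * Q.r ^ 2) := by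
      simp only [cyBase, cyTilt, hzH2T]; field_simp; ring
    rw [e, abs_mul, abs_of_pos hlr2]
    calc |(cyBase Q l0 z).2.2 - y - 2 * x * ((cyBase Q l0 z).2.1 - b)| * (l0 * Q.r ^ 2) ≤ R ^ 2 * (l0 * Q.r ^ 2) := mul_le_mul_of_nonneg_right h3 hlr2.le
      _ = l0 * (R * Q.r) ^ 2 := by ring
  · show |cyVel (hzH2T Q l0 R x b y u u') z| ≤ Q.f
    have e : cyVel (hzH2T Q l0 R x b y u u') z = cyVel Q z - 2 * u * Q.f := by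
      simp only [cyVel, hzH2T]; ring
    rw [e]; exact h4
  · show |cyPos (hzH2T Q l0 R x b y u u') z| ≤ l0 * Q.f
    have e : cyPos (hzH2T Q l0 R x b y u u') z = cyPos Q z - 2 * u' * (l0 * Q.f) := by
      simp only [cyPos, hzH2T]; ring
    rw [e]; exact h5

/-- an interval of half length `N1 w` is covered by the intervals of half length `w` with the centres `2 u w`, `|u| ≤ m` -/
theorem hz_h2_cov {v w N1 : ℝ} (hw : 0 < w) (m : ℕ) (hm1 : 1 ≤ m) (hm : N1 ≤ m) (hv : |v| ≤ N1 * w) : ∃ u ∈ Finset.Icc (-(m : ℤ)) m, |v - 2 * (u : ℝ) * w| ≤ w := by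
  refine ⟨round (v / (2 * w)), ?_, ?_⟩
  · have h1 := abs_sub_round (v / (2 * w))
    have h2 : |v / (2 * w)| ≤ N1 / 2 := by
      rw [abs_div, abs_of_pos (by positivity : 0 < 2 * w), div_le_div_iff₀ (by positivity) (by norm_num)]
      nlinarith
    have hm1' : (1 : ℝ) ≤ m := by exact_mod_cast hm1
    have h3 : |(round (v / (2 * w)) : ℝ)| ≤ m := by
      have : |(round (v / (2 * w)) : ℝ)| ≤ |v / (2 * w)| + |v / (2 * w) - round (v / (2 * w))| := by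
        have := abs_sub_abs_le_abs_sub ((round (v / (2 * w)) : ℝ)) (v / (2 * w))
        rw [abs_sub_comm] at this
        linarith
      linarith
    rw [Finset.mem_Icc]
    have h4 := abs_le.1 h3
    constructor
    · have : (-(m : ℤ) : ℝ) ≤ (round (v / (2 * w)) : ℝ) := by push_cast; exact h4.1
      exact_mod_cast this
    · have : (round (v / (2 * w)) : ℝ) ≤ ((m : ℤ) : ℝ) := by push_cast; exact h4.2
      exact_mod_cast this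
  · have h1 := abs_sub_round (v / (2 * w))
    have e : v - 2 * (round (v / (2 * w)) : ℝ) * w = (v / (2 * w) - round (v / (2 * w))) * (2 * w) := by
      field_simp
    rw [e, abs_mul, abs_of_pos (by positivity : 0 < 2 * w)]
    nlinarith

section

variable {η : ℝ} {p : ChyPar} (G : HzGr η p)

/-- the energy measure of the raw root rows -/
noncomputable def HzGr.h2mu : Measure (p.Om × ℝ × ℝ) := p.rw.withDensity fun x => ‖(G.F : p.Om × ℝ × ℝ → p.Fb) x‖ₑ ^ 2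

theorem hz_h2_eqns_cite2 : True := by
  have := @HzGr.h2mu.eq_1
  trivial

theorem hz_h2_dens_meas : Measurable fun x => ‖(G.F : p.Om × ℝ × ℝ → p.Fb) x‖ₑ ^ 2 := (Lp.stronglyMeasurable G.F).enorm.pow_const 2

theorem hz_h2_apply (S : Set (p.Om × ℝ × ℝ)) (hS : MeasurableSet S) : G.h2mu S = ∫⁻ x in S, ‖(G.F : p.Om × ℝ × ℝ → p.Fb) x‖ₑ ^ 2 ∂p.rw :=
  withDensity_apply _ hS

theorem hz_h2_univ : G.h2mu Set.univ = ENNReal.ofReal (‖G.F‖ ^ 2) := by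
  rw [hz_h2_apply G _ MeasurableSet.univ, Measure.restrict_univ, hy_fl_norm_sq]

theorem hz_h2_fin : IsFiniteMeasure G.h2mu := ⟨by rw [hz_h2_univ]; exact ENNReal.ofReal_lt_top⟩

theorem hz_h2_ae (P : p.Om × ℝ × ℝ → Prop) (h : ∀ᵐ x ∂p.rw, (G.F : p.Om × ℝ × ℝ → p.Fb) x ≠ 0 → P x) : ∀ᵐ x ∂G.h2mu, P x := by
  refine (ae_withDensity_iff (hz_h2_dens_meas G)).2 ?_
  filter_upwards [h] with x hx h0
  refine hx fun h1 => h0 ?_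
  rw [h1]
  simp

/-- mass of an admissible test -/
theorem hz_h2_test (C : ℕ) (τ : ℝ) (hG : G.Ok C τ) (Q' : CyT) (hQ : (p.sys η).ok Q' G.k0) :
    G.h2mu {x | cyIn Q' G.l0 (p.co G.T0 x)} ≤ ENNReal.ofReal (G.ka * cyWt η Q') := by
  have hm : MeasurableSet {x : p.Om × ℝ × ℝ | cyIn Q' G.l0 (p.co G.T0 x)} := hy_fl_cell_meas p hG.par Q' G.l0 G.T0
  rw [hz_h2_apply G _ hm]
  have h1 := hG.reg Q' hQ
  have h2 := hy_int_sq (p.rw.restrict {x : p.Om × ℝ × ℝ | cyIn Q' G.l0 (p.co G.T0 x)}) (G.F : p.Om × ℝ × ℝ → p.Fb) (Lp.aestronglyMeasurable G.F).restrict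
  have h3 : ∫⁻ x in {x : p.Om × ℝ × ℝ | cyIn Q' G.l0 (p.co G.T0 x)}, ‖(G.F : p.Om × ℝ × ℝ → p.Fb) x‖ₑ ^ 2 ∂p.rw ≠ ⊤ :=
    ((setLIntegral_le_lintegral _ _).trans_lt (lt_top_iff_ne_top.2 (hy_lint_of_memLp _ _ (Lp.memLp G.F)))).ne
  rw [← ENNReal.ofReal_toReal h3]
  refine ENNReal.ofReal_le_ofReal ?_
  rw [← h2]
  exact h1

theorem hz_h2_s_pos : 0 < G.s := by unfold HzGr.s; positivity

theorem hz_h2_s_le : G.s ≤ 1 := by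
  unfold HzGr.s
  exact pow_le_one₀ (by norm_num) (by norm_num)

theorem hz_h2_l0_pos : 0 < G.l0 := by unfold HzGr.l0; positivity

theorem hz_h2_ok (C : ℕ) (τ : ℝ) (hG : G.Ok C τ) (R x b y : ℝ) (hR0 : 0 < R) (u u' : ℤ) : (p.sys η).ok (hzH2T G.Q G.l0 R x b y u u') G.k0 := by
  refine ⟨mul_pos hR0 hG.r_pos, hG.f_pos, le_trans ?_ hG.pl_hi⟩
  unfold ChyPar.dl
  refine Real.sqrt_le_sqrt (mul_le_mul_of_nonneg_left ?_ hG.par.H_pos.le)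
  exact pow_le_pow_right₀ (by norm_num) (by unfold HzGr.kf; omega)

theorem hz_h2_wt (h0 : 0 < η) (C : ℕ) (τ : ℝ) (hG : G.Ok C τ) (R x b y : ℝ) (hR0 : 0 < R) (hR1 : R ≤ 1) (u u' : ℤ) :
    cyWt η (hzH2T G.Q G.l0 R x b y u u') ≤ cyWt η G.Q * R ^ 3 := by
  have hr := hG.r_pos
  have hf := hG.f_pos
  show (R * G.Q.r) ^ (3 + η) * G.Q.f ^ (1 - η) ≤ G.Q.r ^ (3 + η) * G.Q.f ^ (1 - η) * R ^ 3
  rw [Real.mul_rpow hR0.le hr.le]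
  have h1 : R ^ (3 + η) ≤ R ^ 3 := by
    have := Real.rpow_le_rpow_of_exponent_ge hR0 hR1 (show (3 : ℝ) ≤ 3 + η by linarith)
    calc R ^ (3 + η) ≤ R ^ (3 : ℝ) := this
      _ = R ^ 3 := by norm_cast
  have h2 : 0 ≤ G.Q.r ^ (3 + η) * G.Q.f ^ (1 - η) := by positivity
  calc R ^ (3 + η) * G.Q.r ^ (3 + η) * G.Q.f ^ (1 - η) = R ^ (3 + η) * (G.Q.r ^ (3 + η) * G.Q.f ^ (1 - η)) := by ring
    _ ≤ R ^ 3 * (G.Q.r ^ (3 + η) * G.Q.f ^ (1 - η)) := mul_le_mul_of_nonneg_right h1 h2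
    _ = G.Q.r ^ (3 + η) * G.Q.f ^ (1 - η) * R ^ 3 := by ring

theorem hz_h2_reg (h0 : 0 < η) (C : ℕ) (τ : ℝ) (hG : G.Ok C τ) (hτ : 0 ≤ τ) (R : ℝ) (hR0 : 0 < R) (hR1 : R ≤ 1) :
    KinMReg G.h2mu (fun x => (cyBase G.Q G.l0 (p.co G.T0 x)).1) (fun x => (cyBase G.Q G.l0 (p.co G.T0 x)).2.1) (fun x => (cyBase G.Q G.l0 (p.co G.T0 x)).2.2)
      (25 * (G.s ^ (-(2 * τ)) * (G.ka * cyWt η G.Q))) R := by
  intro x b y
  have hs := hz_h2_s_pos G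
  have hl0 := hz_h2_l0_pos G
  have hr := hG.r_pos
  have hf := hG.f_pos
  have hw : 0 < cyWt η G.Q := by unfold cyWt; positivity
  have hka := hG.ka_pos
  obtain ⟨N1, hN1⟩ : ∃ N1 : ℝ, N1 = G.s ^ (-τ) := ⟨_, rfl⟩
  have hN1' : 1 ≤ N1 := by
    rw [hN1]
    exact Real.one_le_rpow_of_pos_of_le_one_of_nonpos hs (hz_h2_s_le G) (by linarith)
  have hN2 : N1 ^ 2 = G.s ^ (-(2 * τ)) := by
    rw [hN1, ← Real.rpow_natCast, ← Real.rpow_mul hs.le]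
    congr 1
    push_cast
    ring
  obtain ⟨m, hm⟩ : ∃ m : ℕ, m = ⌈N1⌉₊ := ⟨_, rfl⟩
  have hm1 : N1 ≤ m := hm ▸ Nat.le_ceil N1
  have hm2 : (m : ℝ) < N1 + 1 := hm ▸ Nat.ceil_lt_add_one (by linarith)
  have hm3 : 1 ≤ m := by
    have : (1 : ℝ) ≤ m := hN1'.trans hm1
    exact_mod_cast this
  set J : Finset ℤ := Finset.Icc (-(m : ℤ)) m with hJ
  have hcard : (J.card : ℝ) = 2 * m + 1 := by
    rw [hJ, Int.card_Icc]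
    have : ((m : ℤ) + 1 - -(m : ℤ)).toNat = 2 * m + 1 := by omega
    rw [this]
    push_cast
    ring
  have hsub : (kinMBox (fun x => (cyBase G.Q G.l0 (p.co G.T0 x)).1) (fun x => (cyBase G.Q G.l0 (p.co G.T0 x)).2.1) (fun x => (cyBase G.Q G.l0 (p.co G.T0 x)).2.2) x b y R R (R ^ 2))
      ≤ᵐ[G.h2mu] (⋃ q ∈ J ×ˢ J, {x' : p.Om × ℝ × ℝ | cyIn (hzH2T G.Q G.l0 R x b y q.1 q.2) G.l0 (p.co G.T0 x')}) := by
    filter_upwards [hz_h2_ae G _ hG.sup] with x' hx' hbox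
    obtain ⟨b1, b2, b3⟩ := hbox
    obtain ⟨-, g2, g3⟩ := hx'
    rw [← hN1] at g2 g3
    obtain ⟨u, hu, hu'⟩ := hz_h2_cov hf m hm3 hm1 g2
    obtain ⟨w, hw, hw'⟩ := hz_h2_cov (mul_pos hl0 hf) m hm3 hm1 g3
    refine Set.mem_biUnion (x := (u, w)) (Finset.mem_coe.2 (Finset.mem_product.2 ⟨hu, hw⟩)) ?_
    exact hz_h2_in G.Q hr G.l0 R x b y hl0 u w _ b1 b2 b3 hu' hw'
  have h1 : G.h2mu (kinMBox (fun x => (cyBase G.Q G.l0 (p.co G.T0 x)).1) (fun x => (cyBase G.Q G.l0 (p.co G.T0 x)).2.1) (fun x => (cyBase G.Q G.l0 (p.co G.T0 x)).2.2) x b y R R (R ^ 2))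
      ≤ ENNReal.ofReal ((2 * m + 1) ^ 2 * (G.ka * (cyWt η G.Q * R ^ 3))) := by
    refine (measure_mono_ae hsub).trans ((measure_biUnion_finset_le _ _).trans ?_)
    calc ∑ q ∈ J ×ˢ J, G.h2mu {x' : p.Om × ℝ × ℝ | cyIn (hzH2T G.Q G.l0 R x b y q.1 q.2) G.l0 (p.co G.T0 x')}
        ≤ ∑ q ∈ J ×ˢ J, ENNReal.ofReal (G.ka * (cyWt η G.Q * R ^ 3)) := by
          refine Finset.sum_le_sum fun q _ => ?_
          refine (hz_h2_test G C τ hG _ (hz_h2_ok G C τ hG R x b y hR0 q.1 q.2)).trans (ENNReal.ofReal_le_ofReal ?_)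
          exact mul_le_mul_of_nonneg_left (hz_h2_wt G h0 C τ hG R x b y hR0 hR1 q.1 q.2) hka.le
      _ = ENNReal.ofReal ((2 * m + 1) ^ 2 * (G.ka * (cyWt η G.Q * R ^ 3))) := by
          rw [Finset.sum_const, Finset.card_product, nsmul_eq_mul, ← hcard, sq, ← Nat.cast_mul,
            ENNReal.ofReal_mul (Nat.cast_nonneg _), ENNReal.ofReal_natCast]
  refine (ENNReal.toReal_le_of_le_ofReal (by positivity) h1).trans ?_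
  have h2 : (2 * (m : ℝ) + 1) ^ 2 ≤ 25 * N1 ^ 2 := by
    have : 2 * (m : ℝ) + 1 ≤ 5 * N1 := by linarith
    calc (2 * (m : ℝ) + 1) ^ 2 ≤ (5 * N1) ^ 2 := pow_le_pow_left₀ (by positivity) this 2
      _ = 25 * N1 ^ 2 := by ring
  rw [← hN2]
  calc (2 * (m : ℝ) + 1) ^ 2 * (G.ka * (cyWt η G.Q * R ^ 3)) ≤ 25 * N1 ^ 2 * (G.ka * (cyWt η G.Q * R ^ 3)) := mul_le_mul_of_nonneg_right h2 (by positivity)
    _ = 25 * (N1 ^ 2 * (G.ka * cyWt η G.Q)) * R ^ 3 := by ring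

theorem hz_h2_grid (C : ℕ) (τ : ℝ) (hG : G.Ok C τ) (j : ℕ) (d : ℤ × ℤ) :
    G.sq (G.i0 * 2 ^ G.n + j) d = {x | kinMGrid (fun x => (cyBase G.Q G.l0 (p.co G.T0 x)).1) (fun x => (cyBase G.Q G.l0 (p.co G.T0 x)).2.1)
      (fun x => (cyBase G.Q G.l0 (p.co G.T0 x)).2.2) ((1 / 2 : ℝ) ^ G.n) (j * (1 / 2 : ℝ) ^ G.n) x = d} := by
  have hl0 := hz_h2_l0_pos G
  have hlf : 0 < G.lf := by unfold HzGr.lf; positivity
  have e1 : G.lf / G.l0 = (1 / 2 : ℝ) ^ G.n := by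
    unfold HzGr.lf HzGr.l0 HzGr.kf
    rw [pow_add, one_div]
    field_simp
  have e2 : (tmL G.kf (G.i0 * 2 ^ G.n + j) - G.T0) / G.l0 = j * (1 / 2 : ℝ) ^ G.n := by
    unfold HzGr.T0 HzGr.l0 HzGr.kf tmL
    rw [pow_add, one_div, inv_pow, inv_pow]
    push_cast
    field_simp
    ring
  ext x
  have h := hz_base_fr p G.Q hG.r_pos G.T0 (tmL G.kf (G.i0 * 2 ^ G.n + j) - G.T0) G.l0 G.lf hl0 hlf x
  rw [add_sub_cancel, e1, e2] at h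
  show (⌊(cyBase (hzFr G.Q (tmL G.kf (G.i0 * 2 ^ G.n + j) - G.T0)) G.lf (p.co (tmL G.kf (G.i0 * 2 ^ G.n + j)) x)).2.1⌋,
    ⌊(cyBase (hzFr G.Q (tmL G.kf (G.i0 * 2 ^ G.n + j) - G.T0)) G.lf (p.co (tmL G.kf (G.i0 * 2 ^ G.n + j)) x)).2.2⌋) = d ↔ _
  rw [h]
  rfl

theorem hz_h2_meas (hp : p.Ok) (Q : CyT) (l T : ℝ) : (Measurable fun x : p.Om × ℝ × ℝ => (cyBase Q l (p.co T x)).1) ∧
    (Measurable fun x : p.Om × ℝ × ℝ => (cyBase Q l (p.co T x)).2.1) ∧ Measurable fun x : p.Om × ℝ × ℝ => (cyBase Q l (p.co T x)).2.2 := by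
  have mX := hp.mX
  have mB := hp.mB
  have mY := hp.mY
  simp only [cyBase, cyTilt, ChyPar.co]
  refine ⟨?_, ?_, ?_⟩ <;> fun_prop

theorem hz_h2_grid_meas {Ω : Type} [MeasurableSpace Ω] (X B Y : Ω → ℝ) (hX : Measurable X) (hB : Measurable B) (hY : Measurable Y) (δ t : ℝ) (d : ℤ × ℤ) :
    MeasurableSet {ω | kinMGrid X B Y δ t ω = d} := by
  have : Measurable (kinMGrid X B Y δ t) := by
    unfold kinMGrid
    exact (Int.measurable_floor.comp (by fun_prop)).prodMk (Int.measurable_floor.comp (by fun_prop))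
  exact this (measurableSet_singleton d)

end

/-- **(H2) KIN-M AT THE ROOT.**   `Ω` = the rows, `μ = rw.withDensity ‖F‖ₑ²` (finite), `X, B, Y` = the three components of `cyBase G.Q ℓ0 (co T0 ·)`; `|X| ≤ 1/2` a.e. (`Ok.sup`).
Grid: `G.sq i d = {kinMGrid X B Y s (j s) = d}` for `i = i0 2^n + j` (`hz_base_fr` with `l = ℓf`, `l/ℓ0 = s`, `t/ℓ0 = j s`).
`KinMReg μ X B Y (4 s^(-2τ) κ w) R`, `R = 2^-j'`: the box is the base part of the tests `Q'` = frame with `r' = R r`, base centre `(x + x' r, b + b' ℓ0 r, ..)`, `f' = f`, `c' = c + 2 u f`, `d' = d + 2 u' ℓ0 f`, `|u|, |u'| ≤ ⌈s^-τ⌉/2 + 1`: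
`≤ (s^-τ + 1)² ≤ 4 s^(-2τ)` tests cover the normal box; each has mass `≤ κ (R r)^(3+η) f^(1-η) ≤ κ w R³` (`Ok.reg`; `ok`: `d(k0) ≤ d(kf) ≤ f`).   ~600 l. -/
theorem hz_kin_root (hK : HzKinC) (η : ℝ) (h0 : 0 < η) (h1 : η < 1) : ∃ CK : ℝ, 0 < CK ∧ ∀ (p : ChyPar) (G : HzGr η p) (C : ℕ) (τ : ℝ), G.Ok C τ → 0 ≤ τ →
    ∀ D : ℕ → Finset (ℤ × ℤ), ∑ i ∈ ivs G.k0 G.i0 G.kf, ∑ d ∈ D i, (∫⁻ x in G.sq i d, ‖(G.F : p.Om × ℝ × ℝ → p.Fb) x‖ₑ ^ 2 ∂p.rw) ^ 2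
      ≤ ENNReal.ofReal (CK * (G.n + 1) * G.s * (G.s ^ (-(2 * τ)) * (G.ka * cyWt η G.Q)) * G.e) := by
  obtain ⟨C0, hC0, hK⟩ := hK
  refine ⟨25 * C0, by positivity, fun p G C τ hG hτ D => ?_⟩
  have := hz_h2_fin G
  obtain ⟨mX, mB, mY⟩ := hz_h2_meas hG.par G.Q G.l0 G.T0
  have hs := hz_h2_s_pos G
  have hw : 0 < cyWt η G.Q := by
    have := hG.r_pos
    have := hG.f_pos
    unfold cyWt; positivity
  have hka := hG.ka_pos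
  have hX1 : ∀ᵐ x ∂G.h2mu, |(cyBase G.Q G.l0 (p.co G.T0 x)).1| ≤ 1 := by
    refine hz_h2_ae G _ ?_
    filter_upwards [hG.sup] with x hx hF
    obtain ⟨g1, -, -⟩ := hx hF
    show |((p.co G.T0 x).X - G.Q.x) / G.Q.r| ≤ 1
    rw [abs_div, abs_of_pos hG.r_pos, div_le_one hG.r_pos]
    linarith [hG.r_pos]
  have hreg : ∀ j ≤ G.n, KinMReg G.h2mu (fun x => (cyBase G.Q G.l0 (p.co G.T0 x)).1) (fun x => (cyBase G.Q G.l0 (p.co G.T0 x)).2.1)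
      (fun x => (cyBase G.Q G.l0 (p.co G.T0 x)).2.2) (25 * (G.s ^ (-(2 * τ)) * (G.ka * cyWt η G.Q))) ((1 / 2 : ℝ) ^ j) := fun j _ =>
    hz_h2_reg G h0 C τ hG hτ _ (by positivity) (pow_le_one₀ (by norm_num) (by norm_num))
  have key := hK (p.Om × ℝ × ℝ) G.h2mu _ _ _ mX mB mY hX1 (25 * (G.s ^ (-(2 * τ)) * (G.ka * cyWt η G.Q))) G.n (by positivity) hreg
    (fun j => D (G.i0 * 2 ^ G.n + j))
  have hkk : G.kf - G.k0 = G.n := by unfold HzGr.kf; omega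
  have hsub : (G.i0 + 1) * 2 ^ G.n - G.i0 * 2 ^ G.n = 2 ^ G.n := by
    rw [add_mul, one_mul, Nat.add_sub_cancel_left]
  unfold ivs
  rw [hkk, Finset.sum_Ico_eq_sum_range, hsub]
  have hterm : ∀ j : ℕ, ∀ d : ℤ × ℤ, (∫⁻ x in G.sq (G.i0 * 2 ^ G.n + j) d, ‖(G.F : p.Om × ℝ × ℝ → p.Fb) x‖ₑ ^ 2 ∂p.rw) ^ 2
      = ENNReal.ofReal ((G.h2mu {x | kinMGrid (fun x => (cyBase G.Q G.l0 (p.co G.T0 x)).1) (fun x => (cyBase G.Q G.l0 (p.co G.T0 x)).2.1)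
        (fun x => (cyBase G.Q G.l0 (p.co G.T0 x)).2.2) ((1 / 2 : ℝ) ^ G.n) (j * (1 / 2 : ℝ) ^ G.n) x = d}).toReal ^ 2) := by
    intro j d
    rw [hz_h2_grid G C τ hG j d, ← hz_h2_apply G _ (hz_h2_grid_meas _ _ _ mX mB mY _ _ d), ENNReal.ofReal_pow ENNReal.toReal_nonneg,
      ENNReal.ofReal_toReal (measure_ne_top _ _)]
  simp only [hterm]
  have hsum : ∀ j : ℕ, ∑ d ∈ D (G.i0 * 2 ^ G.n + j), ENNReal.ofReal ((G.h2mu {x | kinMGrid (fun x => (cyBase G.Q G.l0 (p.co G.T0 x)).1)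
        (fun x => (cyBase G.Q G.l0 (p.co G.T0 x)).2.1) (fun x => (cyBase G.Q G.l0 (p.co G.T0 x)).2.2) ((1 / 2 : ℝ) ^ G.n) (j * (1 / 2 : ℝ) ^ G.n) x = d}).toReal ^ 2)
      = ENNReal.ofReal (∑ d ∈ D (G.i0 * 2 ^ G.n + j), (G.h2mu {x | kinMGrid (fun x => (cyBase G.Q G.l0 (p.co G.T0 x)).1)
        (fun x => (cyBase G.Q G.l0 (p.co G.T0 x)).2.1) (fun x => (cyBase G.Q G.l0 (p.co G.T0 x)).2.2) ((1 / 2 : ℝ) ^ G.n) (j * (1 / 2 : ℝ) ^ G.n) x = d}).toReal ^ 2) :=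
    fun j => (ENNReal.ofReal_sum_of_nonneg fun d _ => by positivity).symm
  simp only [hsum]
  rw [← ENNReal.ofReal_sum_of_nonneg (fun j _ => Finset.sum_nonneg fun d _ => by positivity)]
  refine ENNReal.ofReal_le_ofReal ?_
  refine le_trans (Finset.sum_le_sum_of_subset_of_nonneg (Finset.range_subset_range.2 (Nat.le_succ _)) fun j _ _ => Finset.sum_nonneg fun d _ => by positivity) ?_
  refine key.trans ?_
  have hu : (G.h2mu Set.univ).toReal ≤ G.e := by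
    rw [hz_h2_univ, ENNReal.toReal_ofReal (by positivity)]
    exact hG.en
  have hs' : (1 / 2 : ℝ) ^ G.n = G.s := by
    unfold HzGr.s
    rw [one_div]
  rw [hs']
  calc C0 * ((G.n : ℝ) + 1) * G.s * (25 * (G.s ^ (-(2 * τ)) * (G.ka * cyWt η G.Q))) * (G.h2mu Set.univ).toReal
      ≤ C0 * ((G.n : ℝ) + 1) * G.s * (25 * (G.s ^ (-(2 * τ)) * (G.ka * cyWt η G.Q))) * G.e := mul_le_mul_of_nonneg_left hu (by positivity)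
    _ = 25 * C0 * ((G.n : ℝ) + 1) * G.s * (G.s ^ (-(2 * τ)) * (G.ka * cyWt η G.Q)) * G.e := by ring

/-- superadditivity of the lower integral over a finite sum (no measurability) -/
theorem hz_cross_int_sum {X ι : Type*} [MeasurableSpace X] (μ : Measure X) (I : Finset ι) (f : ι → X → ℝ≥0∞) :
    ∑ i ∈ I, ∫⁻ x, f i x ∂μ ≤ ∫⁻ x, ∑ i ∈ I, f i x ∂μ := by
  classical
  induction I using Finset.induction_on with
  | empty => simp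
  | insert i I hi ih =>
    simp only [Finset.sum_insert hi]
    exact (add_le_add le_rfl ih).trans (le_lintegral_add _ _)

/-- a sorted stack splits at a depth -/
theorem hz_cross_int_split (l : List HyStg) (hl : l.Pairwise fun σ σ' => σ.k ≤ σ'.k) (ks : ℕ) :
    ∃ l1 l2 : List HyStg, l = l1 ++ l2 ∧ (∀ σ ∈ l1, σ.k ≤ ks) ∧ ∀ σ ∈ l2, ks ≤ σ.k := by
  induction l with
  | nil => exact ⟨[], [], rfl, by simp, by simp⟩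
  | cons σ l ih =>
    rw [List.pairwise_cons] at hl
    by_cases h : σ.k ≤ ks
    · obtain ⟨l1, l2, e, h1, h2⟩ := ih hl.2
      refine ⟨σ :: l1, l2, by rw [e]; rfl, ?_, h2⟩
      intro τ hτ
      rcases List.mem_cons.1 hτ with rfl | hτ
      · exact h
      · exact h1 τ hτ
    · refine ⟨[], σ :: l, rfl, by simp, ?_⟩
      intro τ hτ
      rcases List.mem_cons.1 hτ with rfl | hτ
      · omega
      · have := hl.1 τ hτ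
        omega

/-- the fibre stack of a group -/
theorem hz_cross_int_stk {η : ℝ} {p : ChyPar} (G : HzGr η p) (C : ℕ) (τ : ℝ) (hG : G.Ok C τ) (ω : p.Om) :
    HzStk G.k0 G.kf (G.st.map (p.fst η ω)) := by
  refine ⟨?_, ?_, ?_⟩
  · intro σ hσ
    obtain ⟨σ0, h0, rfl⟩ := List.mem_map.1 hσ
    intro i
    exact ⟨(hG.msk σ0 h0 i).1.comp measurable_prodMk_left, fun ρ => (hG.msk σ0 h0 i).2 (ω, ρ)⟩
  · intro σ hσ
    obtain ⟨σ0, h0, rfl⟩ := List.mem_map.1 hσ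
    exact hG.dep σ0 h0
  · rw [List.pairwise_map]
    exact hG.mono

theorem hz_cross_int_capm {η : ℝ} {p : ChyPar} (G : HzGr η p) (h : p.Ok) (ks : ℕ) (a : ℤ) : MeasurableSet (G.cap ks a) := by
  unfold HzGr.cap
  exact (Int.measurable_floor.comp ((hy_tl_mVel p h G.Q G.T0).div_const _)) (measurableSet_singleton a)

/-- the rows of a cap, fibre by fibre -/
theorem hz_cross_int_cap {η : ℝ} {p : ChyPar} (G : HzGr η p) (C : ℕ) (τ : ℝ) (hG : G.Ok C τ) (ks : ℕ) (a : ℤ) :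
    ∀ᵐ ω ∂p.m, ∃ f : ℝ × ℝ → p.Fb, MemLp f 2 (p.fib ω).nu ∧ (∀ ρ, ‖f ρ‖ₑ ≤ ‖(G.F : p.Om × ℝ × ℝ → p.Fb) (ω, ρ)‖ₑ) ∧
      (∀ ρ, f ρ ≠ 0 → |ρ.2 - (p.vo G.Q G.T0 ω + ((a : ℝ) + 1 / 2) * p.dl ks)| ≤ p.dl ks) ∧
      ∀ i, ∀ᵐ ρ ∂(p.fib ω).nu, (G.uf (G.vc ks a) i : p.Om × ℝ × ℝ → p.Fb) (ω, ρ)
        = (p.fib ω).br G.kf i (G.st.map (p.fst η ω)) G.T0 G.k0 f ρ := by
  have h := hG.par
  have hd : 0 < p.dl ks := by
    have := h.H_pos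
    unfold ChyPar.dl
    positivity
  have hcm := hz_cross_int_capm G h ks a
  have hM : IsMask ((G.cap ks a).indicator fun _ => (1 : ℝ)) := by
    refine ⟨measurable_const.indicator hcm, fun x => ?_⟩
    by_cases hx : x ∈ G.cap ks a
    · rw [Set.indicator_of_mem hx]; norm_num
    · rw [Set.indicator_of_notMem hx]; norm_num
  have A1 := hy_adj_F_ae p h G.F
  have A2 := hy_lk_ae p h (hy_i3_mulR p η G.k0 hM G.F)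
  have A3 : ∀ᵐ ω ∂p.m, ∀ i, ∀ᵐ ρ ∂(p.fib ω).nu, (G.uf (G.vc ks a) i : p.Om × ℝ × ℝ → p.Fb) (ω, ρ)
      = (p.fib ω).br G.kf i (G.st.map (p.fst η ω)) G.T0 G.k0 (fun ρ => (G.Fc ks a : p.Om × ℝ × ℝ → p.Fb) (ω, ρ)) ρ := by
    rw [ae_all_iff]
    intro i
    exact hy_lk_ae p h (hy_run_rows p h η G.kf i G.st hG.msk G.T0 G.k0 (G.Fc ks a))
  filter_upwards [A1, A2, A3] with ω h1 h2 h3
  obtain ⟨m1, m2⟩ := hz_mask (p.fib ω) (fun ρ => (G.cap ks a).indicator (fun _ => (1 : ℝ)) (ω, ρ)) (hM.1.comp measurable_prodMk_left)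
    (fun ρ => hM.2 (ω, ρ)) _ h1
  refine ⟨_, m1, m2, ?_, fun i => ?_⟩
  · intro ρ hρ
    have hx : (ω, ρ) ∈ G.cap ks a := by
      by_contra hc
      apply hρ
      simp only [Set.indicator_of_notMem hc, Complex.ofReal_zero, zero_smul]
    have hfl : ⌊cyVel G.Q (p.co G.T0 (ω, ρ)) / p.dl ks⌋ = a := hx
    have h4 := hz_GEO_half hd hfl
    rw [hz_vo] at h4
    have e : ρ.2 - (p.vo G.Q G.T0 ω + ((a : ℝ) + 1 / 2) * p.dl ks) = ρ.2 - p.vo G.Q G.T0 ω - ((a : ℝ) + 1 / 2) * p.dl ks := by ring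
    rw [e]
    exact h4.trans (by linarith)
  · have e := hy_i3_br_congr (p.fib ω) G.kf i (G.st.map (p.fst η ω)) G.T0 G.k0 h2
    filter_upwards [h3 i] with ρ hρ
    rw [hρ]
    exact congrFun e ρ

/-- numerology of the two main terms -/
theorem hz_cross_int_num (φ : HyF) (hφ : φ.Ok) (ks z : ℕ) (N : ℝ) (hN : 1 ≤ N) :
    φ.q (ks + 2 * z) * 2 ^ (ks + 2 * z) / (N * φ.d ks) ≤ 2 ^ z ∧ φ.q (ks + 2 * z) / φ.q ks ≤ 1 := by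
  obtain ⟨hq, hd, -, -, -, -⟩ := hy_qd φ hφ ks
  obtain ⟨-, -, -, hql, -, -⟩ := hy_qd φ hφ (ks + 2 * z)
  obtain ⟨e1, e2⟩ := hy_q_add φ hφ ks z
  constructor
  · have e3 : φ.q (ks + 2 * z) * 2 ^ (ks + 2 * z) = 2 ^ z * φ.d ks := by
      rw [hql, e2, inv_pow]
      field_simp
    rw [e3, mul_div_mul_right _ _ hd.ne']
    exact div_le_self (by positivity) hN
  · rw [e1, mul_div_assoc, div_self hq.ne', mul_one]
    exact pow_le_one₀ (by norm_num) (by norm_num)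

/-- **(H3) THE CROSSING ESTIMATE INTEGRATED.**   For a.e. `ω`: `uf (vc a) i (ω,·) = br kf i (st_ω) T0 k0 (Fc a (ω,·))` a.e. (`hy_run_rows`, `hy_lk_ae`), `Fc a (ω,·) = 1_cap F(ω,·)` is supported in `|N - θ_a| ≤ d(ks)`, `θ_a = vo ω + (a + 1/2) d(ks)` (`hz_vo`);
`st_ω = l1 ++ l2` split at the depth `ks` (sorted);   `hz_cross_all` with `o i = po (G.Qi kf i) T_i ω`, bin length `q(kf)`;   `‖Fc a (ω,·)‖² ≤ e ω`;   `(e ω)⁻¹ e ω² ≤ e ω`.   ~500 l. -/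
theorem hz_cross_int (η : ℝ) (m : ℕ) : ∃ K : ℕ, ∀ (p : ChyPar) (G : HzGr η p) (C : ℕ) (τ : ℝ) (z : ℕ) (Λ : ℝ) (a a' : ℤ),
    G.Ok C τ → G.st.length ≤ m → 2 * z ≤ G.n → 2 ≤ Λ → 16 * ((m + 3) * Λ) ≤ |((a - a' : ℤ) : ℝ)| → 8 * 4 ^ (G.n - 2 * z) * Real.exp (-Λ ^ 2) ≤ 1 →
    ∑ i ∈ ivs G.k0 G.i0 G.kf, ∫⁻ ω, (∫⁻ ρ, ‖(G.F : p.Om × ℝ × ℝ → p.Fb) (ω, ρ)‖ₑ ^ 2 ∂(p.fib ω).nu)⁻¹ * ∑' b : ℤ,
        (∫⁻ ρ in hzBinI (p.po (G.Qi G.kf i) (tmL G.kf i) ω) (p.ql G.kf) b, ‖(G.uf (G.vc (G.kf - 2 * z) a) i : p.Om × ℝ × ℝ → p.Fb) (ω, ρ)‖ₑ ^ 2 ∂(p.fib ω).nu) *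
        (∫⁻ ρ in hzBinI (p.po (G.Qi G.kf i) (tmL G.kf i) ω) (p.ql G.kf) b, ‖(G.uf (G.vc (G.kf - 2 * z) a') i : p.Om × ℝ × ℝ → p.Fb) (ω, ρ)‖ₑ ^ 2 ∂(p.fib ω).nu) ∂p.m
      ≤ ENNReal.ofReal (Λ ^ K * (2 ^ z + 1 + 4 ^ G.n * Real.exp (-(Λ ^ 2 / 20))) * G.e) := by
  obtain ⟨K, hK⟩ := hz_cross_all m
  refine ⟨K, fun p G C τ z Λ a a' hG hm hz hΛ hsep hT => ?_⟩
  have h := hG.par
  obtain ⟨ks, hks⟩ : ∃ ks, ks = G.kf - 2 * z := ⟨_, rfl⟩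
  rw [← hks]
  have hkf : G.kf = ks + 2 * z := by rw [hks]; unfold HzGr.kf; omega
  have hk0 : G.k0 ≤ ks := by rw [hks]; unfold HzGr.kf; omega
  have hksf : ks ≤ G.kf := by omega
  have hkd : ks - G.k0 = G.n - 2 * z := by rw [hks]; unfold HzGr.kf; omega
  have hkn : G.kf - G.k0 = G.n := by unfold HzGr.kf; omega
  obtain ⟨c, hc⟩ : ∃ c : ℝ, c = Λ ^ K * (2 ^ z + 1 + 4 ^ G.n * Real.exp (-(Λ ^ 2 / 20))) := ⟨_, rfl⟩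
  have hΛ0 : 0 < Λ := by linarith
  have hc0 : 0 ≤ c := by rw [hc]; positivity
  rw [← hc]
  refine (hz_cross_int_sum _ _ _).trans ?_
  obtain ⟨N, hN⟩ : ∃ N : ℝ, N = |((a - a' : ℤ) : ℝ)| := ⟨_, rfl⟩
  rw [← hN] at hsep
  have hN1 : 1 ≤ N := by
    have : (0 : ℝ) ≤ m := Nat.cast_nonneg m
    nlinarith
  have key : ∀ᵐ ω ∂p.m, ∑ i ∈ ivs G.k0 G.i0 G.kf, (∫⁻ ρ, ‖(G.F : p.Om × ℝ × ℝ → p.Fb) (ω, ρ)‖ₑ ^ 2 ∂(p.fib ω).nu)⁻¹ * ∑' b : ℤ,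
        (∫⁻ ρ in hzBinI (p.po (G.Qi G.kf i) (tmL G.kf i) ω) (p.ql G.kf) b, ‖(G.uf (G.vc ks a) i : p.Om × ℝ × ℝ → p.Fb) (ω, ρ)‖ₑ ^ 2 ∂(p.fib ω).nu) *
        (∫⁻ ρ in hzBinI (p.po (G.Qi G.kf i) (tmL G.kf i) ω) (p.ql G.kf) b, ‖(G.uf (G.vc ks a') i : p.Om × ℝ × ℝ → p.Fb) (ω, ρ)‖ₑ ^ 2 ∂(p.fib ω).nu)
      ≤ ENNReal.ofReal c * ∫⁻ ρ, ‖(G.F : p.Om × ℝ × ℝ → p.Fb) (ω, ρ)‖ₑ ^ 2 ∂(p.fib ω).nu := by
    filter_upwards [hz_cross_int_cap G C τ hG ks a, hz_cross_int_cap G C τ hG ks a'] with ω ⟨f1, m1, n1, s1, r1⟩ ⟨f2, m2, n2, s2, r2⟩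
    obtain ⟨e, he⟩ : ∃ e : ℝ≥0∞, e = ∫⁻ ρ, ‖(G.F : p.Om × ℝ × ℝ → p.Fb) (ω, ρ)‖ₑ ^ 2 ∂(p.fib ω).nu := ⟨_, rfl⟩
    rw [← he, ← Finset.mul_sum]
    have hφ := hy_fib_ok p h ω
    obtain ⟨hq, hd, -, -, -, -⟩ := hy_qd (p.fib ω) hφ ks
    have hqf := (hy_qd (p.fib ω) hφ G.kf).1
    have hstk := hz_cross_int_stk G C τ hG ω
    obtain ⟨l1, l2, el, hl1, hl2⟩ := hz_cross_int_split (G.st.map (p.fst η ω)) hstk.mono ks
    rw [el] at hstk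
    have S1 : HzStk G.k0 ks l1 := ⟨fun σ hσ => hstk.ok σ (List.mem_append_left _ hσ),
      fun σ hσ => ⟨(hstk.dep σ (List.mem_append_left _ hσ)).1, hl1 σ hσ⟩, (List.pairwise_append.1 hstk.mono).1⟩
    have S2 : HzStk ks G.kf l2 := ⟨fun σ hσ => hstk.ok σ (List.mem_append_right _ hσ),
      fun σ hσ => ⟨hl2 σ hσ, (hstk.dep σ (List.mem_append_right _ hσ)).2⟩, (List.pairwise_append.1 hstk.mono).2.1⟩
    have hlen : l1.length + l2.length ≤ m := by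
      rw [← List.length_append, ← el, List.length_map]
      exact hm
    have hV : N * (p.fib ω).d ks = |(p.vo G.Q G.T0 ω + ((a : ℝ) + 1 / 2) * p.dl ks) - (p.vo G.Q G.T0 ω + ((a' : ℝ) + 1 / 2) * p.dl ks)| := by
      have e1 : (p.vo G.Q G.T0 ω + ((a : ℝ) + 1 / 2) * p.dl ks) - (p.vo G.Q G.T0 ω + ((a' : ℝ) + 1 / 2) * p.dl ks)
          = ((a - a' : ℤ) : ℝ) * (p.fib ω).d ks := by
        show _ = ((a - a' : ℤ) : ℝ) * p.dl ks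
        push_cast
        ring
      rw [e1, abs_mul, abs_of_pos hd, hN]
    have hsepV : 16 * (((m : ℝ) + 3) * Λ) * (p.fib ω).d ks ≤ N * (p.fib ω).d ks := mul_le_mul_of_nonneg_right hsep hd.le
    have hT' : 8 * 4 ^ (ks - G.k0) * Real.exp (-Λ ^ 2) ≤ 1 := by rw [hkd]; exact hT
    have main := hK p.Fb (p.fib ω) hφ G.k0 G.i0 ks G.kf hk0 hksf l1 l2 S1 S2 hlen _ _ _ Λ hV hΛ hsepV hT' f1 f2 m1 m2 s1 s2
      (p.ql G.kf) hqf le_rfl (fun i => p.po (G.Qi G.kf i) (tmL G.kf i) ω)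
    have E1 : ∫⁻ ρ, ‖f1 ρ‖ₑ ^ 2 ∂(p.fib ω).nu ≤ e := by
      rw [he]
      exact lintegral_mono fun ρ => pow_le_pow_left₀ bot_le (n1 ρ) 2
    have E2 : ∫⁻ ρ, ‖f2 ρ‖ₑ ^ 2 ∂(p.fib ω).nu ≤ e := by
      rw [he]
      exact lintegral_mono fun ρ => pow_le_pow_left₀ bot_le (n2 ρ) 2
    have hcc : Λ ^ K * (p.ql G.kf * 2 ^ G.kf / (N * (p.fib ω).d ks) + p.ql G.kf / (p.fib ω).q ks + 4 ^ (G.kf - G.k0) * Real.exp (-(Λ ^ 2 / 20))) ≤ c := by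
      obtain ⟨u1, u2⟩ := hz_cross_int_num (p.fib ω) hφ ks z N hN1
      rw [← hkf] at u1 u2
      rw [hc, hkn]
      refine mul_le_mul_of_nonneg_left ?_ (by positivity)
      exact add_le_add (add_le_add u1 u2) le_rfl
    have hL : ∑ i ∈ ivs G.k0 G.i0 G.kf, ∑' b : ℤ,
        (∫⁻ ρ in hzBinI (p.po (G.Qi G.kf i) (tmL G.kf i) ω) (p.ql G.kf) b, ‖(G.uf (G.vc ks a) i : p.Om × ℝ × ℝ → p.Fb) (ω, ρ)‖ₑ ^ 2 ∂(p.fib ω).nu) *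
        (∫⁻ ρ in hzBinI (p.po (G.Qi G.kf i) (tmL G.kf i) ω) (p.ql G.kf) b, ‖(G.uf (G.vc ks a') i : p.Om × ℝ × ℝ → p.Fb) (ω, ρ)‖ₑ ^ 2 ∂(p.fib ω).nu)
        ≤ ENNReal.ofReal c * (e * e) := by
      refine le_trans (le_of_eq ?_) (main.trans (mul_le_mul' (ENNReal.ofReal_le_ofReal hcc) (mul_le_mul' E1 E2)))
      refine Finset.sum_congr rfl fun i _ => ?_
      congr 1
      funext b
      congr 1
      · refine lintegral_congr_ae (ae_restrict_of_ae ((r1 i).mono fun ρ hρ => ?_))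
        simp only [hρ, el]
        rfl
      · refine lintegral_congr_ae (ae_restrict_of_ae ((r2 i).mono fun ρ hρ => ?_))
        simp only [hρ, el]
        rfl
    calc e⁻¹ * _ ≤ e⁻¹ * (ENNReal.ofReal c * (e * e)) := mul_le_mul' le_rfl hL
      _ = ENNReal.ofReal c * ((e⁻¹ * e) * e) := by ring
      _ ≤ ENNReal.ofReal c * (1 * e) := mul_le_mul' le_rfl (mul_le_mul' (ENNReal.inv_mul_le_one e) le_rfl)
      _ = ENNReal.ofReal c * e := by rw [one_mul]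
  refine (lintegral_mono_ae key).trans ?_
  rw [lintegral_const_mul' _ _ ENNReal.ofReal_ne_top,
    ← hy_lk_lint p h (fun x => ‖(G.F : p.Om × ℝ × ℝ → p.Fb) x‖ₑ ^ 2) ((Lp.stronglyMeasurable G.F).enorm.pow_const 2).aemeasurable,
    ← hy_fl_norm_sq, ← ENNReal.ofReal_mul hc0]
  exact ENNReal.ofReal_le_ofReal (mul_le_mul_of_nonneg_left hG.en hc0)

/-! ### helpers of `hz_high` (prefix `hz_hi_`) -/

/-- fibre integrals are measurable in the exact index -/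
theorem hz_hi_meas (p : ChyPar) (h : p.Ok) {f : p.Om × ℝ × ℝ → ℝ≥0∞} (hf : Measurable f) :
    Measurable fun ω => ∫⁻ ρ, f (ω, ρ) ∂(p.fib ω).nu := by
  have := h.sf
  have hm0 : Measurable fun ω => ∫⁻ ρ, f (ω, ρ) := hf.lintegral_prod_right'
  unfold HyF.nu
  simp only [lintegral_smul_measure, smul_eq_mul]
  exact ((h.mS.div_const (2 * Real.pi * p.H)).ennreal_ofReal).mul hm0

theorem hz_hi_bin_meas (o a : ℝ) (b : ℤ) : MeasurableSet (hzBinI o a b) := by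
  unfold hzBinI
  exact (measurableSet_le measurable_const measurable_fst).inter (measurableSet_lt measurable_fst measurable_const)

theorem hz_hi_bin_iff {o a : ℝ} (ha : 0 < a) (b : ℤ) (ρ : ℝ × ℝ) : ρ ∈ hzBinI o a b ↔ ⌊(ρ.1 - o) / a⌋ = b := by
  unfold hzBinI
  rw [Int.floor_eq_iff, le_div_iff₀ ha, div_lt_iff₀ ha]
  constructor
  · rintro ⟨h1, h2⟩
    constructor <;> linarith
  · rintro ⟨h1, h2⟩
    constructor <;> linarith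

theorem hz_hi_bin_disj {o a : ℝ} (ha : 0 < a) : Pairwise (Function.onFun Disjoint (hzBinI o a)) := by
  intro b b' hbb
  refine Set.disjoint_left.2 fun ρ h1 h2 => hbb ?_
  rw [hz_hi_bin_iff ha] at h1 h2
  exact h1.symm.trans h2

/-- the bins exhaust at most the fibre -/
theorem hz_hi_bin_sum {o a : ℝ} (ha : 0 < a) (ν : Measure (ℝ × ℝ)) (f : ℝ × ℝ → ℝ≥0∞) :
    ∑' b : ℤ, ∫⁻ ρ in hzBinI o a b, f ρ ∂ν ≤ ∫⁻ ρ, f ρ ∂ν := by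
  rw [← lintegral_iUnion (fun b => hz_hi_bin_meas o a b) (hz_hi_bin_disj ha)]
  exact setLIntegral_le_lintegral _ _

theorem hz_hi_po_meas (p : ChyPar) (h : p.Ok) (Q : CyT) (T : ℝ) : Measurable (p.po Q T) := by
  have := h.mX
  have := h.mB
  have := h.mY
  unfold ChyPar.po cyPos ChyPar.co
  fun_prop

theorem hz_hi_ql_pos (p : ChyPar) (h : p.Ok) (k : ℕ) : 0 < p.ql k := by
  have := h.H_pos
  unfold ChyPar.ql
  positivity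

theorem hz_hi_cap_mask {η : ℝ} {p : ChyPar} (G : HzGr η p) (h : p.Ok) (ks : ℕ) (a : ℤ) :
    IsMask ((G.cap ks a).indicator fun _ => (1 : ℝ)) := by
  refine ⟨measurable_const.indicator ?_, fun x => ?_⟩
  · unfold HzGr.cap
    have hm : Measurable fun x : p.Om × ℝ × ℝ => cyVel G.Q (p.co G.T0 x) / p.dl ks := by
      have := h.mX
      have := h.mB
      have := h.mY
      unfold cyVel ChyPar.co
      fun_prop
    exact (Int.measurable_floor.comp hm) (measurableSet_singleton a)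
  · by_cases hx : x ∈ G.cap ks a <;> simp [hx]

/-- fibrewise contraction: the final rows of a cap carry at most the energy of the root rows, in almost every fibre -/
theorem hz_hi_contr {η : ℝ} {p : ChyPar} (G : HzGr η p) {C : ℕ} {τ : ℝ} (hG : G.Ok C τ) (ks : ℕ) (a : ℤ) (i : ℕ) :
    ∀ᵐ ω ∂p.m, ∫⁻ ρ, ‖(G.uf (G.vc ks a) i : p.Om × ℝ × ℝ → p.Fb) (ω, ρ)‖ₑ ^ 2 ∂(p.fib ω).nu
      ≤ ∫⁻ ρ, ‖(G.F : p.Om × ℝ × ℝ → p.Fb) (ω, ρ)‖ₑ ^ 2 ∂(p.fib ω).nu := by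
  have h := hG.par
  have h1 := hy_run_rows p h η G.kf i G.st hG.msk G.T0 G.k0 (G.Fc ks a)
  have h2 := hy_lk_ae p h h1
  have h3 := hy_adj_F_ae p h (G.Fc ks a)
  have hM := hz_hi_cap_mask G h ks a
  have h4 := hy_lk_ae p h (hy_i3_mulR p η G.k0 hM G.F)
  filter_upwards [h2, h3, h4] with ω e2 e3 e4
  have hst : ∀ σ ∈ G.st.map (p.fst η ω), σ.Ok := by
    intro σ hσ
    obtain ⟨σ', hσ', rfl⟩ := List.mem_map.1 hσ
    intro j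
    exact ⟨(hG.msk σ' hσ' j).1.comp measurable_prodMk_left, fun ρ => (hG.msk σ' hσ' j).2 _⟩
  have h5 := (hz_br_contr (p.fib ω) (hy_fib_ok p h ω) G.kf i _ hst G.T0 G.k0 _ e3).2
  calc ∫⁻ ρ, ‖(G.uf (G.vc ks a) i : p.Om × ℝ × ℝ → p.Fb) (ω, ρ)‖ₑ ^ 2 ∂(p.fib ω).nu
      = ∫⁻ ρ, ‖(p.fib ω).br G.kf i (G.st.map (p.fst η ω)) G.T0 G.k0 (fun ρ => (G.Fc ks a : p.Om × ℝ × ℝ → p.Fb) (ω, ρ)) ρ‖ₑ ^ 2 ∂(p.fib ω).nu := by
        refine lintegral_congr_ae (e2.mono fun ρ hρ => ?_)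
        beta_reduce
        rw [← hρ]
        rfl
    _ ≤ ∫⁻ ρ, ‖(G.Fc ks a : p.Om × ℝ × ℝ → p.Fb) (ω, ρ)‖ₑ ^ 2 ∂(p.fib ω).nu := h5
    _ ≤ ∫⁻ ρ, ‖(G.F : p.Om × ℝ × ℝ → p.Fb) (ω, ρ)‖ₑ ^ 2 ∂(p.fib ω).nu := by
        refine lintegral_mono_ae (e4.mono fun ρ hρ => ?_)
        refine pow_le_pow_left₀ bot_le ?_ 2
        have e5 : (G.Fc ks a : p.Om × ℝ × ℝ → p.Fb) (ω, ρ)
            = ((((G.cap ks a).indicator fun _ => (1 : ℝ)) (ω, ρ) : ℝ) : ℂ) • (G.F : p.Om × ℝ × ℝ → p.Fb) (ω, ρ) := hρ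
        rw [e5, ← ofReal_norm, ← ofReal_norm]
        refine ENNReal.ofReal_le_ofReal ?_
        rw [norm_smul, Complex.norm_real, Real.norm_eq_abs, abs_of_nonneg (hM.2 _).1]
        exact mul_le_of_le_one_left (norm_nonneg _) (hM.2 _).2

/-- Tonelli on a set of rows of product form -/
theorem hz_hi_ton (p : ChyPar) (h : p.Ok) {f : p.Om × ℝ × ℝ → ℝ≥0∞} (hf : Measurable f) {Y : Set p.Om} (hY : MeasurableSet Y)
    {o : p.Om → ℝ} (ho : Measurable o) (a : ℝ) (b : ℤ) :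
    ∫⁻ x in {x : p.Om × ℝ × ℝ | x.1 ∈ Y ∧ x.2 ∈ hzBinI (o x.1) a b}, f x ∂p.rw
      = ∫⁻ ω in Y, ∫⁻ ρ in hzBinI (o ω) a b, f (ω, ρ) ∂(p.fib ω).nu ∂p.m := by
  have hS : MeasurableSet {x : p.Om × ℝ × ℝ | x.1 ∈ Y ∧ x.2 ∈ hzBinI (o x.1) a b} := by
    refine (measurable_fst hY).inter ?_
    have h1 : Measurable fun x : p.Om × ℝ × ℝ => o x.1 + (b : ℝ) * a := (ho.comp measurable_fst).add_const _
    have h2 : Measurable fun x : p.Om × ℝ × ℝ => x.2.1 := measurable_fst.comp measurable_snd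
    have h3 : Measurable fun x : p.Om × ℝ × ℝ => o x.1 + ((b : ℝ) + 1) * a := (ho.comp measurable_fst).add_const _
    exact (measurableSet_le h1 h2).inter (measurableSet_lt h2 h3)
  rw [← lintegral_indicator hS, hy_lk_lint p h _ (hf.indicator hS).aemeasurable, ← lintegral_indicator hY]
  refine lintegral_congr fun ω => ?_
  by_cases hω : ω ∈ Y
  · rw [Set.indicator_of_mem hω, ← lintegral_indicator (hz_hi_bin_meas _ _ _)]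
    refine lintegral_congr fun ρ => ?_
    by_cases hρ : ρ ∈ hzBinI (o ω) a b
    · rw [Set.indicator_of_mem hρ, Set.indicator_of_mem (show (ω, ρ) ∈ {x : p.Om × ℝ × ℝ | x.1 ∈ Y ∧ x.2 ∈ hzBinI (o x.1) a b} from ⟨hω, hρ⟩)]
    · rw [Set.indicator_of_notMem hρ, Set.indicator_of_notMem (fun hx : (ω, ρ) ∈ {x : p.Om × ℝ × ℝ | x.1 ∈ Y ∧ x.2 ∈ hzBinI (o x.1) a b} => hρ hx.2)]
  · rw [Set.indicator_of_notMem hω]
    have : ∀ ρ, ({x : p.Om × ℝ × ℝ | x.1 ∈ Y ∧ x.2 ∈ hzBinI (o x.1) a b}.indicator f) (ω, ρ) = 0 := fun ρ =>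
      Set.indicator_of_notMem (fun hx : (ω, ρ) ∈ {x : p.Om × ℝ × ℝ | x.1 ∈ Y ∧ x.2 ∈ hzBinI (o x.1) a b} => hω hx.1) _
    simp only [this, lintegral_zero]

/-- Tonelli on a set of rows defined by the exact index -/
theorem hz_hi_ton0 (p : ChyPar) (h : p.Ok) {f : p.Om × ℝ × ℝ → ℝ≥0∞} (hf : Measurable f) {Y : Set p.Om} (hY : MeasurableSet Y) :
    ∫⁻ x in {x : p.Om × ℝ × ℝ | x.1 ∈ Y}, f x ∂p.rw = ∫⁻ ω in Y, ∫⁻ ρ, f (ω, ρ) ∂(p.fib ω).nu ∂p.m := by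
  have hS : MeasurableSet {x : p.Om × ℝ × ℝ | x.1 ∈ Y} := measurable_fst hY
  rw [← lintegral_indicator hS, hy_lk_lint p h _ (hf.indicator hS).aemeasurable, ← lintegral_indicator hY]
  refine lintegral_congr fun ω => ?_
  by_cases hω : ω ∈ Y
  · rw [Set.indicator_of_mem hω]
    refine lintegral_congr fun ρ => ?_
    rw [Set.indicator_of_mem (show (ω, ρ) ∈ {x : p.Om × ℝ × ℝ | x.1 ∈ Y} from hω)]
  · rw [Set.indicator_of_notMem hω]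
    have : ∀ ρ, ({x : p.Om × ℝ × ℝ | x.1 ∈ Y}.indicator f) (ω, ρ) = 0 := fun ρ =>
      Set.indicator_of_notMem (fun hx : (ω, ρ) ∈ {x : p.Om × ℝ × ℝ | x.1 ∈ Y} => hω hx) _
    simp only [this, lintegral_zero]

/-- Cauchy-Schwarz -/
theorem hz_hi_cs {α : Type*} [MeasurableSpace α] (ν : Measure α) {f g : α → ℝ≥0∞} (hf : AEMeasurable f ν) (hg : AEMeasurable g ν) :
    ∫⁻ ρ, f ρ * g ρ ∂ν ≤ ((∫⁻ ρ, f ρ ^ 2 ∂ν) * ∫⁻ ρ, g ρ ^ 2 ∂ν) ^ (1 / 2 : ℝ) := by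
  have h1 := ENNReal.lintegral_mul_le_Lp_mul_Lq ν Real.HolderConjugate.two_two hf hg
  simp only [ENNReal.rpow_two, Pi.mul_apply] at h1
  rw [ENNReal.mul_rpow_of_nonneg _ _ (by norm_num)]
  exact h1

theorem hz_hi_meas_bin (p : ChyPar) (h : p.Ok) {f : p.Om × ℝ × ℝ → ℝ≥0∞} (hf : Measurable f) {o : p.Om → ℝ} (ho : Measurable o)
    (a : ℝ) (b : ℤ) : Measurable fun ω => ∫⁻ ρ in hzBinI (o ω) a b, f (ω, ρ) ∂(p.fib ω).nu := by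
  have hS : MeasurableSet {x : p.Om × ℝ × ℝ | x.2 ∈ hzBinI (o x.1) a b} := by
    have h1 : Measurable fun x : p.Om × ℝ × ℝ => o x.1 + (b : ℝ) * a := (ho.comp measurable_fst).add_const _
    have h2 : Measurable fun x : p.Om × ℝ × ℝ => x.2.1 := measurable_fst.comp measurable_snd
    have h3 : Measurable fun x : p.Om × ℝ × ℝ => o x.1 + ((b : ℝ) + 1) * a := (ho.comp measurable_fst).add_const _
    exact (measurableSet_le h1 h2).inter (measurableSet_lt h2 h3)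
  have e : (fun ω => ∫⁻ ρ in hzBinI (o ω) a b, f (ω, ρ) ∂(p.fib ω).nu)
      = fun ω => ∫⁻ ρ, ({x : p.Om × ℝ × ℝ | x.2 ∈ hzBinI (o x.1) a b}.indicator f) (ω, ρ) ∂(p.fib ω).nu := by
    funext ω
    rw [← lintegral_indicator (hz_hi_bin_meas _ _ _)]
    refine lintegral_congr fun ρ => ?_
    by_cases hρ : ρ ∈ hzBinI (o ω) a b
    · rw [Set.indicator_of_mem hρ, Set.indicator_of_mem (show (ω, ρ) ∈ {x : p.Om × ℝ × ℝ | x.2 ∈ hzBinI (o x.1) a b} from hρ)]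
    · rw [Set.indicator_of_notMem hρ, Set.indicator_of_notMem (fun hx : (ω, ρ) ∈ {x : p.Om × ℝ × ℝ | x.2 ∈ hzBinI (o x.1) a b} => hρ hx)]
  rw [e]
  exact hz_hi_meas p h (hf.indicator hS)

theorem hz_hi_Y_meas {η : ℝ} {p : ChyPar} (G : HzGr η p) (h : p.Ok) (i : ℕ) (d : ℤ × ℤ) :
    MeasurableSet {ω : p.Om | (ω, (0 : ℝ), (0 : ℝ)) ∈ G.sq i d} := by
  have hm : Measurable fun ω : p.Om => cyBase (G.Qi G.kf i) G.lf (p.co (tmL G.kf i) (ω, 0, 0)) := by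
    have := h.mX
    have := h.mB
    have := h.mY
    unfold cyBase cyTilt ChyPar.co
    fun_prop
  have hm2 : Measurable fun ω : p.Om => ((⌊(cyBase (G.Qi G.kf i) G.lf (p.co (tmL G.kf i) (ω, 0, 0))).2.1⌋,
      ⌊(cyBase (G.Qi G.kf i) G.lf (p.co (tmL G.kf i) (ω, 0, 0))).2.2⌋) : ℤ × ℤ) :=
    (Int.measurable_floor.comp (measurable_fst.comp (measurable_snd.comp hm))).prodMk
      (Int.measurable_floor.comp (measurable_snd.comp (measurable_snd.comp hm)))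
  exact hm2 (measurableSet_singleton d)

theorem hz_hi_cl_eq {η : ℝ} {p : ChyPar} (G : HzGr η p) (h : p.Ok) (i : ℕ) (c : ℤ × ℤ × ℤ) :
    G.cl i c = {x : p.Om × ℝ × ℝ | x.1 ∈ {ω : p.Om | (ω, (0 : ℝ), (0 : ℝ)) ∈ G.sq i (c.1, c.2.1)} ∧
      x.2 ∈ hzBinI (p.po (G.Qi G.kf i) (tmL G.kf i) x.1) (p.ql G.kf) c.2.2} := by
  ext x
  rw [Set.mem_ofPred_eq, hz_hi_bin_iff (hz_hi_ql_pos p h _), ← hz_po]
  show hzCell (G.Qi G.kf i) G.lf (p.ql G.kf) (p.co (tmL G.kf i) x) = c ↔ _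
  unfold hzCell
  constructor
  · intro hx
    rw [← hx]
    exact ⟨rfl, rfl⟩
  · rintro ⟨h1, h2⟩
    have h3 := Prod.ext_iff.1 h1
    exact Prod.ext h3.1 (Prod.ext h3.2 h2)

/-- one cell: Tonelli and the fibre Cauchy-Schwarz inequality -/
theorem hz_hi_cell {η : ℝ} {p : ChyPar} (G : HzGr η p) (h : p.Ok) (u u' : Lp p.Fb 2 p.rw) (i : ℕ) (c : ℤ × ℤ × ℤ) :
    ENNReal.ofReal (∫ x in G.cl i c, ‖(u : p.Om × ℝ × ℝ → p.Fb) x‖ * ‖(u' : p.Om × ℝ × ℝ → p.Fb) x‖ ∂p.rw)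
      ≤ ∫⁻ ω in {ω : p.Om | (ω, (0 : ℝ), (0 : ℝ)) ∈ G.sq i (c.1, c.2.1)},
          ((∫⁻ ρ in hzBinI (p.po (G.Qi G.kf i) (tmL G.kf i) ω) (p.ql G.kf) c.2.2, ‖(u : p.Om × ℝ × ℝ → p.Fb) (ω, ρ)‖ₑ ^ 2 ∂(p.fib ω).nu) *
           (∫⁻ ρ in hzBinI (p.po (G.Qi G.kf i) (tmL G.kf i) ω) (p.ql G.kf) c.2.2, ‖(u' : p.Om × ℝ × ℝ → p.Fb) (ω, ρ)‖ₑ ^ 2 ∂(p.fib ω).nu)) ^ (1 / 2 : ℝ) ∂p.m := by
  have mu : Measurable fun x : p.Om × ℝ × ℝ => ‖(u : p.Om × ℝ × ℝ → p.Fb) x‖ₑ := (Lp.stronglyMeasurable u).enorm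
  have mu' : Measurable fun x : p.Om × ℝ × ℝ => ‖(u' : p.Om × ℝ × ℝ → p.Fb) x‖ₑ := (Lp.stronglyMeasurable u').enorm
  have h1 : ENNReal.ofReal (∫ x in G.cl i c, ‖(u : p.Om × ℝ × ℝ → p.Fb) x‖ * ‖(u' : p.Om × ℝ × ℝ → p.Fb) x‖ ∂p.rw)
      ≤ ∫⁻ x in G.cl i c, ‖(u : p.Om × ℝ × ℝ → p.Fb) x‖ₑ * ‖(u' : p.Om × ℝ × ℝ → p.Fb) x‖ₑ ∂p.rw := by
    rw [integral_eq_lintegral_of_nonneg_ae (Filter.Eventually.of_forall fun x => mul_nonneg (norm_nonneg _) (norm_nonneg _))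
      ((Lp.stronglyMeasurable u).norm.mul (Lp.stronglyMeasurable u').norm).aestronglyMeasurable]
    refine ENNReal.ofReal_toReal_le.trans (le_of_eq ?_)
    refine lintegral_congr fun x => ?_
    rw [ENNReal.ofReal_mul (norm_nonneg _), ofReal_norm, ofReal_norm]
  refine h1.trans ?_
  have mm : Measurable fun x : p.Om × ℝ × ℝ => ‖(u : p.Om × ℝ × ℝ → p.Fb) x‖ₑ * ‖(u' : p.Om × ℝ × ℝ → p.Fb) x‖ₑ := mu.mul mu'
  rw [hz_hi_cl_eq G h i c, hz_hi_ton p h mm (hz_hi_Y_meas G h i _) (hz_hi_po_meas p h _ _)]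
  refine lintegral_mono fun ω => ?_
  exact hz_hi_cs _ (mu.comp measurable_prodMk_left).aemeasurable (mu'.comp measurable_prodMk_left).aemeasurable

/-- (H1) applied to the rows -/
theorem hz_hi_core {η : ℝ} {p : ChyPar} (G : HzGr η p) (h : p.Ok) (u u' : ℕ → Lp p.Fb 2 p.rw)
    (hu : ∀ i, ∀ᵐ ω ∂p.m, ∫⁻ ρ, ‖(u i : p.Om × ℝ × ℝ → p.Fb) (ω, ρ)‖ₑ ^ 2 ∂(p.fib ω).nu
      ≤ ∫⁻ ρ, ‖(G.F : p.Om × ℝ × ℝ → p.Fb) (ω, ρ)‖ₑ ^ 2 ∂(p.fib ω).nu)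
    (hu' : ∀ i, ∀ᵐ ω ∂p.m, ∫⁻ ρ, ‖(u' i : p.Om × ℝ × ℝ → p.Fb) (ω, ρ)‖ₑ ^ 2 ∂(p.fib ω).nu
      ≤ ∫⁻ ρ, ‖(G.F : p.Om × ℝ × ℝ → p.Fb) (ω, ρ)‖ₑ ^ 2 ∂(p.fib ω).nu)
    (I : Finset ℕ) (D : ℕ → Finset (ℤ × ℤ × ℤ)) :
    ∑ i ∈ I, ∑ c ∈ D i, ENNReal.ofReal (∫ x in G.cl i c, ‖(u i : p.Om × ℝ × ℝ → p.Fb) x‖ * ‖(u' i : p.Om × ℝ × ℝ → p.Fb) x‖ ∂p.rw) ^ (3 / 2 : ℝ)
      ≤ (∑ i ∈ I, ∑ d ∈ (D i).image (fun c => (c.1, c.2.1)), (∫⁻ x in G.sq i d, ‖(G.F : p.Om × ℝ × ℝ → p.Fb) x‖ₑ ^ 2 ∂p.rw) ^ 2) ^ (1 / 2 : ℝ) *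
        (∑ i ∈ I, ∫⁻ ω, (∫⁻ ρ, ‖(G.F : p.Om × ℝ × ℝ → p.Fb) (ω, ρ)‖ₑ ^ 2 ∂(p.fib ω).nu)⁻¹ * ∑' b : ℤ,
          (∫⁻ ρ in hzBinI (p.po (G.Qi G.kf i) (tmL G.kf i) ω) (p.ql G.kf) b, ‖(u i : p.Om × ℝ × ℝ → p.Fb) (ω, ρ)‖ₑ ^ 2 ∂(p.fib ω).nu) *
          (∫⁻ ρ in hzBinI (p.po (G.Qi G.kf i) (tmL G.kf i) ω) (p.ql G.kf) b, ‖(u' i : p.Om × ℝ × ℝ → p.Fb) (ω, ρ)‖ₑ ^ 2 ∂(p.fib ω).nu) ∂p.m) ^ (1 / 2 : ℝ) := by
  have mF : Measurable fun x : p.Om × ℝ × ℝ => ‖(G.F : p.Om × ℝ × ℝ → p.Fb) x‖ₑ ^ 2 := (Lp.stronglyMeasurable G.F).enorm.pow_const 2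
  have mu : ∀ i, Measurable fun x : p.Om × ℝ × ℝ => ‖(u i : p.Om × ℝ × ℝ → p.Fb) x‖ₑ ^ 2 := fun i => (Lp.stronglyMeasurable (u i)).enorm.pow_const 2
  have mu' : ∀ i, Measurable fun x : p.Om × ℝ × ℝ => ‖(u' i : p.Om × ℝ × ℝ → p.Fb) x‖ₑ ^ 2 := fun i => (Lp.stronglyMeasurable (u' i)).enorm.pow_const 2
  have me := hz_hi_meas p h mF
  have habs := hz_high_abs p.m I D (fun i d => {ω : p.Om | (ω, (0 : ℝ), (0 : ℝ)) ∈ G.sq i d}) (fun i d => hz_hi_Y_meas G h i d)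
    (fun i d d' hdd => Set.disjoint_left.2 fun ω (h1 : _ = d) (h2 : _ = d') => hdd (h1.symm.trans h2))
    (fun ω => ∫⁻ ρ, ‖(G.F : p.Om × ℝ × ℝ → p.Fb) (ω, ρ)‖ₑ ^ 2 ∂(p.fib ω).nu) me.aemeasurable (ae_lt_top me (hy_adj_F_lint p h G.F))
    (fun i b ω => ∫⁻ ρ in hzBinI (p.po (G.Qi G.kf i) (tmL G.kf i) ω) (p.ql G.kf) b, ‖(u i : p.Om × ℝ × ℝ → p.Fb) (ω, ρ)‖ₑ ^ 2 ∂(p.fib ω).nu)
    (fun i b ω => ∫⁻ ρ in hzBinI (p.po (G.Qi G.kf i) (tmL G.kf i) ω) (p.ql G.kf) b, ‖(u' i : p.Om × ℝ × ℝ → p.Fb) (ω, ρ)‖ₑ ^ 2 ∂(p.fib ω).nu)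
    (fun i b => (hz_hi_meas_bin p h (mu i) (hz_hi_po_meas p h _ _) _ b).aemeasurable)
    (fun i b => (hz_hi_meas_bin p h (mu' i) (hz_hi_po_meas p h _ _) _ b).aemeasurable)
    (fun i => (hu i).mono fun ω hω => (hz_hi_bin_sum (hz_hi_ql_pos p h _) _ _).trans hω)
    (fun i => (hu' i).mono fun ω hω => (hz_hi_bin_sum (hz_hi_ql_pos p h _) _ _).trans hω)
  refine le_trans (Finset.sum_le_sum fun i _ => Finset.sum_le_sum fun c _ =>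
    ENNReal.rpow_le_rpow (hz_hi_cell G h (u i) (u' i) i c) (by norm_num)) (habs.trans (le_of_eq ?_))
  congr 2
  refine Finset.sum_congr rfl fun i _ => Finset.sum_congr rfl fun d _ => ?_
  congr 1
  exact (hz_hi_ton0 p h mF (hz_hi_Y_meas G h i d)).symm

theorem hz_hi_num {c N s P κ e L W : ℝ} (hc : 0 ≤ c) (hN : 1 ≤ N) (hs : 0 ≤ s) (hP : 0 ≤ P) (hκ : 0 ≤ κ) (he : 0 ≤ e) (hL : 1 ≤ L)
    (hW : 1 ≤ W) :
    Real.sqrt (c * N * s * (P ^ 2 * κ) * e) * Real.sqrt (L * (W + 1) * e)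
      ≤ Real.sqrt (2 * c) * N * P * L * Real.sqrt W * (Real.sqrt s * (e * Real.sqrt κ)) := by
  have hN0 : 0 ≤ N := by linarith
  have hL0 : 0 ≤ L := by linarith
  have hW0 : 0 ≤ W := by linarith
  rw [← Real.sqrt_mul (by positivity)]
  refine Real.sqrt_le_iff.2 ⟨by positivity, ?_⟩
  have e1 : (Real.sqrt (2 * c) * N * P * L * Real.sqrt W * (Real.sqrt s * (e * Real.sqrt κ))) ^ 2
      = Real.sqrt (2 * c) ^ 2 * N ^ 2 * P ^ 2 * L ^ 2 * Real.sqrt W ^ 2 * (Real.sqrt s ^ 2 * (e ^ 2 * Real.sqrt κ ^ 2)) := by ring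
  rw [e1, Real.sq_sqrt (by positivity), Real.sq_sqrt hW0, Real.sq_sqrt hs, Real.sq_sqrt hκ]
  have hNN : N ≤ N ^ 2 := by nlinarith
  have hLL : L ≤ L ^ 2 := by nlinarith
  have key : N * L * (W + 1) ≤ N ^ 2 * L ^ 2 * (2 * W) :=
    mul_le_mul (mul_le_mul hNN hLL hL0 (by positivity)) (by linarith) (by linarith) (by positivity)
  calc c * N * s * (P ^ 2 * κ) * e * (L * (W + 1) * e) = (c * s * P ^ 2 * κ * e ^ 2) * (N * L * (W + 1)) := by ring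
    _ ≤ (c * s * P ^ 2 * κ * e ^ 2) * (N ^ 2 * L ^ 2 * (2 * W)) := mul_le_mul_of_nonneg_left key (by positivity)
    _ = 2 * c * N ^ 2 * P ^ 2 * L ^ 2 * W * (s * (e ^ 2 * κ)) := by ring

/-- **(H4) = (HI)**.   `∫_{cl i c} ‖u‖‖u'‖ d rw = ∫_{ω ∈ Y i d} ∫_{bin b} ‖u‖‖u'‖ dν dm ≤ ∫_{Y i d} (g g')^(1/2)` (`hy_lk_lint`, Cauchy-Schwarz in the fibre; `G.cl i c = G.sq i d ∩ {⌊(D - po)/q⌋ = b}`, `hz_po`);
(H1) with `μ = p.m`, `Y i d = {ω | (ω,0,0) ∈ G.sq i d}`;  (H2), (H3);  conversion `ENNReal ↔ ℝ`.   ~450 l. -/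
theorem hz_high (η : ℝ) (h0 : 0 < η) (h1 : η < 1) (hK : HzKinC) : HzHighC η := by
  obtain ⟨CK₂, hCK₂, H2⟩ := hz_kin_root hK η h0 h1
  intro m
  obtain ⟨K, H3⟩ := hz_cross_int η m
  refine ⟨K, Real.sqrt (2 * CK₂), ?_⟩
  intro p G C τ z Λ a a' D hG hτ hm hz hΛ haa hexp
  have h := hG.par
  have hcore := hz_hi_core G h (fun i => G.uf (G.vc (G.kf - 2 * z) a) i) (fun i => G.uf (G.vc (G.kf - 2 * z) a') i)
    (fun i => hz_hi_contr G hG _ a i) (fun i => hz_hi_contr G hG _ a' i) (ivs G.k0 G.i0 G.kf) D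
  have h2 := H2 p G C τ hG hτ (fun i => (D i).image fun c => (c.1, c.2.1))
  have h3 := H3 p G C τ z Λ a a' hG hm hz hΛ haa hexp
  have hs0 : 0 < G.s := by
    unfold HzGr.s
    positivity
  have hw0 : 0 < cyWt η G.Q := by
    unfold cyWt
    exact mul_pos (Real.rpow_pos_of_pos hG.r_pos _) (Real.rpow_pos_of_pos hG.f_pos _)
  have he0 := hG.e_pos
  have hk0 := hG.ka_pos
  have hΛ0 : 0 < Λ := by linarith
  have hX2 : 0 ≤ CK₂ * (G.n + 1) * G.s * (G.s ^ (-(2 * τ)) * (G.ka * cyWt η G.Q)) * G.e := by positivity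
  have hX3 : 0 ≤ Λ ^ K * (2 ^ z + 1 + 4 ^ G.n * Real.exp (-(Λ ^ 2 / 20))) * G.e := by positivity
  have hHH : ENNReal.ofReal (G.HH (G.kf - 2 * z) a a' D) = ∑ i ∈ ivs G.k0 G.i0 G.kf, ∑ c ∈ D i,
      ENNReal.ofReal (∫ x in G.cl i c, ‖(G.uf (G.vc (G.kf - 2 * z) a) i : p.Om × ℝ × ℝ → p.Fb) x‖ *
        ‖(G.uf (G.vc (G.kf - 2 * z) a') i : p.Om × ℝ × ℝ → p.Fb) x‖ ∂p.rw) ^ (3 / 2 : ℝ) := by
    have hint : ∀ i c, 0 ≤ ∫ x in G.cl i c, ‖(G.uf (G.vc (G.kf - 2 * z) a) i : p.Om × ℝ × ℝ → p.Fb) x‖ *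
        ‖(G.uf (G.vc (G.kf - 2 * z) a') i : p.Om × ℝ × ℝ → p.Fb) x‖ ∂p.rw :=
      fun i c => integral_nonneg fun x => mul_nonneg (norm_nonneg _) (norm_nonneg _)
    unfold HzGr.HH
    rw [ENNReal.ofReal_sum_of_nonneg fun i _ => Finset.sum_nonneg fun c _ => Real.rpow_nonneg (hint i c) _]
    refine Finset.sum_congr rfl fun i _ => ?_
    rw [ENNReal.ofReal_sum_of_nonneg fun c _ => Real.rpow_nonneg (hint i c) _]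
    refine Finset.sum_congr rfl fun c _ => ?_
    rw [ENNReal.ofReal_rpow_of_nonneg (hint i c) (by norm_num)]
  have hfin : ENNReal.ofReal (G.HH (G.kf - 2 * z) a a' D)
      ≤ ENNReal.ofReal (Real.sqrt (CK₂ * (G.n + 1) * G.s * (G.s ^ (-(2 * τ)) * (G.ka * cyWt η G.Q)) * G.e) *
          Real.sqrt (Λ ^ K * (2 ^ z + 1 + 4 ^ G.n * Real.exp (-(Λ ^ 2 / 20))) * G.e)) := by
    rw [hHH, ENNReal.ofReal_mul (Real.sqrt_nonneg _), Real.sqrt_eq_rpow, Real.sqrt_eq_rpow,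
      ← ENNReal.ofReal_rpow_of_nonneg hX2 (by norm_num), ← ENNReal.ofReal_rpow_of_nonneg hX3 (by norm_num)]
    exact hcore.trans (mul_le_mul' (ENNReal.rpow_le_rpow h2 (by norm_num)) (ENNReal.rpow_le_rpow h3 (by norm_num)))
  rw [ENNReal.ofReal_le_ofReal_iff (by positivity)] at hfin
  refine hfin.trans ?_
  have eP : G.s ^ (-(2 * τ)) = (G.s ^ (-τ)) ^ 2 := by
    rw [← Real.rpow_natCast, ← Real.rpow_mul hs0.le]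
    congr 1
    push_cast
    ring
  have eW : (2 : ℝ) ^ z + 1 + 4 ^ G.n * Real.exp (-(Λ ^ 2 / 20)) = (2 ^ z + 4 ^ G.n * Real.exp (-(Λ ^ 2 / 20))) + 1 := by ring
  rw [eP, eW]
  unfold HzGr.unit
  refine hz_hi_num hCK₂.le ?_ hs0.le (Real.rpow_nonneg hs0.le _) (by positivity) he0.le (one_le_pow₀ (by linarith)) ?_
  · have : (0 : ℝ) ≤ G.n := Nat.cast_nonneg _
    linarith
  · have h5 : (1 : ℝ) ≤ 2 ^ z := one_le_pow₀ (by norm_num)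
    have h6 : 0 ≤ (4 : ℝ) ^ G.n * Real.exp (-(Λ ^ 2 / 20)) := by positivity
    linarith

end Claimed.Agent.R256
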