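import Claimed.Agent.R256.Hz.Grp

/-!
# Row 256, unit HZ, post BP-256-HZ-CL : `E'` IS IN THE CLASS          (architect + prover helper34; prefix `hz_cl_`)          0 sorry

EXIT `hz_cl_main` = `hz_low_cls` (`Hz/Low.lean`), `C' = 2C + 8`, `Cr = 16`.
 1. `hz_cl_adj_W`     the energy of `An† Y` over a set of exact indices is at most that of the rows `Y`      (as `hy_tl_tz`)
 2. `hz_cl_supp`, `hz_cl_dens`, `hz_cl_tail`      base support, base density, normal tails (`hy_loc_ker` at `T' = T`, `k' = k`) of a synthesised state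
 3. `G.xr n' st' κ'`  the label-free experiment of a group;   `hz_cl_valid`, `hz_cl_cls`: it is in the class `(2C+8, A')` for EVERY hybrid system `p` and every group with `G.Ok C τ`, `3n ≤ 4n'`
 4. `hz_cl_vec_le`    `‖vec x‖ ≤ ‖F x‖` a.e.;   `G.mlG ks Kc` the group of the vector of the cap rows over `p.mlt K`, `hz_cl_mlG_ok`;   `G.xq .. = (G.mlG ..).xr ..` by `rfl`.
-/

set_option autoImplicit false

namespace Claimed.Agent.R256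

open MeasureTheory
open scoped ENNReal InnerProductSpace

/-- the abstract step: `u` = the part of `w = An^* Y` over `S`-rows -/
theorem hz_cl_adj_abs {P : PkSys} (hT : P.Tight) {S : Set P.X} (hS : MeasurableSet S) (T₁ : ℝ) (k₁ b₁ : ℕ) (Y : Lp P.Fb 2 (P.rho k₁)) (u : P.Kc)
    (h1 : ⟪ContinuousLinearMap.adjoint (P.An T₁ k₁ b₁) Y, u⟫_ℂ = ⟪u, u⟫_ℂ) (h2 : P.ms T₁ k₁ b₁ Sᶜ u = 0) :
    ‖u‖ ^ 2 ≤ ∫ x in S, ‖(Y : P.X → P.Fb) x‖ ^ 2 ∂(P.rho k₁) := by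
  have s4 : P.mulR k₁ (Sᶜ.indicator fun _ => 1) (P.An T₁ k₁ b₁ u) = 0 := by
    have e := hy_tl_ms_norm T₁ k₁ b₁ hS.compl u
    rw [h2] at e
    exact norm_eq_zero.1 ((pow_eq_zero_iff (two_ne_zero)).1 e.symm)
  have s5 : P.mulR k₁ (S.indicator fun _ => 1) (P.An T₁ k₁ b₁ u) = P.An T₁ k₁ b₁ u := by
    have e := hy_tl_split k₁ hS (P.An T₁ k₁ b₁ u)
    rwa [s4, add_zero] at e
  have hI : IsMask (S.indicator fun _ => (1 : ℝ)) := gn_mask_ind hS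
  have s6 : ‖u‖ ≤ ‖P.mulR k₁ (S.indicator fun _ => 1) Y‖ := by
    refine hy_tl_abs (P.An T₁ k₁ b₁) (hT.contr T₁ k₁ b₁) Y _ u h1 ?_
    rw [hy_tl_mulR_inner k₁ hI, s5]
  rw [← gn_mulR_ind_normsq k₁ hS Y]
  exact pow_le_pow_left₀ (norm_nonneg _) s6 2

/-- the energy over a set of exact indices of a synthesised state is at most that of the rows -/
theorem hz_cl_adj_W (p : ChyPar) (h : p.Ok) (η : ℝ) (hT : (p.sys η).Tight) {W : Set p.Om} (hW : MeasurableSet W) (T : ℝ) (k b : ℕ) (T₁ : ℝ) (k₁ b₁ : ℕ)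
    (Y : Lp (p.sys η).Fb 2 ((p.sys η).rho k₁)) :
    (p.sys η).ms T k b (hyW p W) (ContinuousLinearMap.adjoint ((p.sys η).An T₁ k₁ b₁) Y)
      ≤ ∫ x in hyW p W, ‖(Y : (p.sys η).X → (p.sys η).Fb) x‖ ^ 2 ∂((p.sys η).rho k₁) := by
  have hWs : MeasurableSet {y : p.Om × ℝ | y.1 ∈ W} := measurable_fst hW
  have hS : MeasurableSet (hyW p W) := hy_tl_mW p hW
  set w : (p.sys η).Kc := ContinuousLinearMap.adjoint ((p.sys η).An T₁ k₁ b₁) Y with hw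
  let u : (p.sys η).Kc := hyRes hWs (w : Lp p.Fb 2 (p.m.prod (volume : Measure ℝ)))
  have s1 : ENNReal.ofReal (‖u‖ ^ 2) = hySt p W w := by
    have e1 := hy_tl_enorm_sq (hyRes hWs (w : Lp p.Fb 2 (p.m.prod (volume : Measure ℝ))))
    have e2 := hy_tl_res_lint hWs (w : Lp p.Fb 2 (p.m.prod (volume : Measure ℝ))) Set.univ
    rw [Measure.restrict_univ, Set.univ_inter] at e2
    exact e1.trans e2
  have s2 : hySt p Wᶜ u = 0 := by
    have e2 := hy_tl_res_lint hWs (w : Lp p.Fb 2 (p.m.prod (volume : Measure ℝ))) {y : p.Om × ℝ | y.1 ∈ Wᶜ}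
    have e3 : {y : p.Om × ℝ | y.1 ∈ Wᶜ} ∩ {y : p.Om × ℝ | y.1 ∈ W} = ∅ := by
      ext y
      simp
    rw [e3, Measure.restrict_empty, lintegral_zero_measure] at e2
    exact e2
  have s3 : (p.sys η).ms T₁ k₁ b₁ (hyW p Wᶜ) u = 0 := by
    have e := hy_tl_ms_st p h η T₁ k₁ b₁ hW.compl u
    rw [s2, ENNReal.ofReal_eq_zero] at e
    exact le_antisymm e (gn_ms_nonneg _ _ _ _ _)
  have s8 : (p.sys η).ms T k b (hyW p W) w = ‖u‖ ^ 2 := by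
    have e := hy_tl_ms_st p h η T k b hW w
    rw [← s1] at e
    exact (ENNReal.ofReal_eq_ofReal_iff (gn_ms_nonneg _ _ _ _ _) (by positivity)).1 e
  rw [s8]
  exact hz_cl_adj_abs (P := p.sys η) hT hS T₁ k₁ b₁ Y u (hy_tl_res_inner hWs (w : Lp p.Fb 2 (p.m.prod (volume : Measure ℝ)))) s3

/-- rows supported in `S` -/
theorem hz_cl_mulR_supp {P : PkSys} (k : ℕ) {S : Set P.X} (hS : MeasurableSet S) (F : Lp P.Fb 2 (P.rho k))
    (h : ∀ᵐ x ∂(P.rho k), (F : P.X → P.Fb) x ≠ 0 → x ∈ S) : P.mulR k (S.indicator fun _ => 1) F = F := by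
  have e := hy_tl_split k hS F
  have z : P.mulR k (Sᶜ.indicator fun _ => 1) F = 0 := by
    have e1 := gn_mulR_ind_normsq k hS.compl F
    have i0 : ∫ x in Sᶜ, ‖(F : P.X → P.Fb) x‖ ^ 2 ∂(P.rho k) = 0 := by
      refine setIntegral_eq_zero_of_ae_eq_zero ?_
      filter_upwards [h] with x hx hxS
      by_contra hne
      exact hxS (hx fun h0 => hne (by rw [h0]; simp))
    rw [i0] at e1
    exact norm_eq_zero.1 ((pow_eq_zero_iff two_ne_zero).1 e1)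
  rwa [z, add_zero] at e

theorem hz_cl_ofReal_int {X F : Type} [MeasurableSpace X] [NormedAddCommGroup F] {μ : Measure X} (G : Lp F 2 μ) (S : Set X) :
    ENNReal.ofReal (∫ x in S, ‖(G : X → F) x‖ ^ 2 ∂μ) = ∫⁻ x in S, ‖(G : X → F) x‖ₑ ^ 2 ∂μ := by
  have hint : Integrable (fun x => ‖(G : X → F) x‖ ^ 2) μ := (Lp.memLp G).integrable_norm_pow (by norm_num)
  rw [ofReal_integral_eq_lintegral_ofReal hint.restrict (ae_of_all _ fun x => by positivity)]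
  refine lintegral_congr fun x => ?_
  rw [ENNReal.ofReal_pow (norm_nonneg _), ofReal_norm]

/-- base support of a synthesised state -/
theorem hz_cl_supp (p : ChyPar) (h : p.Ok) (η : ℝ) (Q : CyT) (T : ℝ) (k : ℕ) (l R : ℝ) (F : Lp p.Fb 2 p.rw)
    (hF : ∀ᵐ x ∂p.rw, (F : p.Om × ℝ × ℝ → p.Fb) x ≠ 0 → cyBaseSz Q l (p.co T x) ≤ R) (b b' : ℕ) :
    (p.sys η).ms T k b' {x | R < cyBaseSz Q l (p.co T x)} (ContinuousLinearMap.adjoint ((p.sys η).An T k b) F) = 0 := by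
  have hW : MeasurableSet {ω : p.Om | R < cyBaseSz Q l (p.co T (ω, 0, 0))} := by
    have m := hy_tl_mBase' p h Q T l
    obtain ⟨g, hg⟩ : ∃ g : p.Om → ℝ × ℝ × ℝ, g = fun ω => cyBase Q l (p.co T (ω, 0, 0)) := ⟨_, rfl⟩
    rw [← hg] at m
    refine measurableSet_lt measurable_const ?_
    show Measurable fun ω => max |(cyBase Q l (p.co T (ω, 0, 0))).1| (max |(cyBase Q l (p.co T (ω, 0, 0))).2.1| |(cyBase Q l (p.co T (ω, 0, 0))).2.2|)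
    have e : (fun ω => max |(cyBase Q l (p.co T (ω, 0, 0))).1| (max |(cyBase Q l (p.co T (ω, 0, 0))).2.1| |(cyBase Q l (p.co T (ω, 0, 0))).2.2|))
        = fun ω => max |(g ω).1| (max |(g ω).2.1| |(g ω).2.2|) := by rw [hg]
    rw [e]
    fun_prop
  have h1 : (p.sys η).ms T k b' {x | R < cyBaseSz Q l (p.co T x)} (ContinuousLinearMap.adjoint ((p.sys η).An T k b) F)
      ≤ ∫ x in {x : p.Om × ℝ × ℝ | R < cyBaseSz Q l (p.co T x)}, ‖(F : p.Om × ℝ × ℝ → p.Fb) x‖ ^ 2 ∂p.rw :=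
    hz_cl_adj_W p h η (hy_tight η p h) hW T k b' T k b F
  refine le_antisymm (h1.trans (le_of_eq ?_)) (gn_ms_nonneg _ _ _ _ _)
  refine setIntegral_eq_zero_of_ae_eq_zero ?_
  filter_upwards [hF] with x hx hxS
  by_contra hne
  have h2 : cyBaseSz Q l (p.co T x) ≤ R := hx fun h0 => hne (by rw [h0]; simp)
  have h3 : R < cyBaseSz Q l (p.co T x) := hxS
  linarith

/-- base density of a synthesised state -/
theorem hz_cl_dens (p : ChyPar) (h : p.Ok) (η : ℝ) (Q : CyT) (T : ℝ) (k : ℕ) (l : ℝ) (F : Lp p.Fb 2 p.rw) (S : Set (ℝ × ℝ × ℝ)) (hS : MeasurableSet S)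
    (b b' : ℕ) :
    ENNReal.ofReal ((p.sys η).ms T k b' {x | cyBase Q l (p.co T x) ∈ S} (ContinuousLinearMap.adjoint ((p.sys η).An T k b) F))
      ≤ ∫⁻ x in {x | cyBase Q l (p.co T x) ∈ S}, ‖(F : p.Om × ℝ × ℝ → p.Fb) x‖ₑ ^ 2 ∂p.rw := by
  have hW : MeasurableSet {ω : p.Om | cyBase Q l (p.co T (ω, 0, 0)) ∈ S} := hy_tl_mBase' p h Q T l hS
  have h1 := hz_cl_adj_W p h η (hy_tight η p h) hW T k b' T k b F
  refine (ENNReal.ofReal_le_ofReal h1).trans (le_of_eq ?_)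
  exact hz_cl_ofReal_int F _

theorem hz_cl_ql (p : ChyPar) (h : p.Ok) (k : ℕ) : p.ql k = (2 : ℝ)⁻¹ ^ k * p.dl k :=
  (hy_qd ⟨p.H, 1⟩ ⟨h.H_pos, le_rfl, by norm_num⟩ k).2.2.2.1

/-- normal tails of a synthesised state -/
theorem hz_cl_tail (p : ChyPar) (h : p.Ok) (η : ℝ) (Q : CyT) (hf : 0 < Q.f) (T : ℝ) (k : ℕ) (R R' Λ : ℝ) (hΛ : 1 ≤ Λ) (hd : p.dl k ≤ Q.f) (hR : R + Λ ≤ R')
    (F : Lp p.Fb 2 p.rw) (hF : ∀ᵐ x ∂p.rw, (F : p.Om × ℝ × ℝ → p.Fb) x ≠ 0 → x ∈ hyBx p Q T (R * Q.f) (R * ((2 : ℝ)⁻¹ ^ k * Q.f))) (b b' : ℕ) :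
    (p.sys η).ms T k b' {x | R' < cyNorSz Q ((2 : ℝ)⁻¹ ^ k) (p.co T x)} (ContinuousLinearMap.adjoint ((p.sys η).An T k b) F)
      ≤ (52 * Real.exp (-(Λ ^ 2 / 40))) ^ 2 * ‖F‖ ^ 2 := by
  have hl : (0 : ℝ) < (2 : ℝ)⁻¹ ^ k := by positivity
  have mS := hy_tl_mBx p h Q T (R * Q.f) (R * ((2 : ℝ)⁻¹ ^ k * Q.f))
  have mS' : MeasurableSet {x : p.Om × ℝ × ℝ | R' < cyNorSz Q ((2 : ℝ)⁻¹ ^ k) (p.co T x)} := hy_tg_nor_meas p h Q _ T R'
  have hc : CutLe T k T k := ⟨le_rfl, le_rfl, by linarith⟩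
  have key := hy_loc_ker η p h Λ hΛ T k T k hc _ _ mS mS' ?_ F b b'
  · have e1 : (p.sys η).mulR k ((hyBx p Q T (R * Q.f) (R * ((2 : ℝ)⁻¹ ^ k * Q.f))).indicator fun _ => 1) F = F :=
      hz_cl_mulR_supp (P := p.sys η) k mS F hF
    rw [e1] at key
    have e2 : (2 : ℝ) ^ (((k : ℝ) - k) / 2) = 1 := by simp
    rw [e2, mul_one] at key
    exact key
  · intro x hx x' hx' hcn
    obtain ⟨c1, c2, c3⟩ := hcn
    have h1 := hy_tl_succ p Q T T _ _ _ _ (by linarith) x x' hx c1 c2 c3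
    rw [sub_self, hy_tl_mv_zero, zero_mul, add_zero] at h1
    rw [hy_tl_nor_box p Q hf T _ R' hl] at hx'
    refine hx' (hy_tl_bx_mono p Q T ?_ ?_ h1)
    · have : Λ * p.dl k ≤ Λ * Q.f := mul_le_mul_of_nonneg_left hd (by linarith)
      nlinarith
    · rw [hz_cl_ql p h k]
      have h2 : Λ * ((2 : ℝ)⁻¹ ^ k * p.dl k) ≤ Λ * ((2 : ℝ)⁻¹ ^ k * Q.f) := by gcongr
      have h3 : 0 < (2 : ℝ)⁻¹ ^ k * Q.f := by positivity
      nlinarith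

/-- the label-free experiment of a group: read at the relative depth `n'`, stack `st'`, regularity `κ'` -/
noncomputable def HzGr.xr {η : ℝ} {p : ChyPar} (G : HzGr η p) (n' : ℕ) (st' : List (Stg (p.sys η))) (κ' : ℝ) : Xp (p.sys η) where
  k0 := G.k0
  i0 := G.i0
  n := n'
  v := G.v
  e := G.e
  ka := κ'
  b0 := 0
  st := st'
  bT := 0
  L := 0
  iv := Fin.elim0
  ts := Fin.elim0
  th := Fin.elim0

theorem hz_cl_eqns_cite : True := by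
  have := @HzGr.xr.eq_1
  trivial

theorem hz_cl_valid {η : ℝ} {p : ChyPar} (G : HzGr η p) (C : ℕ) (τ : ℝ) (hG : G.Ok C τ) (n' : ℕ) (st' : List (Stg (p.sys η))) (hm : StM st')
    (hd : ∀ σ ∈ st', G.k0 ≤ σ.k ∧ σ.k ≤ G.k0 + n') (hp : st'.Pairwise fun σ σ' => σ.k ≤ σ'.k) : (G.xr n' st' (16 * G.ka)).Valid where
  e_pos := hG.e_pos
  ka_pos := by
    have := hG.ka_pos
    show 0 < 16 * G.ka
    positivity
  budget := by
    have h1 : ‖G.v‖ ≤ ‖G.F‖ := gn_adj_norm_le (P := p.sys η) (hy_tight η p hG.par) G.T0 G.k0 0 G.F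
    have h2 : ‖G.v‖ ^ 2 ≤ ‖G.F‖ ^ 2 := pow_le_pow_left₀ (norm_nonneg _) h1 2
    exact h2.trans hG.en
  plat := fun T k => hy_an_norm p hG.par T k _
  reg := fun Q hQ => by
    have h1 := hy_rp_main η p hG.par G.T0 G.k0 0 G.ka G.F hG.reg Q hQ
    exact h1
  st_dep := hd
  st_mono := hp
  st_meas := fun σ hσ i => (hm σ hσ i).1
  st_bd := fun σ hσ i x => (hm σ hσ i).2 x
  iv_in := fun l => l.elim0
  ts_ok := fun l => l.elim0
  w_pos := fun l => l.elim0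
  th_meas := fun l => l.elim0
  th_nn := fun l => l.elim0
  th_supp := fun l => l.elim0
  th_sum := fun i x => by
    show ∑ l : Fin 0, _ ≤ (1 : ℝ)
    simp

theorem hz_cl_s_pow {η : ℝ} {p : ChyPar} (G : HzGr η p) (C : ℕ) : G.s ^ (C : ℝ) = (2 : ℝ)⁻¹ ^ (C * G.n) := by
  unfold HzGr.s
  rw [Real.rpow_natCast, ← pow_mul, mul_comm]

theorem hz_cl_s_npow {η : ℝ} {p : ChyPar} (G : HzGr η p) (C : ℕ) : G.s ^ (-(C : ℝ)) = (2 : ℝ) ^ (C * G.n) := by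
  rw [Real.rpow_neg (by unfold HzGr.s; positivity), hz_cl_s_pow, inv_pow, inv_inv]

theorem hz_cl_s_tau {η : ℝ} {p : ChyPar} (G : HzGr η p) {τ : ℝ} (h1 : τ ≤ 1) : G.s ^ (-τ) ≤ 2 ^ G.n := by
  have hs : G.s = ((2 : ℝ) ^ G.n)⁻¹ := by unfold HzGr.s; rw [inv_pow]
  have h2 : (1 : ℝ) ≤ 2 ^ G.n := one_le_pow₀ (by norm_num)
  rw [hs, Real.rpow_neg (by positivity), Real.inv_rpow (by positivity), inv_inv]
  calc ((2 : ℝ) ^ G.n) ^ τ ≤ ((2 : ℝ) ^ G.n) ^ (1 : ℝ) := Real.rpow_le_rpow_of_exponent_le h2 h1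
    _ = 2 ^ G.n := Real.rpow_one _

theorem hz_cl_s_sq {η : ℝ} {p : ChyPar} (G : HzGr η p) {τ : ℝ} (h1 : τ ≤ 1) : (2 : ℝ)⁻¹ ^ (2 * G.n) ≤ G.s ^ (1 + τ) := by
  have hs0 : 0 < G.s := by unfold HzGr.s; positivity
  have hs1 : G.s ≤ 1 := by unfold HzGr.s; exact pow_le_one₀ (by norm_num) (by norm_num)
  calc (2 : ℝ)⁻¹ ^ (2 * G.n) = G.s ^ (2 : ℝ) := by
        have := hz_cl_s_pow G 2
        rw [← this]
        norm_num
    _ ≤ G.s ^ (1 + τ) := Real.rpow_le_rpow_of_exponent_ge hs0 hs1 (by linarith)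

/-- **the label-free experiment of a group is in the class** -/
theorem hz_cl_cls (η : ℝ) (C A' : ℕ) : ∃ n0 : ℕ, ∀ (p : ChyPar) (G : HzGr η p) (τ : ℝ) (n' : ℕ) (st' : List (Stg (p.sys η))),
    n0 ≤ G.n → G.Ok C τ → 0 ≤ τ → τ ≤ 1 → 3 * G.n ≤ 4 * n' → n' ≤ G.n → st'.length ≤ C → StM st' →
    (∀ σ ∈ st', G.k0 ≤ σ.k ∧ σ.k ≤ G.k0 + n') → (st'.Pairwise fun σ σ' => σ.k ≤ σ'.k) → (∀ σ ∈ st', σ.b = 0) →
    (cylHyb η).Cls (2 * C + 8) A' p (G.xr n' st' (16 * G.ka)) := by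
  obtain ⟨n1, hn1⟩ := hy_tl_exp 52 A'
  refine ⟨2 * n1 + 2, ?_⟩
  intro p G τ n' st' hn hG hτ0 hτ1 h34 hn' hlen hm hd hp hb
  have hpar := hG.par
  have hn'1 : 1 ≤ n' := by omega
  have hn'n1 : n1 ≤ n' := by omega
  have hn2 : G.n ≤ 2 * n' := by omega
  obtain ⟨E, hE⟩ : ∃ E, E = G.xr n' st' (16 * G.ka) := ⟨_, rfl⟩
  have En : E.n = n' := by rw [hE]; rfl
  have hCn : C * G.n ≤ (2 * C + 8) * n' := by nlinarith
  have hCn4 : C * G.n + 4 ≤ (2 * C + 8) * n' := by nlinarith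
  have q1 : G.s ^ (-(C : ℝ)) ≤ E.s ^ (-((2 * C + 8 : ℕ) : ℝ)) := by
    rw [hz_cl_s_npow, hy_tg_s_npow, En]
    exact pow_le_pow_right₀ (by norm_num) hCn
  have hw : 0 < G.ka * cyWt η G.Q := by
    have := hG.ka_pos
    have := hG.r_pos
    have := hG.f_pos
    unfold cyWt
    positivity
  have hdl : p.dl G.k0 ≤ G.Q.f := (hy_tl_dl_mono p hpar (by unfold HzGr.kf; omega)).trans hG.pl_hi
  have he := hG.e_pos
  rw [← hE]
  refine ⟨hpar, by rw [hE]; exact hz_cl_valid G C τ hG n' st' hm hd hp, by rw [hE]; exact hlen.trans (by omega), ?_, G.Q, ?_, ?_, ?_⟩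
  · rw [hE]
    exact ⟨Nat.zero_le _, Nat.zero_le _, fun σ hσ => by rw [hb σ hσ]; exact Nat.zero_le _⟩
  · refine ⟨hG.r_pos, hG.f_pos, ?_, ?_, ?_, ?_, ?_, fun hf => hf.elim⟩
    · -- ek_lo
      have e1 : E.s ^ ((2 * C + 8 : ℕ) : ℝ) * 16 ≤ G.s ^ (C : ℝ) := by
        rw [hz_cl_s_pow, hy_tg_s_pow, En]
        have g0 : (2 : ℝ)⁻¹ ^ ((2 * C + 8) * n') ≤ (2 : ℝ)⁻¹ ^ (C * G.n + 4) := pow_le_pow_of_le_one (by norm_num) (by norm_num) hCn4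
        calc (2 : ℝ)⁻¹ ^ ((2 * C + 8) * n') * 16 ≤ (2 : ℝ)⁻¹ ^ (C * G.n + 4) * 16 := mul_le_mul_of_nonneg_right g0 (by norm_num)
          _ = (2 : ℝ)⁻¹ ^ (C * G.n) := by rw [pow_add]; ring
      have e2 : E.s ^ ((2 * C + 8 : ℕ) : ℝ) * (E.ka * cyWt η G.Q) = (E.s ^ ((2 * C + 8 : ℕ) : ℝ) * 16) * (G.ka * cyWt η G.Q) := by
        have : E.ka = 16 * G.ka := by rw [hE]; rfl
        rw [this]; ring
      have e3 : E.e = G.e := by rw [hE]; rfl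
      rw [e2, e3]
      exact (mul_le_mul_of_nonneg_right e1 hw.le).trans hG.ek_lo
    · -- ek_hi
      have e3 : E.e = G.e := by rw [hE]; rfl
      have e4 : E.ka = 16 * G.ka := by rw [hE]; rfl
      rw [e3, e4]
      refine hG.ek_hi.trans ?_
      have h0 : 0 ≤ G.s ^ (-(C : ℝ)) := by rw [hz_cl_s_npow]; positivity
      calc G.s ^ (-(C : ℝ)) * (G.ka * cyWt η G.Q) ≤ E.s ^ (-((2 * C + 8 : ℕ) : ℝ)) * (G.ka * cyWt η G.Q) := mul_le_mul_of_nonneg_right q1 hw.le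
        _ ≤ E.s ^ (-((2 * C + 8 : ℕ) : ℝ)) * (16 * G.ka * cyWt η G.Q) := by
            refine mul_le_mul_of_nonneg_left ?_ (h0.trans q1)
            nlinarith
    · -- supp
      have := hz_cl_supp p hpar η G.Q G.T0 G.k0 G.l0 (E.s ^ (-((2 * C + 8 : ℕ) : ℝ))) G.F ?_ 0 0
      · rw [hE] at this ⊢
        exact this
      · filter_upwards [hG.supB] with x hx h0
        exact (hx h0).trans q1
    · -- tail
      have hR : G.s ^ (-τ) + 2 ^ n' ≤ E.s ^ (-((2 * C + 8 : ℕ) : ℝ)) := by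
        rw [hy_tg_s_npow, En]
        have a1 := hz_cl_s_tau G hτ1
        have a2 : (2 : ℝ) ^ n' ≤ 2 ^ G.n := pow_le_pow_right₀ (by norm_num) hn'
        have a3 : (2 : ℝ) ^ (G.n + 1) ≤ 2 ^ ((2 * C + 8) * n') := pow_le_pow_right₀ (by norm_num) (by nlinarith)
        rw [pow_succ] at a3
        linarith
      have key := hz_cl_tail p hpar η G.Q hG.f_pos G.T0 G.k0 (G.s ^ (-τ)) (E.s ^ (-((2 * C + 8 : ℕ) : ℝ))) (2 ^ n') (one_le_pow₀ (by norm_num)) hdl hR G.F ?_ 0 0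
      · have b1 := hn1 n' hn'n1
        have b2 : (0 : ℝ) ≤ 52 * Real.exp (-(((2 : ℝ) ^ n') ^ 2 / 40)) := by positivity
        have b3 : (((2 : ℝ) ^ n') ^ A')⁻¹ ≤ 1 := inv_le_one_of_one_le₀ (one_le_pow₀ (one_le_pow₀ (by norm_num)))
        have b4 : E.s ^ (A' : ℝ) = (((2 : ℝ) ^ n') ^ A')⁻¹ := by
          rw [hy_tl_s_pow, En]
        have b5 : (52 * Real.exp (-(((2 : ℝ) ^ n') ^ 2 / 40))) ^ 2 ≤ (((2 : ℝ) ^ n') ^ A')⁻¹ := by
          have : 0 < (((2 : ℝ) ^ n') ^ A')⁻¹ := by positivity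
          nlinarith
        have e3 : E.e = G.e := by rw [hE]; rfl
        rw [b4, e3]
        have b6 : (52 * Real.exp (-(((2 : ℝ) ^ n') ^ 2 / 40))) ^ 2 * ‖G.F‖ ^ 2 ≤ (((2 : ℝ) ^ n') ^ A')⁻¹ * G.e :=
          mul_le_mul b5 hG.en (by positivity) (by positivity)
        refine le_trans ?_ b6
        rw [hE] at key ⊢
        exact key
      · filter_upwards [hG.sup] with x hx h0
        exact (hx h0).2
    · -- dens
      intro S hS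
      have d1 := hz_cl_dens p hpar η G.Q G.T0 G.k0 G.l0 G.F S hS 0 0
      have d2 := hG.dens S hS
      have e3 : E.e = G.e := by rw [hE]; rfl
      have d3 : ENNReal.ofReal (G.s ^ (-(C : ℝ)) * G.e) ≤ ENNReal.ofReal (E.s ^ (-((2 * C + 8 : ℕ) : ℝ)) * E.e) := by
        rw [e3]
        exact ENNReal.ofReal_le_ofReal (mul_le_mul_of_nonneg_right q1 he.le)
      refine le_trans ?_ ((d1.trans d2).trans (mul_le_mul_left d3 _))
      rw [hE]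
      exact le_rfl
  · -- Planck, lower
    have e5 : E.k0 = G.k0 := by rw [hE]; rfl
    rw [e5]
    refine le_trans ?_ ((hz_cl_s_sq G hτ1).trans hG.pl_lo)
    rw [hy_tg_s_pow, En]
    exact pow_le_pow_of_le_one (by norm_num) (by norm_num) (by nlinarith)
  · -- Planck, upper
    have e5 : E.k0 = G.k0 := by rw [hE]; rfl
    rw [e5, hy_tg_s_npow]
    have f1 : p.H * 2 ^ G.k0 ≤ G.Q.f ^ 2 := by
      have hH := hpar.H_pos
      have g1 : p.dl G.k0 ^ 2 = p.H * 2 ^ G.k0 := by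
        unfold ChyPar.dl
        rw [Real.sq_sqrt (by positivity)]
      rw [← g1]
      exact pow_le_pow_left₀ (hy_tl_dl_nonneg p _) hdl 2
    have f2 : p.H * 2 ^ G.k0 / G.Q.f ^ 2 ≤ 1 := by
      have := hG.f_pos
      rw [div_le_one (by positivity)]
      exact f1
    exact f2.trans (one_le_pow₀ (by norm_num))

theorem hz_cl_cap_meas {η : ℝ} {p : ChyPar} (G : HzGr η p) (h : p.Ok) (ks : ℕ) (a : ℤ) : MeasurableSet (G.cap ks a) := by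
  have m := hy_tl_mVel p h G.Q G.T0
  exact (Int.measurable_floor.comp (m.div_const (p.dl ks))) (measurableSet_singleton a)

theorem hz_cl_vec_mem {η : ℝ} {p : ChyPar} (G : HzGr η p) (ks Kc : ℕ) :
    MemLp (fun x => (WithLp.toLp 2 (fun a : Fin (2 * Kc + 1) => (G.Fc ks ((a : ℤ) - Kc) : p.Om × ℝ × ℝ → p.Fb) x) : PiLp 2 (fun _ : Fin (2 * Kc + 1) => p.Fb))) 2 p.rw :=
  MemLp.of_eval_piLp fun a => Lp.memLp (G.Fc ks ((a : ℤ) - Kc))

theorem hz_cl_vec_coe {η : ℝ} {p : ChyPar} (G : HzGr η p) (ks Kc : ℕ) :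
    (G.vec ks Kc : p.Om × ℝ × ℝ → PiLp 2 (fun _ : Fin (2 * Kc + 1) => p.Fb)) =ᵐ[p.rw]
      fun x => WithLp.toLp 2 (fun a : Fin (2 * Kc + 1) => (G.Fc ks ((a : ℤ) - Kc) : p.Om × ℝ × ℝ → p.Fb) x) := by
  unfold HzGr.vec
  rw [dif_pos (hz_cl_vec_mem G ks Kc)]
  exact MemLp.coeFn_toLp _

theorem hz_cl_sum_ite (K : ℕ) (f : Fin K → ℤ) (hf : Function.Injective f) (c : ℤ) (y : ℝ) (hy : 0 ≤ y) :
    ∑ a : Fin K, (if c = f a then y else 0) ≤ y := by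
  by_cases h : ∃ a₀, c = f a₀
  · obtain ⟨a₀, rfl⟩ := h
    have : ∀ a, (if f a₀ = f a then y else 0) = if a₀ = a then y else 0 := by
      intro a
      by_cases ha : a₀ = a
      · rw [if_pos ha, if_pos (by rw [ha])]
      · rw [if_neg ha, if_neg fun hc => ha (hf hc)]
    simp only [this]
    simp
  · have : ∀ a, (if c = f a then y else 0) = 0 := fun a => if_neg fun hc => h ⟨a, hc⟩
    simp only [this]
    simpa using hy

/-- the energy density of the vector of the cap rows is at most that of the rows -/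
theorem hz_cl_vec_le {η : ℝ} {p : ChyPar} (G : HzGr η p) (h : p.Ok) (ks Kc : ℕ) :
    ∀ᵐ x ∂p.rw, ‖(G.vec ks Kc : p.Om × ℝ × ℝ → PiLp 2 (fun _ : Fin (2 * Kc + 1) => p.Fb)) x‖ ≤ ‖(G.F : p.Om × ℝ × ℝ → p.Fb) x‖ := by
  have h1 : ∀ᵐ x ∂p.rw, ∀ a : Fin (2 * Kc + 1), (G.Fc ks ((a : ℤ) - Kc) : p.Om × ℝ × ℝ → p.Fb) x
      = (((G.cap ks ((a : ℤ) - Kc)).indicator (fun _ => (1 : ℝ)) x : ℝ) : ℂ) • (G.F : p.Om × ℝ × ℝ → p.Fb) x := by
    rw [ae_all_iff]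
    intro a
    exact gn_mulR_coe (P := p.sys η) G.k0 (gn_mask_ind (hz_cl_cap_meas G h ks _)) G.F
  filter_upwards [h1, hz_cl_vec_coe G ks Kc] with x hx hv
  rw [hv]
  refine le_of_sq_le_sq ?_ (norm_nonneg _)
  rw [PiLp.norm_sq_eq_of_L2]
  have e : ∀ a : Fin (2 * Kc + 1), ‖(WithLp.toLp 2 (fun a : Fin (2 * Kc + 1) => (G.Fc ks ((a : ℤ) - Kc) : p.Om × ℝ × ℝ → p.Fb) x) : PiLp 2 (fun _ : Fin (2 * Kc + 1) => p.Fb)) a‖ ^ 2
      = if ⌊cyVel G.Q (p.co G.T0 x) / p.dl ks⌋ = (a : ℤ) - Kc then ‖(G.F : p.Om × ℝ × ℝ → p.Fb) x‖ ^ 2 else 0 := by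
    intro a
    show ‖(G.Fc ks ((a : ℤ) - Kc) : p.Om × ℝ × ℝ → p.Fb) x‖ ^ 2 = _
    rw [hx a]
    by_cases hc : ⌊cyVel G.Q (p.co G.T0 x) / p.dl ks⌋ = (a : ℤ) - Kc
    · have hm : x ∈ G.cap ks ((a : ℤ) - Kc) := hc
      rw [if_pos hc, Set.indicator_of_mem hm]
      simp
    · have hm : x ∉ G.cap ks ((a : ℤ) - Kc) := hc
      rw [if_neg hc, Set.indicator_of_notMem hm]
      simp
  simp only [e]
  refine hz_cl_sum_ite _ (fun a : Fin (2 * Kc + 1) => (a : ℤ) - Kc) ?_ _ _ (by positivity)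
  intro a b hab
  have : ((a : ℕ) : ℤ) = (b : ℕ) := by simpa using hab
  exact Fin.ext (by exact_mod_cast this)

/-- the group of the vector of the cap rows (empty stack) -/
noncomputable def HzGr.mlG {η : ℝ} {p : ChyPar} (G : HzGr η p) (ks Kc : ℕ) : HzGr η (p.mlt (2 * Kc + 1)) where
  k0 := G.k0
  i0 := G.i0
  n := G.n
  st := []
  Q := G.Q
  F := G.vec ks Kc
  e := G.e
  ka := G.ka

theorem hz_cl2_eqns_cite : True := by
  have := @HzGr.mlG.eq_1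
  trivial

theorem hz_cl_mlt_ok (p : ChyPar) (h : p.Ok) (K : ℕ) : (p.mlt K).Ok := ⟨h.sf, h.mX, h.mB, h.mY, h.mS, h.sg_rg, h.H_pos⟩

theorem hz_cl_mlG_ok {η : ℝ} {p : ChyPar} (G : HzGr η p) (C : ℕ) (τ : ℝ) (hG : G.Ok C τ) (ks Kc : ℕ) : (G.mlG ks Kc).Ok C τ := by
  have hle := hz_cl_vec_le G hG.par ks Kc
  have hne : ∀ᵐ x ∂p.rw, (G.vec ks Kc : p.Om × ℝ × ℝ → PiLp 2 (fun _ : Fin (2 * Kc + 1) => p.Fb)) x ≠ 0 → (G.F : p.Om × ℝ × ℝ → p.Fb) x ≠ 0 := by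
    filter_upwards [hle] with x hx h0 h1
    rw [h1, norm_zero] at hx
    exact h0 (norm_le_zero_iff.1 hx)
  have hsq : ∀ᵐ x ∂p.rw, ‖(G.vec ks Kc : p.Om × ℝ × ℝ → PiLp 2 (fun _ : Fin (2 * Kc + 1) => p.Fb)) x‖ ^ 2 ≤ ‖(G.F : p.Om × ℝ × ℝ → p.Fb) x‖ ^ 2 := by
    filter_upwards [hle] with x hx
    exact pow_le_pow_left₀ (norm_nonneg _) hx 2
  have i1 : Integrable (fun x => ‖(G.vec ks Kc : p.Om × ℝ × ℝ → PiLp 2 (fun _ : Fin (2 * Kc + 1) => p.Fb)) x‖ ^ 2) p.rw :=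
    (Lp.memLp (G.vec ks Kc)).integrable_norm_pow (by norm_num)
  have i2 : Integrable (fun x => ‖(G.F : p.Om × ℝ × ℝ → p.Fb) x‖ ^ 2) p.rw := (Lp.memLp G.F).integrable_norm_pow (by norm_num)
  refine ⟨hz_cl_mlt_ok p hG.par _, Nat.zero_le _, fun σ hσ => absurd hσ (List.not_mem_nil), fun σ hσ => absurd hσ (List.not_mem_nil), List.Pairwise.nil,
    hG.r_pos, hG.f_pos, hG.e_pos, hG.ka_pos, ?_, ?_, ?_, ?_, ?_, hG.ek_lo, hG.ek_hi, hG.pl_lo, hG.pl_hi⟩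
  · have h1 : ‖G.vec ks Kc‖ ≤ ‖G.F‖ := Lp.norm_le_norm_of_ae_le hle
    have h2 : ‖G.vec ks Kc‖ ^ 2 ≤ ‖G.F‖ ^ 2 := pow_le_pow_left₀ (norm_nonneg _) h1 2
    exact h2.trans hG.en
  · intro Q' hQ'
    have h1 := hG.reg Q' hQ'
    refine le_trans ?_ h1
    exact integral_mono_ae i1.restrict i2.restrict (ae_restrict_of_ae hsq)
  · have : ∀ᵐ x ∂p.rw, (G.vec ks Kc : p.Om × ℝ × ℝ → PiLp 2 (fun _ : Fin (2 * Kc + 1) => p.Fb)) x ≠ 0 → p.co G.T0 x ∈ hzGp G.Q G.l0 (G.s ^ (-τ)) := by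
      filter_upwards [hne, hG.sup] with x h1 h2 h3
      exact h2 (h1 h3)
    exact this
  · have : ∀ᵐ x ∂p.rw, (G.vec ks Kc : p.Om × ℝ × ℝ → PiLp 2 (fun _ : Fin (2 * Kc + 1) => p.Fb)) x ≠ 0 → cyBaseSz G.Q G.l0 (p.co G.T0 x) ≤ G.s ^ (-(C : ℝ)) := by
      filter_upwards [hne, hG.supB] with x h1 h2 h3
      exact h2 (h1 h3)
    exact this
  · intro S hS
    refine le_trans ?_ (hG.dens S hS)
    refine lintegral_mono_ae (ae_restrict_of_ae ?_)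
    filter_upwards [hle] with x hx
    have : ‖(G.vec ks Kc : p.Om × ℝ × ℝ → PiLp 2 (fun _ : Fin (2 * Kc + 1) => p.Fb)) x‖ₑ ≤ ‖(G.F : p.Om × ℝ × ℝ → p.Fb) x‖ₑ := by
      rw [← ofReal_norm, ← ofReal_norm]
      exact ENNReal.ofReal_le_ofReal hx
    exact pow_le_pow_left' this 2

/-- **(CL)** -/
theorem hz_cl_main (η : ℝ) (C : ℕ) : ∃ (C' : ℕ) (Cr : ℝ), 1 ≤ Cr ∧ ∀ A' : ℕ, ∃ n0 : ℕ, ∀ (p : ChyPar) (G : HzGr η p) (τ : ℝ) (z Kc : ℕ),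
    n0 ≤ G.n → G.Ok C τ → 0 ≤ τ → τ ≤ 1 → 4 * z ≤ G.n →
    (cylHyb η).Cls C' A' (p.mlt (2 * Kc + 1)) (G.xq (G.kf - 2 * z) (G.kf - z) Kc (Cr * G.ka)) := by
  refine ⟨2 * C + 8, 16, by norm_num, fun A' => ?_⟩
  obtain ⟨n0, H⟩ := hz_cl_cls η C A'
  refine ⟨n0, ?_⟩
  intro p G τ z Kc hn hG hτ0 hτ1 hz
  have hkf : G.kf = G.k0 + G.n := rfl
  have key := H (p.mlt (2 * Kc + 1)) (G.mlG (G.kf - 2 * z) Kc) τ (G.kf - z - G.k0)
    ((G.st.filter fun σ => decide (σ.k ≤ G.kf - 2 * z)).map (p.stM η (2 * Kc + 1))) hn (hz_cl_mlG_ok G C τ hG _ Kc) hτ0 hτ1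
    (by show 3 * G.n ≤ 4 * (G.kf - z - G.k0); omega) (by show G.kf - z - G.k0 ≤ G.n; omega) ?_ ?_ ?_ ?_ ?_
  · exact key
  · rw [List.length_map]
    exact (List.length_filter_le _ _).trans hG.len
  · intro σ' hσ' i
    obtain ⟨σ, hσ, rfl⟩ := List.mem_map.1 hσ'
    exact hG.msk σ (List.mem_filter.1 hσ).1 i
  · intro σ' hσ'
    obtain ⟨σ, hσ, rfl⟩ := List.mem_map.1 hσ'
    obtain ⟨h1, h2⟩ := List.mem_filter.1 hσ
    have h3 : σ.k ≤ G.kf - 2 * z := by simpa using h2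
    have h4 := (hG.dep σ h1).1
    refine ⟨h4, ?_⟩
    show σ.k ≤ G.k0 + (G.kf - z - G.k0)
    omega
  · refine List.Pairwise.map _ (fun a b hab => hab) ?_
    exact hG.mono.filter _
  · intro σ' hσ'
    obtain ⟨σ, hσ, rfl⟩ := List.mem_map.1 hσ'
    rfl

end Claimed.Agent.R256
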