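import Claimed.Agent.R256.Hz.Grp

/-!
# Row 256, unit HZ, file 10: (LI) = (FL) INTEGRATED OVER THE EXACT INDEX AND SUMMED OVER THE CAPS      (post BP-256-HZ-LI, helper222; chief helper82; prefix `hz_li_`)

`ks = kf - 2z`, `kr = kf - z`, `J = ancI kf kr i`, `K' = 2 Kc + 1`, `p' = p.mlt K'`, `E' = G.xq ks kr Kc κ'`.
* `G.fa τ ks a ω`    POINTWISE fibre of the cap rows `Fc ks a`: `1_{cap a} 1_{box of the group} F(ω,·)`      (a.e. equal to `Fc ks a (ω,·)` for a.e. `ω`)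
* `G.l1 ks ω`, `G.l2 ks ω`    the fibre stages of depth `≤ ks`, `> ks`
 (S)  `hz_li_stk`     `st.map fst = l1 ++ l2`, both admissible stacks
 (N)  `hz_li_num`     `q(ks) = 2^z q(kf) = 2^-kr d(kf)`
 (C)  `hz_li_cell`    the fibre of a lattice cell is a position bin
 (G)  `hz_li_geo`     the box of `hz_low_fib` lies in the window `hzWn`
 (F1) `hz_li_one`     the fibre inequality for one cap
 (F)  `hz_li_fib`     the fibre inequality summed over the caps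
 (R1) `hz_li_rows1`   final rows of the state of a cap = `br kf i (st.map fst) (fa a)`
 (R2) `hz_li_rows2`   energy density of the rows of `E'.fin J` = `Σ_a ‖br kr J l1 (fa a)‖²`
 (I)  `hz_li_main`    integration over the exact index, real form      = `hz_low_int`
-/

set_option autoImplicit false

namespace Claimed.Agent.R256

open MeasureTheory
open scoped ENNReal

variable {η : ℝ} {p : ChyPar}

/-- the set of rows of a cap inside the box of the group -/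
def HzGr.cg (G : HzGr η p) (τ : ℝ) (ks : ℕ) (a : ℤ) : Set (p.Om × ℝ × ℝ) :=
  {x | x ∈ G.cap ks a ∧ p.co G.T0 x ∈ hzGp G.Q G.l0 (G.s ^ (-τ))}

/-- the pointwise fibre of the rows of a cap -/
noncomputable def HzGr.fa (G : HzGr η p) (τ : ℝ) (ks : ℕ) (a : ℤ) (ω : p.Om) (ρ : ℝ × ℝ) : p.Fb :=
  (G.cg τ ks a).indicator (G.F : p.Om × ℝ × ℝ → p.Fb) (ω, ρ)

/-- the fibre stages of depth `≤ ks` -/
def HzGr.l1 (G : HzGr η p) (ks : ℕ) (ω : p.Om) : List HyStg := (G.st.filter fun σ => decide (σ.k ≤ ks)).map (p.fst η ω)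

/-- the fibre stages of depth `> ks` -/
def HzGr.l2 (G : HzGr η p) (ks : ℕ) (ω : p.Om) : List HyStg := (G.st.filter fun σ => decide (¬ σ.k ≤ ks)).map (p.fst η ω)

theorem hz_li_eqns_cite : True := by
  have := @HzGr.cg.eq_1
  have := @HzGr.fa.eq_1
  have := @HzGr.l1.eq_1
  have := @HzGr.l2.eq_1
  trivial

/-! ### (S) stacks -/

/-- a sorted list is the concatenation of its two parts -/
theorem hz_li_split {α : Type*} (k : α → ℕ) (ks : ℕ) : ∀ l : List α, l.Pairwise (fun σ σ' => k σ ≤ k σ') →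
    l = (l.filter fun σ => decide (k σ ≤ ks)) ++ l.filter fun σ => decide (¬ k σ ≤ ks)
  | [], _ => rfl
  | σ :: l, h => by
    have h1 := List.pairwise_cons.1 h
    by_cases hσ : k σ ≤ ks
    · rw [List.filter_cons_of_pos (by simpa using hσ), List.filter_cons_of_neg (by simpa using hσ), List.cons_append, ← hz_li_split k ks l h1.2]
    · have e1 : (l.filter fun σ => decide (k σ ≤ ks)) = [] := by
        rw [List.filter_eq_nil_iff]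
        intro σ' hσ'
        have := h1.1 σ' hσ'
        simp only [decide_eq_true_eq]
        omega
      have e2 : (l.filter fun σ => decide (¬ k σ ≤ ks)) = l := by
        rw [List.filter_eq_self]
        intro σ' hσ'
        have := h1.1 σ' hσ'
        simp only [decide_eq_true_eq]
        omega
      rw [List.filter_cons_of_neg (by simpa using hσ), List.filter_cons_of_pos (by simpa using hσ), e1, e2, List.nil_append]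

theorem hz_li_fst_ok (σ : Stg (p.sys η)) (hσ : ∀ i, IsMask (σ.M i)) (ω : p.Om) : (p.fst η ω σ).Ok := fun i =>
  ⟨(hσ i).1.comp measurable_prodMk_left, fun ρ => (hσ i).2 (ω, ρ)⟩

/-- **(S)** -/
theorem hz_li_stk (G : HzGr η p) (C : ℕ) (τ : ℝ) (hG : G.Ok C τ) (ks : ℕ) (ω : p.Om) :
    HzStk G.k0 ks (G.l1 ks ω) ∧ HzStk ks G.kf (G.l2 ks ω) ∧ G.st.map (p.fst η ω) = G.l1 ks ω ++ G.l2 ks ω ∧
      (G.l1 ks ω).length + (G.l2 ks ω).length = G.st.length := by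
  have hs := hz_li_split (fun σ : Stg (p.sys η) => σ.k) ks G.st hG.mono
  refine ⟨⟨?_, ?_, ?_⟩, ⟨?_, ?_, ?_⟩, ?_, ?_⟩
  · intro σ hσ
    obtain ⟨σ', h1, rfl⟩ := List.mem_map.1 hσ
    exact hz_li_fst_ok σ' (hG.msk σ' (List.mem_filter.1 h1).1) ω
  · intro σ hσ
    obtain ⟨σ', h1, rfl⟩ := List.mem_map.1 hσ
    obtain ⟨h2, h3⟩ := List.mem_filter.1 h1
    have h4 : σ'.k ≤ ks := by simpa using h3
    exact ⟨(hG.dep σ' h2).1, h4⟩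
  · exact List.pairwise_map.2 (hG.mono.filter _)
  · intro σ hσ
    obtain ⟨σ', h1, rfl⟩ := List.mem_map.1 hσ
    exact hz_li_fst_ok σ' (hG.msk σ' (List.mem_filter.1 h1).1) ω
  · intro σ hσ
    obtain ⟨σ', h1, rfl⟩ := List.mem_map.1 hσ
    obtain ⟨h2, h3⟩ := List.mem_filter.1 h1
    have h4 : ¬ σ'.k ≤ ks := by simpa using h3
    exact ⟨by show ks ≤ σ'.k; omega, (hG.dep σ' h2).2⟩
  · exact List.pairwise_map.2 (hG.mono.filter _)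
  · unfold HzGr.l1 HzGr.l2
    rw [← List.map_append, ← hs]
  · unfold HzGr.l1 HzGr.l2
    rw [← List.length_append, ← List.map_append, ← hs, List.length_map]

/-! ### (N), (C), (G): numerology and geometry -/

/-- **(N)** -/
theorem hz_li_num (p : ChyPar) (h : p.Ok) (kf z : ℕ) (hz : 2 * z ≤ kf) :
    p.ql (kf - 2 * z) = 2 ^ z * p.ql kf ∧ p.ql (kf - 2 * z) = (2 : ℝ)⁻¹ ^ (kf - z) * p.dl kf ∧
      p.dl (kf - 2 * z) ≤ p.dl kf ∧ p.dl (kf - z) ≤ p.dl kf ∧ 0 < p.ql kf ∧ 0 < p.dl (kf - 2 * z) := by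
  obtain ⟨φ, hφ⟩ : ∃ φ : HyF, φ = ⟨p.H, 1⟩ := ⟨_, rfl⟩
  have hO : φ.Ok := by rw [hφ]; exact ⟨h.H_pos, le_rfl, by norm_num⟩
  have hq : ∀ k, p.ql k = φ.q k := fun k => by rw [hφ]; rfl
  have hd : ∀ k, p.dl k = φ.d k := fun k => by rw [hφ]; rfl
  have e1 := (hy_q_add φ hO (kf - 2 * z) z).1
  rw [show kf - 2 * z + 2 * z = kf by omega] at e1
  have e2 := (hy_qd φ hO kf).2.2.2.1
  have e3 : φ.q (kf - 2 * z) = 2 ^ z * φ.q kf := by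
    rw [e1, inv_pow, ← mul_assoc, mul_inv_cancel₀ (by positivity), one_mul]
  simp only [hq, hd]
  refine ⟨e3, ?_, (hy_qd_mono φ hO (by omega)).2, (hy_qd_mono φ hO (by omega)).2, (hy_qd φ hO kf).1, (hy_qd φ hO _).2.1⟩
  rw [e3, e2, ← mul_assoc]
  congr 1
  have : (2 : ℝ)⁻¹ ^ kf = (2 : ℝ)⁻¹ ^ (kf - z) * (2 : ℝ)⁻¹ ^ z := by
    rw [← pow_add]
    congr 1
    omega
  rw [this, inv_pow 2 z]
  field_simp

/-- the base squares see only the exact index -/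
theorem hz_li_sq_ind (G : HzGr η p) (i : ℕ) (d : ℤ × ℤ) (ω : p.Om) (ρ ρ' : ℝ × ℝ) : (ω, ρ) ∈ G.sq i d ↔ (ω, ρ') ∈ G.sq i d := Iff.rfl

/-- **(C)** the fibre of a lattice cell -/
theorem hz_li_cell (G : HzGr η p) (hq : 0 < p.ql G.kf) (i : ℕ) (c : ℤ × ℤ × ℤ) (ω : p.Om) (ρ : ℝ × ℝ) (h : (ω, ρ) ∈ G.cl i c) :
    (ω, ρ) ∈ G.sq i (c.1, c.2.1) ∧ ρ ∈ hzBin (p.po (G.Qi G.kf i) (tmL G.kf i) ω + (c.2.2 + 1 / 2) * p.ql G.kf) (p.ql G.kf / 2) := by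
  have h' : hzCell (G.Qi G.kf i) G.lf (p.ql G.kf) (p.co (tmL G.kf i) (ω, ρ)) = c := h
  refine ⟨?_, ?_⟩
  · rw [← h']
    rfl
  · have h1 : ⌊cyPos (G.Qi G.kf i) (p.co (tmL G.kf i) (ω, ρ)) / p.ql G.kf⌋ = c.2.2 := by
      rw [← h']
      rfl
    have h2 := hz_GEO_half hq h1
    rw [hz_po] at h2
    show |ρ.1 - (p.po (G.Qi G.kf i) (tmL G.kf i) ω + (c.2.2 + 1 / 2) * p.ql G.kf)| ≤ p.ql G.kf / 2
    rw [show ρ.1 - (p.po (G.Qi G.kf i) (tmL G.kf i) ω + (c.2.2 + 1 / 2) * p.ql G.kf)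
      = ρ.1 - p.po (G.Qi G.kf i) (tmL G.kf i) ω - (c.2.2 + 1 / 2) * p.ql G.kf by ring]
    exact h2

/-- the support of the pointwise fibre of a cap -/
theorem hz_li_fa_supp (G : HzGr η p) (τ : ℝ) (ks : ℕ) (hd : 0 < p.dl ks) (a : ℤ) (ω : p.Om) (ρ : ℝ × ℝ) (h : G.fa τ ks a ω ρ ≠ 0) :
    |ρ.2 - (p.vo G.Q G.T0 ω + (a + 1 / 2) * p.dl ks)| ≤ p.dl ks / 2 ∧ |ρ.2 - p.vo G.Q G.T0 ω| ≤ G.s ^ (-τ) * G.Q.f ∧ |p.X ω - G.Q.x| ≤ G.Q.r / 2 := by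
  have hm : (ω, ρ) ∈ G.cg τ ks a := by
    by_contra hc
    exact h (Set.indicator_of_notMem hc _)
  obtain ⟨h1, h2, h3, -⟩ := hm
  have h1' : ⌊cyVel G.Q (p.co G.T0 (ω, ρ)) / p.dl ks⌋ = a := h1
  have h4 := hz_GEO_half hd h1'
  rw [hz_vo] at h4 h3
  refine ⟨?_, h3, h2⟩
  rw [show ρ.2 - (p.vo G.Q G.T0 ω + (a + 1 / 2) * p.dl ks) = ρ.2 - p.vo G.Q G.T0 ω - (a + 1 / 2) * p.dl ks by ring]
  exact h4

/-- the real arithmetic of (G) -/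
theorem hz_li_geo_num {M S f lr ds dr df qs qf A t N vo θ D x0 pi pJ R : ℝ} {b β : ℤ} {z : ℕ} {ML : ℝ}
    (hML0 : 0 ≤ ML) (hML : ML ≤ M) (hM : M + 2 ≤ S) (hf : 0 < f) (hlr : 0 ≤ lr) (hds : ds ≤ df) (hdr : dr ≤ df) (hdf : df ≤ f)
    (hqs : qs = 2 ^ z * qf) (hqs' : qs = lr * df) (hqf : 0 < qf) (hA : |A| ≤ S * f + ds / 2) (ht0 : 0 ≤ t) (ht : t ≤ lr)
    (hθ : θ = vo + A) (hN : |N - θ| ≤ ML * dr) (hx0 : x0 = pi + (b + 1 / 2) * qf - t * θ) (hpi : pi = pJ + t * vo) (hR : R = M * qs)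
    (hD : |D - x0| ≤ R) (hβ1 : (β : ℝ) * 2 ^ z ≤ b) (hβ2 : (b : ℝ) + 1 ≤ (β + 1) * 2 ^ z) :
    |N - vo| ≤ 2 * S * f ∧ |D - pJ - β * qs| ≤ 2 * S * (lr * f) := by
  have hS : 0 ≤ S := by linarith
  constructor
  · have e : N - vo = (N - θ) + A := by rw [hθ]; ring
    rw [e]
    have h1 : ML * dr ≤ ML * f := mul_le_mul_of_nonneg_left (hdr.trans hdf) hML0
    have h2 : ML * f ≤ M * f := mul_le_mul_of_nonneg_right hML hf.le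
    have h3 : (M + 2) * f ≤ S * f := mul_le_mul_of_nonneg_right hM hf.le
    have h4 := abs_add_le (N - θ) A
    have h5 : ds ≤ f := hds.trans hdf
    nlinarith
  · have e : D - pJ - β * qs = (D - x0) + (((b : ℝ) + 1 / 2) * qf - β * qs) - t * A := by
      rw [hx0, hpi, hθ]
      ring
    have h1 : |((b : ℝ) + 1 / 2) * qf - β * qs| ≤ qs := by
      rw [hqs, abs_le]
      constructor
      · have : 0 ≤ ((b : ℝ) + 1 / 2 - β * 2 ^ z) * qf := mul_nonneg (by linarith) hqf.le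
        have h0 : 0 ≤ (2 : ℝ) ^ z * qf := by positivity
        nlinarith
      · have : 0 ≤ (((β : ℝ) + 1) * 2 ^ z - (b + 1 / 2)) * qf := mul_nonneg (by linarith) hqf.le
        nlinarith
    have h2 : |t * A| ≤ lr * (S * f + ds / 2) := by
      rw [abs_mul, abs_of_nonneg ht0]
      exact mul_le_mul ht hA (abs_nonneg _) hlr
    have h3 : qs ≤ lr * f := by rw [hqs']; exact mul_le_mul_of_nonneg_left hdf hlr
    have hM0 : 0 ≤ M := hML0.trans hML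
    have h4 : M * qs ≤ M * (lr * f) := mul_le_mul_of_nonneg_left h3 hM0
    have h5 : lr * (ds / 2) ≤ lr * f := mul_le_mul_of_nonneg_left (by linarith [hds.trans hdf]) hlr
    have h6 : (M + 2) * (lr * f) ≤ S * (lr * f) := mul_le_mul_of_nonneg_right hM (by positivity)
    rw [e]
    have h7 := abs_sub (D - x0 + (((b : ℝ) + 1 / 2) * qf - β * qs)) (t * A)
    have h8 := abs_add_le (D - x0) (((b : ℝ) + 1 / 2) * qf - β * qs)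
    rw [hR] at hD
    nlinarith

/-- **(G)** the box of `hz_low_fib` lies in the window -/
theorem hz_li_geo (G : HzGr η p) (C : ℕ) (τ : ℝ) (hG : G.Ok C τ) (m z : ℕ) (Λ : ℝ) (hz : 2 * z ≤ G.n) (hΛ : 2 ≤ Λ)
    (hs : (2 * m + 5) * ((m + 2) * Λ) + 2 ≤ G.s ^ (-τ)) (i : ℕ) (c : ℤ × ℤ × ℤ) (a : ℤ) (ω : p.Om) (ρ0 : ℝ × ℝ)
    (h0 : G.fa τ (G.kf - 2 * z) a ω ρ0 ≠ 0) (hω : (ω, ρ0) ∈ G.sq i (c.1, c.2.1)) (ρ : ℝ × ℝ)
    (hρ : ρ ∈ hzBx (p.vo G.Q G.T0 ω + (a + 1 / 2) * p.dl (G.kf - 2 * z)) ((m + 2) * Λ * p.dl (G.kf - z))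
      (p.po (G.Qi G.kf i) (tmL G.kf i) ω + (c.2.2 + 1 / 2) * p.ql G.kf
        - (tmL G.kf i - tmL (G.kf - z) (ancI G.kf (G.kf - z) i)) * (p.vo G.Q G.T0 ω + (a + 1 / 2) * p.dl (G.kf - 2 * z)))
      ((2 * m + 5) * ((m + 2) * Λ) * p.ql (G.kf - 2 * z))) :
    (ω, ρ) ∈ hzWn p G.Q G.T0 (G.kf - z) z (2 * G.s ^ (-τ)) (p.ql (G.kf - 2 * z)) i (c.1, c.2.1) (c.2.2 / 2 ^ z) := by
  have hkf : 2 * z ≤ G.kf := hz.trans (Nat.le_add_left _ _)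
  obtain ⟨n1, n2, n3, n4, n5, n6⟩ := hz_li_num p hG.par G.kf z hkf
  obtain ⟨s1, s2, s3⟩ := hz_li_fa_supp G τ _ n6 a ω ρ0 h0
  obtain ⟨t1, t2, -, t4⟩ := hz_anc_time (G.kf - z) G.kf G.kf i (Nat.sub_le _ _) le_rfl
  rw [t4] at t1 t2
  have hkz : G.kf - z + z = G.kf := by omega
  obtain ⟨TJ, hTJ⟩ : ∃ TJ : ℝ, TJ = tmL (G.kf - z) (ancI G.kf (G.kf - z) i) := ⟨_, rfl⟩
  rw [← hTJ] at t1 t2 hρ
  have hA : |((a : ℝ) + 1 / 2) * p.dl (G.kf - 2 * z)| ≤ G.s ^ (-τ) * G.Q.f + p.dl (G.kf - 2 * z) / 2 := by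
    have e : ((a : ℝ) + 1 / 2) * p.dl (G.kf - 2 * z)
        = (ρ0.2 - p.vo G.Q G.T0 ω) - (ρ0.2 - (p.vo G.Q G.T0 ω + (a + 1 / 2) * p.dl (G.kf - 2 * z))) := by ring
    rw [e]
    exact (abs_sub _ _).trans (add_le_add s2 s1)
  have hvo : p.vo (hzFr G.Q (TJ - G.T0)) TJ ω = p.vo G.Q G.T0 ω := by
    have := hz_vo_fr p G.Q G.T0 (TJ - G.T0) ω
    rwa [show G.T0 + (TJ - G.T0) = TJ by ring] at this
  have hpJ : p.po (hzFr G.Q (TJ - G.T0)) TJ ω = p.po G.Q G.T0 ω + (TJ - G.T0) * p.vo G.Q G.T0 ω := by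
    have := hz_po_fr p G.Q G.T0 (TJ - G.T0) ω
    rwa [show G.T0 + (TJ - G.T0) = TJ by ring] at this
  have hpi : p.po (G.Qi G.kf i) (tmL G.kf i) ω = p.po G.Q G.T0 ω + (tmL G.kf i - G.T0) * p.vo G.Q G.T0 ω := by
    have := hz_po_fr p G.Q G.T0 (tmL G.kf i - G.T0) ω
    rwa [show G.T0 + (tmL G.kf i - G.T0) = tmL G.kf i by ring] at this
  have hβ1 : ((c.2.2 / 2 ^ z : ℤ) : ℝ) * 2 ^ z ≤ c.2.2 := by
    have := Int.ediv_mul_le c.2.2 (show (2 ^ z : ℤ) ≠ 0 by positivity)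
    exact_mod_cast this
  have hβ2 : (c.2.2 : ℝ) + 1 ≤ (((c.2.2 / 2 ^ z : ℤ) : ℝ) + 1) * 2 ^ z := by
    have := Int.lt_ediv_add_one_mul_self c.2.2 (show (0 : ℤ) < 2 ^ z by positivity)
    exact_mod_cast this
  have hmΛ : (0 : ℝ) ≤ (m + 2) * Λ := by positivity
  have key := hz_li_geo_num (M := (2 * m + 5) * ((m + 2) * Λ)) (S := G.s ^ (-τ)) (f := G.Q.f) (lr := (2 : ℝ)⁻¹ ^ (G.kf - z))
    (ds := p.dl (G.kf - 2 * z)) (dr := p.dl (G.kf - z)) (df := p.dl G.kf) (qs := p.ql (G.kf - 2 * z)) (qf := p.ql G.kf)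
    (A := ((a : ℝ) + 1 / 2) * p.dl (G.kf - 2 * z)) (t := tmL G.kf i - TJ) (N := ρ.2) (vo := p.vo G.Q G.T0 ω) (D := ρ.1)
    (pi := p.po (G.Qi G.kf i) (tmL G.kf i) ω) (pJ := p.po (hzFr G.Q (TJ - G.T0)) TJ ω) (b := c.2.2) (β := c.2.2 / 2 ^ z) (z := z)
    (ML := (m + 2) * Λ) hmΛ (by nlinarith) hs hG.f_pos (by positivity) n3 n4 hG.pl_hi n1 n2 n5 hA (by linarith)
    (by have : (0 : ℝ) < (2 : ℝ)⁻¹ ^ G.kf := by positivity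
        linarith) rfl hρ.1 rfl (by rw [hpi, hpJ]; ring) rfl hρ.2 hβ1 hβ2
  refine ⟨s3.trans (by linarith [hG.r_pos]), ?_, ?_, ?_⟩
  · rw [hkz]
    exact hω
  · rw [hkz, ← hTJ, hz_vo, hvo]
    exact key.1
  · rw [hkz, ← hTJ, hz_po]
    exact key.2

/-! ### measurability -/

theorem hz_li_cg_meas (G : HzGr η p) (h : p.Ok) (τ : ℝ) (ks : ℕ) (a : ℤ) : MeasurableSet (G.cg τ ks a) := by
  have h1 : MeasurableSet (G.cap ks a) :=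
    (Int.measurable_floor.comp ((hy_tl_mVel p h G.Q G.T0).div_const _)) (measurableSet_singleton a)
  have h2 : MeasurableSet {x : p.Om × ℝ × ℝ | |(p.co G.T0 x).X - G.Q.x| ≤ G.Q.r / 2} :=
    measurableSet_le ((hy_tl_mX p h G.T0).sub_const _).abs measurable_const
  have h3 : MeasurableSet {x : p.Om × ℝ × ℝ | |cyVel G.Q (p.co G.T0 x)| ≤ G.s ^ (-τ) * G.Q.f} :=
    measurableSet_le (hy_tl_mVel p h G.Q G.T0).abs measurable_const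
  have h4 : MeasurableSet {x : p.Om × ℝ × ℝ | |cyPos G.Q (p.co G.T0 x)| ≤ G.s ^ (-τ) * (G.l0 * G.Q.f)} :=
    measurableSet_le (hy_tl_mPos p h G.Q G.T0).abs measurable_const
  exact h1.inter (h2.inter (h3.inter h4))

theorem hz_li_sq_meas' (p : ChyPar) (h : p.Ok) (Q : CyT) (T l : ℝ) (d : ℤ × ℤ) :
    MeasurableSet {x : p.Om × ℝ × ℝ | (⌊(cyBase Q l (p.co T x)).2.1⌋, ⌊(cyBase Q l (p.co T x)).2.2⌋) = d} := by
  have hb := hy_tl_mBase p h Q T l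
  have h1 : Measurable fun x : p.Om × ℝ × ℝ => (⌊(cyBase Q l (p.co T x)).2.1⌋, ⌊(cyBase Q l (p.co T x)).2.2⌋) :=
    (Int.measurable_floor.comp (measurable_fst.comp (measurable_snd.comp hb))).prodMk
      (Int.measurable_floor.comp (measurable_snd.comp (measurable_snd.comp hb)))
  exact h1 (measurableSet_singleton d)

theorem hz_li_sq_meas (G : HzGr η p) (h : p.Ok) (i : ℕ) (d : ℤ × ℤ) : MeasurableSet (G.sq i d) := hz_li_sq_meas' p h _ _ _ d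

theorem hz_li_cl_meas (G : HzGr η p) (h : p.Ok) (i : ℕ) (c : ℤ × ℤ × ℤ) : MeasurableSet (G.cl i c) := by
  have hb := hy_tl_mBase p h (G.Qi G.kf i) (tmL G.kf i) G.lf
  have h1 : Measurable fun x : p.Om × ℝ × ℝ => hzCell (G.Qi G.kf i) G.lf (p.ql G.kf) (p.co (tmL G.kf i) x) :=
    (Int.measurable_floor.comp (measurable_fst.comp (measurable_snd.comp hb))).prodMk
      ((Int.measurable_floor.comp (measurable_snd.comp (measurable_snd.comp hb))).prodMk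
        (Int.measurable_floor.comp ((hy_tl_mPos p h (G.Qi G.kf i) (tmL G.kf i)).div_const _)))
  exact h1 (measurableSet_singleton c)

theorem hz_li_wn_meas (p : ChyPar) (h : p.Ok) (Q : CyT) (T0 : ℝ) (kr z : ℕ) (W q : ℝ) (i : ℕ) (d : ℤ × ℤ) (β : ℤ) :
    MeasurableSet (hzWn p Q T0 kr z W q i d β) := by
  have h1 : MeasurableSet {x : p.Om × ℝ × ℝ | |p.X x.1 - Q.x| ≤ Q.r} :=
    measurableSet_le ((h.mX.comp measurable_fst).sub_const _).abs measurable_const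
  have h2 := hz_li_sq_meas' p h (hzFr Q (tmL (kr + z) i - T0)) (tmL (kr + z) i) ((2 : ℝ)⁻¹ ^ (kr + z)) d
  have h3 : MeasurableSet {x : p.Om × ℝ × ℝ | |cyVel (hzFr Q (tmL kr (ancI (kr + z) kr i) - T0)) (p.co (tmL kr (ancI (kr + z) kr i)) x)| ≤ W * Q.f} :=
    measurableSet_le (hy_tl_mVel p h _ _).abs measurable_const
  have h4 : MeasurableSet {x : p.Om × ℝ × ℝ | |cyPos (hzFr Q (tmL kr (ancI (kr + z) kr i) - T0)) (p.co (tmL kr (ancI (kr + z) kr i)) x) - β * q|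
      ≤ W * ((2 : ℝ)⁻¹ ^ kr * Q.f)} :=
    measurableSet_le ((hy_tl_mPos p h _ _).sub_const _).abs measurable_const
  exact h1.inter (h2.inter (h3.inter h4))

/-! ### the pointwise fibres of the caps -/

theorem hz_li_fa_mem (G : HzGr η p) (h : p.Ok) (τ : ℝ) (ks : ℕ) (a : ℤ) (ω : p.Om)
    (hF : MemLp (fun ρ => (G.F : p.Om × ℝ × ℝ → p.Fb) (ω, ρ)) 2 (p.fib ω).nu) : MemLp (G.fa τ ks a ω) 2 (p.fib ω).nu :=
  hF.indicator (measurable_prodMk_left (hz_li_cg_meas G h τ ks a))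

theorem hz_li_fa_sum (G : HzGr η p) (τ : ℝ) (ks : ℕ) (S : Finset ℤ) (ω : p.Om) (ρ : ℝ × ℝ) :
    ∑ a ∈ S, ‖G.fa τ ks a ω ρ‖ₑ ^ 2 ≤ ‖(G.F : p.Om × ℝ × ℝ → p.Fb) (ω, ρ)‖ₑ ^ 2 := by
  obtain ⟨a0, ha0⟩ : ∃ a0 : ℤ, a0 = ⌊cyVel G.Q (p.co G.T0 (ω, ρ)) / p.dl ks⌋ := ⟨_, rfl⟩
  have hz : ∀ a, a ≠ a0 → ‖G.fa τ ks a ω ρ‖ₑ ^ 2 = 0 := by
    intro a ha
    have : (ω, ρ) ∉ G.cg τ ks a := fun hc => ha (by rw [ha0]; exact hc.1.symm)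
    unfold HzGr.fa
    rw [Set.indicator_of_notMem this]
    simp
  have hle : ‖G.fa τ ks a0 ω ρ‖ₑ ^ 2 ≤ ‖(G.F : p.Om × ℝ × ℝ → p.Fb) (ω, ρ)‖ₑ ^ 2 := by
    unfold HzGr.fa
    by_cases hc : (ω, ρ) ∈ G.cg τ ks a0
    · rw [Set.indicator_of_mem hc]
    · rw [Set.indicator_of_notMem hc]
      simp
  by_cases hS : a0 ∈ S
  · rw [Finset.sum_eq_single_of_mem a0 hS fun b _ hb => hz b hb]
    exact hle
  · rw [Finset.sum_eq_zero fun b hb => hz b fun hc => hS (hc ▸ hb)]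
    exact bot_le

/-! ### (F1), (F): the fibre inequality -/

/-- **(F1)** one cap -/
theorem hz_li_one (η : ℝ) (m : ℕ) : ∃ K : ℕ, ∀ (p : ChyPar) (G : HzGr η p) (C : ℕ) (τ : ℝ) (z : ℕ) (Λ : ℝ) (i : ℕ) (c : ℤ × ℤ × ℤ),
    G.Ok C τ → G.st.length ≤ m → 2 * z ≤ G.n → 2 ≤ Λ → (2 * m + 5) * ((m + 2) * Λ) + 2 ≤ G.s ^ (-τ) → i ∈ ivs G.k0 G.i0 G.kf →
    ∀ (ω : p.Om) (a : ℤ), MemLp (fun ρ => (G.F : p.Om × ℝ × ℝ → p.Fb) (ω, ρ)) 2 (p.fib ω).nu →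
    ∫⁻ ρ in {ρ | (ω, ρ) ∈ G.cl i c}, ‖(p.fib ω).br G.kf i (G.st.map (p.fst η ω)) G.T0 G.k0 (G.fa τ (G.kf - 2 * z) a ω) ρ‖ₑ ^ 2 ∂(p.fib ω).nu
      ≤ ENNReal.ofReal (Λ ^ K * (2 : ℝ)⁻¹ ^ z) *
          ∫⁻ ρ in {ρ | (ω, ρ) ∈ hzWn p G.Q G.T0 (G.kf - z) z (2 * G.s ^ (-τ)) (p.ql (G.kf - 2 * z)) i (c.1, c.2.1) (c.2.2 / 2 ^ z)},
            ‖(p.fib ω).br (G.kf - z) (ancI G.kf (G.kf - z) i) (G.l1 (G.kf - 2 * z) ω) G.T0 G.k0 (G.fa τ (G.kf - 2 * z) a ω) ρ‖ₑ ^ 2 ∂(p.fib ω).nu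
        + ENNReal.ofReal (Λ ^ K * 2 ^ G.n * Real.exp (-(Λ ^ 2 / 40))) *
          ∫⁻ ρ in {ρ | (ω, ρ) ∈ G.sq i (c.1, c.2.1)}, ‖G.fa τ (G.kf - 2 * z) a ω ρ‖ₑ ^ 2 ∂(p.fib ω).nu := by
  obtain ⟨K, hK⟩ := hz_low_fib m
  refine ⟨K, fun p G C τ z Λ i c hG hm hz hΛ hs hi ω a hF => ?_⟩
  have hkf : 2 * z ≤ G.kf := hz.trans (Nat.le_add_left _ _)
  have hkn : G.kf = G.k0 + G.n := rfl
  obtain ⟨n1, n2, n3, n4, n5, n6⟩ := hz_li_num p hG.par G.kf z hkf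
  obtain ⟨f, hf⟩ : ∃ f : ℝ × ℝ → p.Fb, f = G.fa τ (G.kf - 2 * z) a ω := ⟨_, rfl⟩
  have hfm : MemLp f 2 (p.fib ω).nu := by rw [hf]; exact hz_li_fa_mem G hG.par τ _ a ω hF
  rw [← hf]
  by_cases hf0 : ∀ ρ, f ρ = 0
  · have e : f = fun _ => 0 := funext hf0
    rw [e]
    simp only [hz_br_zero]
    simp
  push Not at hf0
  obtain ⟨ρ0, h0⟩ := hf0
  by_cases hω : (ω, ρ0) ∈ G.sq i (c.1, c.2.1)
  swap
  · have e : {ρ | (ω, ρ) ∈ G.cl i c} = (∅ : Set (ℝ × ℝ)) := by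
      ext ρ
      simp only [Set.mem_ofPred_eq, Set.mem_empty_iff_false, iff_false]
      exact fun hc => hω (hz_li_cell G n5 i c ω ρ hc).1
    rw [e]
    simp
  obtain ⟨k1, k2, k3, k4⟩ := hz_li_stk G C τ hG (G.kf - 2 * z) ω
  have hsup : ∀ ρ, f ρ ≠ 0 → |ρ.2 - (p.vo G.Q G.T0 ω + (a + 1 / 2) * p.dl (G.kf - 2 * z))| ≤ (p.fib ω).d (G.kf - 2 * z) := by
    intro ρ hρ
    rw [hf] at hρ
    refine (hz_li_fa_supp G τ _ n6 a ω ρ hρ).1.trans ?_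
    show p.dl (G.kf - 2 * z) / 2 ≤ p.dl (G.kf - 2 * z)
    linarith
  have key := hK p.Fb (p.fib ω) (hy_fib_ok p hG.par ω) G.k0 G.i0 (G.kf - 2 * z) (G.kf - z) G.kf (by omega) (by omega) (by omega)
    (G.l1 (G.kf - 2 * z) ω) (G.l2 (G.kf - 2 * z) ω) k1 k2 (by omega) (p.vo G.Q G.T0 ω + (a + 1 / 2) * p.dl (G.kf - 2 * z)) Λ hΛ f hfm hsup i hi
    (p.po (G.Qi G.kf i) (tmL G.kf i) ω + (c.2.2 + 1 / 2) * p.ql G.kf) (p.ql G.kf / 2) (by linarith)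
    (by show p.ql G.kf / 2 ≤ p.ql G.kf; linarith)
  rw [← k3] at key
  refine (lintegral_mono_set fun ρ hρ => (hz_li_cell G n5 i c ω ρ hρ).2).trans (key.trans ?_)
  refine add_le_add (mul_le_mul' (ENNReal.ofReal_le_ofReal ?_) (lintegral_mono_set fun ρ hρ => ?_)) (mul_le_mul' (le_of_eq ?_) (le_of_eq ?_))
  · refine mul_le_mul_of_nonneg_left ?_ (by positivity)
    show p.ql G.kf / 2 / p.ql (G.kf - 2 * z) ≤ (2 : ℝ)⁻¹ ^ z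
    rw [n1, inv_pow, div_le_iff₀ (by positivity)]
    have : ((2 : ℝ) ^ z)⁻¹ * (2 ^ z * p.ql G.kf) = p.ql G.kf := by
      rw [← mul_assoc, inv_mul_cancel₀ (by positivity), one_mul]
    rw [this]
    linarith
  · rw [hf] at h0
    exact hz_li_geo G C τ hG m z Λ hz hΛ hs i c a ω ρ0 h0 hω ρ hρ
  · rw [hkn, Nat.add_sub_cancel_left]
  · have e : {ρ | (ω, ρ) ∈ G.sq i (c.1, c.2.1)} = (Set.univ : Set (ℝ × ℝ)) := by
      ext ρ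
      simp only [Set.mem_ofPred_eq, Set.mem_univ, iff_true]
      exact hω
    rw [e, Measure.restrict_univ]

theorem hz_li_ind_sec {α β : Type*} (S : Set (α × β)) (g : α × β → ℝ≥0∞) (ω : α) (ρ : β) :
    S.indicator g (ω, ρ) = ({ρ | (ω, ρ) ∈ S} : Set β).indicator (fun ρ => g (ω, ρ)) ρ := rfl

theorem hz_li_br_aem (G : HzGr η p) (h : p.Ok) (τ : ℝ) (ks : ℕ) (a : ℤ) (ω : p.Om)
    (hF : MemLp (fun ρ => (G.F : p.Om × ℝ × ℝ → p.Fb) (ω, ρ)) 2 (p.fib ω).nu) (k' i : ℕ) (l : List HyStg) (hl : ∀ σ ∈ l, σ.Ok) :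
    AEMeasurable (fun ρ => ‖(p.fib ω).br k' i l G.T0 G.k0 (G.fa τ ks a ω) ρ‖ₑ ^ 2) (p.fib ω).nu :=
  ((hz_br_contr' (p.fib ω) (hy_fib_ok p h ω) k' i l hl G.T0 G.k0 _ (hz_li_fa_mem G h τ ks a ω hF)).1.1.enorm).pow_const 2

/-- **(F)** the fibre inequality summed over the caps, in the form in which it is integrated -/
theorem hz_li_fib (η : ℝ) (m : ℕ) : ∃ K : ℕ, ∀ (p : ChyPar) (G : HzGr η p) (C : ℕ) (τ : ℝ) (z : ℕ) (Λ : ℝ) (i : ℕ) (c : ℤ × ℤ × ℤ) (S : Finset ℤ),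
    G.Ok C τ → G.st.length ≤ m → 2 * z ≤ G.n → 2 ≤ Λ → (2 * m + 5) * ((m + 2) * Λ) + 2 ≤ G.s ^ (-τ) → i ∈ ivs G.k0 G.i0 G.kf →
    ∀ (ω : p.Om), MemLp (fun ρ => (G.F : p.Om × ℝ × ℝ → p.Fb) (ω, ρ)) 2 (p.fib ω).nu →
    ∫⁻ ρ, ∑ a ∈ S, (G.cl i c).indicator
        (fun x => ‖(p.fib x.1).br G.kf i (G.st.map (p.fst η x.1)) G.T0 G.k0 (G.fa τ (G.kf - 2 * z) a x.1) x.2‖ₑ ^ 2) (ω, ρ) ∂(p.fib ω).nu
      ≤ ∫⁻ ρ, (ENNReal.ofReal (Λ ^ K * (2 : ℝ)⁻¹ ^ z) *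
          (hzWn p G.Q G.T0 (G.kf - z) z (2 * G.s ^ (-τ)) (p.ql (G.kf - 2 * z)) i (c.1, c.2.1) (c.2.2 / 2 ^ z)).indicator
            (fun x => ∑ a ∈ S, ‖(p.fib x.1).br (G.kf - z) (ancI G.kf (G.kf - z) i) (G.l1 (G.kf - 2 * z) x.1) G.T0 G.k0
              (G.fa τ (G.kf - 2 * z) a x.1) x.2‖ₑ ^ 2) (ω, ρ)
        + ENNReal.ofReal (Λ ^ K * 2 ^ G.n * Real.exp (-(Λ ^ 2 / 40))) *
          (G.sq i (c.1, c.2.1)).indicator (fun x => ‖(G.F : p.Om × ℝ × ℝ → p.Fb) x‖ₑ ^ 2) (ω, ρ)) ∂(p.fib ω).nu := by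
  obtain ⟨K, hK⟩ := hz_li_one η m
  refine ⟨K, fun p G C τ z Λ i c S hG hm hz hΛ hs hi ω hF => ?_⟩
  obtain ⟨k1, k2, k3, k4⟩ := hz_li_stk G C τ hG (G.kf - 2 * z) ω
  have hst : ∀ σ ∈ G.st.map (p.fst η ω), σ.Ok := by
    intro σ hσ
    obtain ⟨σ', h1, rfl⟩ := List.mem_map.1 hσ
    exact hz_li_fst_ok σ' (hG.msk σ' h1) ω
  have mcl : MeasurableSet {ρ : ℝ × ℝ | (ω, ρ) ∈ G.cl i c} := measurable_prodMk_left (hz_li_cl_meas G hG.par i c)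
  have mwn : MeasurableSet {ρ : ℝ × ℝ | (ω, ρ) ∈ hzWn p G.Q G.T0 (G.kf - z) z (2 * G.s ^ (-τ)) (p.ql (G.kf - 2 * z)) i (c.1, c.2.1) (c.2.2 / 2 ^ z)} :=
    measurable_prodMk_left (hz_li_wn_meas p hG.par _ _ _ _ _ _ _ _ _)
  have msq : MeasurableSet {ρ : ℝ × ℝ | (ω, ρ) ∈ G.sq i (c.1, c.2.1)} := measurable_prodMk_left (hz_li_sq_meas G hG.par i _)
  have a1 := fun a => hz_li_br_aem G hG.par τ (G.kf - 2 * z) a ω hF G.kf i _ hst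
  have a2 := fun a => hz_li_br_aem G hG.par τ (G.kf - 2 * z) a ω hF (G.kf - z) (ancI G.kf (G.kf - z) i) _ k1.ok
  -- the left side
  have eL : ∫⁻ ρ, ∑ a ∈ S, (G.cl i c).indicator
        (fun x => ‖(p.fib x.1).br G.kf i (G.st.map (p.fst η x.1)) G.T0 G.k0 (G.fa τ (G.kf - 2 * z) a x.1) x.2‖ₑ ^ 2) (ω, ρ) ∂(p.fib ω).nu
      = ∑ a ∈ S, ∫⁻ ρ in {ρ | (ω, ρ) ∈ G.cl i c},
          ‖(p.fib ω).br G.kf i (G.st.map (p.fst η ω)) G.T0 G.k0 (G.fa τ (G.kf - 2 * z) a ω) ρ‖ₑ ^ 2 ∂(p.fib ω).nu := by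
    simp only [hz_li_ind_sec]
    rw [lintegral_finsetSum' S fun a _ => (a1 a).indicator mcl]
    refine Finset.sum_congr rfl fun a _ => ?_
    exact lintegral_indicator mcl _
  -- the right side
  have eW : ∫⁻ ρ, (hzWn p G.Q G.T0 (G.kf - z) z (2 * G.s ^ (-τ)) (p.ql (G.kf - 2 * z)) i (c.1, c.2.1) (c.2.2 / 2 ^ z)).indicator
            (fun x => ∑ a ∈ S, ‖(p.fib x.1).br (G.kf - z) (ancI G.kf (G.kf - z) i) (G.l1 (G.kf - 2 * z) x.1) G.T0 G.k0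
              (G.fa τ (G.kf - 2 * z) a x.1) x.2‖ₑ ^ 2) (ω, ρ) ∂(p.fib ω).nu
      = ∑ a ∈ S, ∫⁻ ρ in {ρ | (ω, ρ) ∈ hzWn p G.Q G.T0 (G.kf - z) z (2 * G.s ^ (-τ)) (p.ql (G.kf - 2 * z)) i (c.1, c.2.1) (c.2.2 / 2 ^ z)},
            ‖(p.fib ω).br (G.kf - z) (ancI G.kf (G.kf - z) i) (G.l1 (G.kf - 2 * z) ω) G.T0 G.k0 (G.fa τ (G.kf - 2 * z) a ω) ρ‖ₑ ^ 2 ∂(p.fib ω).nu := by
    simp only [hz_li_ind_sec]
    rw [← lintegral_finsetSum' S fun a _ => (a2 a).restrict]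
    exact lintegral_indicator mwn _
  have eQ : ∑ a ∈ S, ∫⁻ ρ in {ρ | (ω, ρ) ∈ G.sq i (c.1, c.2.1)}, ‖G.fa τ (G.kf - 2 * z) a ω ρ‖ₑ ^ 2 ∂(p.fib ω).nu
      ≤ ∫⁻ ρ, (G.sq i (c.1, c.2.1)).indicator (fun x => ‖(G.F : p.Om × ℝ × ℝ → p.Fb) x‖ₑ ^ 2) (ω, ρ) ∂(p.fib ω).nu := by
    rw [← lintegral_finsetSum' S fun a _ => (((hz_li_fa_mem G hG.par τ _ a ω hF).1.enorm).pow_const 2).restrict]
    refine le_trans (lintegral_mono fun ρ => hz_li_fa_sum G τ _ S ω ρ) (le_of_eq ?_)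
    simp only [hz_li_ind_sec]
    exact (lintegral_indicator msq _).symm
  rw [eL]
  refine le_trans ?_ (le_lintegral_add _ _)
  refine le_trans ?_ (add_le_add (lintegral_const_mul_le _ _) (lintegral_const_mul_le _ _))
  rw [eW]
  refine le_trans (Finset.sum_le_sum fun a _ => hK p G C τ z Λ i c hG hm hz hΛ hs hi ω a hF) ?_
  rw [Finset.sum_add_distrib, ← Finset.mul_sum, ← Finset.mul_sum]
  exact add_le_add le_rfl (mul_le_mul' le_rfl eQ)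

/-! ### (R1), (R2): the rows -/

/-- the rows of a cap are a.e. their pointwise version -/
theorem hz_li_fc (G : HzGr η p) (C : ℕ) (τ : ℝ) (hG : G.Ok C τ) (ks : ℕ) (a : ℤ) :
    ∀ᵐ x ∂p.rw, (G.Fc ks a : p.Om × ℝ × ℝ → p.Fb) x = G.fa τ ks a x.1 x.2 := by
  have hc : MeasurableSet (G.cap ks a) :=
    (Int.measurable_floor.comp ((hy_tl_mVel p hG.par G.Q G.T0).div_const _)) (measurableSet_singleton a)
  have h1 := hy_i3_mulR p η G.k0 (gn_mask_ind hc) G.F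
  filter_upwards [h1, hG.sup] with x e1 e2
  have e1' : (G.Fc ks a : p.Om × ℝ × ℝ → p.Fb) x = (((G.cap ks a).indicator (fun _ => (1 : ℝ)) x : ℝ) : ℂ) • (G.F : p.Om × ℝ × ℝ → p.Fb) x := e1
  rw [e1']
  show _ = (G.cg τ ks a).indicator (G.F : p.Om × ℝ × ℝ → p.Fb) x
  by_cases hx : x ∈ G.cap ks a
  · rw [Set.indicator_of_mem hx]
    by_cases hg : p.co G.T0 x ∈ hzGp G.Q G.l0 (G.s ^ (-τ))
    · rw [Set.indicator_of_mem (show x ∈ G.cg τ ks a from ⟨hx, hg⟩)]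
      simp
    · rw [Set.indicator_of_notMem (show x ∉ G.cg τ ks a from fun h => hg h.2)]
      have : (G.F : p.Om × ℝ × ℝ → p.Fb) x = 0 := by
        by_contra h0
        exact hg (e2 h0)
      rw [this, smul_zero]
  · rw [Set.indicator_of_notMem hx, Set.indicator_of_notMem (show x ∉ G.cg τ ks a from fun h => hx h.1)]
    simp

/-- the same in almost every fibre -/
theorem hz_li_fc_fib (G : HzGr η p) (C : ℕ) (τ : ℝ) (hG : G.Ok C τ) (ks : ℕ) (a : ℤ) :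
    ∀ᵐ ω ∂p.m, (fun ρ => (G.Fc ks a : p.Om × ℝ × ℝ → p.Fb) (ω, ρ)) =ᵐ[(p.fib ω).nu] G.fa τ ks a ω :=
  hy_i3_fib_ae p hG.par (hz_li_fc G C τ hG ks a)

/-- **(R1)** the final rows of the state of a cap -/
theorem hz_li_rows1 (G : HzGr η p) (C : ℕ) (τ : ℝ) (hG : G.Ok C τ) (ks : ℕ) (a : ℤ) (i : ℕ) :
    (p.an (tmL G.kf i) G.kf (Xp.run (P := p.sys η) G.kf i G.st (G.vc ks a)) : p.Om × ℝ × ℝ → p.Fb)
      =ᵐ[p.rw] fun x => (p.fib x.1).br G.kf i (G.st.map (p.fst η x.1)) G.T0 G.k0 (G.fa τ ks a x.1) x.2 := by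
  have h1 := hy_run_rows p hG.par η G.kf i G.st hG.msk G.T0 G.k0 (G.Fc ks a)
  have h3 := hy_i3_lift_ae p (hz_li_fc_fib G C τ hG ks a)
  filter_upwards [h1, h3] with x e1 e3
  refine Eq.trans e1 ?_
  rw [hy_i3_br_congr _ _ _ _ _ _ e3]

theorem hz_li_mlt_ok (p : ChyPar) (h : p.Ok) (K : ℕ) : (p.mlt K).Ok := ⟨h.sf, h.mX, h.mB, h.mY, h.mS, h.sg_rg, h.H_pos⟩

theorem hz_li_reindex {M : Type*} [AddCommMonoid M] (Kc : ℕ) (g : ℤ → M) :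
    ∑ a : Fin (2 * Kc + 1), g ((a : ℤ) - Kc) = ∑ a ∈ Finset.Icc (-(Kc : ℤ)) Kc, g a := by
  refine Finset.sum_bij' (fun a _ => ((a : ℕ) : ℤ) - Kc) (fun b hb => ⟨(b + Kc).toNat, ?_⟩) ?_ ?_ ?_ ?_ ?_
  · have := Finset.mem_Icc.1 hb
    omega
  · intro a _
    have := a.2
    rw [Finset.mem_Icc]
    omega
  · intro b _
    exact Finset.mem_univ _
  · intro a _
    ext
    simp
  · intro b hb
    have := Finset.mem_Icc.1 hb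
    simp only
    omega
  · intro a _
    rfl

/-- the vector of the cap rows -/
theorem hz_li_vec (G : HzGr η p) (ks Kc : ℕ) :
    (G.vec ks Kc : p.Om × ℝ × ℝ → PiLp 2 (fun _ : Fin (2 * Kc + 1) => p.Fb)) =ᵐ[p.rw]
      fun x => WithLp.toLp 2 (fun a : Fin (2 * Kc + 1) => (G.Fc ks ((a : ℤ) - Kc) : p.Om × ℝ × ℝ → p.Fb) x) := by
  have h : MemLp (fun x => (WithLp.toLp 2 (fun a : Fin (2 * Kc + 1) => (G.Fc ks ((a : ℤ) - Kc) : p.Om × ℝ × ℝ → p.Fb) x) :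
      PiLp 2 (fun _ : Fin (2 * Kc + 1) => p.Fb))) 2 p.rw :=
    MemLp.of_eval_piLp fun a => Lp.memLp (G.Fc ks ((a : ℤ) - Kc))
  unfold HzGr.vec
  rw [dif_pos h]
  exact h.coeFn_toLp

/-- the fibres of the vector of the cap rows -/
theorem hz_li_vec_fib (G : HzGr η p) (C : ℕ) (τ : ℝ) (hG : G.Ok C τ) (ks Kc : ℕ) :
    ∀ᵐ ω ∂p.m, (fun ρ => (G.vec ks Kc : p.Om × ℝ × ℝ → PiLp 2 (fun _ : Fin (2 * Kc + 1) => p.Fb)) (ω, ρ)) =ᵐ[(p.fib ω).nu]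
      fun ρ => WithLp.toLp 2 (fun a : Fin (2 * Kc + 1) => G.fa τ ks ((a : ℤ) - Kc) ω ρ) := by
  have h1 : ∀ᵐ x ∂p.rw, ∀ a : Fin (2 * Kc + 1), (G.Fc ks ((a : ℤ) - Kc) : p.Om × ℝ × ℝ → p.Fb) x = G.fa τ ks ((a : ℤ) - Kc) x.1 x.2 :=
    ae_all_iff.2 fun a => hz_li_fc G C τ hG ks _
  have h2 : ∀ᵐ x ∂p.rw, (G.vec ks Kc : p.Om × ℝ × ℝ → PiLp 2 (fun _ : Fin (2 * Kc + 1) => p.Fb)) x
      = WithLp.toLp 2 (fun a : Fin (2 * Kc + 1) => G.fa τ ks ((a : ℤ) - Kc) x.1 x.2) := by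
    filter_upwards [hz_li_vec G ks Kc, h1] with x e1 e2
    rw [e1]
    congr 1
    funext a
    exact e2 a
  exact hy_i3_fib_ae p hG.par h2

/-- **(R2)** the energy density of the rows of `E'.fin J` -/
theorem hz_li_rows2 (G : HzGr η p) (C : ℕ) (τ : ℝ) (hG : G.Ok C τ) (ks kr Kc : ℕ) (κ' : ℝ) (hk : G.k0 ≤ kr) (J : ℕ) :
    ∀ᵐ x ∂p.rw, ‖((p.mlt (2 * Kc + 1)).an (tmL kr J) kr ((G.xq ks kr Kc κ').fin J) :
        p.Om × ℝ × ℝ → PiLp 2 (fun _ : Fin (2 * Kc + 1) => p.Fb)) x‖ₑ ^ 2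
      = ∑ a ∈ Finset.Icc (-(Kc : ℤ)) Kc, ‖(p.fib x.1).br kr J (G.l1 ks x.1) G.T0 G.k0 (G.fa τ ks a x.1) x.2‖ₑ ^ 2 := by
  have h' := hz_li_mlt_ok p hG.par (2 * Kc + 1)
  have hkf : (G.xq ks kr Kc κ').kf = kr := by
    show G.k0 + (kr - G.k0) = kr
    omega
  have hst : ∀ σ ∈ (G.xq ks kr Kc κ').st, ∀ j, IsMask (σ.M j) := by
    intro σ hσ j
    obtain ⟨σ', h1, rfl⟩ := List.mem_map.1 hσ
    exact hG.msk σ' (List.mem_filter.1 h1).1 j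
  have h1 := hy_run_rows (p.mlt (2 * Kc + 1)) h' η kr J (G.xq ks kr Kc κ').st hst G.T0 G.k0 (G.vec ks Kc)
  have h2 := hy_i3_lift_ae p (hz_li_vec_fib G C τ hG ks Kc)
  have h3 := hy_i3_lift_ae p (hy_adj_F_ae p hG.par G.F)
  have hfin : (G.xq ks kr Kc κ').fin J = Xp.run (P := (p.mlt (2 * Kc + 1)).sys η) kr J (G.xq ks kr Kc κ').st
      (ContinuousLinearMap.adjoint ((p.mlt (2 * Kc + 1)).an G.T0 G.k0) (G.vec ks Kc)) := by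
    unfold Xp.fin
    rw [hkf]
    rfl
  rw [hfin]
  filter_upwards [h1, h2, h3] with x e1 e2 e3
  have hl : (G.xq ks kr Kc κ').st.map ((p.mlt (2 * Kc + 1)).fst η x.1) = G.l1 ks x.1 := by
    show ((G.st.filter fun σ => decide (σ.k ≤ ks)).map (p.stM η (2 * Kc + 1))).map ((p.mlt (2 * Kc + 1)).fst η x.1) = _
    rw [List.map_map]
    exact List.map_congr_left fun σ _ => rfl
  have e1' : ((p.mlt (2 * Kc + 1)).an (tmL kr J) kr (Xp.run (P := (p.mlt (2 * Kc + 1)).sys η) kr J (G.xq ks kr Kc κ').st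
      (ContinuousLinearMap.adjoint ((p.mlt (2 * Kc + 1)).an G.T0 G.k0) (G.vec ks Kc))) :
        p.Om × ℝ × ℝ → PiLp 2 (fun _ : Fin (2 * Kc + 1) => p.Fb)) x
      = (p.fib x.1).br kr J (G.l1 ks x.1) G.T0 G.k0
          (fun ρ => (G.vec ks Kc : p.Om × ℝ × ℝ → PiLp 2 (fun _ : Fin (2 * Kc + 1) => p.Fb)) (x.1, ρ)) x.2 := by
    rw [← hl]
    exact e1
  rw [e1', hy_i3_br_congr _ _ _ _ _ _ e2]
  have hm : MemLp (fun ρ => (WithLp.toLp 2 (fun a : Fin (2 * Kc + 1) => G.fa τ ks ((a : ℤ) - Kc) x.1 ρ) :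
      PiLp 2 (fun _ : Fin (2 * Kc + 1) => p.Fb))) 2 (p.fib x.1).nu :=
    MemLp.of_eval_piLp fun a => hz_li_fa_mem G hG.par τ ks _ x.1 e3
  rw [hz_br_pi (2 * Kc + 1) (p.fib x.1) (hy_fib_ok p hG.par x.1) kr J (G.l1 ks x.1) (hz_li_stk G C τ hG ks x.1).1.ok G.T0 G.k0 _ hm x.2]
  exact hz_li_reindex Kc fun a => ‖(p.fib x.1).br kr J (G.l1 ks x.1) G.T0 G.k0 (G.fa τ ks a x.1) x.2‖ₑ ^ 2

/-! ### (I): integration over the exact index -/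

theorem hz_li_ind_congr {X : Type*} [MeasurableSpace X] {μ : Measure X} {S : Set X} (hS : MeasurableSet S) {f g : X → ℝ≥0∞}
    (hf : AEMeasurable f μ) (h : f =ᵐ[μ] g) : AEMeasurable (S.indicator g) μ ∧ ∫⁻ x in S, f x ∂μ = ∫⁻ x, S.indicator g x ∂μ := by
  refine ⟨(hf.congr h).indicator hS, ?_⟩
  rw [lintegral_indicator hS]
  exact lintegral_congr_ae (ae_restrict_of_ae h)

/-- the local energy of a row function -/
theorem hz_li_loc_en {X : Type*} [MeasurableSpace X] {μ : Measure X} {E : Type*} [NormedAddCommGroup E] (F : Lp E 2 μ) {S : Set X} (hS : MeasurableSet S) :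
    AEMeasurable (S.indicator fun x => ‖(F : X → E) x‖ₑ ^ 2) μ ∧
      ENNReal.ofReal (∫ x in S, ‖(F : X → E) x‖ ^ 2 ∂μ) = ∫⁻ x, S.indicator (fun x => ‖(F : X → E) x‖ₑ ^ 2) x ∂μ := by
  refine ⟨((Lp.aestronglyMeasurable F).enorm.pow_const 2).indicator hS, ?_⟩
  rw [lintegral_indicator hS, ofReal_integral_eq_lintegral_ofReal (Lp.memLp F).norm.integrable_sq.restrict
    (Filter.Eventually.of_forall fun x => by positivity)]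
  refine lintegral_congr fun x => ?_
  rw [ENNReal.ofReal_pow (norm_nonneg _), ofReal_norm]

/-- **(I) = (LI)** -/
theorem hz_li_main (η : ℝ) (m : ℕ) : ∃ K : ℕ, ∀ (p : ChyPar) (G : HzGr η p) (C : ℕ) (τ : ℝ) (z : ℕ) (Λ : ℝ) (Kc : ℕ) (κ' : ℝ) (i : ℕ) (c : ℤ × ℤ × ℤ),
    G.Ok C τ → 0 ≤ τ → G.st.length ≤ m → 2 * z ≤ G.n → 2 ≤ Λ → (2 * m + 5) * ((m + 2) * Λ) + 2 ≤ G.s ^ (-τ) → i ∈ ivs G.k0 G.i0 G.kf →
    ∑ a ∈ Finset.Icc (-(Kc : ℤ)) Kc, G.mf (G.vc (G.kf - 2 * z) a) i (G.cl i c)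
      ≤ Λ ^ K * (2 : ℝ)⁻¹ ^ z * ((p.mlt (2 * Kc + 1)).sys η).ms (tmL (G.kf - z) (ancI G.kf (G.kf - z) i)) (G.kf - z) 0
            (hzWn (p.mlt (2 * Kc + 1)) G.Q G.T0 (G.kf - z) z (2 * G.s ^ (-τ)) (p.ql (G.kf - 2 * z)) i (c.1, c.2.1) (c.2.2 / 2 ^ z))
            ((G.xq (G.kf - 2 * z) (G.kf - z) Kc κ').fin (ancI G.kf (G.kf - z) i))
        + Λ ^ K * 2 ^ G.n * Real.exp (-(Λ ^ 2 / 40)) * ∫ x in G.sq i (c.1, c.2.1), ‖(G.F : p.Om × ℝ × ℝ → p.Fb) x‖ ^ 2 ∂p.rw := by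
  obtain ⟨K, hK⟩ := hz_li_fib η m
  refine ⟨K, fun p G C τ z Λ Kc κ' i c hG _ hm hz hΛ hs hi => ?_⟩
  have hp := hG.par
  have hp' := hz_li_mlt_ok p hp (2 * Kc + 1)
  have hkn : G.kf = G.k0 + G.n := rfl
  have mcl := hz_li_cl_meas G hp i c
  have mwn := hz_li_wn_meas p hp G.Q G.T0 (G.kf - z) z (2 * G.s ^ (-τ)) (p.ql (G.kf - 2 * z)) i (c.1, c.2.1) (c.2.2 / 2 ^ z)
  have msq := hz_li_sq_meas G hp i (c.1, c.2.1)
  -- the left side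
  have A : ∀ a, AEMeasurable ((G.cl i c).indicator fun x =>
        ‖(p.fib x.1).br G.kf i (G.st.map (p.fst η x.1)) G.T0 G.k0 (G.fa τ (G.kf - 2 * z) a x.1) x.2‖ₑ ^ 2) p.rw ∧
      ENNReal.ofReal (G.mf (G.vc (G.kf - 2 * z) a) i (G.cl i c)) = ∫⁻ x, (G.cl i c).indicator (fun x =>
        ‖(p.fib x.1).br G.kf i (G.st.map (p.fst η x.1)) G.T0 G.k0 (G.fa τ (G.kf - 2 * z) a x.1) x.2‖ₑ ^ 2) x ∂p.rw := by
    intro a
    have h1 := hz_li_rows1 G C τ hG (G.kf - 2 * z) a i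
    have h2 := hz_li_ind_congr mcl ((Lp.aestronglyMeasurable (p.an (tmL G.kf i) G.kf
      (Xp.run (P := p.sys η) G.kf i G.st (G.vc (G.kf - 2 * z) a)))).enorm.pow_const 2)
      (g := fun x => ‖(p.fib x.1).br G.kf i (G.st.map (p.fst η x.1)) G.T0 G.k0 (G.fa τ (G.kf - 2 * z) a x.1) x.2‖ₑ ^ 2)
      (h1.mono fun x hx => by simp only [hx])
    refine ⟨h2.1, ?_⟩
    rw [← h2.2]
    exact hy_tl_ms_lint p hp η _ _ 0 mcl _
  -- the window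
  have B0 : AEMeasurable (fun x => ‖((p.mlt (2 * Kc + 1)).an (tmL (G.kf - z) (ancI G.kf (G.kf - z) i)) (G.kf - z)
      ((G.xq (G.kf - 2 * z) (G.kf - z) Kc κ').fin (ancI G.kf (G.kf - z) i)) :
        p.Om × ℝ × ℝ → PiLp 2 (fun _ : Fin (2 * Kc + 1) => p.Fb)) x‖ₑ ^ 2) p.rw :=
    (Lp.aestronglyMeasurable ((p.mlt (2 * Kc + 1)).an (tmL (G.kf - z) (ancI G.kf (G.kf - z) i)) (G.kf - z)
      ((G.xq (G.kf - 2 * z) (G.kf - z) Kc κ').fin (ancI G.kf (G.kf - z) i)))).enorm.pow_const 2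
  have B := hz_li_ind_congr (μ := p.rw) mwn B0
      (hz_li_rows2 G C τ hG (G.kf - 2 * z) (G.kf - z) Kc κ' (by omega) (ancI G.kf (G.kf - z) i))
  have B' := hy_tl_ms_lint (p.mlt (2 * Kc + 1)) hp' η (tmL (G.kf - z) (ancI G.kf (G.kf - z) i)) (G.kf - z) 0 mwn
    ((G.xq (G.kf - 2 * z) (G.kf - z) Kc κ').fin (ancI G.kf (G.kf - z) i))
  -- the error
  have N := hz_li_loc_en G.F msq
  obtain ⟨ms', hms'⟩ : ∃ ms' : ℝ, ms' = ((p.mlt (2 * Kc + 1)).sys η).ms (tmL (G.kf - z) (ancI G.kf (G.kf - z) i)) (G.kf - z) 0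
            (hzWn (p.mlt (2 * Kc + 1)) G.Q G.T0 (G.kf - z) z (2 * G.s ^ (-τ)) (p.ql (G.kf - 2 * z)) i (c.1, c.2.1) (c.2.2 / 2 ^ z))
            ((G.xq (G.kf - 2 * z) (G.kf - z) Kc κ').fin (ancI G.kf (G.kf - z) i)) := ⟨_, rfl⟩
  have hms0 : 0 ≤ ms' := by rw [hms']; exact gn_ms_nonneg _ _ _ _ _
  have B'' : ENNReal.ofReal ms' = ∫⁻ x, (hzWn p G.Q G.T0 (G.kf - z) z (2 * G.s ^ (-τ)) (p.ql (G.kf - 2 * z)) i (c.1, c.2.1) (c.2.2 / 2 ^ z)).indicator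
      (fun x => ∑ a ∈ Finset.Icc (-(Kc : ℤ)) Kc, ‖(p.fib x.1).br (G.kf - z) (ancI G.kf (G.kf - z) i) (G.l1 (G.kf - 2 * z) x.1) G.T0 G.k0
        (G.fa τ (G.kf - 2 * z) a x.1) x.2‖ₑ ^ 2) x ∂p.rw := by
    rw [← B.2, hms']
    exact B'
  rw [← hms']
  have hI0 : 0 ≤ ∫ x in G.sq i (c.1, c.2.1), ‖(G.F : p.Om × ℝ × ℝ → p.Fb) x‖ ^ 2 ∂p.rw := integral_nonneg fun x => by positivity
  have hc1 : 0 ≤ Λ ^ K * (2 : ℝ)⁻¹ ^ z := by positivity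
  have hc2 : 0 ≤ Λ ^ K * 2 ^ G.n * Real.exp (-(Λ ^ 2 / 40)) := by positivity
  refine (ENNReal.ofReal_le_ofReal_iff (by positivity)).1 ?_
  have hmf : ∀ a ∈ Finset.Icc (-(Kc : ℤ)) Kc, 0 ≤ G.mf (G.vc (G.kf - 2 * z) a) i (G.cl i c) := fun a _ => gn_ms_nonneg _ _ _ _ _
  rw [ENNReal.ofReal_sum_of_nonneg hmf, ENNReal.ofReal_add (by positivity) (by positivity),
    ENNReal.ofReal_mul hc1, ENNReal.ofReal_mul hc2, B'', N.2, Finset.sum_congr rfl fun a _ => (A a).2,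
    ← lintegral_finsetSum' _ fun a _ => (A a).1, ← lintegral_const_mul'' _ B.1, ← lintegral_const_mul'' _ N.1,
    ← lintegral_add_left' (B.1.const_mul _),
    hy_lk_lint p hp _ (Finset.aemeasurable_fun_sum _ fun a _ => (A a).1), hy_lk_lint p hp _ ((B.1.const_mul _).fun_add (N.1.const_mul _))]
  refine lintegral_mono_ae ?_
  filter_upwards [hy_adj_F_ae p hp G.F] with ω hω
  exact hK p G C τ z Λ i c _ hG hm hz hΛ hs hi ω hω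

end Claimed.Agent.R256
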