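import Claimed.Agent.R256.Hz.Grp
import Claimed.Agent.R256.Gen.Contract

/-!
# Row 256, unit HZ, block (PK), file LEV: the peel levels of an experiment of the hybrid class at its FINAL cut, with the prefix bound      (helper234, deputy chief; prefix `hz_pkl_`)

NO NEW PEELING, NO LABELLED EXPERIMENT BY HAND: `Gen/Lvl.lean` is complete.   `M = cylHyb η`, `g = 1 + η/2`, `hG = hy_gen η h0 h1`, `D = 3`.
* `gn_dec M g hG C 3`      at the cut `k = E.kf`, `b = E.bT`, `st1 = E.st`, `st2 = []`: masks `Mk j J = 1_{S j J}`, `j ≤ 3n`, sum `= 1`; thresholds `β_j = 2^-(j+1) Cs κ`; floor `s^3 Cs κ = 2^-(3n) Cs κ`.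
* `gn_lvl_ps M g hG γ (fun _ _ => True) .. (C+1) 1 ε`  for `E.withSt (E.st ++ [⟨kf, bT, Mk j⟩])`:   `raw √(β_j/κ) ≤ e 2^((γ+ε-1/2) n)`.
-/

set_option autoImplicit false

namespace Claimed.Agent.R256

open MeasureTheory

/-- appending a mask stage at the final cut keeps validity -/
theorem hz_pkl_valid {P : PkSys} (E : Xp P) (hV : E.Valid) (b : ℕ) (Mk : ℕ → P.X → ℝ) (hM : ∀ i, IsMask (Mk i)) :
    (E.withSt (E.st ++ [⟨E.kf, b, Mk⟩])).Valid where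
  e_pos := hV.e_pos
  ka_pos := hV.ka_pos
  budget := hV.budget
  plat := hV.plat
  reg := hV.reg
  st_dep := by
    intro σ hσ
    rcases List.mem_append.1 hσ with h | h
    · exact hV.st_dep σ h
    · rw [List.mem_singleton] at h
      subst h
      exact ⟨Nat.le_add_right _ _, le_refl _⟩
  st_mono := by
    refine List.pairwise_append.2 ⟨hV.st_mono, List.pairwise_singleton _ _, fun σ hσ σ' hσ' => ?_⟩
    rw [List.mem_singleton] at hσ'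
    subst hσ'
    exact (hV.st_dep σ hσ).2
  st_meas := by
    intro σ hσ i
    rcases List.mem_append.1 hσ with h | h
    · exact hV.st_meas σ h i
    · rw [List.mem_singleton] at h
      subst h
      exact (hM i).1
  st_bd := by
    intro σ hσ i x
    rcases List.mem_append.1 hσ with h | h
    · exact hV.st_bd σ h i x
    · rw [List.mem_singleton] at h
      subst h
      exact (hM i).2 x
  iv_in := hV.iv_in
  ts_ok := hV.ts_ok
  w_pos := hV.w_pos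
  th_meas := hV.th_meas
  th_nn := hV.th_nn
  th_supp := hV.th_supp
  th_sum := hV.th_sum

/-- appending a mask stage at the final cut keeps the class (package `C + 1`) -/
theorem hz_pkl_cls (M : Mdl) (hS : M.AdmScale) {C A : ℕ} {p : M.Par} {E : Xp (M.sys p)} (hE : M.Cls C A p E) (Mk : ℕ → (M.sys p).X → ℝ) (hM : ∀ i, IsMask (Mk i)) :
    M.Cls (C + 1) A p (E.withSt (E.st ++ [⟨E.kf, E.bT, Mk⟩])) := by
  refine ⟨hE.1, hz_pkl_valid E hE.2.1 E.bT Mk hM, ?_, ⟨hE.2.2.2.1.1.trans (Nat.le_succ _), hE.2.2.2.1.2.1.trans (Nat.le_succ _), ?_⟩, ?_⟩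
  · have := hE.2.2.1
    simp only [Xp.withSt, List.length_append, List.length_singleton]
    omega
  · intro σ hσ
    rcases List.mem_append.1 hσ with h | h
    · exact (hE.2.2.2.1.2.2 σ h).trans (Nat.le_succ _)
    · rw [List.mem_singleton] at h
      subst h
      exact hE.2.2.2.1.2.1.trans (Nat.le_succ _)
  · exact hS C A (C + 1) A p E _ hE.1 hE.2.2.2.2 ⟨rfl, rfl, rfl, rfl, rfl, rfl⟩ (Nat.mul_le_mul_right _ (Nat.le_succ _)) (le_refl _)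

/-- the levels, for a generic model all of whose states are plateau states -/
theorem hz_pkl_gen (M : Mdl) (g : ℝ) (hG : M.Gen g) (hPl : ∀ p, M.gd p → ∀ (b : ℕ) (v : (M.sys p).Kc), v ∈ (M.sys p).Pl b) (γ : ℝ) (hR : M.Rate γ) (C : ℕ) (ε : ℝ) (hε : 0 < ε) :
    ∃ Cs : ℝ, 1 ≤ Cs ∧ ∃ A n0 : ℕ, ∀ (p : M.Par) (E : Xp (M.sys p)), n0 ≤ E.n → M.Cls C A p E →
      ∃ S : ℕ → ℕ → Set (M.sys p).X, (∀ j J, MeasurableSet (S j J)) ∧
        (∀ J ∈ ivs E.k0 E.i0 E.kf, ∀ x, ∑ j ∈ Finset.range (3 * E.n + 1), (S j J).indicator (fun _ => (1 : ℝ)) x = 1) ∧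
        (∀ j ≤ 3 * E.n, ∀ J ∈ ivs E.k0 E.i0 E.kf, ∀ Q' : (M.sys p).Tst, (M.sys p).ok Q' E.kf →
          (M.sys p).ms (tmL E.kf J) E.kf E.bT ((M.sys p).cell Q' (tmL E.kf J) E.kf ∩ S j J) (E.fin J) ≤ (2 : ℝ)⁻¹ ^ j * (Cs * E.ka) * (M.sys p).wt Q') ∧
        (∀ j < 3 * E.n, (∑ J ∈ ivs E.k0 E.i0 E.kf, (M.sys p).ms (tmL E.kf J) E.kf E.bT (S j J) (E.fin J)) * Real.sqrt ((2 : ℝ)⁻¹ ^ (j + 1) * Cs)
          ≤ E.e * 2 ^ ((γ + ε - 1 / 2) * E.n)) := by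
  classical
  obtain ⟨Cs, hCs, A1, n1, H1⟩ := gn_dec M g hG C 3
  obtain ⟨A2, n2, H2⟩ := gn_lvl_ps M g hG γ (fun _ _ => True)
    (fun C ε hε => by obtain ⟨A, n0, H⟩ := hR C ε hε; exact ⟨A, n0, fun p E hn hE _ => H p E hn hE⟩) (C + 1) 1 ε one_pos hε
  refine ⟨Cs, hCs, max A1 A2, max n1 n2, fun p E hn hE => ?_⟩
  have hE1 : M.Cls C A1 p E := gn_cls_anti M hG.scale (le_max_left _ _) hE
  have hE2 : M.Cls C A2 p E := gn_cls_anti M hG.scale (le_max_right _ _) hE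
  have hV := hE.2.1
  have hκ := hV.ka_pos
  have hcut : E.CutAt E.kf E.st [] :=
    ⟨(List.append_nil _).symm, fun σ hσ => (hV.st_dep σ hσ).2, by simp, Nat.le_add_right _ _, le_refl _⟩
  obtain ⟨Mk, hMk, hsum, hlvl, hlast⟩ := H1 p E (le_trans (le_max_left _ _) hn) hE1 E.kf E.bT E.st [] hcut hE.2.2.2.1.2.1
    (fun i _ => hPl p hE.1 _ _)
  have hex : ∀ j J, ∃ S : Set (M.sys p).X, MeasurableSet S ∧ (j ≤ 3 * E.n → J ∈ ivs E.k0 E.i0 E.kf →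
      Mk j J = S.indicator (fun _ => (1 : ℝ)) ∧ ∀ Q' : (M.sys p).Tst, (M.sys p).ok Q' E.kf →
          (M.sys p).ms (tmL E.kf J) E.kf E.bT ((M.sys p).cell Q' (tmL E.kf J) E.kf ∩ S) (E.fin J) ≤ (2 : ℝ)⁻¹ ^ j * (Cs * E.ka) * (M.sys p).wt Q') := by
    intro j J
    by_cases hJ : J ∈ ivs E.k0 E.i0 E.kf
    · rcases lt_trichotomy j (3 * E.n) with hj | hj | hj
      · obtain ⟨S, hS, hS'⟩ := (hlvl j hj).lvl J hJ
        refine ⟨S, hS.meas, fun _ _ => ⟨hS', fun Q' hQ' => ?_⟩⟩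
        have := hS.reg Q' hQ'
        have h2 : 2 * ((2 : ℝ)⁻¹ ^ (j + 1) * (Cs * E.ka)) = (2 : ℝ)⁻¹ ^ j * (Cs * E.ka) := by
          rw [pow_succ]; ring
        rw [h2] at this
        exact this
      · obtain ⟨S, hS, hS', hS''⟩ := hlast J hJ
        subst hj
        refine ⟨S, hS, fun _ _ => ⟨hS', fun Q' hQ' => ?_⟩⟩
        have := hS'' Q' hQ'
        rw [gn_s_pow E 3] at this
        exact this
      · exact ⟨∅, MeasurableSet.empty, fun h => absurd h (not_le.2 hj)⟩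
    · exact ⟨∅, MeasurableSet.empty, fun _ h => absurd h hJ⟩
  choose S hS1 hS2 using hex
  refine ⟨S, hS1, fun J hJ x => ?_, fun j hj J hJ => (hS2 j J hj hJ).2, fun j hj => ?_⟩
  · refine Eq.trans (Finset.sum_congr rfl fun j hj => ?_) (hsum J x)
    rw [(hS2 j J (Nat.lt_succ_iff.1 (Finset.mem_range.1 hj)) hJ).1]
  · have hβ : 0 < (2 : ℝ)⁻¹ ^ (j + 1) * (Cs * E.ka) := by positivity
    have hE' := hz_pkl_cls M hG.scale hE2 (Mk j) (hMk j)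
    have h3 := H2 p (E.withSt (E.st ++ [⟨E.kf, E.bT, Mk j⟩])) (le_trans (le_max_right _ _) hn) hE' E.st [] ⟨E.kf, E.bT, Mk j⟩ _ (hlvl j hj) hβ
      (by
        show (1 : ℝ) * (E.n : ℝ) ≤ ((E.k0 + E.n - E.k0 : ℕ) : ℝ)
        rw [Nat.add_sub_cancel_left, one_mul]) (fun _ _ _ _ _ => trivial)
    have h4 : (E.withSt (E.st ++ [⟨E.kf, E.bT, Mk j⟩])).raw E.st ⟨E.kf, E.bT, Mk j⟩
        = ∑ J ∈ ivs E.k0 E.i0 E.kf, (M.sys p).ms (tmL E.kf J) E.kf E.bT (S j J) (E.fin J) := by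
      unfold Xp.raw
      refine Finset.sum_congr rfl fun J hJ => ?_
      have h5 : (fun x => Mk j J x ^ 2) = (S j J).indicator (fun _ => (1 : ℝ)) := by
        rw [(hS2 j J hj.le hJ).1]
        funext x
        by_cases hx : x ∈ S j J <;> simp [hx]
      show (M.sys p).en (tmL E.kf J) E.kf E.bT (fun x => Mk j J x ^ 2) (E.fin J) = _
      rw [h5]
      rfl
    have h6 : (2 : ℝ)⁻¹ ^ (j + 1) * (Cs * E.ka) / E.ka = (2 : ℝ)⁻¹ ^ (j + 1) * Cs := by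
      field_simp
    have h7 : ((E.k0 + E.n - E.k0 : ℕ) : ℝ) = (E.n : ℝ) := by rw [Nat.add_sub_cancel_left]
    rw [h4] at h3
    change _ * Real.sqrt ((2 : ℝ)⁻¹ ^ (j + 1) * (Cs * E.ka) / E.ka) ≤ E.e * 2 ^ ((γ + ε - 1 / 2) * ((E.k0 + E.n - E.k0 : ℕ) : ℝ)) at h3
    rw [h6, h7] at h3
    exact h3

/-- **(L) THE LEVELS.**
PLAN.  `(Cs, A1, n1)` from `gn_dec (cylHyb η) (1 + η/2) (hy_gen η h0 h1) C 3`;  `(A2, n2)` from `gn_lvl_ps .. γ (fun _ _ => True) (fun C ε hε => by obtain ⟨A, n0, H⟩ := hR C ε hε; exact ⟨A, n0, fun p E hn hE _ => H p E hn hE⟩) (C+1) 1 ε`;  `A = max A1 A2`, `n0 = max n1 n2` (`gn_cls_anti`, `hy_scale`).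
`E.CutAt E.kf E.st []` (`List.append_nil`, `Valid.st_dep`);  `E.bT ≤ C` (`GenLe`);  plateau: every state is in every `Pl b` (`hy_an_norm`);  `E.at' E.kf J E.st = E.fin J` by `rfl`.
`S j J`: for `j < 3n`, `J ∈ ivs`: the set of `LvlAt.lvl` (`Classical.choose`), for `j = 3n` the set of the last clause of `gn_dec`; `∅` otherwise (measurable).   `Mk j J = 1_{S j J}`, so the sum of indicators is `1`.
Regularity: `IsLvl.reg` gives `2 β_j wt = 2^-j Cs κ wt`;  floor: `E.s ^ (3:ℝ) = 2⁻¹ ^ (3n)` (`Real.rpow_natCast`, `pow_mul`).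
Prefix bound: `E' = E.withSt (E.st ++ [σ])`, `σ = ⟨kf, bT, Mk j⟩`, is in `Cls (C+1) A2`: `Valid` (only the four `st_*` fields change: `List.pairwise_append`, `IsMask`), length, `GenLe`, `adm` by `hy_root` (same root, same `n`) and `gn_cls_mono`-type scaling (`hy_scale`);
`E'.raw E.st σ = Σ_J en (1_S ^2) = Σ_J ms (S j J) (E.fin J)` (`Set.indicator`, `1^2 = 1`);  `σ.k - k0 = n`;  `β_j / κ = 2^-(j+1) Cs` (`κ > 0`).      ~350 l. -/
theorem hz_pkl_lev (η : ℝ) (h0 : 0 < η) (h1 : η < 1) (γ : ℝ) (hR : (cylHyb η).Rate γ) (C : ℕ) (ε : ℝ) (hε : 0 < ε) :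
    ∃ Cs : ℝ, 1 ≤ Cs ∧ ∃ A n0 : ℕ, ∀ (p : ChyPar) (E : Xp (p.sys η)), n0 ≤ E.n → (cylHyb η).Cls C A p E →
      ∃ S : ℕ → ℕ → Set (p.Om × ℝ × ℝ), (∀ j J, MeasurableSet (S j J)) ∧
        (∀ J ∈ ivs E.k0 E.i0 E.kf, ∀ x, ∑ j ∈ Finset.range (3 * E.n + 1), (S j J).indicator (fun _ => (1 : ℝ)) x = 1) ∧
        (∀ j ≤ 3 * E.n, ∀ J ∈ ivs E.k0 E.i0 E.kf, ∀ Q' : CyT, (p.sys η).ok Q' E.kf →
          (p.sys η).ms (tmL E.kf J) E.kf E.bT ((p.sys η).cell Q' (tmL E.kf J) E.kf ∩ S j J) (E.fin J) ≤ (2 : ℝ)⁻¹ ^ j * (Cs * E.ka) * cyWt η Q') ∧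
        (∀ j < 3 * E.n, (∑ J ∈ ivs E.k0 E.i0 E.kf, (p.sys η).ms (tmL E.kf J) E.kf E.bT (S j J) (E.fin J)) * Real.sqrt ((2 : ℝ)⁻¹ ^ (j + 1) * Cs)
          ≤ E.e * 2 ^ ((γ + ε - 1 / 2) * E.n)) :=
  hz_pkl_gen (cylHyb η) (1 + η / 2) (hy_gen η h0 h1) (fun p hp _ v T k => hy_an_norm p hp T k v) γ hR C ε hε

end Claimed.Agent.R256
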