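import Claimed.Agent.R256.Hz.PkSum
import Claimed.Agent.R256.Hz.PkLev

/-!
# Row 256, unit HZ, block (PK), file MAIN: assembly and numerology = `hz_pk` of `Hz/Low.lean` (with `hzPkW` = `hzWn`)      (helper234, deputy chief; prefix `hz_pkm_`)

CHAIN:   `hz_pk` (Hz/Low) ⟸ `hz_pkm_main` ⟸ `hz_pks_sum` (PkSum) ⟸ `hz_pkk_main` (PROVED), `hz_pkk_wn`, `hz_pkk_ovl` (PkKin);   `hz_pkl_lev` (PkLev) ⟸ `gn_dec`, `gn_lvl_ps`, `hy_gen`;   `hz_pkm_num`.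
-/

set_option autoImplicit false

namespace Claimed.Agent.R256

open MeasureTheory

/-- numerology: polynomial factors are absorbed.   `√x ≤ x + 1`; the left side is `≤ K (D n + 1)^3` with `D = max 3 C`, `K = 27 (CK + 1)(Cs + 5)`-ish: `gn_absorb_poly D K (ε/2)` (`Gen/Lev.lean`).   ~120 l. -/
theorem hz_pkm_num (C : ℕ) (CK Cs ε : ℝ) (hCK : 0 < CK) (hCs : 1 ≤ Cs) (hε : 0 < ε) : ∃ n0 : ℕ, ∀ n : ℕ, n0 ≤ n →
    3 * Real.sqrt (3 * n + 1) * Real.sqrt (CK * (C * n + 1)) * (3 * n * Real.sqrt 2 + Real.sqrt Cs) ≤ 2 ^ (ε / 2 * n) := by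
  obtain ⟨n0, hn0⟩ := gn_absorb_poly (max 3 C) (3 * (CK + 1) * (Cs + 2)) (ε / 2) (by positivity)
  refine ⟨n0, fun n hn => le_trans ?_ (hn0 n hn)⟩
  obtain ⟨X, hX⟩ : ∃ X : ℝ, X = ((max 3 C * n + 1 : ℕ) : ℝ) := ⟨_, rfl⟩
  rw [← hX]
  have hn' : (0 : ℝ) ≤ n := Nat.cast_nonneg n
  have hX3 : 3 * (n : ℝ) + 1 ≤ X := by
    rw [hX]
    have : 3 * n + 1 ≤ max 3 C * n + 1 := by
      have := Nat.mul_le_mul_right n (le_max_left 3 C)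
      omega
    exact_mod_cast this
  have hXC : (C : ℝ) * n + 1 ≤ X := by
    rw [hX]
    have : C * n + 1 ≤ max 3 C * n + 1 := by
      have := Nat.mul_le_mul_right n (le_max_right 3 C)
      omega
    exact_mod_cast this
  have hX1 : 1 ≤ X := by linarith
  have hX0 : 0 ≤ X := by linarith
  have hsq : ∀ y : ℝ, 1 ≤ y → Real.sqrt y ≤ y := by
    intro y hy
    rw [Real.sqrt_le_left (by linarith)]
    nlinarith
  have a1 : Real.sqrt (3 * n + 1) ≤ X := (Real.sqrt_le_sqrt hX3).trans (hsq X hX1)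
  have a2 : Real.sqrt (CK * (C * n + 1)) ≤ (CK + 1) * X := by
    rw [Real.sqrt_le_left (by positivity)]
    have h1 : CK * (C * n + 1) ≤ CK * X := mul_le_mul_of_nonneg_left hXC hCK.le
    have h2 : CK * X ≤ ((CK + 1) * X) ^ 2 := by
      have h3 : X ≤ X ^ 2 := by nlinarith
      have h4 : CK ≤ (CK + 1) ^ 2 := by nlinarith
      rw [mul_pow]
      exact mul_le_mul h4 h3 hX0 (by positivity)
    linarith
  have a3 : 3 * n * Real.sqrt 2 + Real.sqrt Cs ≤ (Cs + 2) * X := by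
    have h1 : Real.sqrt 2 ≤ 2 := hsq 2 (by norm_num)
    have h2 : Real.sqrt Cs ≤ Cs := hsq Cs hCs
    have h3 : 3 * (n : ℝ) * Real.sqrt 2 ≤ 3 * n * 2 := mul_le_mul_of_nonneg_left h1 (by positivity)
    have h4 : Cs ≤ Cs * X := le_mul_of_one_le_right (by linarith) hX1
    nlinarith
  have b1 : 3 * Real.sqrt (3 * n + 1) * Real.sqrt (CK * (C * n + 1)) ≤ 3 * X * ((CK + 1) * X) :=
    mul_le_mul (by linarith) a2 (Real.sqrt_nonneg _) (by positivity)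
  have b2 : 3 * Real.sqrt (3 * n + 1) * Real.sqrt (CK * (C * n + 1)) * (3 * n * Real.sqrt 2 + Real.sqrt Cs)
      ≤ 3 * X * ((CK + 1) * X) * ((Cs + 2) * X) :=
    mul_le_mul b1 a3 (by positivity) (by positivity)
  refine b2.trans (le_of_eq ?_)
  ring

theorem hz_pkm_W_meas (p : ChyPar) (h : p.Ok) (Q : CyT) (T0 : ℝ) (kr z : ℕ) (W q : ℝ) (i : ℕ) (d : ℤ × ℤ) (β : ℤ) :
    MeasurableSet (hzPkW p Q T0 kr z W q i d β) := by
  have m1 : Measurable fun u : p.Om × ℝ × ℝ => p.X u.1 := h.mX.comp measurable_fst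
  have m2 := hy_tl_mVel p h (hzFr Q (tmL kr (ancI (kr + z) kr i) - T0)) (tmL kr (ancI (kr + z) kr i))
  have m3 := hy_tl_mPos p h (hzFr Q (tmL kr (ancI (kr + z) kr i) - T0)) (tmL kr (ancI (kr + z) kr i))
  have m := hy_tl_mBase p h (hzFr Q (tmL (kr + z) i - T0)) (tmL (kr + z) i) ((2 : ℝ)⁻¹ ^ (kr + z))
  have m' : Measurable fun u : p.Om × ℝ × ℝ =>
      ((⌊(cyBase (hzFr Q (tmL (kr + z) i - T0)) ((2 : ℝ)⁻¹ ^ (kr + z)) (p.co (tmL (kr + z) i) u)).2.1⌋,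
        ⌊(cyBase (hzFr Q (tmL (kr + z) i - T0)) ((2 : ℝ)⁻¹ ^ (kr + z)) (p.co (tmL (kr + z) i) u)).2.2⌋) : ℤ × ℤ) :=
    (Int.measurable_floor.comp m.snd.fst).prodMk (Int.measurable_floor.comp m.snd.snd)
  exact (measurableSet_le (m1.sub_const _).abs measurable_const).inter
    ((m' (measurableSet_singleton d)).inter
      ((measurableSet_le m2.abs measurable_const).inter (measurableSet_le (m3.sub_const _).abs measurable_const)))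

/-- the sum over the levels (real numbers) -/
theorem hz_pkm_alg (n C z : ℕ) (CK Cs κ w W e g : ℝ) (Z : ℕ → ℝ) (hCK : 0 < CK) (hCs : 1 ≤ Cs) (hκ : 0 < κ) (hw : 0 < w) (hW : 1 ≤ W) (he : 0 < e)
    (hg : 0 < g) (hz : z ≤ C * n) (hZ : ∀ j, 0 ≤ Z j) (h1 : ∀ j < 3 * n, Z j * Real.sqrt ((2 : ℝ)⁻¹ ^ (j + 1) * Cs) ≤ e * g)
    (h2 : Z (3 * n) ≤ 2 ^ n * e) (h3 : (2 : ℝ) ^ (-((n : ℝ) / 2)) ≤ g) :
    ∑ j ∈ Finset.range (3 * n + 1), Real.sqrt (CK * (z + 1) * ((2 : ℝ)⁻¹ ^ j * (Cs * κ) * W * w)) * Z j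
      ≤ Real.sqrt (CK * (C * n + 1)) * W * Real.sqrt (κ * w) * (e * g) * (3 * n * Real.sqrt 2 + Real.sqrt Cs) := by
  have hCs0 : 0 < Cs := by linarith
  have hW0 : 0 < W := by linarith
  obtain ⟨K, hK⟩ : ∃ K, K = Real.sqrt (CK * (C * n + 1)) * W * Real.sqrt (κ * w) := ⟨_, rfl⟩
  have hK0 : 0 ≤ K := by rw [hK]; positivity
  have hfac : ∀ j : ℕ, Real.sqrt (CK * (z + 1) * ((2 : ℝ)⁻¹ ^ j * (Cs * κ) * W * w)) ≤ K * Real.sqrt ((2 : ℝ)⁻¹ ^ j * Cs) := by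
    intro j
    have e1 : CK * (z + 1) * ((2 : ℝ)⁻¹ ^ j * (Cs * κ) * W * w) = (CK * (z + 1)) * (W * ((κ * w) * ((2 : ℝ)⁻¹ ^ j * Cs))) := by ring
    rw [e1, Real.sqrt_mul (show 0 ≤ CK * ((z : ℝ) + 1) by positivity) (W * ((κ * w) * ((2 : ℝ)⁻¹ ^ j * Cs))),
      Real.sqrt_mul hW0.le ((κ * w) * ((2 : ℝ)⁻¹ ^ j * Cs)), Real.sqrt_mul (show 0 ≤ κ * w by positivity) ((2 : ℝ)⁻¹ ^ j * Cs), hK]
    have a1 : Real.sqrt (CK * (z + 1)) ≤ Real.sqrt (CK * (C * n + 1)) := by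
      refine Real.sqrt_le_sqrt (mul_le_mul_of_nonneg_left ?_ hCK.le)
      have : (z : ℝ) ≤ C * n := by exact_mod_cast hz
      linarith
    have a2 : Real.sqrt W ≤ W := by
      rw [Real.sqrt_le_left hW0.le]
      nlinarith
    calc Real.sqrt (CK * (z + 1)) * (Real.sqrt W * (Real.sqrt (κ * w) * Real.sqrt ((2 : ℝ)⁻¹ ^ j * Cs)))
        ≤ Real.sqrt (CK * (C * n + 1)) * (W * (Real.sqrt (κ * w) * Real.sqrt ((2 : ℝ)⁻¹ ^ j * Cs))) :=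
          mul_le_mul a1 (mul_le_mul_of_nonneg_right a2 (by positivity)) (by positivity) (by positivity)
      _ = _ := by ring
  have hlow : ∀ j < 3 * n, Real.sqrt (CK * (z + 1) * ((2 : ℝ)⁻¹ ^ j * (Cs * κ) * W * w)) * Z j ≤ K * (e * g) * Real.sqrt 2 := by
    intro j hj
    have e2 : (2 : ℝ)⁻¹ ^ j * Cs = 2 * ((2 : ℝ)⁻¹ ^ (j + 1) * Cs) := by
      rw [pow_succ]; ring
    calc Real.sqrt (CK * (z + 1) * ((2 : ℝ)⁻¹ ^ j * (Cs * κ) * W * w)) * Z j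
        ≤ (K * Real.sqrt ((2 : ℝ)⁻¹ ^ j * Cs)) * Z j := mul_le_mul_of_nonneg_right (hfac j) (hZ j)
      _ = K * Real.sqrt 2 * (Z j * Real.sqrt ((2 : ℝ)⁻¹ ^ (j + 1) * Cs)) := by
          rw [e2, Real.sqrt_mul (by norm_num)]; ring
      _ ≤ K * Real.sqrt 2 * (e * g) := mul_le_mul_of_nonneg_left (h1 j hj) (by positivity)
      _ = _ := by ring
  have htop : Real.sqrt (CK * (z + 1) * ((2 : ℝ)⁻¹ ^ (3 * n) * (Cs * κ) * W * w)) * Z (3 * n) ≤ K * (e * g) * Real.sqrt Cs := by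
    have e3 : Real.sqrt ((2 : ℝ)⁻¹ ^ (3 * n)) * 2 ^ n = (2 : ℝ) ^ (-((n : ℝ) / 2)) := by
      rw [Real.sqrt_eq_rpow, inv_pow, ← Real.rpow_natCast 2 (3 * n), ← Real.rpow_neg (by norm_num), ← Real.rpow_mul (by norm_num),
        ← Real.rpow_natCast 2 n, ← Real.rpow_add (by norm_num)]
      congr 1
      push_cast
      ring
    calc Real.sqrt (CK * (z + 1) * ((2 : ℝ)⁻¹ ^ (3 * n) * (Cs * κ) * W * w)) * Z (3 * n)
        ≤ (K * Real.sqrt ((2 : ℝ)⁻¹ ^ (3 * n) * Cs)) * (2 ^ n * e) := mul_le_mul (hfac _) h2 (hZ _) (by positivity)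
      _ = K * Real.sqrt Cs * e * (Real.sqrt ((2 : ℝ)⁻¹ ^ (3 * n)) * 2 ^ n) := by
          rw [Real.sqrt_mul (by positivity)]; ring
      _ ≤ K * Real.sqrt Cs * e * g := by
          rw [e3]
          exact mul_le_mul_of_nonneg_left h3 (by positivity)
      _ = _ := by ring
  rw [Finset.sum_range_succ, ← hK]
  calc ∑ j ∈ Finset.range (3 * n), Real.sqrt (CK * (z + 1) * ((2 : ℝ)⁻¹ ^ j * (Cs * κ) * W * w)) * Z j
        + Real.sqrt (CK * (z + 1) * ((2 : ℝ)⁻¹ ^ (3 * n) * (Cs * κ) * W * w)) * Z (3 * n)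
      ≤ ∑ _j ∈ Finset.range (3 * n), K * (e * g) * Real.sqrt 2 + K * (e * g) * Real.sqrt Cs :=
        add_le_add (Finset.sum_le_sum fun j hj => hlow j (Finset.mem_range.1 hj)) htop
    _ = _ := by
        rw [Finset.sum_const, Finset.card_range, nsmul_eq_mul]
        push_cast
        ring

/-- **(PK)** = `hz_pk` of `Hz/Low.lean`.
PLAN.  `CK` from `hz_pks_sum`;  `(Cs, A, n1)` from `hz_pkl_lev .. C (ε/2)`;  `n2` from `hz_pkm_num C CK Cs ε`;  `n0 = max n1 n2`.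
`lam J = (p.sys η).mu (tmL kf J) kf bT (E.fin J)` (`gn_mu_finite`, `gn_ms_eq_mu`: `ms = mu.real` on measurable sets; the window is measurable: `hz_pkk_wn` or directly `hy_tl_mVel`, `hy_tl_mPos`, `hy_tl_mBase`), `m = 3n+1`, `bb j = 2^-j Cs κ`.
`hreg`: `{u | cyIn Q' ℓ (co T u)} = (p.sys η).cell Q' T kf` by `rfl`;  `ok Q' kf`: `0 < 2^-j' r`, `0 < W f`, `dl kf ≤ f ≤ W f`.
`√(CK (z+1) (2^-j Cs κ W w)) = √(CK (z+1)) √W √(κ w) √(2^-j Cs)`,  `z + 1 ≤ C n + 1`,  `√W ≤ W`.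
`j < 3n`: `√(2^-j Cs) Z_j = √2 √(2^-(j+1) Cs) Z_j ≤ √2 e 2^((γ + ε/2 - 1/2) n)`;   `j = 3n`: `Z_j ≤ 2^n e` (`gn_ms_le`-type: `ms S ψ ≤ ‖ψ‖²`, `‖E.fin J‖² ≤ ‖E.v‖² ≤ e`: `gn_at_norm_le` / `gn_run_norm_le`, `gn_ivs_card`), `√(2^-(3n) Cs) 2^n = √Cs 2^(-n/2) ≤ √Cs 2^((γ + ε/2 - 1/2) n)` (`γ > 0`).
`2 R/q + 1 ≤ 3 R/q` (`q ≤ R = W ℓ f`).      ~450 l. -/
theorem hz_pkm_main (η : ℝ) (h0 : 0 < η) (h1 : η < 1) (hK : HzKinC) (γ : ℝ) (hγ : 0 < γ) (hR : (cylHyb η).Rate γ) (C : ℕ) (ε : ℝ) (hε : 0 < ε) :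
    ∃ A n0 : ℕ, ∀ (p : ChyPar) (E : Xp (p.sys η)) (Q : CyT) (z : ℕ) (W q : ℝ) (Bc : Finset ℤ) (D : ℕ → Finset (ℤ × ℤ)),
      n0 ≤ E.n → (cylHyb η).Cls C A p E → 0 < Q.r → 0 < Q.f → p.dl E.kf ≤ Q.f → 1 ≤ W → W ≤ 2 ^ (C * E.n) → z ≤ C * E.n →
      E.e ≤ 2 ^ (C * E.n) * (E.ka * cyWt η Q) → 0 < q → q ≤ W * ((2 : ℝ)⁻¹ ^ E.kf * Q.f) →
      ∑ i ∈ ivs E.k0 E.i0 (E.kf + z), ∑ β ∈ Bc, ∑ d ∈ D i,
          ((p.sys η).ms (tmL E.kf (ancI (E.kf + z) E.kf i)) E.kf E.bT (hzPkW p Q (tmL E.k0 E.i0) E.kf z W q i d β) (E.fin (ancI (E.kf + z) E.kf i))) ^ (3 / 2 : ℝ)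
        ≤ W * ((2 : ℝ)⁻¹ ^ E.kf * Q.f) / q * W * 2 ^ ((γ + ε - 1 / 2) * E.n) * (E.e * Real.sqrt (E.ka * cyWt η Q)) := by
  obtain ⟨CK, hCK, Hsum⟩ := hz_pks_sum hK η h0 h1
  obtain ⟨Cs, hCs, A, n1, Hlev⟩ := hz_pkl_lev η h0 h1 γ hR C (ε / 2) (by positivity)
  obtain ⟨n2, Hnum⟩ := hz_pkm_num C CK Cs ε hCK hCs hε
  refine ⟨A, max n1 n2, ?_⟩
  intro p E Q z W q Bc D hn hcls hr hf hdl hW _ hz _ hq hqR
  have hp : p.Ok := hcls.1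
  have hEv : E.Valid := hcls.2.1
  have hT : (p.sys η).Tight := hy_tight η p hp
  obtain ⟨S, hSm, hSp, hSr, hSb⟩ := Hlev p E (le_trans (le_max_left _ _) hn) hcls
  have hnum := Hnum E.n (le_trans (le_max_right _ _) hn)
  have hκ : 0 < E.ka := hEv.ka_pos
  have he0 : 0 < E.e := hEv.e_pos
  have hCs0 : 0 < Cs := by linarith
  have hW0 : 0 < W := by linarith
  have hw : 0 < cyWt η Q := by unfold cyWt; positivity
  have hfin : ∀ J, IsFiniteMeasure ((p.sys η).mu (tmL E.kf J) E.kf E.bT (E.fin J)) := fun J => gn_mu_finite _ _ _ _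
  have key := Hsum p hp E.k0 E.i0 E.kf z (Nat.le_add_right _ _) Q W q hr hf hW hq
    (fun J => (p.sys η).mu (tmL E.kf J) E.kf E.bT (E.fin J)) hfin (3 * E.n + 1) S (fun j => (2 : ℝ)⁻¹ ^ j * (Cs * E.ka)) hSm hSp
    (fun j => by positivity)
    (by
      intro j hj J hJ j' _ x b y c0
      have hok : (p.sys η).ok (hzPkT (hzFr Q (tmL E.kf J - tmL E.k0 E.i0)) x b y ((1 / 2 : ℝ) ^ j') W c0) E.kf := by
        refine ⟨?_, ?_, ?_⟩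
        · show 0 < (1 / 2 : ℝ) ^ j' * Q.r
          positivity
        · show 0 < W * Q.f
          positivity
        · show p.dl E.kf ≤ W * Q.f
          nlinarith
      have h2 := hSr j (by omega) J hJ _ hok
      rw [gn_ms_eq_mu _ _ _ ((hy_fl_cell_meas p hp _ _ _).inter (hSm j J))] at h2
      exact h2) Bc D
  have hL : ∀ (i : ℕ) (β : ℤ) (d : ℤ × ℤ), (p.sys η).ms (tmL E.kf (ancI (E.kf + z) E.kf i)) E.kf E.bT (hzPkW p Q (tmL E.k0 E.i0) E.kf z W q i d β) (E.fin (ancI (E.kf + z) E.kf i))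
      = ((p.sys η).mu (tmL E.kf (ancI (E.kf + z) E.kf i)) E.kf E.bT (E.fin (ancI (E.kf + z) E.kf i))).real (hzPkW p Q (tmL E.k0 E.i0) E.kf z W q i d β) :=
    fun i β d => gn_ms_eq_mu _ _ _ (hz_pkm_W_meas p hp Q _ _ _ _ _ _ _ _) _
  simp only [hL]
  refine key.trans ?_
  obtain ⟨Z, hZdef⟩ : ∃ Z : ℕ → ℝ, Z = fun j => ∑ J ∈ ivs E.k0 E.i0 E.kf, ((p.sys η).mu (tmL E.kf J) E.kf E.bT (E.fin J)).real (S j J) := ⟨_, rfl⟩
  have hZms : ∀ j, Z j = ∑ J ∈ ivs E.k0 E.i0 E.kf, (p.sys η).ms (tmL E.kf J) E.kf E.bT (S j J) (E.fin J) := by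
    intro j
    rw [hZdef]
    exact Finset.sum_congr rfl fun J _ => (gn_ms_eq_mu _ _ _ (hSm j J) _).symm
  have hZ0 : ∀ j, 0 ≤ Z j := by
    intro j
    rw [hZms]
    exact Finset.sum_nonneg fun J _ => gn_ms_nonneg _ _ _ _ _
  obtain ⟨g, hg⟩ : ∃ g : ℝ, g = 2 ^ ((γ + ε / 2 - 1 / 2) * E.n) := ⟨_, rfl⟩
  have hg0 : 0 < g := by rw [hg]; positivity
  have hn0 : (0 : ℝ) ≤ E.n := Nat.cast_nonneg _
  have a1 : ∀ j < 3 * E.n, Z j * Real.sqrt ((2 : ℝ)⁻¹ ^ (j + 1) * Cs) ≤ E.e * g := by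
    intro j hj
    rw [hZms, hg]
    exact hSb j hj
  have a2 : Z (3 * E.n) ≤ 2 ^ E.n * E.e := by
    rw [hZms]
    have hone : ∀ J ∈ ivs E.k0 E.i0 E.kf, (p.sys η).ms (tmL E.kf J) E.kf E.bT (S (3 * E.n) J) (E.fin J) ≤ E.e := by
      intro J _
      refine (gn_ms_le hT _ _ _ (hSm _ J) _).trans (le_trans ?_ hEv.budget)
      have hrun := gn_run_norm_le hT E.kf J E.st (fun σ hσ i => ⟨hEv.st_meas σ hσ i, hEv.st_bd σ hσ i⟩) E.v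
      exact pow_le_pow_left₀ (norm_nonneg _) hrun 2
    refine (Finset.sum_le_sum hone).trans (le_of_eq ?_)
    rw [Finset.sum_const, gn_ivs_card, nsmul_eq_mul]
    have : E.kf - E.k0 = E.n := by unfold Xp.kf; omega
    rw [this]
    push_cast
    ring
  have a3 : (2 : ℝ) ^ (-((E.n : ℝ) / 2)) ≤ g := by
    rw [hg]
    refine Real.rpow_le_rpow_of_exponent_le (by norm_num) ?_
    have : 0 ≤ (γ + ε / 2) * (E.n : ℝ) := by positivity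
    nlinarith
  have halg := hz_pkm_alg E.n C z CK Cs E.ka (cyWt η Q) W E.e g Z hCK hCs hκ hw hW he0 hg0 hz hZ0 a1 a2 a3
  obtain ⟨R, hRdef⟩ : ∃ R : ℝ, R = W * ((2 : ℝ)⁻¹ ^ E.kf * Q.f) := ⟨_, rfl⟩
  rw [← hRdef] at hqR ⊢
  have hR0 : 0 < R := lt_of_lt_of_le hq hqR
  have hRq : 1 ≤ R / q := by rwa [le_div_iff₀ hq, one_mul]
  have hfac : 2 * R / q + 1 ≤ 3 * (R / q) := by
    have : 2 * R / q = 2 * (R / q) := by ring
    linarith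
  have hsum : ∑ j ∈ Finset.range (3 * E.n + 1), Real.sqrt (CK * (z + 1) * ((2 : ℝ)⁻¹ ^ j * (Cs * E.ka) * W * cyWt η Q)) *
      ∑ J ∈ ivs E.k0 E.i0 E.kf, ((p.sys η).mu (tmL E.kf J) E.kf E.bT (E.fin J)).real (S j J)
      = ∑ j ∈ Finset.range (3 * E.n + 1), Real.sqrt (CK * (z + 1) * ((2 : ℝ)⁻¹ ^ j * (Cs * E.ka) * W * cyWt η Q)) * Z j := by
    rw [hZdef]
  have hcast : Real.sqrt ((3 * E.n + 1 : ℕ) : ℝ) = Real.sqrt (3 * E.n + 1) := by push_cast; rfl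
  have hsum0 : 0 ≤ ∑ j ∈ Finset.range (3 * E.n + 1), Real.sqrt (CK * (z + 1) * ((2 : ℝ)⁻¹ ^ j * (Cs * E.ka) * W * cyWt η Q)) * Z j :=
    Finset.sum_nonneg fun j _ => mul_nonneg (Real.sqrt_nonneg _) (hZ0 j)
  have hexp : (2 : ℝ) ^ (ε / 2 * E.n) * g = 2 ^ ((γ + ε - 1 / 2) * E.n) := by
    rw [hg, ← Real.rpow_add (by norm_num)]
    congr 1
    ring
  calc Real.sqrt ((3 * E.n + 1 : ℕ) : ℝ) * (2 * R / q + 1) *
        ∑ j ∈ Finset.range (3 * E.n + 1), Real.sqrt (CK * (z + 1) * ((2 : ℝ)⁻¹ ^ j * (Cs * E.ka) * W * cyWt η Q)) *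
          ∑ J ∈ ivs E.k0 E.i0 E.kf, ((p.sys η).mu (tmL E.kf J) E.kf E.bT (E.fin J)).real (S j J)
      ≤ Real.sqrt (3 * E.n + 1) * (3 * (R / q)) *
          (Real.sqrt (CK * (C * E.n + 1)) * W * Real.sqrt (E.ka * cyWt η Q) * (E.e * g) * (3 * E.n * Real.sqrt 2 + Real.sqrt Cs)) := by
        rw [hsum, hcast]
        exact mul_le_mul (mul_le_mul_of_nonneg_left hfac (Real.sqrt_nonneg _)) halg hsum0 (by positivity)
    _ = R / q * W * (3 * Real.sqrt (3 * E.n + 1) * Real.sqrt (CK * (C * E.n + 1)) * (3 * E.n * Real.sqrt 2 + Real.sqrt Cs)) * g *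
          (E.e * Real.sqrt (E.ka * cyWt η Q)) := by ring
    _ ≤ R / q * W * 2 ^ (ε / 2 * E.n) * g * (E.e * Real.sqrt (E.ka * cyWt η Q)) := by
        gcongr
    _ = _ := by
        rw [← hexp]
        ring

end Claimed.Agent.R256
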