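import Claimed.Agent.R256.Hz.Grp
import Claimed.Agent.R256.Hz.Li
import Claimed.Agent.R256.Hz.Cls
import Claimed.Agent.R256.Hz.PkMain

/-!
# Row 256, unit HZ, file 9: THE LOW PART      (chief helper82; prefix `hz_`)      03 l.991-1070

`z = ⌊ζ n⌋`, stop depth `ks = kf - 2z`, read depth `kr = kf - z`;   `q(ks) = 2^z q(kf) = ℓr d(kf)`, `ℓr = 2^-kr`.
* `p.mlt K`        the same hybrid system with the multiplicity space `PiLp 2 (Fin K → Fb)`      (same rows, same row measure, same fibres)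
* `G.vec ks Kc`    the vector of the cap rows `(Fc a)_{|a| ≤ Kc}`;     `G.xq ks kr Kc κ'` = THE REAL EXPERIMENT `E'`: root state `An† vec`, the stages of depth `≤ ks`, read at the depth `kr`, no labels
* `hzWn`           window of rows at `(T_J, kr)`: one `X`-bin, the base square `d` AT THE FINER TIME `T_i`, normal box of the transported frame around the position `β q`
 (PK) `hz_pk`       for EVERY experiment of the class: peeling w.r.t. the tests `(r = 2^-j r, f = W f, shear of the frame)` + `Rate γ` + KIN-M on every `J` with `δ = 2^-z`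
 (CL) `hz_low_cls`  `E'` is in the class
 (LI) `hz_low_int`  (FL) integrated over the exact index and summed over the caps
 (LO) `hz_low`      assembly
-/

set_option autoImplicit false

namespace Claimed.Agent.R256

open MeasureTheory
open scoped ENNReal

/-- **(PK) PREFIX + KINETIC** (03 l.1031-1070), for every experiment `E` of the hybrid class and every frame `Q` (no relation with the frame of the setup).   `kr = E.kf`, `λ_J` = energy measure of `E.fin J` at `(T_J, kr)`.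
PLAN.  For every `J ∈ ivs k0 i0 kr`: family `𝒬_J` = tests `{hzFr Q (T_J - T0) with x, b, y arbitrary, r := 2^-j Q.r (j ≤ z), f := W Q.f, d := d + β q (β ∈ Bc)}`; all weights `≥ wmin = (2^-z r)^(3+η) (W f)^(1-η)`.
`gn_peel_abs` (`μ = λ_J`, `κ1 = e/wmin`, floor hypothesis VACUOUS, `Jl` levels with `2^-Jl κ1 ≤ 2^(-3n) κ`; `Jl ≤ (2C+8)(n+z)`).
LABELS of `E1 = {E with labels}` = all successes `R_a` of all `J` and all levels `< Jl` (`iv = J`, `ts = Q_a`, `th = 1_{R_a}`): `E1.Valid` (disjointness), `Cls` (`hy_root`);  `hR` gives `E1.val ≤ 2^((γ+ε/2) n)`;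
`m^(3/2)/w^(1/2) ≥ β_j^(1/2) m` for a success of the level `j`, so `Σ_j β_j^(1/2) z_j ≤ 2^(-n/2) e κ^(1/2) 2^((γ+ε/2) n)`, `z_j = Σ_J λ_J(S_j^J)`.
KIN-M for fixed `(J, β, level j)`: `μ = λ_J` restricted to `S_j ∩ {X-bin} ∩ {normal window β}`, coordinates `cyBase (hzFr Q (T_J - T0)) ℓr (co T_J ·)`, `k = z`: a box of size `R = 2^-j'` is the base part of a test of `𝒬_J`: `KinMReg μ .. (2 β_j W w) R`;
grid at the time `j'' 2^-z` = the base square at `T_i`, `i = J 2^z + j''` (`hz_base_fr`, `hz_fr_add`).   Cauchy-Schwarz: `Σ_{i ⊂ J, d} μ(sq)^(3/2) ≤ (2^z μ(univ))^(1/2) (CK (z+1) 2^-z 2 β_j W w μ(univ))^(1/2)`.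
Windows `β` overlap `≤ 2 W ℓr f/q + 1` times.   Levels: `(Σ_{j ≤ Jl} x_j)^(3/2) ≤ (Jl+1)^(1/2) Σ x_j^(3/2)`.   Floor level: `β = 2^(-3n) κ`, total mass `≤ 2^n e`.   Polynomial factors in `n` are absorbed by `2^(εn/2)`.      ~1500 l.: CUT IT. -/
theorem hz_pk (η : ℝ) (h0 : 0 < η) (h1 : η < 1) (hK : HzKinC) (γ : ℝ) (hγ : 0 < γ) (hR : (cylHyb η).Rate γ) (C : ℕ) (ε : ℝ) (hε : 0 < ε) :
    ∃ A n0 : ℕ, ∀ (p : ChyPar) (E : Xp (p.sys η)) (Q : CyT) (z : ℕ) (W q : ℝ) (Bc : Finset ℤ) (D : ℕ → Finset (ℤ × ℤ)),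
      n0 ≤ E.n → (cylHyb η).Cls C A p E → 0 < Q.r → 0 < Q.f → p.dl E.kf ≤ Q.f → 1 ≤ W → W ≤ 2 ^ (C * E.n) → z ≤ C * E.n →
      E.e ≤ 2 ^ (C * E.n) * (E.ka * cyWt η Q) → 0 < q → q ≤ W * ((2 : ℝ)⁻¹ ^ E.kf * Q.f) →
      ∑ i ∈ ivs E.k0 E.i0 (E.kf + z), ∑ β ∈ Bc, ∑ d ∈ D i,
          ((p.sys η).ms (tmL E.kf (ancI (E.kf + z) E.kf i)) E.kf E.bT (hzWn p Q (tmL E.k0 E.i0) E.kf z W q i d β) (E.fin (ancI (E.kf + z) E.kf i))) ^ (3 / 2 : ℝ)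
        ≤ W * ((2 : ℝ)⁻¹ ^ E.kf * Q.f) / q * W * 2 ^ ((γ + ε - 1 / 2) * E.n) * (E.e * Real.sqrt (E.ka * cyWt η Q)) := by
  exact hz_pkm_main η h0 h1 hK γ hγ hR C ε hε

/-- **(CL) `E'` IS IN THE CLASS.**   `Cr` = the constant of `hy_rep` (`bm = 0`).   `n' = n - z ≥ 3n/4`.
`gd`: fields of `p.Ok`.   `Valid`: `budget` `‖An† vec‖² ≤ ‖vec‖² = Σ_a ‖Fc a‖² ≤ ‖F‖² ≤ e`;  `plat`: `hy_an_norm`;  `reg`: `hy_rep` for `p.mlt K`, the energy density of `vec` is `Σ_a 1_cap ‖F‖² ≤ ‖F‖²` (`Ok.reg`);  stages: filter/map;  labels: none.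
`adm` with the frame `G.Q`:  `ek`: `Ok.ek_lo/hi`, `s^-C ≤ s'^(-2C)`, `Cr ≤ s'^-1`;   `supp`, `dens`: the energy over a set of exact indices does not grow under `An An†` (`hy_tl_cons`, `hy_an_ind`, `gn_adj_norm_le` on restrictions: as `hy_tl_tz`), `Ok.supB`, `Ok.dens`;
`tail`: `hy_loc_ker` with `T' = T`, `k' = k`, `S` = normal box `s^-τ`, `S'` = complement of the box `s'^-C'`, `Λ = 2^(n/2)`;   Planck: `Ok.pl_lo`, `pl_hi`.      ~900 l. (cut: Valid / CySet) -/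
theorem hz_low_cls (η : ℝ) (h0 : 0 < η) (h1 : η < 1) (C : ℕ) : ∃ (C' : ℕ) (Cr : ℝ), 1 ≤ Cr ∧ ∀ A' : ℕ, ∃ n0 : ℕ, ∀ (p : ChyPar) (G : HzGr η p) (τ : ℝ) (z Kc : ℕ),
    n0 ≤ G.n → G.Ok C τ → 0 ≤ τ → τ ≤ 1 → 4 * z ≤ G.n →
    (cylHyb η).Cls C' A' (p.mlt (2 * Kc + 1)) (G.xq (G.kf - 2 * z) (G.kf - z) Kc (Cr * G.ka)) :=
  hz_cl_main η C

/-- **(LI) (FL) INTEGRATED.**   `ks = kf - 2z`, `kr = kf - z`, `E' = G.xq ks kr Kc κ'`, `J = ancI kf kr i`.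
PLAN.  a.e. `ω`:  `uf (vc a) i (ω,·) = br kf i (l1 ++ l2) T0 k0 f_a`, `f_a = 1_cap F(ω,·)` (`hy_run_rows` for `p`);  the rows of `E'.fin J` at `(T_J, kr)` are `br kr J l1 T0 k0 (vec (ω,·))` (`hy_run_rows` for `p.mlt K`; the fibres and the fibre stages of `p.mlt K` are those of `p`),
energy density `= Σ_a ‖br kr J l1 f_a‖²` (`hz_br_pi`).   `hz_low_fib` with `θ_a = vo ω + (a+1/2) d(ks)`, `x = po_i ω + (b+1/2) q(kf)`, `R = q(kf)/2` (`hzBinI ⊆ hzBin`).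
Box of `hz_low_fib` ⊆ window: `po_i - (T_i - T_J) θ_a = po_J - (T_i - T_J)(a+1/2) d(ks)` (`hz_po_fr`), `|(a+1/2) d(ks)| ≤ (s^-τ + 1) f` when `f_a ≠ 0`, `T_i - T_J ≤ ℓr`, `q(ks) = ℓr d(kf) ≤ ℓr f`, `(b+1/2) q(kf) ∈ [β q(ks), (β+1) q(ks))` for `β = b / 2^z`, `d(kr) ≤ f`.
`Σ_a ‖f_a‖² ≤ ‖F(ω,·)‖²`.   Integrate over `{ω : square d}` (`hy_lk_lint`, `hy_tl_ms_lint`).      ~800 l. -/
theorem hz_low_int (η : ℝ) (m : ℕ) : ∃ K : ℕ, ∀ (p : ChyPar) (G : HzGr η p) (C : ℕ) (τ : ℝ) (z : ℕ) (Λ : ℝ) (Kc : ℕ) (κ' : ℝ) (i : ℕ) (c : ℤ × ℤ × ℤ),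
    G.Ok C τ → 0 ≤ τ → G.st.length ≤ m → 2 * z ≤ G.n → 2 ≤ Λ → (2 * m + 5) * ((m + 2) * Λ) + 2 ≤ G.s ^ (-τ) → i ∈ ivs G.k0 G.i0 G.kf →
    ∑ a ∈ Finset.Icc (-(Kc : ℤ)) Kc, G.mf (G.vc (G.kf - 2 * z) a) i (G.cl i c)
      ≤ Λ ^ K * (2 : ℝ)⁻¹ ^ z * ((p.mlt (2 * Kc + 1)).sys η).ms (tmL (G.kf - z) (ancI G.kf (G.kf - z) i)) (G.kf - z) 0
            (hzWn (p.mlt (2 * Kc + 1)) G.Q G.T0 (G.kf - z) z (2 * G.s ^ (-τ)) (p.ql (G.kf - 2 * z)) i (c.1, c.2.1) (c.2.2 / 2 ^ z))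
            ((G.xq (G.kf - 2 * z) (G.kf - z) Kc κ').fin (ancI G.kf (G.kf - z) i))
        + Λ ^ K * 2 ^ G.n * Real.exp (-(Λ ^ 2 / 40)) * ∫ x in G.sq i (c.1, c.2.1), ‖(G.F : p.Om × ℝ × ℝ → p.Fb) x‖ ^ 2 ∂p.rw :=
  hz_li_main η m

/-- `(x + y)^(3/2) ≤ 2 (x^(3/2) + y^(3/2))` -/
theorem hz_lo_add32 {x y : ℝ} (hx : 0 ≤ x) (hy : 0 ≤ y) : (x + y) ^ (3 / 2 : ℝ) ≤ 2 * (x ^ (3 / 2 : ℝ) + y ^ (3 / 2 : ℝ)) := by
  have h := NNReal.rpow_add_le_mul_rpow_add_rpow ⟨x, hx⟩ ⟨y, hy⟩ (p := 3 / 2) (by norm_num)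
  have h' : (x + y) ^ (3 / 2 : ℝ) ≤ (2 : ℝ) ^ ((3 / 2 : ℝ) - 1) * (x ^ (3 / 2 : ℝ) + y ^ (3 / 2 : ℝ)) := by exact_mod_cast h
  refine h'.trans ?_
  have h2 : (2 : ℝ) ^ ((3 / 2 : ℝ) - 1) ≤ 2 := by
    calc (2 : ℝ) ^ ((3 / 2 : ℝ) - 1) ≤ (2 : ℝ) ^ (1 : ℝ) := gn_two_mono (by norm_num)
      _ = 2 := Real.rpow_one 2
  exact mul_le_mul_of_nonneg_right h2 (by positivity)

/-- sums over the fibres of a map with bounded fibres -/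
theorem hz_lo_fib {α β : Type} [DecidableEq β] (S : Finset α) (φ : α → β) (T : Finset β) (N : ℕ) (g : β → ℝ) (hg : ∀ b, 0 ≤ g b)
    (hφ : ∀ a ∈ S, φ a ∈ T) (hN : ∀ b ∈ T, (S.filter fun a => φ a = b).card ≤ N) : ∑ a ∈ S, g (φ a) ≤ N * ∑ b ∈ T, g b := by
  rw [← Finset.sum_fiberwise_of_maps_to hφ, Finset.mul_sum]
  refine Finset.sum_le_sum fun b hb => ?_
  have h1 : ∑ a ∈ S with φ a = b, g (φ a) = ((S.filter fun a => φ a = b).card : ℝ) * g b := by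
    rw [← nsmul_eq_mul, ← Finset.sum_const]
    refine Finset.sum_congr rfl fun a ha => ?_
    rw [(Finset.mem_filter.1 ha).2]
  rw [h1]
  exact mul_le_mul_of_nonneg_right (by exact_mod_cast hN b hb) (hg b)

/-- at most `2^z` position indices over one coarse index -/
theorem hz_lo_cnt1 (S : Finset (ℤ × ℤ × ℤ)) (z : ℕ) (b : ℤ × ℤ × ℤ) :
    (S.filter fun c => ((c.2.2 / 2 ^ z, c.1, c.2.1) : ℤ × ℤ × ℤ) = b).card ≤ 2 ^ z := by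
  have hp : (0 : ℤ) < 2 ^ z := by positivity
  have h1 : (S.filter fun c => ((c.2.2 / 2 ^ z, c.1, c.2.1) : ℤ × ℤ × ℤ) = b).card ≤ (Finset.Ico (b.1 * 2 ^ z) ((b.1 + 1) * 2 ^ z)).card := by
    refine Finset.card_le_card_of_injOn (fun c => c.2.2) ?_ ?_
    · intro c hc
      have hc' := (Finset.mem_filter.1 (Finset.mem_coe.1 hc)).2
      have e1 : c.2.2 / 2 ^ z = b.1 := congrArg Prod.fst hc'
      refine Finset.mem_coe.2 (Finset.mem_Ico.2 ⟨?_, ?_⟩)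
      · rw [← e1]
        exact Int.ediv_mul_le _ hp.ne'
      · rw [← e1]
        exact Int.lt_ediv_add_one_mul_self _ hp
    · intro c hc c' hc' hcc
      have h2 := (Finset.mem_filter.1 (Finset.mem_coe.1 hc)).2
      have h3 := (Finset.mem_filter.1 (Finset.mem_coe.1 hc')).2
      have e1 : c.1 = c'.1 := (congrArg (fun t : ℤ × ℤ × ℤ => t.2.1) h2).trans (congrArg (fun t : ℤ × ℤ × ℤ => t.2.1) h3).symm
      have e2 : c.2.1 = c'.2.1 := (congrArg (fun t : ℤ × ℤ × ℤ => t.2.2) h2).trans (congrArg (fun t : ℤ × ℤ × ℤ => t.2.2) h3).symm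
      exact Prod.ext e1 (Prod.ext e2 hcc)
  refine h1.trans (le_of_eq ?_)
  rw [Int.card_Ico]
  have : (b.1 + 1) * 2 ^ z - b.1 * 2 ^ z = ((2 ^ z : ℕ) : ℤ) := by push_cast; ring
  rw [this, Int.toNat_natCast]

/-- at most `2 M + 1` position indices over one base square -/
theorem hz_lo_cnt2 (S : Finset (ℤ × ℤ × ℤ)) (M : ℕ) (hS : ∀ c ∈ S, |c.2.2| ≤ (M : ℤ)) (d : ℤ × ℤ) :
    (S.filter fun c => ((c.1, c.2.1) : ℤ × ℤ) = d).card ≤ 2 * M + 1 := by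
  have h1 : (S.filter fun c => ((c.1, c.2.1) : ℤ × ℤ) = d).card ≤ (Finset.Icc (-(M : ℤ)) M).card := by
    refine Finset.card_le_card_of_injOn (fun c => c.2.2) ?_ ?_
    · intro c hc
      have hc' := (Finset.mem_filter.1 (Finset.mem_coe.1 hc)).1
      have := abs_le.1 (hS c hc')
      exact Finset.mem_coe.2 (Finset.mem_Icc.2 this)
    · intro c hc c' hc' hcc
      have h2 := (Finset.mem_filter.1 (Finset.mem_coe.1 hc)).2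
      have h3 := (Finset.mem_filter.1 (Finset.mem_coe.1 hc')).2
      have e1 : c.1 = c'.1 := (congrArg Prod.fst h2).trans (congrArg Prod.fst h3).symm
      have e2 : c.2.1 = c'.2.1 := (congrArg Prod.snd h2).trans (congrArg Prod.snd h3).symm
      exact Prod.ext e1 (Prod.ext e2 hcc)
  refine h1.trans (le_of_eq ?_)
  rw [Int.card_Icc]
  omega

/-- polynomial factors are absorbed by a power -/
theorem hz_lo_poly (K : ℝ) (m : ℕ) (δ : ℝ) (hδ : 0 < δ) : ∃ n0 : ℕ, ∀ n : ℕ, n0 ≤ n → K * (n : ℝ) ^ m ≤ 2 ^ (δ * n) := by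
  have hr : (1 : ℝ) < 2 ^ δ := Real.one_lt_rpow (by norm_num) hδ
  have ht := tendsto_pow_const_div_const_pow_of_one_lt m hr
  have hK : (0 : ℝ) < (|K| + 1)⁻¹ := by positivity
  obtain ⟨n0, hn0⟩ := Filter.eventually_atTop.1 (ht.eventually (Iio_mem_nhds hK))
  refine ⟨n0, fun n hn => ?_⟩
  have h1 : (n : ℝ) ^ m / (2 ^ δ) ^ n < (|K| + 1)⁻¹ := hn0 n hn
  have hpos : (0 : ℝ) < (2 ^ δ) ^ n := by positivity
  have e : ((2 : ℝ) ^ δ) ^ n = 2 ^ (δ * n) := by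
    rw [← Real.rpow_natCast, gn_two_mul]
  rw [div_lt_iff₀ hpos, e] at h1
  have h2 : (|K| + 1) * (n : ℝ) ^ m ≤ 2 ^ (δ * n) := by
    have := mul_le_mul_of_nonneg_left h1.le (by positivity : (0 : ℝ) ≤ |K| + 1)
    rwa [← mul_assoc, mul_inv_cancel₀ (by positivity), one_mul] at this
  refine le_trans ?_ h2
  refine mul_le_mul_of_nonneg_right ?_ (by positivity)
  linarith [le_abs_self K]

theorem hz_lo_s_rpow {η : ℝ} {p : ChyPar} (G : HzGr η p) (y : ℝ) : G.s ^ y = 2 ^ (-(y * G.n)) := by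
  unfold HzGr.s
  rw [← Real.rpow_natCast, ← Real.rpow_mul (by norm_num), Real.inv_rpow (by norm_num), ← Real.rpow_neg (by norm_num)]
  congr 1
  ring

/-- `q(kf - 2z) = 2^-(kf - z) d(kf)` -/
theorem hz_lo_ql (p : ChyPar) (kf z : ℕ) (h : 2 * z ≤ kf) : p.ql (kf - 2 * z) = (2 : ℝ)⁻¹ ^ (kf - z) * p.dl kf := by
  obtain ⟨a, rfl⟩ : ∃ a, kf = a + 2 * z := ⟨kf - 2 * z, by omega⟩
  have e1 : a + 2 * z - 2 * z = a := by omega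
  have e2 : a + 2 * z - z = a + z := by omega
  rw [e1, e2]
  unfold ChyPar.ql ChyPar.dl
  have h0 : (0 : ℝ) ≤ (2 : ℝ)⁻¹ ^ (a + z) := by positivity
  rw [← Real.sqrt_sq h0, ← Real.sqrt_mul (by positivity)]
  congr 1
  rw [inv_pow]
  have h2 : (2 : ℝ) ^ (a + 2 * z) = 2 ^ a * (2 ^ z) ^ 2 := by rw [pow_add, pow_mul', ]
  have h3 : (2 : ℝ) ^ (a + z) = 2 ^ a * 2 ^ z := pow_add _ _ _
  rw [h2, h3]
  field_simp

theorem hz_lo_dl_mono (p : ChyPar) (hH : 0 < p.H) {k k' : ℕ} (h : k ≤ k') : p.dl k ≤ p.dl k' := by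
  unfold ChyPar.dl
  refine Real.sqrt_le_sqrt ?_
  exact mul_le_mul_of_nonneg_left (pow_le_pow_right₀ (by norm_num) h) hH.le

/-- the Planck floor: `f ≤ s^(-τ/2) d(kf)` -/
theorem hz_lo_fd {η : ℝ} {p : ChyPar} (G : HzGr η p) {C : ℕ} {τ : ℝ} (h : G.Ok C τ) : G.Q.f ≤ 2 ^ (τ * G.n / 2) * p.dl G.kf := by
  have hf := h.f_pos
  have hH := h.par.H_pos
  have h1 := h.pl_lo
  rw [le_div_iff₀ (by positivity), hz_lo_s_rpow] at h1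
  have h2 : G.Q.f ^ 2 ≤ 2 ^ (τ * G.n) * (p.H * 2 ^ G.kf) := by
    have e1 : (2 : ℝ) ^ G.kf = 2 ^ G.k0 * 2 ^ (G.n : ℝ) := by
      rw [gn_two_nat]
      exact pow_add _ _ _
    have e2 : (2 : ℝ) ^ (-((1 + τ) * G.n)) * (2 ^ (τ * G.n) * 2 ^ (G.n : ℝ)) = 1 := by
      rw [← gn_two_add, ← gn_two_add]
      have : -((1 + τ) * (G.n : ℝ)) + (τ * G.n + G.n) = 0 := by ring
      rw [this, Real.rpow_zero]
    have h3 := mul_le_mul_of_nonneg_right h1 (by positivity : (0 : ℝ) ≤ 2 ^ (τ * G.n) * 2 ^ (G.n : ℝ))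
    calc G.Q.f ^ 2 = 2 ^ (-((1 + τ) * G.n)) * G.Q.f ^ 2 * (2 ^ (τ * G.n) * 2 ^ (G.n : ℝ)) := by
          linear_combination (-(G.Q.f ^ 2)) * e2
      _ ≤ p.H * 2 ^ G.k0 * (2 ^ (τ * G.n) * 2 ^ (G.n : ℝ)) := h3
      _ = 2 ^ (τ * G.n) * (p.H * 2 ^ G.kf) := by rw [e1]; ring
  have h4 := Real.sqrt_le_sqrt h2
  rw [Real.sqrt_sq hf.le, Real.sqrt_mul (by positivity), gn_two_sqrt] at h4
  exact h4

theorem hz_lo_sq_meas {η : ℝ} {p : ChyPar} (G : HzGr η p) (hp : p.Ok) (i : ℕ) (d : ℤ × ℤ) : MeasurableSet (G.sq i d) := by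
  have h1 := hy_tl_mBase p hp (G.Qi G.kf i) (tmL G.kf i) G.lf
  have h2 : Measurable fun x : p.Om × ℝ × ℝ => ((⌊(cyBase (G.Qi G.kf i) G.lf (p.co (tmL G.kf i) x)).2.1⌋,
      ⌊(cyBase (G.Qi G.kf i) G.lf (p.co (tmL G.kf i) x)).2.2⌋) : ℤ × ℤ) :=
    (Int.measurable_floor.comp h1.snd.fst).prodMk (Int.measurable_floor.comp h1.snd.snd)
  exact h2 (measurableSet_singleton d)

/-- the error sum over the base squares -/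
theorem hz_lo_err {η : ℝ} {p : ChyPar} (G : HzGr η p) (hp : p.Ok) (he : ‖G.F‖ ^ 2 ≤ G.e) (i : ℕ) (T : Finset (ℤ × ℤ)) :
    ∑ d ∈ T, (∫ x in G.sq i d, ‖(G.F : p.Om × ℝ × ℝ → p.Fb) x‖ ^ 2 ∂p.rw) ^ (3 / 2 : ℝ) ≤ G.e ^ (3 / 2 : ℝ) := by
  have hint := gn_sq_integrable G.F
  have hnn : ∀ d, 0 ≤ ∫ x in G.sq i d, ‖(G.F : p.Om × ℝ × ℝ → p.Fb) x‖ ^ 2 ∂p.rw := fun d => integral_nonneg fun x => by positivity
  have he0 : 0 ≤ G.e := le_trans (by positivity) he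
  have htot : ∑ d ∈ T, ∫ x in G.sq i d, ‖(G.F : p.Om × ℝ × ℝ → p.Fb) x‖ ^ 2 ∂p.rw ≤ G.e := by
    rw [← integral_biUnion_finset T (fun d _ => hz_lo_sq_meas G hp i d) ?_ (fun d _ => hint.integrableOn)]
    · refine le_trans (setIntegral_le_integral hint (Filter.Eventually.of_forall fun x => by positivity)) ?_
      rw [← gn_norm_sq]
      exact he
    · intro d _ d' _ hdd
      refine Set.disjoint_left.2 fun x hx hx' => hdd ?_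
      exact (show _ = d from hx).symm.trans (show _ = d' from hx')
  have hone : ∀ d ∈ T, ∫ x in G.sq i d, ‖(G.F : p.Om × ℝ × ℝ → p.Fb) x‖ ^ 2 ∂p.rw ≤ G.e := fun d hd =>
    le_trans (Finset.single_le_sum (f := fun d => ∫ x in G.sq i d, ‖(G.F : p.Om × ℝ × ℝ → p.Fb) x‖ ^ 2 ∂p.rw) (fun d _ => hnn d) hd) htot
  have hsplit : ∀ t : ℝ, 0 ≤ t → t ^ (3 / 2 : ℝ) = t * t ^ (1 / 2 : ℝ) := fun t ht => by
    rcases ht.eq_or_lt with h | h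
    · rw [← h]
      rw [Real.zero_rpow (by norm_num), zero_mul]
    · rw [show (3 / 2 : ℝ) = 1 + 1 / 2 by norm_num, Real.rpow_add h, Real.rpow_one]
  calc ∑ d ∈ T, (∫ x in G.sq i d, ‖(G.F : p.Om × ℝ × ℝ → p.Fb) x‖ ^ 2 ∂p.rw) ^ (3 / 2 : ℝ)
      ≤ ∑ d ∈ T, (∫ x in G.sq i d, ‖(G.F : p.Om × ℝ × ℝ → p.Fb) x‖ ^ 2 ∂p.rw) * G.e ^ (1 / 2 : ℝ) := by
        refine Finset.sum_le_sum fun d hd => ?_
        rw [hsplit _ (hnn d)]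
        exact mul_le_mul_of_nonneg_left (Real.rpow_le_rpow (hnn d) (hone d hd) (by norm_num)) (hnn d)
    _ = (∑ d ∈ T, ∫ x in G.sq i d, ‖(G.F : p.Om × ℝ × ℝ → p.Fb) x‖ ^ 2 ∂p.rw) * G.e ^ (1 / 2 : ℝ) := (Finset.sum_mul _ _ _).symm
    _ ≤ G.e * G.e ^ (1 / 2 : ℝ) := mul_le_mul_of_nonneg_right htot (by positivity)
    _ = G.e ^ (3 / 2 : ℝ) := (hsplit _ he0).symm

theorem hz_lo_xq_kf {η : ℝ} {p : ChyPar} (G : HzGr η p) (ks kr Kc : ℕ) (κ' : ℝ) (h : G.k0 ≤ kr) : (G.xq ks kr Kc κ').kf = kr := by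
  show G.k0 + (kr - G.k0) = kr
  omega

/-- (PK) applied to the experiment `E'` of a group -/
theorem hz_lo_pk_use {η : ℝ} (γ ε : ℝ) (C2 A nPK : ℕ)
    (hPK : ∀ (p : ChyPar) (E : Xp (p.sys η)) (Q : CyT) (z : ℕ) (W q : ℝ) (Bc : Finset ℤ) (D : ℕ → Finset (ℤ × ℤ)),
      nPK ≤ E.n → (cylHyb η).Cls C2 A p E → 0 < Q.r → 0 < Q.f → p.dl E.kf ≤ Q.f → 1 ≤ W → W ≤ 2 ^ (C2 * E.n) → z ≤ C2 * E.n →
      E.e ≤ 2 ^ (C2 * E.n) * (E.ka * cyWt η Q) → 0 < q → q ≤ W * ((2 : ℝ)⁻¹ ^ E.kf * Q.f) →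
      ∑ i ∈ ivs E.k0 E.i0 (E.kf + z), ∑ β ∈ Bc, ∑ d ∈ D i,
          ((p.sys η).ms (tmL E.kf (ancI (E.kf + z) E.kf i)) E.kf E.bT (hzWn p Q (tmL E.k0 E.i0) E.kf z W q i d β) (E.fin (ancI (E.kf + z) E.kf i))) ^ (3 / 2 : ℝ)
        ≤ W * ((2 : ℝ)⁻¹ ^ E.kf * Q.f) / q * W * 2 ^ ((γ + ε - 1 / 2) * E.n) * (E.e * Real.sqrt (E.ka * cyWt η Q)))
    (p : ChyPar) (G : HzGr η p) (C : ℕ) (τ : ℝ) (z Kc : ℕ) (Cr : ℝ) (hCr : 1 ≤ Cr) (hG : G.Ok C τ) (hτ0 : 0 ≤ τ) (hτ1 : τ ≤ 1)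
    (hz : 4 * z ≤ G.n) (hn : 1 ≤ G.n) (hnPK : nPK ≤ G.n - z) (hC : 4 * C + 8 ≤ C2)
    (hcls : (cylHyb η).Cls C2 A (p.mlt (2 * Kc + 1)) (G.xq (G.kf - 2 * z) (G.kf - z) Kc (Cr * G.ka)))
    (Bc : Finset ℤ) (D : ℕ → Finset (ℤ × ℤ)) :
    ∑ i ∈ ivs G.k0 G.i0 G.kf, ∑ β ∈ Bc, ∑ d ∈ D i,
        (((p.mlt (2 * Kc + 1)).sys η).ms (tmL (G.kf - z) (ancI G.kf (G.kf - z) i)) (G.kf - z) 0
            (hzWn (p.mlt (2 * Kc + 1)) G.Q G.T0 (G.kf - z) z (2 * G.s ^ (-τ)) (p.ql (G.kf - 2 * z)) i d β)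
            ((G.xq (G.kf - 2 * z) (G.kf - z) Kc (Cr * G.ka)).fin (ancI G.kf (G.kf - z) i))) ^ (3 / 2 : ℝ)
      ≤ (2 * 2 ^ (τ * G.n)) * 2 ^ (τ * G.n / 2) * (2 * 2 ^ (τ * G.n)) * 2 ^ ((γ + ε - 1 / 2) * ((G.n - z : ℕ) : ℝ))
          * (G.e * Real.sqrt (Cr * G.ka * cyWt η G.Q)) := by
  have hH := hG.par.H_pos
  have hf := hG.f_pos
  have hkfdef : G.kf = G.k0 + G.n := rfl
  have hkr : G.k0 ≤ G.kf - z := by omega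
  have hzk : z ≤ G.kf := by omega
  have h2zk : 2 * z ≤ G.kf := by omega
  have hkf := hz_lo_xq_kf G (G.kf - 2 * z) (G.kf - z) Kc (Cr * G.ka) hkr
  have hEn : (G.xq (G.kf - 2 * z) (G.kf - z) Kc (Cr * G.ka)).n = G.n - z := by
    show G.kf - z - G.k0 = G.n - z
    omega
  have hsτ : G.s ^ (-τ) = 2 ^ (τ * G.n) := by
    rw [hz_lo_s_rpow]
    congr 1
    ring
  have hn0 : (0 : ℝ) ≤ (G.n : ℝ) := Nat.cast_nonneg _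
  have hW1 : (1 : ℝ) ≤ 2 ^ (τ * G.n) := Real.one_le_rpow (by norm_num) (by positivity)
  have hw0 : 0 < cyWt η G.Q := by
    unfold cyWt
    have := hG.r_pos
    positivity
  have hκw : 0 < G.ka * cyWt η G.Q := mul_pos hG.ka_pos hw0
  have hq := hz_lo_ql p G.kf z h2zk
  have hdl0 : 0 < p.dl G.kf := by
    unfold ChyPar.dl
    exact Real.sqrt_pos.2 (by positivity)
  have hl0 : (0 : ℝ) < (2 : ℝ)⁻¹ ^ (G.kf - z) := by positivity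
  have hq0 : 0 < p.ql (G.kf - 2 * z) := by rw [hq]; positivity
  have hm1 : 8 * (G.n - z) ≤ C2 * (G.n - z) := Nat.mul_le_mul_right _ (by omega)
  have hm2 : C * G.n ≤ C2 * (G.n - z) := by
    calc C * G.n ≤ C * (4 * (G.n - z)) := Nat.mul_le_mul_left _ (by omega)
      _ = (4 * C) * (G.n - z) := by ring
      _ ≤ C2 * (G.n - z) := Nat.mul_le_mul_right _ (by omega)
  have h := hPK (p.mlt (2 * Kc + 1)) (G.xq (G.kf - 2 * z) (G.kf - z) Kc (Cr * G.ka)) G.Q z (2 * G.s ^ (-τ)) (p.ql (G.kf - 2 * z)) Bc D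
    (by rw [hEn]; exact hnPK) hcls hG.r_pos hf
    (by
      rw [hkf]
      exact (hz_lo_dl_mono p hH (Nat.sub_le _ _)).trans hG.pl_hi)
    (by rw [hsτ]; linarith)
    (by
      rw [hsτ, hEn]
      have h1 : (2 : ℝ) ^ (τ * G.n) ≤ 2 ^ G.n := by
        rw [← gn_two_nat]
        refine gn_two_mono ?_
        nlinarith
      calc 2 * (2 : ℝ) ^ (τ * G.n) ≤ 2 * 2 ^ G.n := by linarith
        _ = 2 ^ (G.n + 1) := by rw [pow_succ]; ring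
        _ ≤ 2 ^ (C2 * (G.n - z)) := pow_le_pow_right₀ (by norm_num) (by omega))
    (by rw [hEn]; omega)
    (by
      rw [hEn]
      show G.e ≤ 2 ^ (C2 * (G.n - z)) * (Cr * G.ka * cyWt η G.Q)
      have h1 := hG.ek_hi
      rw [hz_lo_s_rpow] at h1
      have h2 : (2 : ℝ) ^ (-(-(C : ℝ) * G.n)) = 2 ^ (C * G.n) := by
        rw [← gn_two_nat]
        congr 1
        push_cast
        ring
      rw [h2] at h1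
      have h3 : (2 : ℝ) ^ (C * G.n) ≤ 2 ^ (C2 * (G.n - z)) := pow_le_pow_right₀ (by norm_num) hm2
      have h4 : G.ka * cyWt η G.Q ≤ Cr * G.ka * cyWt η G.Q := by
        rw [mul_assoc]
        exact le_mul_of_one_le_left hκw.le hCr
      exact h1.trans (mul_le_mul h3 h4 hκw.le (by positivity)))
    hq0
    (by
      rw [hkf, hq, hsτ]
      have h1 : (2 : ℝ)⁻¹ ^ (G.kf - z) * p.dl G.kf ≤ (2 : ℝ)⁻¹ ^ (G.kf - z) * G.Q.f := mul_le_mul_of_nonneg_left hG.pl_hi hl0.le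
      have h2 : (2 : ℝ)⁻¹ ^ (G.kf - z) * G.Q.f ≤ 2 * 2 ^ (τ * G.n) * ((2 : ℝ)⁻¹ ^ (G.kf - z) * G.Q.f) :=
        le_mul_of_one_le_left (by positivity) (by linarith)
      exact h1.trans h2)
  rw [hkf, hEn, Nat.sub_add_cancel hzk] at h
  refine le_trans h ?_
  show 2 * G.s ^ (-τ) * ((2 : ℝ)⁻¹ ^ (G.kf - z) * G.Q.f) / p.ql (G.kf - 2 * z) * (2 * G.s ^ (-τ)) * 2 ^ ((γ + ε - 1 / 2) * ((G.n - z : ℕ) : ℝ))
      * (G.e * Real.sqrt (Cr * G.ka * cyWt η G.Q)) ≤ _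
  rw [hsτ]
  have h5 : 2 * 2 ^ (τ * G.n) * ((2 : ℝ)⁻¹ ^ (G.kf - z) * G.Q.f) / p.ql (G.kf - 2 * z) ≤ 2 * 2 ^ (τ * G.n) * 2 ^ (τ * G.n / 2) := by
    rw [div_le_iff₀ hq0, hq]
    have h6 := hz_lo_fd G hG
    have h7 : (2 : ℝ)⁻¹ ^ (G.kf - z) * G.Q.f ≤ (2 : ℝ)⁻¹ ^ (G.kf - z) * (2 ^ (τ * G.n / 2) * p.dl G.kf) := mul_le_mul_of_nonneg_left h6 hl0.le
    calc 2 * 2 ^ (τ * G.n) * ((2 : ℝ)⁻¹ ^ (G.kf - z) * G.Q.f)
        ≤ 2 * 2 ^ (τ * G.n) * ((2 : ℝ)⁻¹ ^ (G.kf - z) * (2 ^ (τ * G.n / 2) * p.dl G.kf)) := mul_le_mul_of_nonneg_left h7 (by positivity)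
      _ = _ := by ring
  have he0 := hG.e_pos
  gcongr

theorem hz_lo_inv_pow (z : ℕ) : ((2 : ℝ)⁻¹) ^ z = 2 ^ (-(z : ℝ)) := by
  rw [gn_two_neg, gn_two_nat, inv_pow]

theorem hz_lo_P_le (n K : ℕ) (hn : 1 ≤ n) : ((n : ℝ) ^ K) ^ (3 / 2 : ℝ) ≤ (n : ℝ) ^ (2 * K) := by
  have h1 : (1 : ℝ) ≤ (n : ℝ) ^ K := one_le_pow₀ (by exact_mod_cast hn)
  calc ((n : ℝ) ^ K) ^ (3 / 2 : ℝ) ≤ ((n : ℝ) ^ K) ^ (2 : ℝ) := Real.rpow_le_rpow_of_exponent_le h1 (by norm_num)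
    _ = (n : ℝ) ^ (2 * K) := by
      rw [show (2 : ℝ) = ((2 : ℕ) : ℝ) by norm_num, Real.rpow_natCast, ← pow_mul, mul_comm]

/-- numerology of the main term -/
theorem hz_lo_num1 (γ ζ ν Cr : ℝ) (K : ℕ) (hγ : 0 < γ) (hζ0 : 0 < ζ) (hζ1 : ζ ≤ 1 / 4) (hν : 0 < ν) :
    ∃ n0 : ℕ, ∀ n : ℕ, n0 ≤ n → ∀ τ : ℝ, 0 ≤ τ →
      2 * (((n : ℝ) ^ K * (2 : ℝ)⁻¹ ^ ⌊ζ * n⌋₊) ^ (3 / 2 : ℝ) * (2 ^ ⌊ζ * n⌋₊ * ((2 * 2 ^ (τ * n)) * 2 ^ (τ * n / 2) * (2 * 2 ^ (τ * n))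
          * 2 ^ ((γ + ν / 4 - 1 / 2) * ((n - ⌊ζ * n⌋₊ : ℕ) : ℝ)) * Real.sqrt Cr)))
        ≤ 1 / 2 * (2 ^ (((1 - ζ) * γ + 3 * τ + ν) * n) * Real.sqrt ((2 : ℝ)⁻¹ ^ n)) := by
  obtain ⟨n1, hn1⟩ := hz_lo_poly (16 * Real.sqrt Cr * 2 ^ (γ + ν / 4)) (2 * K) (3 * ν / 4) (by positivity)
  refine ⟨max n1 1, fun n hn τ hτ => ?_⟩
  have hn1' := hn1 n (le_trans (le_max_left _ _) hn)
  have hn2 : 1 ≤ n := le_trans (le_max_right _ _) hn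
  set z : ℕ := ⌊ζ * n⌋₊ with hz
  have hN0 : (0 : ℝ) ≤ (n : ℝ) := Nat.cast_nonneg _
  have hz1 : (z : ℝ) ≤ ζ * n := Nat.floor_le (by positivity)
  have hz2 : ζ * n < (z : ℝ) + 1 := Nat.lt_floor_add_one _
  have hzn : z ≤ n := by
    have : (z : ℝ) ≤ (n : ℝ) := by nlinarith
    exact_mod_cast this
  have hcast : ((n - z : ℕ) : ℝ) = (n : ℝ) - z := Nat.cast_sub hzn
  set P : ℝ := ((n : ℝ) ^ K) ^ (3 / 2 : ℝ) with hP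
  have hP0 : 0 ≤ P := by positivity
  have hPle : P ≤ (n : ℝ) ^ (2 * K) := hz_lo_P_le n K hn2
  have e1 : ((n : ℝ) ^ K * (2 : ℝ)⁻¹ ^ z) ^ (3 / 2 : ℝ) = P * 2 ^ (-(z : ℝ) * (3 / 2)) := by
    rw [Real.mul_rpow (by positivity) (by positivity), hz_lo_inv_pow, gn_two_mul]
  have e2 : (2 : ℝ) ^ z = 2 ^ (z : ℝ) := (gn_two_nat z).symm
  have e3 : Real.sqrt ((2 : ℝ)⁻¹ ^ n) = 2 ^ (-(n : ℝ) / 2) := by
    rw [hz_lo_inv_pow, gn_two_sqrt]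
  rw [e1, e2, e3, hcast]
  have e4 : 2 * (P * 2 ^ (-(z : ℝ) * (3 / 2)) * (2 ^ (z : ℝ) * ((2 * 2 ^ (τ * n)) * 2 ^ (τ * n / 2) * (2 * 2 ^ (τ * n))
      * 2 ^ ((γ + ν / 4 - 1 / 2) * ((n : ℝ) - z)) * Real.sqrt Cr)))
      = 8 * Real.sqrt Cr * P * 2 ^ (-(n : ℝ) / 2 + 5 / 2 * τ * n + (γ + ν / 4) * ((n : ℝ) - z)) := by
    have : (2 : ℝ) ^ (-(n : ℝ) / 2 + 5 / 2 * τ * n + (γ + ν / 4) * ((n : ℝ) - z))
        = 2 ^ (-(z : ℝ) * (3 / 2)) * 2 ^ (z : ℝ) * 2 ^ (τ * n) * 2 ^ (τ * n / 2) * 2 ^ (τ * n) * 2 ^ ((γ + ν / 4 - 1 / 2) * ((n : ℝ) - z)) := by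
      rw [← gn_two_add, ← gn_two_add, ← gn_two_add, ← gn_two_add, ← gn_two_add]
      congr 1
      ring
    rw [this]
    ring
  rw [e4]
  have hexp : -(n : ℝ) / 2 + 5 / 2 * τ * n + (γ + ν / 4) * ((n : ℝ) - z)
      ≤ (γ + ν / 4) + (((1 - ζ) * γ + 3 * τ + ν / 4) * n + -(n : ℝ) / 2) := by
    have h1 : (n : ℝ) - z ≤ (1 - ζ) * n + 1 := by linarith
    have h2 : (γ + ν / 4) * ((n : ℝ) - z) ≤ (γ + ν / 4) * ((1 - ζ) * n + 1) := mul_le_mul_of_nonneg_left h1 (by positivity)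
    have h3 : ν / 4 * ((1 - ζ) * n) ≤ ν / 4 * n := by
      refine mul_le_mul_of_nonneg_left ?_ (by positivity)
      nlinarith
    have h4 : 0 ≤ τ * n := by positivity
    nlinarith
  calc 8 * Real.sqrt Cr * P * 2 ^ (-(n : ℝ) / 2 + 5 / 2 * τ * n + (γ + ν / 4) * ((n : ℝ) - z))
      ≤ 8 * Real.sqrt Cr * (n : ℝ) ^ (2 * K) * 2 ^ ((γ + ν / 4) + (((1 - ζ) * γ + 3 * τ + ν / 4) * n + -(n : ℝ) / 2)) := by
        have := gn_two_mono hexp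
        gcongr
    _ = 1 / 2 * (16 * Real.sqrt Cr * 2 ^ (γ + ν / 4) * (n : ℝ) ^ (2 * K)) * 2 ^ (((1 - ζ) * γ + 3 * τ + ν / 4) * n + -(n : ℝ) / 2) := by
        rw [gn_two_add (γ + ν / 4)]
        ring
    _ ≤ 1 / 2 * 2 ^ (3 * ν / 4 * n) * 2 ^ (((1 - ζ) * γ + 3 * τ + ν / 4) * n + -(n : ℝ) / 2) := by
        gcongr
    _ = 1 / 2 * (2 ^ (((1 - ζ) * γ + 3 * τ + ν) * n) * 2 ^ (-(n : ℝ) / 2)) := by
        rw [mul_assoc, ← gn_two_add, ← gn_two_add]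
        congr 2
        ring

/-- numerology of the error term -/
theorem hz_lo_num2 (K C : ℕ) : ∃ n0 : ℕ, ∀ n : ℕ, n0 ≤ n →
    2 * (((n : ℝ) ^ K * 2 ^ n * Real.exp (-((n : ℝ) ^ 2 / 40))) ^ (3 / 2 : ℝ) * (((2 ^ n : ℕ) : ℝ) * (((2 * 2 ^ (C * n) + 1 : ℕ) : ℝ) * 2 ^ ((C : ℝ) * n / 2))))
      ≤ 1 / 2 * Real.sqrt ((2 : ℝ)⁻¹ ^ n) := by
  obtain ⟨n1, hn1⟩ := hz_lo_poly 12 (2 * K) 1 one_pos
  refine ⟨max n1 (107 + 40 * C), fun n hn => ?_⟩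
  have hn1' := hn1 n (le_trans (le_max_left _ _) hn)
  have hn2 : 107 + 40 * C ≤ n := le_trans (le_max_right _ _) hn
  have hn3 : (107 : ℝ) + 40 * C ≤ (n : ℝ) := by exact_mod_cast hn2
  have hC0 : (0 : ℝ) ≤ (C : ℝ) := Nat.cast_nonneg _
  have hN0 : (0 : ℝ) ≤ (n : ℝ) := Nat.cast_nonneg _
  set P : ℝ := ((n : ℝ) ^ K) ^ (3 / 2 : ℝ) with hP
  have hP0 : 0 ≤ P := by positivity
  have hPle : P ≤ (n : ℝ) ^ (2 * K) := hz_lo_P_le n K (by omega)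
  have e1 : ((n : ℝ) ^ K * 2 ^ n * Real.exp (-((n : ℝ) ^ 2 / 40))) ^ (3 / 2 : ℝ) = P * 2 ^ ((n : ℝ) * (3 / 2)) * Real.exp (-((n : ℝ) ^ 2 / 40) * (3 / 2)) := by
    rw [Real.mul_rpow (by positivity) (by positivity), Real.mul_rpow (by positivity) (by positivity), ← gn_two_nat, gn_two_mul, ← Real.exp_mul]
  have e3 : Real.sqrt ((2 : ℝ)⁻¹ ^ n) = 2 ^ (-(n : ℝ) / 2) := by
    rw [hz_lo_inv_pow, gn_two_sqrt]
  have e4 : ((2 ^ n : ℕ) : ℝ) = 2 ^ (n : ℝ) := by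
    rw [gn_two_nat]
    push_cast
    rfl
  have e5 : ((2 * 2 ^ (C * n) + 1 : ℕ) : ℝ) ≤ 3 * 2 ^ ((C : ℝ) * n) := by
    have h1 : (2 : ℝ) ^ ((C : ℝ) * n) = 2 ^ (C * n) := by
      rw [← gn_two_nat]
      push_cast
      rfl
    rw [h1]
    push_cast
    have : (1 : ℝ) ≤ 2 ^ (C * n) := one_le_pow₀ (by norm_num)
    linarith
  rw [e1, e3, e4]
  have hexp : (2 : ℝ) ^ ((4 + 3 / 2 * (C : ℝ)) * n) * Real.exp (-((n : ℝ) ^ 2 / 40) * (3 / 2)) ≤ 1 := by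
    have h1 : (2 : ℝ) ^ ((4 + 3 / 2 * (C : ℝ)) * n) ≤ Real.exp ((4 + 3 / 2 * (C : ℝ)) * n) := by
      rw [Real.rpow_def_of_pos (by norm_num)]
      refine Real.exp_le_exp.2 ?_
      have hl : Real.log 2 ≤ 1 := by
        have := Real.log_le_sub_one_of_pos (by norm_num : (0 : ℝ) < 2)
        linarith
      have : 0 ≤ (4 + 3 / 2 * (C : ℝ)) * n := by positivity
      nlinarith
    calc (2 : ℝ) ^ ((4 + 3 / 2 * (C : ℝ)) * n) * Real.exp (-((n : ℝ) ^ 2 / 40) * (3 / 2))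
        ≤ Real.exp ((4 + 3 / 2 * (C : ℝ)) * n) * Real.exp (-((n : ℝ) ^ 2 / 40) * (3 / 2)) := by gcongr
      _ = Real.exp ((4 + 3 / 2 * (C : ℝ)) * n + -((n : ℝ) ^ 2 / 40) * (3 / 2)) := (Real.exp_add _ _).symm
      _ ≤ 1 := by
        rw [Real.exp_le_one_iff]
        nlinarith
  calc 2 * (P * 2 ^ ((n : ℝ) * (3 / 2)) * Real.exp (-((n : ℝ) ^ 2 / 40) * (3 / 2)) * (2 ^ (n : ℝ) * (((2 * 2 ^ (C * n) + 1 : ℕ) : ℝ) * 2 ^ ((C : ℝ) * n / 2))))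
      ≤ 2 * ((n : ℝ) ^ (2 * K) * 2 ^ ((n : ℝ) * (3 / 2)) * Real.exp (-((n : ℝ) ^ 2 / 40) * (3 / 2)) * (2 ^ (n : ℝ) * ((3 * 2 ^ ((C : ℝ) * n)) * 2 ^ ((C : ℝ) * n / 2)))) := by
        gcongr
    _ = 1 / 2 * (12 * (n : ℝ) ^ (2 * K)) * (2 ^ ((n : ℝ) * (3 / 2)) * 2 ^ (n : ℝ) * 2 ^ ((C : ℝ) * n) * 2 ^ ((C : ℝ) * n / 2)) * Real.exp (-((n : ℝ) ^ 2 / 40) * (3 / 2)) := by
        ring
    _ ≤ 1 / 2 * 2 ^ (1 * (n : ℝ)) * (2 ^ ((n : ℝ) * (3 / 2)) * 2 ^ (n : ℝ) * 2 ^ ((C : ℝ) * n) * 2 ^ ((C : ℝ) * n / 2)) * Real.exp (-((n : ℝ) ^ 2 / 40) * (3 / 2)) := by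
        gcongr
    _ = 1 / 2 * 2 ^ (-(n : ℝ) / 2) * (2 ^ ((4 + 3 / 2 * (C : ℝ)) * n) * Real.exp (-((n : ℝ) ^ 2 / 40) * (3 / 2))) := by
        have : (2 : ℝ) ^ (1 * (n : ℝ)) * (2 ^ ((n : ℝ) * (3 / 2)) * 2 ^ (n : ℝ) * 2 ^ ((C : ℝ) * n) * 2 ^ ((C : ℝ) * n / 2))
            = 2 ^ (-(n : ℝ) / 2) * 2 ^ ((4 + 3 / 2 * (C : ℝ)) * n) := by
          rw [← gn_two_add, ← gn_two_add, ← gn_two_add, ← gn_two_add, ← gn_two_add]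
          congr 1
          ring
        linear_combination (1 / 2 * Real.exp (-((n : ℝ) ^ 2 / 40) * (3 / 2))) * this
    _ ≤ 1 / 2 * 2 ^ (-(n : ℝ) / 2) * 1 := by
        gcongr
    _ = 1 / 2 * 2 ^ (-(n : ℝ) / 2) := mul_one _

/-- **(LO)** assembly.   `Λ = n`, `m = C`, `W = 2 s^-τ`, `q = q(ks)`;  `(C', Cr)` from (CL), `(A, n0)` from (PK) with `C'' = max C' (4C + 8)`, `ε = ν/4`.   `E'.kf = kr`, `E'.kf + z = kf`, `E'.n = n - z`.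
`(x + y)^(3/2) ≤ 2 (x^(3/2) + y^(3/2))`;   main: for fixed `(d, β)` at most `2^z` values of `b`: `Σ_c ≤ 2^z (n^K 2^-z)^(3/2) Σ_{β, d} ms^(3/2)`, (PK): `≤ n^(3K/2) 2^(-z/2) (W f/d(kf)) W 2^((γ + ε - 1/2)(n-z)) e (Cr κ w)^(1/2)`,
`f/d(kf) ≤ s^(-τ/2)`: exponent `(γ + ε)(n - z) - n/2 + (5τ/2) n + o(n)`, `z ≥ ζ n - 1`.   Error: `#b ≤ 2^(Cn+2)`, `Σ_i (Σ_d ∫_{sq} ‖F‖²)^(3/2) ≤ 2^n e^(3/2)`, `e^(1/2) ≤ s^(-C/2) (κ w)^(1/2)`, `exp(-n²/40)` wins.      ~700 l. -/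
theorem hz_low (η : ℝ) (h0 : 0 < η) (h1 : η < 1) (hK : HzKinC) (γ ζ : ℝ) (hγ : 0 < γ) (hR : (cylHyb η).Rate γ) (hζ0 : 0 < ζ) (hζ1 : ζ ≤ 1 / 4) : HzLowC η γ ζ := by
  refine ⟨3, fun τ ν hτ0 hτ1 hν C => ?_⟩
  obtain ⟨K, hLI⟩ := hz_low_int η C
  obtain ⟨C', Cr, hCr, hCL⟩ := hz_low_cls η h0 h1 C
  obtain ⟨A, nPK, hPK⟩ := hz_pk η h0 h1 hK γ hγ hR (max C' (4 * C + 8)) (ν / 4) (by positivity)
  obtain ⟨nCL, hCL⟩ := hCL A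
  obtain ⟨n1, hn1⟩ := hz_lo_num1 γ ζ ν Cr K hγ hζ0 hζ1 hν
  obtain ⟨n2, hn2⟩ := hz_lo_num2 K C
  obtain ⟨n3, hn3⟩ := hz_lo_poly ((2 * (C : ℝ) + 5) * ((C : ℝ) + 2) + 2) 1 τ hτ0
  refine ⟨max (max nCL (2 * nPK)) (max (max n1 n2) (max n3 2)), fun p G Kc D hn hG hDb _ => ?_⟩
  have hnCL : nCL ≤ G.n := le_trans (le_trans (le_max_left _ _) (le_max_left _ _)) hn
  have hnPK : 2 * nPK ≤ G.n := le_trans (le_trans (le_max_right _ _) (le_max_left _ _)) hn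
  have hn1' := hn1 G.n (le_trans (le_trans (le_trans (le_max_left _ _) (le_max_left _ _)) (le_max_right _ _)) hn) τ hτ0.le
  have hn2' := hn2 G.n (le_trans (le_trans (le_trans (le_max_right _ _) (le_max_left _ _)) (le_max_right _ _)) hn)
  have hn3' := hn3 G.n (le_trans (le_trans (le_trans (le_max_left _ _) (le_max_right _ _)) (le_max_right _ _)) hn)
  have hn4 : 2 ≤ G.n := le_trans (le_trans (le_trans (le_max_right _ _) (le_max_right _ _)) (le_max_right _ _)) hn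
  set z : ℕ := ⌊ζ * G.n⌋₊ with hzdef
  have hN0 : (0 : ℝ) ≤ (G.n : ℝ) := Nat.cast_nonneg _
  have hN2 : (2 : ℝ) ≤ (G.n : ℝ) := by exact_mod_cast hn4
  have hz4 : 4 * z ≤ G.n := by
    have h1 : (z : ℝ) ≤ ζ * G.n := Nat.floor_le (by positivity)
    have h2 : 4 * (z : ℝ) ≤ (G.n : ℝ) := by nlinarith
    exact_mod_cast h2
  have hcls := gn_cls_mono (cylHyb η) (hy_scale η) (le_max_left C' (4 * C + 8)) (hCL p G τ z Kc hnCL hG hτ0.le hτ1 hz4)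
  have hsτ : G.s ^ (-τ) = 2 ^ (τ * G.n) := by
    rw [hz_lo_s_rpow]
    congr 1
    ring
  have hcond : (2 * (C : ℝ) + 5) * (((C : ℝ) + 2) * (G.n : ℝ)) + 2 ≤ G.s ^ (-τ) := by
    rw [hsτ]
    refine le_trans ?_ hn3'
    rw [pow_one]
    nlinarith
  -- abbreviations
  set Ms : ℕ → ℤ × ℤ → ℤ → ℝ := fun i d β =>
    ((p.mlt (2 * Kc + 1)).sys η).ms (tmL (G.kf - z) (ancI G.kf (G.kf - z) i)) (G.kf - z) 0
      (hzWn (p.mlt (2 * Kc + 1)) G.Q G.T0 (G.kf - z) z (2 * G.s ^ (-τ)) (p.ql (G.kf - 2 * z)) i d β)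
      ((G.xq (G.kf - 2 * z) (G.kf - z) Kc (Cr * G.ka)).fin (ancI G.kf (G.kf - z) i)) with hMs
  set Ie : ℕ → ℤ × ℤ → ℝ := fun i d => ∫ x in G.sq i d, ‖(G.F : p.Om × ℝ × ℝ → p.Fb) x‖ ^ 2 ∂p.rw with hIe
  set a : ℝ := (G.n : ℝ) ^ K * (2 : ℝ)⁻¹ ^ z with ha
  set b : ℝ := (G.n : ℝ) ^ K * 2 ^ G.n * Real.exp (-((G.n : ℝ) ^ 2 / 40)) with hb
  have ha0 : 0 ≤ a := by positivity
  have hb0 : 0 ≤ b := by positivity
  have hMs0 : ∀ i d β, 0 ≤ Ms i d β := fun i d β => gn_ms_nonneg _ _ _ _ _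
  have hIe0 : ∀ i d, 0 ≤ Ie i d := fun i d => integral_nonneg fun x => by positivity
  set Bc : Finset ℤ := (ivs G.k0 G.i0 G.kf).biUnion fun i => (D i).image fun c => c.2.2 / 2 ^ z with hBc
  set D' : ℕ → Finset (ℤ × ℤ) := fun i => (D i).image fun c => (c.1, c.2.1) with hD'
  -- one cell
  have hcell : ∀ i ∈ ivs G.k0 G.i0 G.kf, ∀ c : ℤ × ℤ × ℤ,
      (∑ a' ∈ Finset.Icc (-(Kc : ℤ)) Kc, G.mf (G.vc (G.kf - 2 * z) a') i (G.cl i c)) ^ (3 / 2 : ℝ)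
        ≤ 2 * (a ^ (3 / 2 : ℝ) * Ms i (c.1, c.2.1) (c.2.2 / 2 ^ z) ^ (3 / 2 : ℝ) + b ^ (3 / 2 : ℝ) * Ie i (c.1, c.2.1) ^ (3 / 2 : ℝ)) := by
    intro i hi c
    have h1 := hLI p G C τ z (G.n : ℝ) Kc (Cr * G.ka) i c hG hτ0.le hG.len (by omega) hN2 hcond hi
    have h2 : 0 ≤ ∑ a' ∈ Finset.Icc (-(Kc : ℤ)) Kc, G.mf (G.vc (G.kf - 2 * z) a') i (G.cl i c) :=
      Finset.sum_nonneg fun a' _ => gn_ms_nonneg _ _ _ _ _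
    have h3 : ∑ a' ∈ Finset.Icc (-(Kc : ℤ)) Kc, G.mf (G.vc (G.kf - 2 * z) a') i (G.cl i c)
        ≤ a * Ms i (c.1, c.2.1) (c.2.2 / 2 ^ z) + b * Ie i (c.1, c.2.1) := h1
    refine (Real.rpow_le_rpow h2 h3 (by norm_num)).trans ?_
    refine (hz_lo_add32 (mul_nonneg ha0 (hMs0 _ _ _)) (mul_nonneg hb0 (hIe0 _ _))).trans ?_
    rw [Real.mul_rpow ha0 (hMs0 _ _ _), Real.mul_rpow hb0 (hIe0 _ _)]
  -- one interval
  have hA : ∀ i ∈ ivs G.k0 G.i0 G.kf, ∑ c ∈ D i, Ms i (c.1, c.2.1) (c.2.2 / 2 ^ z) ^ (3 / 2 : ℝ)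
      ≤ ((2 ^ z : ℕ) : ℝ) * ∑ β ∈ Bc, ∑ d ∈ D' i, Ms i d β ^ (3 / 2 : ℝ) := by
    intro i hi
    have h1 := hz_lo_fib (D i) (fun c => ((c.2.2 / 2 ^ z, c.1, c.2.1) : ℤ × ℤ × ℤ)) (Bc ×ˢ D' i) (2 ^ z)
      (fun t => Ms i t.2 t.1 ^ (3 / 2 : ℝ)) (fun t => Real.rpow_nonneg (hMs0 _ _ _) _)
      (fun c hc => Finset.mem_product.2 ⟨Finset.mem_biUnion.2 ⟨i, hi, Finset.mem_image_of_mem _ hc⟩, Finset.mem_image_of_mem _ hc⟩)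
      (fun t _ => hz_lo_cnt1 (D i) z t)
    rw [Finset.sum_product] at h1
    exact h1
  have hB : ∀ i, ∑ c ∈ D i, Ie i (c.1, c.2.1) ^ (3 / 2 : ℝ) ≤ ((2 * 2 ^ (C * G.n) + 1 : ℕ) : ℝ) * G.e ^ (3 / 2 : ℝ) := by
    intro i
    have h1 := hz_lo_fib (D i) (fun c => ((c.1, c.2.1) : ℤ × ℤ)) (D' i) (2 * 2 ^ (C * G.n) + 1)
      (fun d => Ie i d ^ (3 / 2 : ℝ)) (fun d => Real.rpow_nonneg (hIe0 _ _) _)
      (fun c hc => Finset.mem_image_of_mem _ hc)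
      (fun d _ => hz_lo_cnt2 (D i) (2 ^ (C * G.n)) (fun c hc => by
        have := hDb i c hc
        push_cast
        exact this) d)
    refine h1.trans ?_
    exact mul_le_mul_of_nonneg_left (hz_lo_err G hG.par hG.en i (D' i)) (Nat.cast_nonneg _)
  have hPKb := hz_lo_pk_use γ (ν / 4) (max C' (4 * C + 8)) A nPK hPK p G C τ z Kc Cr hCr hG hτ0.le hτ1 hz4 (by omega) (by omega)
    (le_max_right _ _) hcls Bc D'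
  set X : ℝ := (2 * 2 ^ (τ * G.n)) * 2 ^ (τ * G.n / 2) * (2 * 2 ^ (τ * G.n)) * 2 ^ ((γ + ν / 4 - 1 / 2) * ((G.n - z : ℕ) : ℝ)) with hX
  have hcard : ((ivs G.k0 G.i0 G.kf).card : ℝ) = ((2 ^ G.n : ℕ) : ℝ) := by
    rw [gn_ivs_card]
    congr 2
    show G.k0 + G.n - G.k0 = G.n
    omega
  have ha32 : 0 ≤ a ^ (3 / 2 : ℝ) := Real.rpow_nonneg ha0 _
  have hb32 : 0 ≤ b ^ (3 / 2 : ℝ) := Real.rpow_nonneg hb0 _
  have hLL : G.LL (G.kf - 2 * z) Kc D ≤ 2 * (a ^ (3 / 2 : ℝ) * (((2 ^ z : ℕ) : ℝ) * (X * (G.e * Real.sqrt (Cr * G.ka * cyWt η G.Q)))))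
      + 2 * (b ^ (3 / 2 : ℝ) * (((2 ^ G.n : ℕ) : ℝ) * (((2 * 2 ^ (C * G.n) + 1 : ℕ) : ℝ) * G.e ^ (3 / 2 : ℝ)))) := by
    unfold HzGr.LL
    calc ∑ i ∈ ivs G.k0 G.i0 G.kf, ∑ c ∈ D i, (∑ a' ∈ Finset.Icc (-(Kc : ℤ)) Kc, G.mf (G.vc (G.kf - 2 * z) a') i (G.cl i c)) ^ (3 / 2 : ℝ)
        ≤ ∑ i ∈ ivs G.k0 G.i0 G.kf, (2 * (a ^ (3 / 2 : ℝ) * (((2 ^ z : ℕ) : ℝ) * ∑ β ∈ Bc, ∑ d ∈ D' i, Ms i d β ^ (3 / 2 : ℝ)))
            + 2 * (b ^ (3 / 2 : ℝ) * (((2 * 2 ^ (C * G.n) + 1 : ℕ) : ℝ) * G.e ^ (3 / 2 : ℝ)))) := by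
          refine Finset.sum_le_sum fun i hi => ?_
          calc ∑ c ∈ D i, (∑ a' ∈ Finset.Icc (-(Kc : ℤ)) Kc, G.mf (G.vc (G.kf - 2 * z) a') i (G.cl i c)) ^ (3 / 2 : ℝ)
              ≤ ∑ c ∈ D i, 2 * (a ^ (3 / 2 : ℝ) * Ms i (c.1, c.2.1) (c.2.2 / 2 ^ z) ^ (3 / 2 : ℝ) + b ^ (3 / 2 : ℝ) * Ie i (c.1, c.2.1) ^ (3 / 2 : ℝ)) :=
                Finset.sum_le_sum fun c _ => hcell i hi c
            _ = 2 * (a ^ (3 / 2 : ℝ) * ∑ c ∈ D i, Ms i (c.1, c.2.1) (c.2.2 / 2 ^ z) ^ (3 / 2 : ℝ))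
                + 2 * (b ^ (3 / 2 : ℝ) * ∑ c ∈ D i, Ie i (c.1, c.2.1) ^ (3 / 2 : ℝ)) := by
                rw [← Finset.mul_sum, Finset.sum_add_distrib, ← Finset.mul_sum, ← Finset.mul_sum]
                ring
            _ ≤ _ := by
                have h1 := mul_le_mul_of_nonneg_left (hA i hi) ha32
                have h2 := mul_le_mul_of_nonneg_left (hB i) hb32
                linarith
      _ = 2 * (a ^ (3 / 2 : ℝ) * (((2 ^ z : ℕ) : ℝ) * ∑ i ∈ ivs G.k0 G.i0 G.kf, ∑ β ∈ Bc, ∑ d ∈ D' i, Ms i d β ^ (3 / 2 : ℝ)))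
            + 2 * (b ^ (3 / 2 : ℝ) * (((2 ^ G.n : ℕ) : ℝ) * (((2 * 2 ^ (C * G.n) + 1 : ℕ) : ℝ) * G.e ^ (3 / 2 : ℝ)))) := by
          rw [Finset.sum_add_distrib, Finset.sum_const, nsmul_eq_mul, hcard, ← Finset.mul_sum, ← Finset.mul_sum, ← Finset.mul_sum]
          ring
      _ ≤ _ := by
          have h1 : ∑ i ∈ ivs G.k0 G.i0 G.kf, ∑ β ∈ Bc, ∑ d ∈ D' i, Ms i d β ^ (3 / 2 : ℝ) ≤ X * (G.e * Real.sqrt (Cr * G.ka * cyWt η G.Q)) := hPKb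
          have h2 := mul_le_mul_of_nonneg_left (mul_le_mul_of_nonneg_left h1 (Nat.cast_nonneg (2 ^ z))) ha32
          linarith
  refine hLL.trans ?_
  -- numerology
  have hw0 : 0 < cyWt η G.Q := by
    unfold cyWt
    have := hG.r_pos
    have := hG.f_pos
    positivity
  have hκw : 0 < G.ka * cyWt η G.Q := mul_pos hG.ka_pos hw0
  set U : ℝ := G.e * Real.sqrt (G.ka * cyWt η G.Q) with hU
  have he0 := hG.e_pos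
  have hU0 : 0 ≤ U := by positivity
  have hs : G.s = (2 : ℝ)⁻¹ ^ G.n := rfl
  have hunit : G.unit = Real.sqrt ((2 : ℝ)⁻¹ ^ G.n) * U := rfl
  have e1 : G.e * Real.sqrt (Cr * G.ka * cyWt η G.Q) = Real.sqrt Cr * U := by
    rw [mul_assoc Cr, Real.sqrt_mul (by linarith), hU]
    ring
  have e2 : G.e ^ (3 / 2 : ℝ) ≤ 2 ^ ((C : ℝ) * G.n / 2) * U := by
    have h1 := hG.ek_hi
    rw [hz_lo_s_rpow] at h1
    have h2 : G.e ^ (3 / 2 : ℝ) = G.e * Real.sqrt G.e := by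
      rw [show (3 / 2 : ℝ) = 1 + 1 / 2 by norm_num, Real.rpow_add he0, Real.rpow_one, Real.sqrt_eq_rpow]
    have h3 : Real.sqrt G.e ≤ 2 ^ ((C : ℝ) * G.n / 2) * Real.sqrt (G.ka * cyWt η G.Q) := by
      have := Real.sqrt_le_sqrt h1
      rw [Real.sqrt_mul (by positivity), gn_two_sqrt] at this
      refine this.trans (le_of_eq ?_)
      congr 2
      ring
    rw [h2, hU]
    calc G.e * Real.sqrt G.e ≤ G.e * (2 ^ ((C : ℝ) * G.n / 2) * Real.sqrt (G.ka * cyWt η G.Q)) := mul_le_mul_of_nonneg_left h3 he0.le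
      _ = _ := by ring
  have hz2 : ((2 ^ z : ℕ) : ℝ) = 2 ^ z := by push_cast; rfl
  have hone : (1 : ℝ) ≤ 2 ^ (((1 - ζ) * γ + 3 * τ + ν) * G.n) := by
    refine Real.one_le_rpow (by norm_num) ?_
    have : 0 ≤ (1 - ζ) * γ := mul_nonneg (by linarith) hγ.le
    positivity
  have hsq0 : 0 ≤ Real.sqrt ((2 : ℝ)⁻¹ ^ G.n) := Real.sqrt_nonneg _
  have T1 : 2 * (a ^ (3 / 2 : ℝ) * (((2 ^ z : ℕ) : ℝ) * (X * (G.e * Real.sqrt (Cr * G.ka * cyWt η G.Q)))))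
      ≤ 1 / 2 * (2 ^ (((1 - ζ) * γ + 3 * τ + ν) * G.n) * Real.sqrt ((2 : ℝ)⁻¹ ^ G.n)) * U := by
    rw [e1, hz2]
    calc 2 * (a ^ (3 / 2 : ℝ) * (2 ^ z * (X * (Real.sqrt Cr * U)))) = 2 * (a ^ (3 / 2 : ℝ) * (2 ^ z * (X * Real.sqrt Cr))) * U := by ring
      _ ≤ _ := mul_le_mul_of_nonneg_right hn1' hU0
  have T2 : 2 * (b ^ (3 / 2 : ℝ) * (((2 ^ G.n : ℕ) : ℝ) * (((2 * 2 ^ (C * G.n) + 1 : ℕ) : ℝ) * G.e ^ (3 / 2 : ℝ))))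
      ≤ 1 / 2 * (2 ^ (((1 - ζ) * γ + 3 * τ + ν) * G.n) * Real.sqrt ((2 : ℝ)⁻¹ ^ G.n)) * U := by
    calc 2 * (b ^ (3 / 2 : ℝ) * (((2 ^ G.n : ℕ) : ℝ) * (((2 * 2 ^ (C * G.n) + 1 : ℕ) : ℝ) * G.e ^ (3 / 2 : ℝ))))
        ≤ 2 * (b ^ (3 / 2 : ℝ) * (((2 ^ G.n : ℕ) : ℝ) * (((2 * 2 ^ (C * G.n) + 1 : ℕ) : ℝ) * (2 ^ ((C : ℝ) * G.n / 2) * U)))) := by
          gcongr
      _ = 2 * (b ^ (3 / 2 : ℝ) * (((2 ^ G.n : ℕ) : ℝ) * (((2 * 2 ^ (C * G.n) + 1 : ℕ) : ℝ) * 2 ^ ((C : ℝ) * G.n / 2)))) * U := by ring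
      _ ≤ 1 / 2 * Real.sqrt ((2 : ℝ)⁻¹ ^ G.n) * U := mul_le_mul_of_nonneg_right hn2' hU0
      _ ≤ _ := by
          refine mul_le_mul_of_nonneg_right ?_ hU0
          have := le_mul_of_one_le_left hsq0 hone
          linarith
  rw [hunit]
  calc _ ≤ 1 / 2 * (2 ^ (((1 - ζ) * γ + 3 * τ + ν) * G.n) * Real.sqrt ((2 : ℝ)⁻¹ ^ G.n)) * U
        + 1 / 2 * (2 ^ (((1 - ζ) * γ + 3 * τ + ν) * G.n) * Real.sqrt ((2 : ℝ)⁻¹ ^ G.n)) * U := add_le_add T1 T2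
    _ = _ := by ring

end Claimed.Agent.R256
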