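import Claimed.Agent.R256.Hz.Red3
import Claimed.Agent.R256.Hz.High
import Claimed.Agent.R256.Hz.Low
import Claimed.Agent.R256.Soft.Exit
import Claimed.Agent.R256.Kin.MeasMain

/-!
# Row 256, unit HZ: the exit theorem      (chief helper82)
Compile-checked chain:   `hz_exit` ⟸ `hz_exit_of` (numerology) ⟸ `hz_reduce` (Hz/Red), `hz_group` (Hz/Grp) ⟸ `hz_split`, `hz_high` (Hz/High), `hz_low` (Hz/Low) ⟸ fibre theory (Hz/Fib, Cross, Loc), `Hyb/*`, KIN-M.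
Consumers cite `hz_exit` or, in the format of `Soft/Exit.lean`, `hz_sf`.
-/

set_option autoImplicit false

namespace Claimed.Agent.R256

/-- KIN-M (`Kin/MeasMain.lean`, helper132, helper289) -/
theorem hz_kin : HzKinC := kin_meas_grid_ae

theorem hz_ex_spow (n : ℕ) (t : ℝ) : ((2 : ℝ)⁻¹ ^ n) ^ (-t) = 2 ^ (t * n) := by
  rw [← Real.rpow_natCast, Real.inv_rpow (by norm_num), ← Real.rpow_neg (by norm_num), ← Real.rpow_mul (by norm_num)]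
  congr 1
  ring

theorem hz_ex_sqrt (n : ℕ) : (2 : ℝ) ^ ((n : ℝ) / 2) * Real.sqrt ((2 : ℝ)⁻¹ ^ n) = 1 := by
  rw [Real.sqrt_eq_rpow, ← Real.rpow_natCast, Real.inv_rpow (by norm_num), ← Real.rpow_neg (by norm_num), ← Real.rpow_mul (by norm_num), ← Real.rpow_add (by norm_num)]
  have : (n : ℝ) / 2 + -(n : ℝ) * (1 / 2) = 0 := by ring
  rw [this, Real.rpow_zero]

theorem hz_ex_real {n : ℕ} {τ X e κ w0 Sm Se SH : ℝ} (he : 0 < e) (hκ : 0 < κ) (hw : 0 < w0)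
    (h1 : Sm ≤ ((2 : ℝ)⁻¹ ^ n) ^ (-(2 * τ)) * (4 * SH + Real.sqrt ((2 : ℝ)⁻¹ ^ n) * (e * Real.sqrt (κ * w0))))
    (h2 : SH ≤ 2 ^ (X * n) * (Real.sqrt ((2 : ℝ)⁻¹ ^ n) * (Se * Real.sqrt (κ * w0))))
    (h3 : Se ≤ ((2 : ℝ)⁻¹ ^ n) ^ (-τ) * e) :
    2 ^ ((n : ℝ) / 2) / (e * Real.sqrt κ) * (Sm / Real.sqrt w0) ≤ 2 ^ (2 * τ * n) * (4 * 2 ^ ((X + τ) * n) + 1) := by
  rw [hz_ex_spow] at h1 h3
  obtain ⟨rs, hrs⟩ : ∃ r : ℝ, r = Real.sqrt ((2 : ℝ)⁻¹ ^ n) := ⟨_, rfl⟩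
  have hrs0 : 0 ≤ rs := hrs ▸ Real.sqrt_nonneg _
  have hone := hz_ex_sqrt n
  rw [← hrs] at h1 h2 hone
  have hsκ : 0 < Real.sqrt κ := Real.sqrt_pos.2 hκ
  have hsw : 0 < Real.sqrt w0 := Real.sqrt_pos.2 hw
  rw [Real.sqrt_mul hκ.le] at h1 h2
  obtain ⟨D, hD⟩ : ∃ D : ℝ, D = e * Real.sqrt κ * Real.sqrt w0 := ⟨_, rfl⟩
  have hD0 : 0 < D := by rw [hD]; positivity
  have p1 : (0 : ℝ) < 2 ^ (X * n) := Real.rpow_pos_of_pos (by norm_num) _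
  have p2 : (0 : ℝ) < 2 ^ (2 * τ * n) := Real.rpow_pos_of_pos (by norm_num) _
  have hSH : SH ≤ 2 ^ ((X + τ) * n) * (rs * D) := by
    calc SH ≤ 2 ^ (X * n) * (rs * (Se * (Real.sqrt κ * Real.sqrt w0))) := h2
      _ ≤ 2 ^ (X * n) * (rs * ((2 ^ (τ * n) * e) * (Real.sqrt κ * Real.sqrt w0))) := by gcongr
      _ = 2 ^ ((X + τ) * n) * (rs * D) := by
          rw [add_mul, Real.rpow_add (by norm_num), hD]
          ring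
  have hSm : Sm ≤ 2 ^ (2 * τ * n) * (4 * 2 ^ ((X + τ) * n) + 1) * (rs * D) := by
    calc Sm ≤ 2 ^ (2 * τ * n) * (4 * SH + rs * (e * (Real.sqrt κ * Real.sqrt w0))) := h1
      _ ≤ 2 ^ (2 * τ * n) * (4 * (2 ^ ((X + τ) * n) * (rs * D)) + rs * (e * (Real.sqrt κ * Real.sqrt w0))) := by gcongr
      _ = 2 ^ (2 * τ * n) * (4 * 2 ^ ((X + τ) * n) + 1) * (rs * D) := by
          rw [hD]
          ring
  have e1 : 2 ^ ((n : ℝ) / 2) / (e * Real.sqrt κ) * (Sm / Real.sqrt w0) = 2 ^ ((n : ℝ) / 2) / D * Sm := by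
    rw [hD]
    field_simp
  rw [e1]
  have p3 : (0 : ℝ) < 2 ^ ((n : ℝ) / 2) := Real.rpow_pos_of_pos (by norm_num) _
  calc 2 ^ ((n : ℝ) / 2) / D * Sm ≤ 2 ^ ((n : ℝ) / 2) / D * (2 ^ (2 * τ * n) * (4 * 2 ^ ((X + τ) * n) + 1) * (rs * D)) := by gcongr
    _ = 2 ^ (2 * τ * n) * (4 * 2 ^ ((X + τ) * n) + 1) * (2 ^ ((n : ℝ) / 2) * rs) := by
        field_simp
    _ = _ := by rw [hone, mul_one]

theorem hz_ex_exp {n : ℕ} {τ X δ Y : ℝ} (hX : 0 ≤ X + τ) (h5 : (5 : ℝ) ≤ 2 ^ (δ * n)) (hY : X + 3 * τ + δ ≤ Y) :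
    (2 : ℝ) ^ (2 * τ * n) * (4 * 2 ^ ((X + τ) * n) + 1) ≤ 2 ^ (Y * n) := by
  have p1 : (1 : ℝ) ≤ 2 ^ ((X + τ) * n) := Real.one_le_rpow (by norm_num) (by positivity)
  have p2 : (0 : ℝ) < 2 ^ (2 * τ * n) := Real.rpow_pos_of_pos (by norm_num) _
  calc (2 : ℝ) ^ (2 * τ * n) * (4 * 2 ^ ((X + τ) * n) + 1) ≤ 2 ^ (2 * τ * n) * (5 * 2 ^ ((X + τ) * n)) := by
        gcongr
        linarith
    _ ≤ 2 ^ (2 * τ * n) * (2 ^ (δ * n) * 2 ^ ((X + τ) * n)) := by gcongr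
    _ = 2 ^ ((X + 3 * τ + δ) * n) := by
        rw [← Real.rpow_add (by norm_num), ← Real.rpow_add (by norm_num)]
        congr 1
        ring
    _ ≤ 2 ^ (Y * n) := Real.rpow_le_rpow_of_exponent_le (by norm_num) (by gcongr)

/-- **NUMEROLOGY OF THE EXIT.**   `ζ = min (1/4) (γ/7)`: `X0 = max (7ζ/2) ((1-ζ)γ) ≤ γ - ζγ`.   `C0` from `hGr`.   `c = ζγ/2`, `τ = min 1 (ζγ/(8 (|C0| + 3)))`, `ν = ζγ/8`.   Given `C`: `(C', A, n0)` from `hRed C τ`, `n0'` from `hGr .. τ ν C'`.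
`E.w l = cyWt η Q0` (`HzFlat.wr`, `wf`), so `val = 2^(n/2)/(e (κ w)^(1/2)) Σ m^(3/2) ≤ s^(-2τ) (4·2^(Xn) (Σ e_g)/e + 1) ≤ 5·2^((X + 3τ) n)`, `X = X0 + C0 τ + ν`;  `5 ≤ 2^(ζγ n/8)`.   ~300 l. -/
theorem hz_exit_of (η : ℝ) (hRed : HzRedC η)
    (hGr : ∀ γ ζ : ℝ, 0 < γ → (cylHyb η).Rate γ → 0 < ζ → ζ ≤ 1 / 4 → HzGroupC η γ ζ) : HzExit η := by
  intro γ hγ hR
  obtain ⟨ζ, hζdef⟩ : ∃ z : ℝ, z = min (1 / 4) (γ / 7) := ⟨_, rfl⟩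
  have hζ0 : 0 < ζ := by rw [hζdef]; exact lt_min (by norm_num) (by positivity)
  have hζ1 : ζ ≤ 1 / 4 := hζdef ▸ min_le_left _ _
  have hζ2 : ζ ≤ γ / 7 := hζdef ▸ min_le_right _ _
  obtain ⟨C0, hC0⟩ := hGr γ ζ hγ hR hζ0 hζ1
  have hζγ : 0 < ζ * γ := mul_pos hζ0 hγ
  have hζγ4 : ζ * γ ≤ γ / 4 := by nlinarith
  have hC3 : 0 < |C0| + 3 := by positivity
  obtain ⟨τ, hτdef⟩ : ∃ t : ℝ, t = min 1 (ζ * γ / (8 * (|C0| + 3))) := ⟨_, rfl⟩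
  have hτ0 : 0 < τ := by rw [hτdef]; exact lt_min one_pos (by positivity)
  have hτ1 : τ ≤ 1 := hτdef ▸ min_le_left _ _
  have hτ2 : τ * (|C0| + 3) ≤ ζ * γ / 8 := by
    have h : τ ≤ ζ * γ / (8 * (|C0| + 3)) := hτdef ▸ min_le_right _ _
    rw [le_div_iff₀ (by positivity)] at h
    linarith
  refine ⟨ζ * γ / 2, τ, by positivity, hτ0, fun C => ?_⟩
  obtain ⟨C', A, n0, hred⟩ := hRed C τ hτ0 hτ1
  obtain ⟨n1, hgrp⟩ := hC0 τ (ζ * γ / 8) hτ0 hτ1 (by positivity) C'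
  obtain ⟨n2, h5⟩ := gn_absorb 5 (ζ * γ / 8) (by positivity)
  refine ⟨A, max n0 (max n1 n2), fun A' hA' p E Q0 hn hv hl haf hfl => ?_⟩
  have hn0 : n0 ≤ E.n := (le_max_left _ _).trans hn
  have hn1 : n1 ≤ E.n := ((le_max_left _ _).trans (le_max_right _ _)).trans hn
  have hn2 : n2 ≤ E.n := ((le_max_right _ _).trans (le_max_right _ _)).trans hn
  obtain ⟨I, Gs, Ds, hI, hSe, hSm⟩ := hred A' hA' p E Q0 hn0 hv hl haf hfl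
  have hw : ∀ l, E.w l = cyWt η Q0 := fun l => by
    show cyWt η (E.ts l) = cyWt η Q0
    unfold cyWt
    rw [hfl.wr l, hfl.wf l]
  rcases Nat.eq_zero_or_pos E.L with hL | hL
  · have hrd : E.rd = 0 := by
      unfold Xp.rd
      exact Finset.sum_eq_zero fun l _ => absurd l.2 (by omega)
    unfold Xp.val
    rw [hrd, mul_zero]
    exact (gn_two_pos _).le
  have hw0 : 0 < cyWt η Q0 := by
    rw [← hw ⟨0, hL⟩]
    exact hv.w_pos _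
  have hrd : E.rd = (∑ l, E.m l ^ (3 / 2 : ℝ)) / Real.sqrt (cyWt η Q0) := by
    unfold Xp.rd
    simp_rw [hw]
    rw [Finset.sum_div]
  obtain ⟨X, hX⟩ : ∃ X : ℝ, X = max (7 * ζ / 2) ((1 - ζ) * γ) + C0 * τ + ζ * γ / 8 := ⟨_, rfl⟩
  have hSH : ∑ g ∈ I, (Gs g).HL (Ds g) ≤ 2 ^ (X * E.n) * (Real.sqrt ((2 : ℝ)⁻¹ ^ E.n) * ((∑ g ∈ I, (Gs g).e) * Real.sqrt (E.ka * cyWt η Q0))) := by
    rw [Finset.sum_mul, Finset.mul_sum, Finset.mul_sum]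
    refine Finset.sum_le_sum fun g hg => ?_
    obtain ⟨a1, a2, a3, a4, a5⟩ := hI g hg
    have h := hgrp p (Gs g) (Ds g) (a3 ▸ hn1) a1 (a3 ▸ a2)
    unfold HzGr.unit HzGr.s at h
    rwa [a3, a4, a5, ← hX] at h
  unfold Xp.s at hSe hSm
  have hmain := hz_ex_real (n := E.n) (τ := τ) (X := X) hv.e_pos hv.ka_pos hw0 hSm hSH hSe
  have hC0τ : |C0 * τ| = |C0| * τ := by rw [abs_mul, abs_of_pos hτ0]
  have hC0a := neg_abs_le (C0 * τ)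
  have hC0b := le_abs_self (C0 * τ)
  have hmax1 : (1 - ζ) * γ ≤ max (7 * ζ / 2) ((1 - ζ) * γ) := le_max_right _ _
  have hmax2 : max (7 * ζ / 2) ((1 - ζ) * γ) ≤ γ - ζ * γ := max_le (by linarith) (by linarith)
  have hfin := hz_ex_exp (n := E.n) (τ := τ) (X := X) (δ := ζ * γ / 8) (Y := γ - ζ * γ / 2) (by rw [hX]; nlinarith) (h5 E.n hn2) (by rw [hX]; nlinarith)
  unfold Xp.val
  rw [hrd]
  exact hmain.trans hfin

/-- **HZ** (Prop. low:hybrid-zero) -/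
theorem hz_exit (η : ℝ) (h0 : 0 < η) (h1 : η < 1) : HzExit η :=
  hz_exit_of η (hz_reduce η h0 h1) fun γ ζ hγ hR hζ0 hζ1 =>
    hz_group η γ ζ hγ hζ0 hζ1 (hz_high η h0 h1 hz_kin) (hz_low η h0 h1 hz_kin γ ζ hγ hR hζ0 hζ1)

/-- the exit in the format of the consumer (`Soft/Exit.lean`, helper19) -/
theorem hz_sf_of_exit (η : ℝ) (h : HzExit η) : SfHzC η := by
  intro γ hγ hR
  obtain ⟨c, τ, hc, hτ, hH⟩ := h γ hγ hR
  refine ⟨c, τ, hc, hτ, fun C => ?_⟩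
  obtain ⟨A, n0, hA⟩ := hH C
  refine ⟨A, n0, fun A' hA' p E Q0 hn hv hl haf hw hp hcst => ?_⟩
  exact hA A' hA' p E Q0 hn hv hl haf
    ⟨fun l => (hw l).1, fun l => (hw l).2, hp, fun l hl => (hcst l hl).1, fun l hl => (hcst l hl).2⟩

/-- **HZ**, consumer format -/
theorem hz_sf (η : ℝ) (h0 : 0 < η) (h1 : η < 1) : SfHzC η := hz_sf_of_exit η (hz_exit η h0 h1)

end Claimed.Agent.R256
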