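import Claimed.Agent.R256.Soft.Model
import Claimed.Agent.R256.Kin.Main

/-!
# Row 256 (S0496), unit HZ = Prop. low:hybrid-zero (03-lower-dimensional.tex l.595-1082): CONTRACT      (chief helper82; prefix `hz_`)

"A hybrid family with zero shear costs at the Planck floor is not extremal."   MODEL LEVEL (experiments of `cylHyb η`), no Doc, no law, no limit object.

## ENTRY (what HZ consumes)
* `Base/Sys`, `Base/Cyl` (helper207): `cylHyb η`, `ChyPar`, `CySet`;   `Soft/Model` (helper19): `sfHy`, `sfTestAt`, `sfR2`, `sfR1`.
* `(cylHyb η).Rate γ`  (hypothesis of the exit; the consumer takes `γ = Γ_hyb`).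
* `kin_main : KinMainC`  (R256/Kin, helper132, sorry-free on main) through its measure version KIN-M.
* NOTHING ELSE: not (Pl) (it is a hypothesis `planck`), not matched chains, not `p0`, not `Gen` (only linearity of `tz`/`run` and Minkowski, proved here for the hybrid system).

## EXIT
`HzExit η`:  for every rate `γ > 0` of the hybrid model there are PACKAGE FREE `c, τ > 0` such that every experiment of the class (any package `C`, tail order `A(C)`, `n ≥ n0(C)`) in an explicit
frame `Q0` whose terminal tests have the widths of the frame, satisfy (Pl) up to `s^τ` and have costs `R_2, R_1 ≤ s^-τ` RELATIVE TO THE SHEAR OF THE FRAME, has `val ≤ 2^((γ-c) n)`.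
Signed by the consumer helper19 (owner of Q1), msg 28906.

## ROUTE (differs from the paper: PACKET COEFFICIENTS ONLY; no position-space field, no plateau projector, no non-stationary phase, no bilinear Plancherel)
All states are seen through their rows; the transfer between two cuts is the integral operator with the EXPLICIT complex Gaussian kernel `kr = ∫ pk' conj pk`, whose modulus is known exactly.
Everything quartic is done FIBRE BY FIBRE (fixed exact index `ω`) on functions `ℝ × ℝ → Fb`, with non-asymptotic inequalities carrying a slack `Λ ≥ 1` and errors `poly(2^n) exp(-Λ²/c)`.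
 velocity unit `d_f = d_{2^-kf}` (`s^(τ/2) f1 ≤ d_f ≤ f1`);   `z = ⌊ζ n⌋`;   stop depth `ks = kf - 2z` (`d_ks = 2^-z d_f =: rc` cap width, `q_ks = 2^z q_f =: B*`);   read depth `k* = kf - z`.
 1. GROUPS/CAPS = row restrictions at the ROOT cut (`d_k0 ≈ s^(1/2) f1 << rc`): cells `X`-bin × `cyPos Q0`-bin × `cyVel Q0`-cap.  `v = Σ tz 1_cell v`.  Fibre energies are dominated by the RAW root masses:
    base marginals are `κ`-regular by `Valid.reg` itself;  the direct sum of the caps is `8κ`-regular (repeated cut by TRANSLATES of the test).
 2. (HL') labels -> lattice cells (base square × `D`-bin), Taylor expansion of the relative shear on the footprint (costs), `Σθ ≤ 1`.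
 3. windowed masks `M 1_{|N-θ_k| ≤ W_j}`: negligible change in `L²` (velocity decay of the kernel).
 4. (env') positive kernels DOWN the scales: mass of a final `D`-bin `≤ (5Λ²)^m (bin/B*)` × mass of the stop rows in a window `Λ B*`.
 5. (cross') one step parent -> children: BESSEL bound for the tensor packets of all children (Schur test on the Gram kernel = same-length kernel at time `T_J - T_J'`, far times killed by `V >> d_J`), locality to the
    parent crossing region;  masks are pointwise contractions of rows, hence harmless.   Induction over the cuts before the stop.   Vector values: `Completion (Fb ⊗ Fb)`.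
 6. HIGH pairs: Cauchy-Schwarz + KIN-M at the root (`δ = s`) + (cross'):  `≤ Λ^C 2^(7z/2)`.
 7. LOW: one real experiment `E'` over `p' = p` with multiplicity `PiLp 2 (Fin K → Fb)` (direct sum of the caps), the masks of depth `≤ ks`, read at depth `k*`; labels = successes of a peeling w.r.t. the tests
    `(r = 2^-j r1, f = C f1, shear of the frame)`;  `Rate γ` for `E'`;  KIN-M on every `J*` with `δ = 2^-z`.
 8. numerology: exponent `≤ max (7ζ/2, (1-ζ)γ) + C0 τ + ν`.

## UNITS (lines)   [files `Hz/*.lean`; leaves `L-256-HZ-*`]
 K  kernel: modulus formula 300, two corollaries (KB nested cuts, KB2 same length any time) 300, Gaussian Schur integrals 400, composition law 200, fibre isometry + contraction of `tr` 700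
 S  generic: Schur test (lintegral form) 200, Bessel from Gram-Schur (vector valued) 400, tensor completion 150, measure-level peeling 400
 I  instance: `an = row`, isometry, kernel formula for `an' ∘ an†`, rows of a branch as explicit iterated integrals 1200, multiplicity functoriality 400, repeated cut 300
 F  fibre theory: velocity windows 500, envelope 900, one-step crossing 1500, induction 500, terminal crossing 600, window transfer to `J*` 600
 G  global: Taylor/lattice 600, groups + far/tiny groups 900, KIN-M 500, high 700, `E'` in the class 1200, low 1200, numerology 400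
 TOTAL ≈ 15k lines, serial depth 4 (K,S -> F,I -> G -> exit).
-/

set_option autoImplicit false

namespace Claimed.Agent.R256

/-- **zero-cost normal form at the Planck floor**: terminal widths = widths of the frame, (Pl) up to `s^τ`, costs relative to the shear of the frame `≤ s^-τ` (only for the labels which read a nonzero mass) -/
structure HzFlat (η : ℝ) (p : ChyPar) (E : Xp (p.sys η)) (Q0 : CyT) (τ : ℝ) : Prop where
  wr : ∀ l, CyT.r (E.ts l) = Q0.r
  wf : ∀ l, CyT.f (E.ts l) = Q0.f
  planck : E.s ^ (1 + τ) ≤ p.H * 2 ^ E.k0 / Q0.f ^ 2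
  cost2 : ∀ l, E.m l ≠ 0 → sfR2 (sfTestAt (tmL E.kf (E.iv l)) (E.ts l)) (sfTestAt (tmL E.k0 E.i0) Q0) ((2 : ℝ)⁻¹ ^ E.kf) ≤ E.s ^ (-τ)
  cost1 : ∀ l, E.m l ≠ 0 → sfR1 (sfTestAt (tmL E.kf (E.iv l)) (E.ts l)) (sfTestAt (tmL E.k0 E.i0) Q0) ≤ E.s ^ (-τ)

/-- **EXIT of HZ** -/
def HzExit (η : ℝ) : Prop :=
  ∀ γ : ℝ, 0 < γ → (cylHyb η).Rate γ → ∃ c τ : ℝ, 0 < c ∧ 0 < τ ∧ ∀ C : ℕ, ∃ A n0 : ℕ, ∀ A' : ℕ, A ≤ A' →
    ∀ (p : ChyPar) (E : Xp (p.sys η)) (Q0 : CyT), n0 ≤ E.n → E.Valid → E.st.length ≤ C → (sfHy η).af C A' p E Q0 →
      HzFlat η p E Q0 τ → E.val ≤ 2 ^ ((γ - c) * E.n)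

theorem hz_contract_eqns_cite : True := by
  have := @HzExit.eq_1
  trivial

end Claimed.Agent.R256
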