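import Claimed.Agent.R256.Hz.Fib

/-!
# Row 256, unit HZ, file 3: FIBRE THEORY II = the transverse crossing estimate (cross), window transfer      (chief helper82; prefix `hz_`)      Base-free.

Replaces 03-lower-dimensional.tex l.757-965 ((cross), position-matrix, product-transfer, child-crossing-sum, bilinear Plancherel).
`cr a f₁ f₂ = ∫∫_{|D₁-D₂| ≤ a} ‖f₁ ρ₁‖² ‖f₂ ρ₂‖²`  is defined ON ROWS: masks are pointwise contractions of rows, hence decrease it.  Only the transfers between frames have to be controlled: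
 * LOCALITY: outputs with `|D₁'-D₂'| ≤ S w` come from sources with `|D₁-D₂| ≤ (S+3) W` (`w = 2^-k₁ V`, `W = 2^-k V`), up to `exp(-Λ²/40)`;
 * BESSEL: the operator `B ↦ (1_{Reg} (K_I ⊗ K_I) B)_{I child}` on `L²(ν ⊗ ν; E ⊗ E)` has norm² `≤ 340 S² + 8·4^(k₁-k) e^{-Λ²}`: `hy_bessel`, Gram kernel = (same-length kernel at the time `T_I - T_I'`)^{⊗2} by `hy_kr_comp`,
   Schur sum `hz_gram`: `|j| ≤ 8S` neighbours cost `4 (1+τ²)^(1/2)` each; for `|j| > 8S` the two position Gaussians cannot both be large since the velocities differ by `≥ V/2 ≥ 8Λ d`.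
-/

set_option autoImplicit false

namespace Claimed.Agent.R256

open MeasureTheory
open scoped ENNReal ComplexConjugate

variable {E : Type} [NormedAddCommGroup E] [InnerProductSpace ℂ E] [CompleteSpace E]

/-- crossing energy of two row functions -/
noncomputable def HyF.cr (φ : HyF) (a : ℝ) (f1 f2 : ℝ × ℝ → E) : ℝ≥0∞ :=
  ∫⁻ ρ1, ∫⁻ ρ2, (if |ρ1.1 - ρ2.1| ≤ a then ‖f1 ρ1‖ₑ ^ 2 * ‖f2 ρ2‖ₑ ^ 2 else 0) ∂φ.nu ∂φ.nu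

/-- half-open position bin number `b` of length `a`, offset `o` -/
def hzBinI (o a : ℝ) (b : ℤ) : Set (ℝ × ℝ) := {ρ | o + b * a ≤ ρ.1 ∧ ρ.1 < o + (b + 1) * a}

/-- constant of the crossing induction -/
noncomputable def hzCx (m : ℕ) (S : ℝ) : ℝ := (2 * (340 * (S + 3 * m) ^ 2 + 1)) ^ (m + 1)

theorem hz_cross_eqns_cite : True := by
  have := @HyF.cr.eq_1
  have := @hzBinI.eq_1
  have := @hzCx.eq_1
  trivial

/-- monotonicity of the crossing energy (radius; pointwise domination of the norms); bound by the product of the energies (`hf2`: without it the second part fails for non-measurable `f1`). -/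
theorem hz_cr_mono (φ : HyF) (a a' : ℝ) (ha : a ≤ a') (f1 f2 g1 g2 : ℝ × ℝ → E) (h1 : ∀ ρ, ‖f1 ρ‖ ≤ ‖g1 ρ‖) (h2 : ∀ ρ, ‖f2 ρ‖ ≤ ‖g2 ρ‖)
    (hf2 : ∫⁻ ρ, ‖f2 ρ‖ₑ ^ 2 ∂φ.nu ≠ ⊤) :
    φ.cr a f1 f2 ≤ φ.cr a' g1 g2 ∧ φ.cr a f1 f2 ≤ (∫⁻ ρ, ‖f1 ρ‖ₑ ^ 2 ∂φ.nu) * ∫⁻ ρ, ‖f2 ρ‖ₑ ^ 2 ∂φ.nu := by
  have e1 : ∀ ρ, ‖f1 ρ‖ₑ ≤ ‖g1 ρ‖ₑ := fun ρ => by
    rw [← ofReal_norm, ← ofReal_norm]; exact ENNReal.ofReal_le_ofReal (h1 ρ)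
  have e2 : ∀ ρ, ‖f2 ρ‖ₑ ≤ ‖g2 ρ‖ₑ := fun ρ => by
    rw [← ofReal_norm, ← ofReal_norm]; exact ENNReal.ofReal_le_ofReal (h2 ρ)
  constructor
  · unfold HyF.cr
    refine lintegral_mono fun ρ1 => lintegral_mono fun ρ2 => ?_
    by_cases hc : |ρ1.1 - ρ2.1| ≤ a
    · rw [if_pos hc, if_pos (hc.trans ha)]
      exact mul_le_mul' (pow_le_pow_left₀ bot_le (e1 ρ1) 2) (pow_le_pow_left₀ bot_le (e2 ρ2) 2)
    · rw [if_neg hc]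
      exact bot_le
  · unfold HyF.cr
    calc ∫⁻ ρ1, ∫⁻ ρ2, (if |ρ1.1 - ρ2.1| ≤ a then ‖f1 ρ1‖ₑ ^ 2 * ‖f2 ρ2‖ₑ ^ 2 else 0) ∂φ.nu ∂φ.nu
        ≤ ∫⁻ ρ1, ∫⁻ ρ2, ‖f1 ρ1‖ₑ ^ 2 * ‖f2 ρ2‖ₑ ^ 2 ∂φ.nu ∂φ.nu := by
          refine lintegral_mono fun ρ1 => lintegral_mono fun ρ2 => ?_
          split_ifs
          · exact le_rfl
          · exact bot_le
      _ = ∫⁻ ρ1, ‖f1 ρ1‖ₑ ^ 2 * ∫⁻ ρ2, ‖f2 ρ2‖ₑ ^ 2 ∂φ.nu ∂φ.nu := by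
          refine lintegral_congr fun ρ1 => ?_
          exact lintegral_const_mul' _ _ (ENNReal.pow_ne_top enorm_ne_top)
      _ = (∫⁻ ρ, ‖f1 ρ‖ₑ ^ 2 ∂φ.nu) * ∫⁻ ρ, ‖f2 ρ‖ₑ ^ 2 ∂φ.nu := lintegral_mul_const' _ _ hf2

/-- Gaussian shape of the same-length kernel, position constant `m` -/
noncomputable def hzG (φ : HyF) (k : ℕ) (t m : ℝ) (ρ ρ' : ℝ × ℝ) : ℝ :=
  Real.exp (-(φ.sg ^ 2 * (ρ'.2 - ρ.2) ^ 2 / (4 * φ.d k ^ 2))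
    - (ρ.1 - ρ'.1 - t * ((ρ'.2 + ρ.2) / 2)) ^ 2 / (m * φ.q k ^ 2 * (1 + (t * 2 ^ k / (2 * φ.sg)) ^ 2)))

theorem hz_G_meas (φ : HyF) (k : ℕ) (t m : ℝ) (ρ : ℝ × ℝ) : Measurable fun ρ' : ℝ × ℝ => ENNReal.ofReal (hzG φ k t m ρ ρ') := by
  unfold hzG
  fun_prop

/-- the full integral of the Gaussian shape -/
theorem hz_G_int (φ : HyF) (h : φ.Ok) (k : ℕ) (t m : ℝ) (hm : 0 < m) (ρ : ℝ × ℝ) :
    ∫⁻ ρ', ENNReal.ofReal (hzG φ k t m ρ ρ') ∂φ.nu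
      = ENNReal.ofReal (Real.sqrt m * Real.sqrt (1 + (t * 2 ^ k / (2 * φ.sg)) ^ 2)) := by
  obtain ⟨hq, hd, hqd, hql, hq2, hd2⟩ := hy_qd φ h k
  have hH := h.H_pos
  have hσ : 0 < φ.sg := by linarith [h.sg_lo]
  obtain ⟨r, hr⟩ : ∃ r, r = 1 + (t * 2 ^ k / (2 * φ.sg)) ^ 2 := ⟨_, rfl⟩
  have hr0 : 0 < r := by rw [hr]; positivity
  have hs : 0 < φ.q k * Real.sqrt r := by positivity
  have hm1 : 0 < 4 / φ.sg ^ 2 := by positivity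
  have e : ∀ ρ' : ℝ × ℝ, ENNReal.ofReal (hzG φ k t m ρ ρ')
      = (fun x => ENNReal.ofReal (Real.exp (-(x ^ 2 / (4 / φ.sg ^ 2 * φ.d k ^ 2))))) (ρ'.2 - ρ.2)
        * (fun y => ENNReal.ofReal (Real.exp (-(y ^ 2 / (m * (φ.q k * Real.sqrt r) ^ 2))))) ((ρ.1 - t * ρ.2 / 2) - ρ'.1 - (t / 2) * ρ'.2) := by
    intro ρ'
    unfold hzG
    rw [← hr, hy_g_split]
    congr 3
    · field_simp
    · rw [mul_pow, Real.sq_sqrt hr0.le]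
      ring
  unfold HyF.nu
  rw [lintegral_smul_measure, smul_eq_mul]
  simp_rw [e]
  rw [hy_g_src _ _ (hy_g_gauss_meas _) (hy_g_gauss_meas _), hy_g_gauss hd hm1, hy_g_gauss hs hm, ← hr,
    ← ENNReal.ofReal_mul (by positivity), ← ENNReal.ofReal_mul (by positivity)]
  congr 1
  have e1 : Real.sqrt (4 / φ.sg ^ 2 * Real.pi) = 2 / φ.sg * Real.sqrt Real.pi := by
    rw [Real.sqrt_mul (by positivity), show (4 : ℝ) / φ.sg ^ 2 = (2 / φ.sg) ^ 2 by ring, Real.sqrt_sq (by positivity)]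
  have e2 : Real.sqrt (m * Real.pi) = Real.sqrt m * Real.sqrt Real.pi := Real.sqrt_mul hm.le _
  have e3 : Real.sqrt Real.pi * Real.sqrt Real.pi = Real.pi := Real.mul_self_sqrt Real.pi_pos.le
  rw [e1, e2]
  calc φ.sg / (2 * Real.pi * φ.H) * (φ.d k * (2 / φ.sg * Real.sqrt Real.pi) * (φ.q k * Real.sqrt r * (Real.sqrt m * Real.sqrt Real.pi)))
      = (φ.sg / φ.sg) * ((φ.q k * φ.d k) / φ.H) * ((Real.sqrt Real.pi * Real.sqrt Real.pi) / Real.pi) * (Real.sqrt m * Real.sqrt r) := by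
        field_simp
    _ = Real.sqrt m * Real.sqrt r := by
        rw [e3, hqd, div_self hσ.ne', div_self hH.ne', div_self Real.pi_pos.ne']
        ring

/-- product bound for a double set integral -/
theorem hz_dbl {X : Type*} [MeasurableSpace X] (μ : Measure X) (W1 W2 : Set X) (hW1 : MeasurableSet W1) (hW2 : MeasurableSet W2)
    (F : X → X → ℝ≥0∞) (g1 g2 : X → ℝ≥0∞) (hg1 : Measurable g1) (hg2 : Measurable g2) (C : ℝ≥0∞)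
    (hF : ∀ x ∈ W1, ∀ y ∈ W2, F x y ≤ C * (g1 x * g2 y)) :
    ∫⁻ x in W1, ∫⁻ y in W2, F x y ∂μ ∂μ ≤ C * ((∫⁻ x, g1 x ∂μ) * ∫⁻ y, g2 y ∂μ) := by
  calc ∫⁻ x in W1, ∫⁻ y in W2, F x y ∂μ ∂μ
      ≤ ∫⁻ x in W1, C * (g1 x * ∫⁻ y, g2 y ∂μ) ∂μ := by
        refine setLIntegral_mono' hW1 fun x hx => ?_
        calc ∫⁻ y in W2, F x y ∂μ ≤ ∫⁻ y in W2, C * (g1 x * g2 y) ∂μ := setLIntegral_mono' hW2 fun y hy => hF x hx y hy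
          _ ≤ ∫⁻ y, C * (g1 x * g2 y) ∂μ := setLIntegral_le_lintegral _ _
          _ = C * (g1 x * ∫⁻ y, g2 y ∂μ) := by
            rw [lintegral_const_mul _ (hg2.const_mul _), lintegral_const_mul _ hg2]
    _ ≤ ∫⁻ x, C * (g1 x * ∫⁻ y, g2 y ∂μ) ∂μ := setLIntegral_le_lintegral _ _
    _ = C * ((∫⁻ x, g1 x ∂μ) * ∫⁻ y, g2 y ∂μ) := by
        rw [lintegral_const_mul _ (hg1.mul_const _), lintegral_mul_const _ hg1]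

/-- the kernel in terms of the Gaussian shape -/
theorem hz_kr_G (φ : HyF) (h : φ.Ok) (T : ℝ) (k : ℕ) (T' : ℝ) (ρ ρ' : ℝ × ℝ) :
    ‖φ.kr T k T' k ρ ρ'‖ₑ = ENNReal.ofReal ((1 + ((T' - T) * 2 ^ k / (2 * φ.sg)) ^ 2) ^ (-(1 / 4) : ℝ))
      * ENNReal.ofReal (hzG φ k (T' - T) 4 ρ ρ') := by
  rw [← ofReal_norm, hy_kr_same φ h, ENNReal.ofReal_mul (by positivity)]
  rfl

theorem hz_G_nonneg (φ : HyF) (k : ℕ) (t m : ℝ) (ρ ρ' : ℝ × ℝ) : 0 ≤ hzG φ k t m ρ ρ' := (Real.exp_pos _).le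

theorem hz_vel_meas (θ W : ℝ) : MeasurableSet (hzVel θ W) :=
  measurableSet_le ((measurable_snd.sub_const θ).abs) measurable_const

theorem hz_amp {r : ℝ} (hr : 0 < r) (m : ℝ) (hm : 0 ≤ m) :
    r ^ (-(1 / 4) : ℝ) * r ^ (-(1 / 4) : ℝ) * (Real.sqrt m * Real.sqrt r * (Real.sqrt m * Real.sqrt r)) = m * Real.sqrt r := by
  have e1 : r ^ (-(1 / 4) : ℝ) * r ^ (-(1 / 4) : ℝ) = (Real.sqrt r)⁻¹ := by
    rw [← Real.rpow_add hr, Real.sqrt_eq_rpow, ← Real.rpow_neg hr.le]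
    norm_num
  have e2 : Real.sqrt m * Real.sqrt m = m := Real.mul_self_sqrt hm
  have h0 : Real.sqrt r ≠ 0 := (Real.sqrt_pos.2 hr).ne'
  rw [e1]
  calc (Real.sqrt r)⁻¹ * (Real.sqrt m * Real.sqrt r * (Real.sqrt m * Real.sqrt r))
      = (Real.sqrt m * Real.sqrt m) * ((Real.sqrt r)⁻¹ * Real.sqrt r) * Real.sqrt r := by ring
    _ = m * Real.sqrt r := by rw [e2, inv_mul_cancel₀ h0, mul_one]

/-- one time difference, no separation used -/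
theorem hz_gram_near (φ : HyF) (h : φ.Ok) (k1 : ℕ) (T T' : ℝ) (W1 W2 : Set (ℝ × ℝ)) (hW1 : MeasurableSet W1) (hW2 : MeasurableSet W2)
    (c : ℝ × ℝ → ℝ × ℝ → Prop) [∀ x y, Decidable (c x y)] (ρ1 ρ2 : ℝ × ℝ) :
    ∫⁻ ρ1' in W1, ∫⁻ ρ2' in W2, (if c ρ1' ρ2' then ‖φ.kr T k1 T' k1 ρ1 ρ1'‖ₑ * ‖φ.kr T k1 T' k1 ρ2 ρ2'‖ₑ else 0) ∂φ.nu ∂φ.nu
      ≤ ENNReal.ofReal (4 * Real.sqrt (1 + ((T' - T) * 2 ^ k1 / (2 * φ.sg)) ^ 2)) := by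
  obtain ⟨r, hr⟩ : ∃ r, r = 1 + ((T' - T) * 2 ^ k1 / (2 * φ.sg)) ^ 2 := ⟨_, rfl⟩
  have hr0 : 0 < r := by rw [hr]; positivity
  refine (hz_dbl φ.nu W1 W2 hW1 hW2 _ (fun x => ENNReal.ofReal (hzG φ k1 (T' - T) 4 ρ1 x)) (fun x => ENNReal.ofReal (hzG φ k1 (T' - T) 4 ρ2 x))
    (hz_G_meas _ _ _ _ _) (hz_G_meas _ _ _ _ _) (ENNReal.ofReal (r ^ (-(1 / 4) : ℝ)) * ENNReal.ofReal (r ^ (-(1 / 4) : ℝ))) ?_).trans ?_
  · intro x _ y _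
    split_ifs
    · rw [hz_kr_G φ h, hz_kr_G φ h, ← hr]
      exact le_of_eq (by ring)
    · exact bot_le
  · rw [hz_G_int φ h _ _ _ (by norm_num), hz_G_int φ h _ _ _ (by norm_num), ← hr, ← ENNReal.ofReal_mul (by positivity),
      ← ENNReal.ofReal_mul (by positivity), ← ENNReal.ofReal_mul (by positivity), hz_amp hr0 4 (by norm_num)]

/-- geometry of the far times -/
theorem hz_far_real {D1 D2 D1' D2' N1 N2 N1' N2' θ1 θ2 V S w t j : ℝ} (hV : V = |θ1 - θ2|) (hw : 0 ≤ w)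
    (htw : |t| * V = |j| * w) (h1 : |N1 - θ1| ≤ V / 4) (h1' : |N1' - θ1| ≤ V / 4) (h2 : |N2 - θ2| ≤ V / 4) (h2' : |N2' - θ2| ≤ V / 4)
    (h12 : |D1 - D2| ≤ S * w) (h12' : |D1' - D2'| ≤ S * w) (hj : 8 * S < |j|) :
    w ^ 2 * j ^ 2 / 32 ≤ (D1 - D1' - t * ((N1' + N1) / 2)) ^ 2 + (D2 - D2' - t * ((N2' + N2) / 2)) ^ 2 := by
  obtain ⟨x1, hx1⟩ : ∃ x, x = D1 - D1' - t * ((N1' + N1) / 2) := ⟨_, rfl⟩
  obtain ⟨x2, hx2⟩ : ∃ x, x = D2 - D2' - t * ((N2' + N2) / 2) := ⟨_, rfl⟩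
  rw [← hx1, ← hx2]
  obtain ⟨n, hn⟩ : ∃ n, n = (N1' + N1) / 2 - (N2' + N2) / 2 := ⟨_, rfl⟩
  have hnV : V / 2 ≤ |n| := by
    have e : θ1 - θ2 = n - ((N1' - θ1) / 2 + (N1 - θ1) / 2 - (N2' - θ2) / 2 - (N2 - θ2) / 2) := by rw [hn]; ring
    have a1 := abs_le.1 h1
    have a2 := abs_le.1 h1'
    have a3 := abs_le.1 h2
    have a4 := abs_le.1 h2'
    have hb : |(N1' - θ1) / 2 + (N1 - θ1) / 2 - (N2' - θ2) / 2 - (N2 - θ2) / 2| ≤ V / 2 := by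
      rw [abs_le]; constructor <;> linarith [a1.1, a1.2, a2.1, a2.2, a3.1, a3.2, a4.1, a4.2]
    have : V ≤ |n| + V / 2 := by
      rw [hV, e] at *
      exact (abs_sub _ _).trans (add_le_add le_rfl hb)
    linarith
  have htn : |j| * w / 2 ≤ |t * n| := by
    rw [abs_mul, ← htw]
    have := mul_le_mul_of_nonneg_left hnV (abs_nonneg t)
    linarith
  have hd : t * n = (D1 - D2) - (D1' - D2') - (x1 - x2) := by rw [hx1, hx2, hn]; ring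
  have h3 : |t * n| ≤ S * w + S * w + |x1 - x2| := by
    rw [hd]
    calc |(D1 - D2) - (D1' - D2') - (x1 - x2)| ≤ |(D1 - D2) - (D1' - D2')| + |x1 - x2| := abs_sub _ _
      _ ≤ (|D1 - D2| + |D1' - D2'|) + |x1 - x2| := add_le_add (abs_sub _ _) le_rfl
      _ ≤ S * w + S * w + |x1 - x2| := by linarith
  have h4 : |j| * w / 4 ≤ |x1 - x2| := by
    have : 8 * S * w ≤ |j| * w := mul_le_mul_of_nonneg_right hj.le hw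
    linarith
  have h5 : (|j| * w / 4) ^ 2 ≤ (x1 - x2) ^ 2 := by
    rw [← sq_abs (x1 - x2)]
    exact pow_le_pow_left₀ (by positivity) h4 2
  have h6 : (|j| * w / 4) ^ 2 = w ^ 2 * j ^ 2 / 16 := by
    rw [div_pow, mul_pow, sq_abs]; ring
  nlinarith [sq_nonneg (x1 + x2)]

/-- splitting the two position Gaussians -/
theorem hz_far_exp {a1 a2 x1 x2 P L : ℝ} (hP : 0 < P) (hx : 8 * P * L ≤ x1 ^ 2 + x2 ^ 2) :
    Real.exp (-a1 - x1 ^ 2 / (4 * P)) * Real.exp (-a2 - x2 ^ 2 / (4 * P))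
      ≤ Real.exp (-L) * (Real.exp (-a1 - x1 ^ 2 / (8 * P)) * Real.exp (-a2 - x2 ^ 2 / (8 * P))) := by
  rw [← Real.exp_add, ← Real.exp_add, ← Real.exp_add]
  refine Real.exp_le_exp.2 ?_
  have e1 : x1 ^ 2 / (4 * P) = x1 ^ 2 / (8 * P) + x1 ^ 2 / (8 * P) := by field_simp; ring
  have e2 : x2 ^ 2 / (4 * P) = x2 ^ 2 / (8 * P) + x2 ^ 2 / (8 * P) := by field_simp; ring
  have e3 : L ≤ x1 ^ 2 / (8 * P) + x2 ^ 2 / (8 * P) := by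
    rw [← add_div, le_div_iff₀ (by positivity)]
    linarith
  rw [e1, e2]
  linarith

/-- one far time difference -/
theorem hz_gram_far (φ : HyF) (h : φ.Ok) (k1 : ℕ) (T T' : ℝ) (θ1 θ2 V Λ S : ℝ) (hV : V = |θ1 - θ2|) (hsep : 16 * Λ * φ.d k1 ≤ V) (hΛ : 1 ≤ Λ)
    (hS : 1 ≤ S) (hj : 8 * S < |(T' - T) * 2 ^ k1|) (ρ1 ρ2 : ℝ × ℝ) (h1 : ρ1 ∈ hzVel θ1 (V / 4)) (h2 : ρ2 ∈ hzVel θ2 (V / 4))
    (h12 : |ρ1.1 - ρ2.1| ≤ S * (2 : ℝ)⁻¹ ^ k1 * V) :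
    ∫⁻ ρ1' in hzVel θ1 (V / 4), ∫⁻ ρ2' in hzVel θ2 (V / 4),
        (if |ρ1'.1 - ρ2'.1| ≤ S * (2 : ℝ)⁻¹ ^ k1 * V then ‖φ.kr T k1 T' k1 ρ1 ρ1'‖ₑ * ‖φ.kr T k1 T' k1 ρ2 ρ2'‖ₑ else 0) ∂φ.nu ∂φ.nu
      ≤ ENNReal.ofReal (8 * |(T' - T) * 2 ^ k1| * Real.exp (-Λ ^ 2)) := by
  obtain ⟨hq, hd, hqd, hql, hq2, hd2⟩ := hy_qd φ h k1
  have hσ1 := h.sg_lo
  obtain ⟨t, ht⟩ : ∃ t, t = T' - T := ⟨_, rfl⟩
  rw [← ht] at hj ⊢
  obtain ⟨j, hjd⟩ : ∃ j, j = t * 2 ^ k1 := ⟨_, rfl⟩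
  rw [← hjd] at hj ⊢
  obtain ⟨r, hr⟩ : ∃ r, r = 1 + (t * 2 ^ k1 / (2 * φ.sg)) ^ 2 := ⟨_, rfl⟩
  have hr0 : 0 < r := by rw [hr]; positivity
  have hj8 : 8 < |j| := by linarith
  have hrj : r ≤ j ^ 2 := by
    rw [hr, ← hjd, div_pow]
    have e1 : j ^ 2 / (2 * φ.sg) ^ 2 ≤ j ^ 2 / 4 := by
      refine div_le_div_of_nonneg_left (by positivity) (by norm_num) ?_
      nlinarith
    have e2 : 64 ≤ j ^ 2 := by
      rw [← sq_abs]; nlinarith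
    linarith
  obtain ⟨w, hw⟩ : ∃ w, w = (2 : ℝ)⁻¹ ^ k1 * V := ⟨_, rfl⟩
  have hV0 : 0 ≤ V := by rw [hV]; exact abs_nonneg _
  have hw0 : 0 ≤ w := by rw [hw]; positivity
  have hSw : S * (2 : ℝ)⁻¹ ^ k1 * V = S * w := by rw [hw]; ring
  rw [hSw] at h12
  have htw : |t| * V = |j| * w := by
    rw [hjd, hw, abs_mul, abs_of_pos (show (0 : ℝ) < 2 ^ k1 by positivity), inv_pow]
    field_simp
  have hwq : 256 * Λ ^ 2 * φ.q k1 ^ 2 ≤ w ^ 2 := by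
    have e1 : 16 * Λ * φ.q k1 ≤ w := by
      rw [hw, hql]
      calc 16 * Λ * ((2 : ℝ)⁻¹ ^ k1 * φ.d k1) = (2 : ℝ)⁻¹ ^ k1 * (16 * Λ * φ.d k1) := by ring
        _ ≤ (2 : ℝ)⁻¹ ^ k1 * V := mul_le_mul_of_nonneg_left hsep (by positivity)
    calc 256 * Λ ^ 2 * φ.q k1 ^ 2 = (16 * Λ * φ.q k1) ^ 2 := by ring
      _ ≤ w ^ 2 := pow_le_pow_left₀ (by positivity) e1 2
  refine (hz_dbl φ.nu _ _ (hz_vel_meas _ _) (hz_vel_meas _ _) _ (fun x => ENNReal.ofReal (hzG φ k1 t 8 ρ1 x)) (fun x => ENNReal.ofReal (hzG φ k1 t 8 ρ2 x))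
    (hz_G_meas _ _ _ _ _) (hz_G_meas _ _ _ _ _)
    (ENNReal.ofReal (r ^ (-(1 / 4) : ℝ)) * ENNReal.ofReal (r ^ (-(1 / 4) : ℝ)) * ENNReal.ofReal (Real.exp (-Λ ^ 2))) ?_).trans ?_
  · intro x hx y hy
    split_ifs with hc
    · rw [hSw] at hc
      rw [hz_kr_G φ h, hz_kr_G φ h, ← ht, ← hr]
      have key : hzG φ k1 t 4 ρ1 x * hzG φ k1 t 4 ρ2 y ≤ Real.exp (-Λ ^ 2) * (hzG φ k1 t 8 ρ1 x * hzG φ k1 t 8 ρ2 y) := by
        unfold hzG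
        rw [← hr]
        simp only [mul_assoc]
        refine hz_far_exp (P := φ.q k1 ^ 2 * r) (by positivity) ?_
        refine le_trans ?_ (hz_far_real hV hw0 htw h1 hx h2 hy h12 hc hj)
        have e1 : φ.q k1 ^ 2 * r ≤ φ.q k1 ^ 2 * j ^ 2 := mul_le_mul_of_nonneg_left hrj (by positivity)
        have e2 : 256 * Λ ^ 2 * φ.q k1 ^ 2 * j ^ 2 ≤ w ^ 2 * j ^ 2 := mul_le_mul_of_nonneg_right hwq (by positivity)
        have e3 : 0 ≤ Λ ^ 2 := by positivity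
        nlinarith
      calc ENNReal.ofReal (r ^ (-(1 / 4) : ℝ)) * ENNReal.ofReal (hzG φ k1 t 4 ρ1 x) * (ENNReal.ofReal (r ^ (-(1 / 4) : ℝ)) * ENNReal.ofReal (hzG φ k1 t 4 ρ2 y))
          = ENNReal.ofReal (r ^ (-(1 / 4) : ℝ)) * ENNReal.ofReal (r ^ (-(1 / 4) : ℝ)) * ENNReal.ofReal (hzG φ k1 t 4 ρ1 x * hzG φ k1 t 4 ρ2 y) := by
            rw [ENNReal.ofReal_mul (hz_G_nonneg _ _ _ _ _ _)]; ring
        _ ≤ ENNReal.ofReal (r ^ (-(1 / 4) : ℝ)) * ENNReal.ofReal (r ^ (-(1 / 4) : ℝ)) * ENNReal.ofReal (Real.exp (-Λ ^ 2) * (hzG φ k1 t 8 ρ1 x * hzG φ k1 t 8 ρ2 y)) :=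
            mul_le_mul' le_rfl (ENNReal.ofReal_le_ofReal key)
        _ = _ := by
            rw [ENNReal.ofReal_mul (Real.exp_pos _).le, ENNReal.ofReal_mul (hz_G_nonneg _ _ _ _ _ _)]; ring
    · exact bot_le
  · rw [hz_G_int φ h _ _ _ (by norm_num), hz_G_int φ h _ _ _ (by norm_num), ← hr, ← ENNReal.ofReal_mul (by positivity),
      ← ENNReal.ofReal_mul (by positivity), ← ENNReal.ofReal_mul (by positivity), ← ENNReal.ofReal_mul (by positivity)]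
    refine ENNReal.ofReal_le_ofReal ?_
    have e1 := hz_amp hr0 8 (by norm_num)
    have e2 : Real.sqrt r ≤ |j| := by
      rw [← Real.sqrt_sq_eq_abs]
      exact Real.sqrt_le_sqrt hrj
    calc r ^ (-(1 / 4) : ℝ) * r ^ (-(1 / 4) : ℝ) * Real.exp (-Λ ^ 2) * (Real.sqrt 8 * Real.sqrt r * (Real.sqrt 8 * Real.sqrt r))
        = (r ^ (-(1 / 4) : ℝ) * r ^ (-(1 / 4) : ℝ) * (Real.sqrt 8 * Real.sqrt r * (Real.sqrt 8 * Real.sqrt r))) * Real.exp (-Λ ^ 2) := by ring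
      _ = 8 * Real.sqrt r * Real.exp (-Λ ^ 2) := by rw [e1]
      _ ≤ 8 * |j| * Real.exp (-Λ ^ 2) := by
          have := Real.exp_pos (-Λ ^ 2)
          gcongr

/-- the number of near times -/
theorem hz_near_card (s : Finset ℕ) (I : ℕ) (a : ℝ) (ha : 0 ≤ a) :
    ((s.filter fun I' : ℕ => |(I : ℝ) - I'| ≤ a).card : ℝ) ≤ 2 * a + 1 := by
  have hsub : (s.filter fun I' : ℕ => |(I : ℝ) - I'| ≤ a) ⊆ Finset.Icc (I - ⌊a⌋₊) (I + ⌊a⌋₊) := by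
    intro I' hI'
    have hb := abs_le.1 (Finset.mem_filter.1 hI').2
    rw [Finset.mem_Icc]
    constructor
    · rcases le_total I I' with hle | hle
      · omega
      · have : I - I' ≤ ⌊a⌋₊ := by
          refine Nat.le_floor ?_
          rw [Nat.cast_sub hle]
          exact hb.2
        omega
    · rcases le_total I' I with hle | hle
      · omega
      · have : I' - I ≤ ⌊a⌋₊ := by
          refine Nat.le_floor ?_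
          rw [Nat.cast_sub hle]
          linarith [hb.1]
        omega
  have h1 : (s.filter fun I' : ℕ => |(I : ℝ) - I'| ≤ a).card ≤ 2 * ⌊a⌋₊ + 1 := by
    refine (Finset.card_le_card hsub).trans ?_
    rw [Nat.card_Icc]
    omega
  have h2 : ((2 * ⌊a⌋₊ + 1 : ℕ) : ℝ) ≤ 2 * a + 1 := by
    push_cast
    have := Nat.floor_le ha
    linarith
  exact le_trans (by exact_mod_cast h1) h2

theorem hz_sqrt_one_add (x : ℝ) : Real.sqrt (1 + x ^ 2) ≤ 1 + |x| := by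
  rw [show (1 : ℝ) + |x| = Real.sqrt ((1 + |x|) ^ 2) from (Real.sqrt_sq (by positivity)).symm]
  refine Real.sqrt_le_sqrt ?_
  have := abs_nonneg x
  nlinarith [sq_abs x]

/-- **(X1a) SCHUR SUM OF THE GRAM KERNEL.**   `t = T_I - T_I' = j 2^-k₁`, `τ = j/(2σ)`.   `hy_kr_same`.
Every `I'`: `∫ |k_t| dν = 2 (1+τ²)^(1/4)` (position first, then velocity), so `≤ 4 (1+τ²)^(1/2) ≤ 4 (1 + |j|/2)`;  `|j| ≤ 8S`: total `≤ (16S+1)·4·(1+4S) ≤ 340 S²`.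
`|j| > 8S`: `x_α = D_α - D_α' - t N̄_α`, `|x₁-x₂| ≥ |t| V/2 - 2 S w ≥ w |j|/4`, `x₁²+x₂² ≥ w² j²/32`; spend half of the position exponent: `exp(-w² j²/(256 q² (1+τ²))) ≤ exp(-V²/(256 d²)) ≤ e^{-Λ²}` (`1+τ² ≤ j²`, `w/q = V/d`);
the other half integrates to `√2` times more: `≤ 8 (1+τ²)^(1/2) ≤ 8 |j|`;  `Σ_{|j| ≤ 2^(k₁-k)} 8|j| ≤ 8·4^(k₁-k)`.      ~600 l.  HARD (cut it if you like: near / far). -/
theorem hz_gram (φ : HyF) (h : φ.Ok) (k k1 i0 : ℕ) (hk : k ≤ k1) (θ1 θ2 V Λ S : ℝ) (hV : V = |θ1 - θ2|) (hsep : 16 * Λ * φ.d k1 ≤ V) (hΛ : 1 ≤ Λ)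
    (hS : 1 ≤ S) (I : ℕ) (hI : I ∈ ivs k i0 k1) (ρ1 ρ2 : ℝ × ℝ) (h1 : ρ1 ∈ hzVel θ1 (V / 4)) (h2 : ρ2 ∈ hzVel θ2 (V / 4))
    (h12 : |ρ1.1 - ρ2.1| ≤ S * (2 : ℝ)⁻¹ ^ k1 * V) :
    ∑ I' ∈ ivs k i0 k1, ∫⁻ ρ1' in hzVel θ1 (V / 4), ∫⁻ ρ2' in hzVel θ2 (V / 4),
        (if |ρ1'.1 - ρ2'.1| ≤ S * (2 : ℝ)⁻¹ ^ k1 * V then
          ‖φ.kr (tmL k1 I') k1 (tmL k1 I) k1 ρ1 ρ1'‖ₑ * ‖φ.kr (tmL k1 I') k1 (tmL k1 I) k1 ρ2 ρ2'‖ₑ else 0) ∂φ.nu ∂φ.nu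
      ≤ ENNReal.ofReal (340 * S ^ 2 + 8 * 4 ^ (k1 - k) * Real.exp (-Λ ^ 2)) := by
  have hσ1 := h.sg_lo
  obtain ⟨M, hM⟩ : ∃ M : ℕ, M = 2 ^ (k1 - k) := ⟨_, rfl⟩
  have hexp := Real.exp_pos (-Λ ^ 2)
  have hj : ∀ I' : ℕ, (tmL k1 I - tmL k1 I') * 2 ^ k1 = (I : ℝ) - I' := by
    intro I'
    unfold tmL
    field_simp
  have hjM : ∀ I' ∈ ivs k i0 k1, |(I : ℝ) - I'| ≤ M := by
    intro I' hI'
    unfold ivs at hI hI'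
    rw [← hM, Finset.mem_Ico] at hI hI'
    have a1 : ((i0 * M : ℕ) : ℝ) ≤ I := by exact_mod_cast hI.1
    have a2 : (I : ℝ) ≤ ((i0 + 1) * M : ℕ) := by exact_mod_cast hI.2.le
    have a3 : ((i0 * M : ℕ) : ℝ) ≤ I' := by exact_mod_cast hI'.1
    have a4 : (I' : ℝ) ≤ ((i0 + 1) * M : ℕ) := by exact_mod_cast hI'.2.le
    push_cast at a1 a2 a3 a4
    rw [abs_le]
    constructor <;> linarith
  have hterm : ∀ I' ∈ ivs k i0 k1, ∫⁻ ρ1' in hzVel θ1 (V / 4), ∫⁻ ρ2' in hzVel θ2 (V / 4),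
        (if |ρ1'.1 - ρ2'.1| ≤ S * (2 : ℝ)⁻¹ ^ k1 * V then
          ‖φ.kr (tmL k1 I') k1 (tmL k1 I) k1 ρ1 ρ1'‖ₑ * ‖φ.kr (tmL k1 I') k1 (tmL k1 I) k1 ρ2 ρ2'‖ₑ else 0) ∂φ.nu ∂φ.nu
      ≤ ENNReal.ofReal ((if |(I : ℝ) - I'| ≤ 8 * S then 4 * (1 + 4 * S) else 0) + 8 * M * Real.exp (-Λ ^ 2)) := by
    intro I' hI'
    by_cases hc : |(I : ℝ) - I'| ≤ 8 * S
    · rw [if_pos hc]
      refine (hz_gram_near φ h k1 (tmL k1 I') (tmL k1 I) _ _ (hz_vel_meas _ _) (hz_vel_meas _ _) _ ρ1 ρ2).trans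
        (ENNReal.ofReal_le_ofReal ?_)
      rw [hj I']
      have e1 := hz_sqrt_one_add (((I : ℝ) - I') / (2 * φ.sg))
      have e2 : |((I : ℝ) - I') / (2 * φ.sg)| ≤ 4 * S := by
        rw [abs_div, abs_of_pos (show (0 : ℝ) < 2 * φ.sg by linarith), div_le_iff₀ (by linarith)]
        nlinarith
      have e3 : (0 : ℝ) ≤ 8 * M * Real.exp (-Λ ^ 2) := by positivity
      linarith
    · rw [if_neg hc, zero_add]
      rw [not_le] at hc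
      refine (hz_gram_far φ h k1 (tmL k1 I') (tmL k1 I) θ1 θ2 V Λ S hV hsep hΛ hS (by rw [hj I']; exact hc) ρ1 ρ2 h1 h2 h12).trans
        (ENNReal.ofReal_le_ofReal ?_)
      rw [hj I']
      have := hjM I' hI'
      gcongr
  refine (Finset.sum_le_sum hterm).trans ?_
  rw [← ENNReal.ofReal_sum_of_nonneg]
  swap
  · intro I' _
    split_ifs <;> positivity
  refine ENNReal.ofReal_le_ofReal ?_
  rw [Finset.sum_add_distrib, ← Finset.sum_filter, Finset.sum_const, Finset.sum_const, nsmul_eq_mul, nsmul_eq_mul]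
  have hcard : (ivs k i0 k1).card = M := by
    unfold ivs
    rw [Nat.card_Ico, ← hM]
    ring_nf
    omega
  have hnear := hz_near_card (ivs k i0 k1) I (8 * S) (by linarith)
  have hM2 : (M : ℝ) * M = 4 ^ (k1 - k) := by
    rw [hM]
    push_cast
    rw [← mul_pow]
    norm_num
  rw [hcard]
  have e1 : (((ivs k i0 k1).filter fun I' : ℕ => |(I : ℝ) - I'| ≤ 8 * S).card : ℝ) * (4 * (1 + 4 * S)) ≤ (2 * (8 * S) + 1) * (4 * (1 + 4 * S)) :=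
    mul_le_mul_of_nonneg_right hnear (by linarith)
  have e2 : (M : ℝ) * (8 * M * Real.exp (-Λ ^ 2)) = 8 * 4 ^ (k1 - k) * Real.exp (-Λ ^ 2) := by
    rw [← hM2]; ring
  rw [e2]
  nlinarith

/-- integration over `finite set × Z` -/
theorem hz_lint_fin {Z : Type*} [MeasurableSpace Z] (ζ : Measure Z) [SFinite ζ] (s : Finset ℕ) (F : ℕ × Z → ℝ≥0∞) (hF : Measurable F) :
    ∫⁻ p, F p ∂((Measure.count.restrict (s : Set ℕ)).prod ζ) = ∑ I ∈ s, ∫⁻ z, F (I, z) ∂ζ := by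
  rw [lintegral_prod _ hF.aemeasurable, lintegral_finset]
  simp

/-- **Bessel for a finite family of kernels** -/
theorem hz_bessel_fin {Y Z : Type*} [MeasurableSpace Y] [MeasurableSpace Z] (μ : Measure Y) (ζ : Measure Z) [SigmaFinite μ] [SigmaFinite ζ]
    {G : Type*} [NormedAddCommGroup G] [InnerProductSpace ℂ G] [CompleteSpace G] (s : Finset ℕ)
    (k : ℕ → Z → Y → ℂ) (hk : ∀ I, Measurable (Function.uncurry (k I))) (hk2 : ∀ I z, MemLp (k I z) 2 μ) (L : ℝ≥0∞)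
    (hG : ∀ I ∈ s, ∀ z, ∑ I' ∈ s, ∫⁻ z', ‖∫ y, k I z y * conj (k I' z' y) ∂μ‖ₑ ∂ζ ≤ L) (a : Y → G) (ha : MemLp a 2 μ) :
    ∑ I ∈ s, ∫⁻ z, ‖∫ y, k I z y • a y ∂μ‖ₑ ^ 2 ∂ζ ≤ L * ∫⁻ y, ‖a y‖ₑ ^ 2 ∂μ := by
  classical
  have hae : a =ᵐ[μ] ha.1.mk a := ha.1.ae_eq_mk
  have ham : StronglyMeasurable (ha.1.mk a) := ha.1.stronglyMeasurable_mk
  have ha' : MemLp (ha.1.mk a) 2 μ := (memLp_congr_ae hae).1 ha
  have e1 : ∀ I z, ∫ y, k I z y • a y ∂μ = ∫ y, k I z y • ha.1.mk a y ∂μ := fun I z =>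
    integral_congr_ae (hae.mono fun y hy => by simp only [hy])
  have e2 : ∫⁻ y, ‖a y‖ₑ ^ 2 ∂μ = ∫⁻ y, ‖ha.1.mk a y‖ₑ ^ 2 ∂μ :=
    lintegral_congr_ae (hae.mono fun y hy => by simp only [hy])
  simp only [e1]
  rw [e2]
  generalize ha.1.mk a = a' at ham ha'
  let K : ℕ × Z → Y → ℂ := fun p y => if p.1 ∈ s then k p.1 p.2 y else 0
  have hK : Measurable (Function.uncurry K) := by
    have hg : Measurable fun x : ℕ × (Z × Y) => if x.1 ∈ s then k x.1 x.2.1 x.2.2 else 0 := by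
      refine measurable_from_prod_countable_right fun I => ?_
      by_cases hI : I ∈ s
      · simp only [hI, if_true]
        exact hk I
      · simp only [hI, if_false]
        exact measurable_const
    exact hg.comp (measurable_fst.fst.prodMk (measurable_fst.snd.prodMk measurable_snd))
  have hK2 : ∀ p, MemLp (K p) 2 μ := by
    intro p
    by_cases hp : p.1 ∈ s
    · have : K p = k p.1 p.2 := by funext y; simp only [K, hp, if_true]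
      rw [this]; exact hk2 _ _
    · have : K p = fun _ => 0 := by funext y; simp only [K, hp, if_false]
      rw [this]; exact MemLp.zero
  have hKs : ∀ I ∈ s, ∀ z, K (I, z) = k I z := by
    intro I hI z
    funext y
    simp only [K, hI, if_true]
  have hGK : ∀ p, ∫⁻ p', ‖∫ y, K p y * conj (K p' y) ∂μ‖ₑ ∂((Measure.count.restrict (s : Set ℕ)).prod ζ) ≤ L := by
    intro p
    have hm : Measurable fun p' : ℕ × Z => ‖∫ y, K p y * conj (K p' y) ∂μ‖ₑ :=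
      ((hy_gram_meas μ K hK).comp measurable_prodMk_left).enorm
    rw [hz_lint_fin ζ s _ hm]
    by_cases hp : p.1 ∈ s
    · refine le_trans (le_of_eq ?_) (hG p.1 hp p.2)
      refine Finset.sum_congr rfl fun I' hI' => ?_
      refine lintegral_congr fun z' => ?_
      rw [hKs I' hI' z', show p = (p.1, p.2) from rfl, hKs p.1 hp p.2]
    · refine le_trans (le_of_eq ?_) (zero_le (a := L))
      refine Finset.sum_eq_zero fun I' _ => ?_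
      have : ∀ z', ∫ y, K p y * conj (K (I', z') y) ∂μ = 0 := by
        intro z'
        simp only [K, hp, if_false, zero_mul, integral_zero]
      simp only [this, enorm_zero, lintegral_zero]
  have key := hy_bessel μ ((Measure.count.restrict (s : Set ℕ)).prod ζ) K hK hK2 L hGK a' ha'
  have hcm : StronglyMeasurable fun p => ∫ y, K p y • a' y ∂μ :=
    StronglyMeasurable.integral_prod_right (f := fun z y => K z y • a' y)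
      (hK.stronglyMeasurable.smul (ham.comp_measurable measurable_snd))
  rw [hz_lint_fin ζ s _ (hcm.enorm.pow_const 2)] at key
  refine le_trans (le_of_eq ?_) key
  refine Finset.sum_congr rfl fun I hI => ?_
  refine lintegral_congr fun z => ?_
  rw [hKs I hI z]

theorem hz_nu_sigma (φ : HyF) : SigmaFinite φ.nu := by
  unfold HyF.nu
  exact (inferInstance : SigmaFinite ((φ.sg / (2 * Real.pi * φ.H)).toNNReal • (volume : Measure (ℝ × ℝ))))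

/-- a tensor product of two `L²` functions -/
theorem hz_prod_memLp {X : Type*} [MeasurableSpace X] (ν : Measure X) [SFinite ν] (f g : X → ℂ) (hf : MemLp f 2 ν) (hg : MemLp g 2 ν) :
    MemLp (fun y : X × X => f y.1 * g y.2) 2 (ν.prod ν) := by
  refine hy_memLp_two _ _ (hf.1.comp_fst.mul hg.1.comp_snd) ?_
  have e : ∀ y : X × X, ‖f y.1 * g y.2‖ₑ ^ 2 = ‖f y.1‖ₑ ^ 2 * ‖g y.2‖ₑ ^ 2 := fun y => by rw [enorm_mul, mul_pow]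
  simp_rw [e]
  rw [lintegral_prod_mul (hf.1.enorm.pow_const 2) (hg.1.enorm.pow_const 2)]
  exact ENNReal.mul_ne_top (hy_lint_of_memLp ν f hf) (hy_lint_of_memLp ν g hg)

/-- the crossing region -/
def hzReg (θ1 θ2 W a : ℝ) : Set ((ℝ × ℝ) × (ℝ × ℝ)) := {z | z.1 ∈ hzVel θ1 W ∧ z.2 ∈ hzVel θ2 W ∧ |z.1.1 - z.2.1| ≤ a}

theorem hz_reg_meas (θ1 θ2 W a : ℝ) : MeasurableSet (hzReg θ1 θ2 W a) := by
  refine ((hz_vel_meas θ1 W).preimage measurable_fst).inter (((hz_vel_meas θ2 W).preimage measurable_snd).inter ?_)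
  exact measurableSet_le ((measurable_fst.fst.sub measurable_snd.fst).abs) measurable_const

/-- an integral over the crossing region as an iterated integral -/
theorem hz_reg_lint (ν : Measure (ℝ × ℝ)) [SFinite ν] (θ1 θ2 W a : ℝ) (F : (ℝ × ℝ) × (ℝ × ℝ) → ℝ≥0∞) (hF : Measurable F) :
    ∫⁻ z in hzReg θ1 θ2 W a, F z ∂(ν.prod ν)
      = ∫⁻ x in hzVel θ1 W, ∫⁻ y in hzVel θ2 W, (if |x.1 - y.1| ≤ a then F (x, y) else 0) ∂ν ∂ν := by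
  rw [← lintegral_indicator (hz_reg_meas _ _ _ _), lintegral_prod _ (hF.indicator (hz_reg_meas _ _ _ _)).aemeasurable,
    ← lintegral_indicator (hz_vel_meas _ _)]
  refine lintegral_congr fun x => ?_
  by_cases hx : x ∈ hzVel θ1 W
  · rw [Set.indicator_of_mem hx, ← lintegral_indicator (hz_vel_meas _ _)]
    refine lintegral_congr fun y => ?_
    by_cases hy : y ∈ hzVel θ2 W
    · rw [Set.indicator_of_mem hy]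
      by_cases hc : |x.1 - y.1| ≤ a
      · rw [if_pos hc, Set.indicator_of_mem (show (x, y) ∈ hzReg θ1 θ2 W a from ⟨hx, hy, hc⟩)]
      · rw [if_neg hc, Set.indicator_of_notMem (fun hh : (x, y) ∈ hzReg θ1 θ2 W a => hc hh.2.2)]
    · rw [Set.indicator_of_notMem hy, Set.indicator_of_notMem (fun hh : (x, y) ∈ hzReg θ1 θ2 W a => hy hh.2.1)]
  · rw [Set.indicator_of_notMem hx]
    have : ∀ y, (hzReg θ1 θ2 W a).indicator F (x, y) = 0 := fun y =>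
      Set.indicator_of_notMem (fun hh : (x, y) ∈ hzReg θ1 θ2 W a => hx hh.1) _
    simp only [this, lintegral_zero]

/-- the Gram kernel of the tensor packets -/
theorem hz_gram_eq (φ : HyF) (h : φ.Ok) (T0 : ℝ) (k : ℕ) (T1 T2 : ℝ) (k1 : ℕ) (z z' : (ℝ × ℝ) × (ℝ × ℝ)) :
    ∫ y, (φ.kr T0 k T1 k1 z.1 y.1 * φ.kr T0 k T1 k1 z.2 y.2) * conj (φ.kr T0 k T2 k1 z'.1 y.1 * φ.kr T0 k T2 k1 z'.2 y.2) ∂(φ.nu.prod φ.nu)
      = φ.kr T2 k1 T1 k1 z.1 z'.1 * φ.kr T2 k1 T1 k1 z.2 z'.2 := by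
  have := hy_nu_sfinite φ
  have e : ∀ y : (ℝ × ℝ) × (ℝ × ℝ), (φ.kr T0 k T1 k1 z.1 y.1 * φ.kr T0 k T1 k1 z.2 y.2) * conj (φ.kr T0 k T2 k1 z'.1 y.1 * φ.kr T0 k T2 k1 z'.2 y.2)
      = (fun x => φ.kr T0 k T1 k1 z.1 x * φ.kr T2 k1 T0 k x z'.1) y.1 * (fun x => φ.kr T0 k T1 k1 z.2 x * φ.kr T2 k1 T0 k x z'.2) y.2 := by
    intro y
    simp only [map_mul, ← hy_kr_conj]
    ring
  rw [integral_congr_ae (Filter.Eventually.of_forall e),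
    integral_prod_mul (fun x => φ.kr T0 k T1 k1 z.1 x * φ.kr T2 k1 T0 k x z'.1) (fun x => φ.kr T0 k T1 k1 z.2 x * φ.kr T2 k1 T0 k x z'.2),
    hy_kr_comp φ h, hy_kr_comp φ h]

theorem hz_kr_meas2 (φ : HyF) (h : φ.Ok) (T0 : ℝ) (k : ℕ) (T1 : ℝ) (k1 : ℕ) {X : Type*} [MeasurableSpace X] (f g : X → ℝ × ℝ)
    (hf : Measurable f) (hg : Measurable g) : Measurable fun x => φ.kr T0 k T1 k1 (f x) (g x) := by
  have h0 := (hy_kr_meas φ h T0 k T1 k1).comp (hf.prodMk hg)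
  simpa only [Function.comp_def, Function.uncurry_apply_pair] using h0

theorem hz_KK_meas (φ : HyF) (h : φ.Ok) (T0 : ℝ) (k : ℕ) (T1 : ℝ) (k1 : ℕ) :
    Measurable (Function.uncurry fun z y : (ℝ × ℝ) × (ℝ × ℝ) => φ.kr T0 k T1 k1 z.1 y.1 * φ.kr T0 k T1 k1 z.2 y.2) :=
  (hz_kr_meas2 φ h T0 k T1 k1 (fun p : ((ℝ × ℝ) × (ℝ × ℝ)) × ((ℝ × ℝ) × (ℝ × ℝ)) => p.1.1) (fun p => p.2.1) (by fun_prop) (by fun_prop)).mul
    (hz_kr_meas2 φ h T0 k T1 k1 (fun p : ((ℝ × ℝ) × (ℝ × ℝ)) × ((ℝ × ℝ) × (ℝ × ℝ)) => p.1.2) (fun p => p.2.2) (by fun_prop) (by fun_prop))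

theorem hz_cross_bessel_aux {G : Type} [NormedAddCommGroup G] [InnerProductSpace ℂ G] [CompleteSpace G]
    (φ : HyF) (h : φ.Ok) (k k1 i0 : ℕ) (hk : k ≤ k1) (θ1 θ2 V Λ S : ℝ) (hV : V = |θ1 - θ2|) (hsep : 16 * Λ * φ.d k1 ≤ V) (hΛ : 1 ≤ Λ) (hS : 1 ≤ S)
    (B : (ℝ × ℝ) × (ℝ × ℝ) → G) (hB : MemLp B 2 (φ.nu.prod φ.nu)) (a : ℝ) (ha : a = S * (2 : ℝ)⁻¹ ^ k1 * V) :
    ∑ I ∈ ivs k i0 k1, ∫⁻ z in hzReg θ1 θ2 (V / 4) a,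
        ‖∫ y, (φ.kr (tmL k i0) k (tmL k1 I) k1 z.1 y.1 * φ.kr (tmL k i0) k (tmL k1 I) k1 z.2 y.2) • B y ∂(φ.nu.prod φ.nu)‖ₑ ^ 2 ∂(φ.nu.prod φ.nu)
      ≤ ENNReal.ofReal (340 * S ^ 2 + 8 * 4 ^ (k1 - k) * Real.exp (-Λ ^ 2)) * ∫⁻ y, ‖B y‖ₑ ^ 2 ∂(φ.nu.prod φ.nu) := by
  classical
  have := hz_nu_sigma φ
  have hRm := hz_reg_meas θ1 θ2 (V / 4) a
  let kk : ℕ → (ℝ × ℝ) × (ℝ × ℝ) → (ℝ × ℝ) × (ℝ × ℝ) → ℂ := fun I z y =>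
    φ.kr (tmL k i0) k (tmL k1 I) k1 z.1 y.1 * φ.kr (tmL k i0) k (tmL k1 I) k1 z.2 y.2
  let K : ℕ → (ℝ × ℝ) × (ℝ × ℝ) → (ℝ × ℝ) × (ℝ × ℝ) → ℂ := fun I z y => if z ∈ hzReg θ1 θ2 (V / 4) a then kk I z y else 0
  have hkk : ∀ I, Measurable (Function.uncurry (kk I)) := fun I => hz_KK_meas φ h _ _ _ _
  have hK : ∀ I, Measurable (Function.uncurry (K I)) := fun I =>
    Measurable.ite (hRm.preimage measurable_fst) (hkk I) measurable_const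
  have hKin : ∀ I z, z ∈ hzReg θ1 θ2 (V / 4) a → K I z = kk I z := by
    intro I z hz
    funext y
    simp only [K, hz, if_true]
  have hKout : ∀ I z, z ∉ hzReg θ1 θ2 (V / 4) a → K I z = fun _ => 0 := by
    intro I z hz
    funext y
    simp only [K, hz, if_false]
  have hK2 : ∀ I z, MemLp (K I z) 2 (φ.nu.prod φ.nu) := by
    intro I z
    by_cases hz : z ∈ hzReg θ1 θ2 (V / 4) a
    · rw [hKin I z hz]
      exact hz_prod_memLp φ.nu _ _ (hy_kr_memLp φ h _ _ _ _ z.1).1 (hy_kr_memLp φ h _ _ _ _ z.2).1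
    · rw [hKout I z hz]
      exact MemLp.zero
  have hG : ∀ I ∈ ivs k i0 k1, ∀ z, ∑ I' ∈ ivs k i0 k1, ∫⁻ z', ‖∫ y, K I z y * conj (K I' z' y) ∂(φ.nu.prod φ.nu)‖ₑ ∂(φ.nu.prod φ.nu)
      ≤ ENNReal.ofReal (340 * S ^ 2 + 8 * 4 ^ (k1 - k) * Real.exp (-Λ ^ 2)) := by
    intro I hI z
    by_cases hz : z ∈ hzReg θ1 θ2 (V / 4) a
    · refine le_trans (le_of_eq ?_) (hz_gram φ h k k1 i0 hk θ1 θ2 V Λ S hV hsep hΛ hS I hI z.1 z.2 hz.1 hz.2.1 (ha ▸ hz.2.2))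
      refine Finset.sum_congr rfl fun I' _ => ?_
      rw [← ha]
      have hm : Measurable fun z' : (ℝ × ℝ) × (ℝ × ℝ) =>
          ‖φ.kr (tmL k1 I') k1 (tmL k1 I) k1 z.1 z'.1‖ₑ * ‖φ.kr (tmL k1 I') k1 (tmL k1 I) k1 z.2 z'.2‖ₑ := by
        exact (hz_kr_meas2 φ h _ _ _ _ (fun _ => z.1) (fun z' : (ℝ × ℝ) × (ℝ × ℝ) => z'.1) measurable_const measurable_fst).enorm.mul
          (hz_kr_meas2 φ h _ _ _ _ (fun _ => z.2) (fun z' : (ℝ × ℝ) × (ℝ × ℝ) => z'.2) measurable_const measurable_snd).enorm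
      rw [← hz_reg_lint φ.nu θ1 θ2 (V / 4) a _ hm, ← lintegral_indicator hRm]
      refine lintegral_congr fun z' => ?_
      by_cases hz' : z' ∈ hzReg θ1 θ2 (V / 4) a
      · rw [Set.indicator_of_mem hz', hKin I z hz, hKin I' z' hz', hz_gram_eq φ h, enorm_mul]
      · rw [Set.indicator_of_notMem hz', hKout I' z' hz']
        simp
    · refine le_trans (le_of_eq ?_) (zero_le (a := ENNReal.ofReal (340 * S ^ 2 + 8 * 4 ^ (k1 - k) * Real.exp (-Λ ^ 2))))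
      refine Finset.sum_eq_zero fun I' _ => ?_
      rw [hKout I z hz]
      simp
  refine le_trans (le_of_eq ?_) (hz_bessel_fin (φ.nu.prod φ.nu) (φ.nu.prod φ.nu) (ivs k i0 k1) K hK hK2 _ hG B hB)
  refine Finset.sum_congr rfl fun I _ => ?_
  rw [← lintegral_indicator hRm]
  refine lintegral_congr fun z => ?_
  by_cases hz : z ∈ hzReg θ1 θ2 (V / 4) a
  · rw [Set.indicator_of_mem hz, hKin I z hz]
  · rw [Set.indicator_of_notMem hz, hKout I z hz]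
    simp

/-- **(X1b) BESSEL BOUND** for the tensor transfers to all children, for an ARBITRARY `B ∈ L²(ν ⊗ ν; G)`.   `hy_bessel` with `Y = (ℝ×ℝ)×(ℝ×ℝ)`, `Z = ℕ × Y` (counting measure on `ivs` × `ν ⊗ ν`),
`k (I, ρ₁', ρ₂') (ρ₁, ρ₂) = 1_{Reg} kr ρ₁' ρ₁ · kr ρ₂' ρ₂` (zero outside the region, so that the Gram hypothesis holds for ALL `z`);  Gram kernel by Fubini + `hy_kr_comp` + `hy_kr_conj`;  `hz_gram`.   ~450 l. -/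
theorem hz_cross_bessel {G : Type} [NormedAddCommGroup G] [InnerProductSpace ℂ G] [CompleteSpace G]
    (φ : HyF) (h : φ.Ok) (k k1 i0 : ℕ) (hk : k ≤ k1) (θ1 θ2 V Λ S : ℝ) (hV : V = |θ1 - θ2|) (hsep : 16 * Λ * φ.d k1 ≤ V) (hΛ : 1 ≤ Λ) (hS : 1 ≤ S)
    (B : (ℝ × ℝ) × (ℝ × ℝ) → G) (hB : MemLp B 2 (φ.nu.prod φ.nu)) :
    ∑ I ∈ ivs k i0 k1, ∫⁻ z in {z : (ℝ × ℝ) × (ℝ × ℝ) | z.1 ∈ hzVel θ1 (V / 4) ∧ z.2 ∈ hzVel θ2 (V / 4) ∧ |z.1.1 - z.2.1| ≤ S * (2 : ℝ)⁻¹ ^ k1 * V},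
        ‖∫ y, (φ.kr (tmL k i0) k (tmL k1 I) k1 z.1 y.1 * φ.kr (tmL k i0) k (tmL k1 I) k1 z.2 y.2) • B y ∂(φ.nu.prod φ.nu)‖ₑ ^ 2 ∂(φ.nu.prod φ.nu)
      ≤ ENNReal.ofReal (340 * S ^ 2 + 8 * 4 ^ (k1 - k) * Real.exp (-Λ ^ 2)) * ∫⁻ y, ‖B y‖ₑ ^ 2 ∂(φ.nu.prod φ.nu) := by
  exact hz_cross_bessel_aux φ h k k1 i0 hk θ1 θ2 V Λ S hV hsep hΛ hS B hB _ rfl

/-! ### X1c -/

theorem hz_ivs_anc {k i0 k1 I : ℕ} (hI : I ∈ ivs k i0 k1) : ancI k1 k I = i0 := by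
  unfold ivs at hI
  rw [Finset.mem_Ico] at hI
  unfold ancI
  exact Nat.div_eq_of_lt_le hI.1 hI.2

theorem hz_ivs_time {k i0 k1 I : ℕ} (hk : k ≤ k1) (hI : I ∈ ivs k i0 k1) : |tmL k1 I - tmL k i0| ≤ (2 : ℝ)⁻¹ ^ k := by
  have h1 := hz_time_le k k1 k1 I hk le_rfl
  rw [hz_ivs_anc hI, (hz_anc_time k k1 k1 I hk le_rfl).2.2.2] at h1
  exact h1

theorem hz_far_geo {D1 D2 D1' D2' N1 N2 θ1 θ2 V S w W t L : ℝ} (hV : V = |θ1 - θ2|) (hS : 0 ≤ S) (hw : w ≤ W) (htW : |t| * V ≤ W)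
    (h1 : |N1 - θ1| ≤ V / 4) (h2 : |N2 - θ2| ≤ V / 4) (h12' : |D1' - D2'| ≤ S * w) (h12 : (S + 3) * W < |D1 - D2|) (hL : L ≤ 3 / 4 * W) :
    L ≤ |D1' - D1 - t * N1| ∨ L ≤ |D2' - D2 - t * N2| := by
  by_contra hc
  push Not at hc
  obtain ⟨c1, c2⟩ := hc
  obtain ⟨y1, hy1⟩ : ∃ y, y = D1' - D1 - t * N1 := ⟨_, rfl⟩
  obtain ⟨y2, hy2⟩ : ∃ y, y = D2' - D2 - t * N2 := ⟨_, rfl⟩
  rw [← hy1] at c1
  rw [← hy2] at c2
  have hN : |N1 - N2| ≤ 3 / 2 * V := by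
    have e : N1 - N2 = (N1 - θ1) + (θ1 - θ2) - (N2 - θ2) := by ring
    rw [e]
    calc |(N1 - θ1) + (θ1 - θ2) - (N2 - θ2)| ≤ |(N1 - θ1) + (θ1 - θ2)| + |N2 - θ2| := abs_sub _ _
      _ ≤ |N1 - θ1| + |θ1 - θ2| + |N2 - θ2| := add_le_add (abs_add_le _ _) le_rfl
      _ ≤ 3 / 2 * V := by rw [← hV]; linarith
  have htN : |t * (N1 - N2)| ≤ 3 / 2 * W := by
    rw [abs_mul]
    calc |t| * |N1 - N2| ≤ |t| * (3 / 2 * V) := mul_le_mul_of_nonneg_left hN (abs_nonneg _)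
      _ = 3 / 2 * (|t| * V) := by ring
      _ ≤ 3 / 2 * W := by linarith
  have e : D1 - D2 = (D1' - D2') - (y1 - y2) - t * (N1 - N2) := by rw [hy1, hy2]; ring
  have hb : |D1 - D2| ≤ |D1' - D2'| + (|y1| + |y2|) + |t * (N1 - N2)| := by
    rw [e]
    calc |(D1' - D2') - (y1 - y2) - t * (N1 - N2)| ≤ |(D1' - D2') - (y1 - y2)| + |t * (N1 - N2)| := abs_sub _ _
      _ ≤ |D1' - D2'| + |y1 - y2| + |t * (N1 - N2)| := add_le_add (abs_sub _ _) le_rfl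
      _ ≤ _ := add_le_add (add_le_add le_rfl (abs_sub _ _)) le_rfl
  have hSw : S * w ≤ S * W := mul_le_mul_of_nonneg_left hw hS
  nlinarith

theorem hz_far_sum {X : Type*} [MeasurableSpace X] (ν : Measure X) [SFinite ν] (a1 a2 : X → ℝ≥0∞) (ha1 : Measurable a1) (ha2 : Measurable a2)
    (F1 F2 : Set X) (hF1 : MeasurableSet F1) (hF2 : MeasurableSet F2) (c C : ℝ≥0∞)
    (h1 : ∫⁻ x in F1, a1 x ∂ν ≤ c) (h2 : ∫⁻ x in F2, a2 x ∂ν ≤ c) (h3 : ∫⁻ x, a1 x ∂ν ≤ C) (h4 : ∫⁻ x, a2 x ∂ν ≤ C)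
    (κ : X × X → ℝ≥0∞) (hκ : ∀ y, (y.1 ∈ F1 ∨ y.2 ∈ F2) → κ y ≤ a1 y.1 * a2 y.2) (hκ0 : ∀ y, ¬ (y.1 ∈ F1 ∨ y.2 ∈ F2) → κ y = 0) :
    ∫⁻ y, κ y ∂(ν.prod ν) ≤ 2 * (c * C) := by
  have m1 : Measurable (F1.indicator a1) := ha1.indicator hF1
  have m2 : Measurable (F2.indicator a2) := ha2.indicator hF2
  calc ∫⁻ y, κ y ∂(ν.prod ν) ≤ ∫⁻ y, (F1.indicator a1 y.1 * a2 y.2 + a1 y.1 * F2.indicator a2 y.2) ∂(ν.prod ν) := by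
        refine lintegral_mono fun y => ?_
        by_cases hy : y.1 ∈ F1 ∨ y.2 ∈ F2
        · rcases hy with hy1 | hy2
          · refine (hκ y (Or.inl hy1)).trans ?_
            rw [Set.indicator_of_mem hy1]
            exact le_self_add
          · refine (hκ y (Or.inr hy2)).trans ?_
            rw [Set.indicator_of_mem hy2]
            exact le_add_self
        · rw [hκ0 y hy]; exact bot_le
    _ = (∫⁻ x in F1, a1 x ∂ν) * (∫⁻ x, a2 x ∂ν) + (∫⁻ x, a1 x ∂ν) * ∫⁻ x in F2, a2 x ∂ν := by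
        have m3 : Measurable fun y : X × X => F1.indicator a1 y.1 * a2 y.2 := (m1.comp measurable_fst).mul (ha2.comp measurable_snd)
        rw [lintegral_add_left m3, lintegral_prod_mul m1.aemeasurable ha2.aemeasurable,
          lintegral_prod_mul ha1.aemeasurable m2.aemeasurable, lintegral_indicator hF1, lintegral_indicator hF2]
    _ ≤ c * C + C * c := add_le_add (mul_le_mul' h1 h4) (mul_le_mul' h3 h2)
    _ = 2 * (c * C) := by ring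

theorem hz_cross_far' {G : Type} [NormedAddCommGroup G] [InnerProductSpace ℂ G] [CompleteSpace G]
    (φ : HyF) (h : φ.Ok) (k k1 i0 : ℕ) (hk : k ≤ k1) (θ1 θ2 V Λ S : ℝ) (hV : V = |θ1 - θ2|) (hsep : 16 * Λ * φ.d k1 ≤ V) (hΛ : 1 ≤ Λ) (hS : 1 ≤ S)
    (I : ℕ) (hI : I ∈ ivs k i0 k1) (B : (ℝ × ℝ) × (ℝ × ℝ) → G) (hB : MemLp B 2 (φ.nu.prod φ.nu))
    (hsB : ∀ y, B y ≠ 0 → y.1 ∈ hzVel θ1 (V / 4) ∧ y.2 ∈ hzVel θ2 (V / 4) ∧ (S + 3) * (2 : ℝ)⁻¹ ^ k * V < |y.1.1 - y.2.1|) :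
    ∫⁻ z in {z : (ℝ × ℝ) × (ℝ × ℝ) | z.1 ∈ hzVel θ1 (V / 4) ∧ z.2 ∈ hzVel θ2 (V / 4) ∧ |z.1.1 - z.2.1| ≤ S * (2 : ℝ)⁻¹ ^ k1 * V},
        ‖∫ y, (φ.kr (tmL k i0) k (tmL k1 I) k1 z.1 y.1 * φ.kr (tmL k i0) k (tmL k1 I) k1 z.2 y.2) • B y ∂(φ.nu.prod φ.nu)‖ₑ ^ 2 ∂(φ.nu.prod φ.nu)
      ≤ ENNReal.ofReal (10 ^ 6 * 2 ^ (k1 - k) * Real.exp (-(Λ ^ 2 / 20))) * ∫⁻ y, ‖B y‖ₑ ^ 2 ∂(φ.nu.prod φ.nu) := by
  have := hy_nu_sfinite φ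
  obtain ⟨hq, hd, -, hql, hq2, -⟩ := hy_qd φ h k
  obtain ⟨hq1, -, -, -, hq12, -⟩ := hy_qd φ h k1
  have hdd := (hy_qd_mono φ h hk).2
  have hH := h.H_pos
  have hΛ0 : 0 ≤ Λ := by linarith
  have ht := hz_ivs_time hk hI
  obtain ⟨T0, hT0⟩ : ∃ T0 : ℝ, T0 = tmL k i0 := ⟨_, rfl⟩
  obtain ⟨T1, hT1⟩ : ∃ T1 : ℝ, T1 = tmL k1 I := ⟨_, rfl⟩
  rw [← hT0, ← hT1] at ht ⊢
  obtain ⟨t, htd⟩ : ∃ t : ℝ, t = T1 - T0 := ⟨_, rfl⟩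
  obtain ⟨L, hL⟩ : ∃ L : ℝ, L = Λ * φ.q k := ⟨_, rfl⟩
  have hRm := hz_reg_meas θ1 θ2 (V / 4) (S * (2 : ℝ)⁻¹ ^ k1 * V)
  obtain ⟨Far, hFar⟩ : ∃ Far : Set (((ℝ × ℝ) × (ℝ × ℝ)) × ((ℝ × ℝ) × (ℝ × ℝ))),
      Far = {p | L ≤ |p.1.1.1 - p.2.1.1 - t * p.2.1.2| ∨ L ≤ |p.1.2.1 - p.2.2.1 - t * p.2.2.2|} := ⟨_, rfl⟩
  have hFm : MeasurableSet Far := by
    rw [hFar]
    have f1 : MeasurableSet {p : ((ℝ × ℝ) × (ℝ × ℝ)) × ((ℝ × ℝ) × (ℝ × ℝ)) | L ≤ |p.1.1.1 - p.2.1.1 - t * p.2.1.2|} :=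
      measurableSet_le measurable_const (by fun_prop)
    have f2 : MeasurableSet {p : ((ℝ × ℝ) × (ℝ × ℝ)) × ((ℝ × ℝ) × (ℝ × ℝ)) | L ≤ |p.1.2.1 - p.2.2.1 - t * p.2.2.2|} :=
      measurableSet_le measurable_const (by fun_prop)
    exact f1.union f2
  obtain ⟨kk, hkk⟩ : ∃ kk : (ℝ × ℝ) × (ℝ × ℝ) → (ℝ × ℝ) × (ℝ × ℝ) → ℂ, kk = fun z y => φ.kr T0 k T1 k1 z.1 y.1 * φ.kr T0 k T1 k1 z.2 y.2 := ⟨_, rfl⟩
  have hkkm : Measurable (Function.uncurry kk) := by rw [hkk]; exact hz_KK_meas φ h T0 k T1 k1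
  obtain ⟨K, hKd⟩ : ∃ K : (ℝ × ℝ) × (ℝ × ℝ) → (ℝ × ℝ) × (ℝ × ℝ) → ℂ, K = fun z y => Far.indicator (Function.uncurry kk) (z, y) := ⟨_, rfl⟩
  have hK : Measurable (Function.uncurry K) := by
    have : Function.uncurry K = Far.indicator (Function.uncurry kk) := by
      rw [hKd]
      rfl
    rw [this]
    exact hkkm.indicator hFm
  obtain ⟨kbE, hkbE⟩ : ∃ kbE : ℝ × ℝ → ℝ × ℝ → ℝ≥0∞, kbE = fun ρ' ρ => ENNReal.ofReal (φ.kb k k1 t ρ' ρ) := ⟨_, rfl⟩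
  have hkbm : Measurable (Function.uncurry kbE) := by
    rw [hkbE]
    exact ENNReal.measurable_ofReal.comp (hy_kb_cont φ k k1 t).measurable
  have hkle : ∀ ρ' ρ, ‖φ.kr T0 k T1 k1 ρ' ρ‖ₑ ≤ kbE ρ' ρ := by
    intro ρ' ρ
    rw [hkbE, htd]
    exact hz_kr_enorm_le φ h T0 k T1 k1 hk ht ρ' ρ
  have hK1 : ∀ z y, (z, y) ∈ Far → ‖K z y‖ₑ ≤ kbE z.1 y.1 * kbE z.2 y.2 := by
    intro z y hz
    rw [hKd]
    simp only [Set.indicator_of_mem hz, Function.uncurry_apply_pair]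
    rw [hkk]
    show ‖φ.kr T0 k T1 k1 z.1 y.1 * φ.kr T0 k T1 k1 z.2 y.2‖ₑ ≤ _
    rw [enorm_mul]
    exact mul_le_mul' (hkle _ _) (hkle _ _)
  have hK0 : ∀ z y, (z, y) ∉ Far → ‖K z y‖ₑ = 0 := by
    intro z y hz
    rw [hKd]
    simp only [Set.indicator_of_notMem hz, enorm_zero]
  obtain ⟨r, hr⟩ : ∃ r : ℝ, r = φ.q k / φ.q k1 := ⟨_, rfl⟩
  have hr0 : 0 < r := by rw [hr]; positivity
  obtain ⟨c, hc⟩ : ∃ c : ℝ≥0∞, c = ENNReal.ofReal (26 * Real.exp (-(Λ ^ 2 / 40)) * Real.sqrt r) := ⟨_, rfl⟩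
  obtain ⟨C, hC⟩ : ∃ C : ℝ≥0∞, C = ENNReal.ofReal (18 * Real.sqrt r) := ⟨_, rfl⟩
  have b1 : ∀ z, ∫⁻ y, ‖K z y‖ₑ ∂(φ.nu.prod φ.nu) ≤ 2 * (c * C) := by
    intro z
    refine hz_far_sum φ.nu (kbE z.1) (kbE z.2) (hkbm.comp measurable_prodMk_left) (hkbm.comp measurable_prodMk_left)
      {ρ | L ≤ |z.1.1 - ρ.1 - t * ρ.2|} {ρ | L ≤ |z.2.1 - ρ.1 - t * ρ.2|}
      (measurableSet_le measurable_const (by fun_prop)) (measurableSet_le measurable_const (by fun_prop)) c C ?_ ?_ ?_ ?_ _ ?_ ?_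
    · rw [hkbE, hc, hr, hL]; exact hy_kb_src_farD φ h k k1 t Λ hΛ0 z.1
    · rw [hkbE, hc, hr, hL]; exact hy_kb_src_farD φ h k k1 t Λ hΛ0 z.2
    · rw [hkbE, hC, hr]; exact hy_kb_src φ h k k1 t z.1
    · rw [hkbE, hC, hr]; exact hy_kb_src φ h k k1 t z.2
    · intro y hy
      exact hK1 z y (by rw [hFar]; exact hy)
    · intro y hy
      exact hK0 z y (by rw [hFar]; exact hy)
  have b2 : ∀ y, ∫⁻ z, ‖K z y‖ₑ ∂(φ.nu.prod φ.nu) ≤ 2 * (c * C) := by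
    intro y
    refine hz_far_sum φ.nu (fun ρ' => kbE ρ' y.1) (fun ρ' => kbE ρ' y.2) (hkbm.comp measurable_prodMk_right) (hkbm.comp measurable_prodMk_right)
      {ρ' | L ≤ |ρ'.1 - y.1.1 - t * y.1.2|} {ρ' | L ≤ |ρ'.1 - y.2.1 - t * y.2.2|}
      (measurableSet_le measurable_const (by fun_prop)) (measurableSet_le measurable_const (by fun_prop)) c C ?_ ?_ ?_ ?_ _ ?_ ?_
    · rw [hkbE, hc, hr, hL]; exact hy_kb_tgt_farD φ h k k1 t Λ hΛ0 y.1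
    · rw [hkbE, hc, hr, hL]; exact hy_kb_tgt_farD φ h k k1 t Λ hΛ0 y.2
    · rw [hkbE, hC, hr]; exact hy_kb_tgt φ h k k1 t y.1
    · rw [hkbE, hC, hr]; exact hy_kb_tgt φ h k k1 t y.2
    · intro z hz
      exact hK1 z y (by rw [hFar]; exact hz)
    · intro z hz
      exact hK0 z y (by rw [hFar]; exact hz)
  have h1 := hy_schur (φ.nu.prod φ.nu) (φ.nu.prod φ.nu) K hK B hB.1 _ _ b1 b2
  have hr2 : r ^ 2 = 2 ^ (k1 - k) := by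
    rw [hr, div_pow, hq2, hq12, pow_sub₀ _ (by norm_num) hk, inv_pow, inv_pow]
    field_simp
  have hcc : 2 * (c * C) * (2 * (c * C)) ≤ ENNReal.ofReal (10 ^ 6 * 2 ^ (k1 - k) * Real.exp (-(Λ ^ 2 / 20))) := by
    rw [hc, hC, show (2 : ℝ≥0∞) = ENNReal.ofReal 2 by norm_num, ← ENNReal.ofReal_mul (by positivity), ← ENNReal.ofReal_mul (by norm_num),
      ← ENNReal.ofReal_mul (by positivity)]
    refine ENNReal.ofReal_le_ofReal ?_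
    have hs := Real.mul_self_sqrt hr0.le
    have he : Real.exp (-(Λ ^ 2 / 40)) * Real.exp (-(Λ ^ 2 / 40)) = Real.exp (-(Λ ^ 2 / 20)) := by
      rw [← Real.exp_add]
      congr 1
      ring
    calc 2 * (26 * Real.exp (-(Λ ^ 2 / 40)) * Real.sqrt r * (18 * Real.sqrt r)) * (2 * (26 * Real.exp (-(Λ ^ 2 / 40)) * Real.sqrt r * (18 * Real.sqrt r)))
        = 876096 * ((Real.sqrt r * Real.sqrt r) ^ 2) * (Real.exp (-(Λ ^ 2 / 40)) * Real.exp (-(Λ ^ 2 / 40))) := by ring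
      _ = 876096 * 2 ^ (k1 - k) * Real.exp (-(Λ ^ 2 / 20)) := by rw [hs, he, hr2]
      _ ≤ 10 ^ 6 * 2 ^ (k1 - k) * Real.exp (-(Λ ^ 2 / 20)) := by
          have : 0 ≤ (2 : ℝ) ^ (k1 - k) * Real.exp (-(Λ ^ 2 / 20)) := by positivity
          nlinarith
  refine le_trans ?_ (h1.trans (mul_le_mul' hcc le_rfl))
  refine le_trans (le_of_eq ?_) (setLIntegral_le_lintegral (hzReg θ1 θ2 (V / 4) (S * (2 : ℝ)⁻¹ ^ k1 * V)) _)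
  refine setLIntegral_congr_fun hRm fun z hz => ?_
  congr 2
  refine integral_congr_ae (Filter.Eventually.of_forall fun y => ?_)
  show (φ.kr T0 k T1 k1 z.1 y.1 * φ.kr T0 k T1 k1 z.2 y.2) • B y = K z y • B y
  by_cases hBy : B y = 0
  · rw [hBy, smul_zero, smul_zero]
  · obtain ⟨s1, s2, s3⟩ := hsB y hBy
    have hV0 : 0 ≤ V := by rw [hV]; exact abs_nonneg _
    have hmem : (z, y) ∈ Far := by
      rw [hFar]
      show L ≤ |z.1.1 - y.1.1 - t * y.1.2| ∨ L ≤ |z.2.1 - y.2.1 - t * y.2.2|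
      refine hz_far_geo (w := (2 : ℝ)⁻¹ ^ k1 * V) (W := (2 : ℝ)⁻¹ ^ k * V) (S := S) hV (by linarith) ?_ ?_ s1 s2 ?_ ?_ ?_
      · refine mul_le_mul_of_nonneg_right ?_ hV0
        exact pow_le_pow_of_le_one (by norm_num) (by norm_num) hk
      · rw [htd]
        exact mul_le_mul_of_nonneg_right ht hV0
      · rw [← mul_assoc]
        exact hz.2.2
      · rw [← mul_assoc]
        exact s3
      · rw [hL, hql]
        have e1 : 16 * Λ * φ.d k ≤ V := le_trans (mul_le_mul_of_nonneg_left hdd (by positivity)) hsep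
        have e2 : (2 : ℝ)⁻¹ ^ k * (16 * Λ * φ.d k) ≤ (2 : ℝ)⁻¹ ^ k * V := mul_le_mul_of_nonneg_left e1 (by positivity)
        have e3 : 0 ≤ Λ * ((2 : ℝ)⁻¹ ^ k * φ.d k) := by positivity
        nlinarith
    rw [hKd]
    simp only [Set.indicator_of_mem hmem, Function.uncurry_apply_pair]
    rw [hkk]

/-- **(X1c) FAR SOURCES.**   One child.   Sources with velocities in the windows and `|D₁-D₂| > (S+3) W`: then `|y₁| + |y₂| ≥ (3/2) W`, `y_α = D_α' - D_α - t N_α`, so one `|y_α| ≥ (3/4) W ≥ Λ q k`.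
`hy_schur` with the kernel `1_{Reg}(z) 1_{far}(y) kr kr`;  row and column sums `≤ 2 · 26 e^{-Λ²/40} · 18 · (q k/q k₁)` (`hy_kr_le`, `hy_kb_*_farD`, `hy_kb_src`, `hy_kb_tgt`).   ~400 l. -/
theorem hz_cross_far {G : Type} [NormedAddCommGroup G] [InnerProductSpace ℂ G] [CompleteSpace G]
    (φ : HyF) (h : φ.Ok) (k k1 i0 : ℕ) (hk : k ≤ k1) (θ1 θ2 V Λ S : ℝ) (hV : V = |θ1 - θ2|) (hsep : 16 * Λ * φ.d k1 ≤ V) (hΛ : 1 ≤ Λ) (hS : 1 ≤ S)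
    (I : ℕ) (hI : I ∈ ivs k i0 k1) (B : (ℝ × ℝ) × (ℝ × ℝ) → G) (hB : MemLp B 2 (φ.nu.prod φ.nu))
    (hsB : ∀ y, B y ≠ 0 → y.1 ∈ hzVel θ1 (V / 4) ∧ y.2 ∈ hzVel θ2 (V / 4) ∧ (S + 3) * (2 : ℝ)⁻¹ ^ k * V < |y.1.1 - y.2.1|) :
    ∫⁻ z in {z : (ℝ × ℝ) × (ℝ × ℝ) | z.1 ∈ hzVel θ1 (V / 4) ∧ z.2 ∈ hzVel θ2 (V / 4) ∧ |z.1.1 - z.2.1| ≤ S * (2 : ℝ)⁻¹ ^ k1 * V},
        ‖∫ y, (φ.kr (tmL k i0) k (tmL k1 I) k1 z.1 y.1 * φ.kr (tmL k i0) k (tmL k1 I) k1 z.2 y.2) • B y ∂(φ.nu.prod φ.nu)‖ₑ ^ 2 ∂(φ.nu.prod φ.nu)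
      ≤ ENNReal.ofReal (10 ^ 6 * 2 ^ (k1 - k) * Real.exp (-(Λ ^ 2 / 20))) * ∫⁻ y, ‖B y‖ₑ ^ 2 ∂(φ.nu.prod φ.nu) :=
  hz_cross_far' φ h k k1 i0 hk θ1 θ2 V Λ S hV hsep hΛ hS I hI B hB hsB

/-- an integral operator with a measurable kernel produces a strongly measurable function -/
theorem hz_op_meas {Y Z : Type*} [MeasurableSpace Y] [MeasurableSpace Z] (μ : Measure Y) [SFinite μ] {G : Type*} [NormedAddCommGroup G]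
    [NormedSpace ℂ G] (K : Z → Y → ℂ) (hK : Measurable (Function.uncurry K)) (a : Y → G) (ha : AEStronglyMeasurable a μ) :
    StronglyMeasurable fun z => ∫ y, K z y • a y ∂μ := by
  have e1 : ∀ z, ∫ y, K z y • a y ∂μ = ∫ y, K z y • ha.mk a y ∂μ := fun z =>
    integral_congr_ae (ha.ae_eq_mk.mono fun y hy => by simp only [hy])
  simp only [e1]
  exact StronglyMeasurable.integral_prod_right (f := fun z y => K z y • ha.mk a y)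
    (hK.stronglyMeasurable.smul (ha.stronglyMeasurable_mk.comp_measurable measurable_snd))

theorem hz_add_sq (a b : ℝ≥0∞) : (a + b) ^ 2 ≤ 2 * a ^ 2 + 2 * b ^ 2 := by
  rcases eq_or_ne a ⊤ with rfl | ha
  · simp
  rcases eq_or_ne b ⊤ with rfl | hb
  · simp
  lift a to NNReal using ha
  lift b to NNReal using hb
  have : (a + b) ^ 2 ≤ 2 * a ^ 2 + 2 * b ^ 2 := by
    have h := sq_nonneg ((a : ℝ) - b)
    have : ((a : ℝ) + b) ^ 2 ≤ 2 * (a : ℝ) ^ 2 + 2 * (b : ℝ) ^ 2 := by nlinarith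
    exact_mod_cast this
  exact_mod_cast this

/-- the crossing energy as an integral over the product -/
theorem hz_cr_prod (φ : HyF) (a : ℝ) (f1 f2 : ℝ × ℝ → E) (h1 : AEStronglyMeasurable f1 φ.nu) (h2 : AEStronglyMeasurable f2 φ.nu) :
    φ.cr a f1 f2 = ∫⁻ z in {z : (ℝ × ℝ) × (ℝ × ℝ) | |z.1.1 - z.2.1| ≤ a}, ‖f1 z.1‖ₑ ^ 2 * ‖f2 z.2‖ₑ ^ 2 ∂(φ.nu.prod φ.nu) := by
  have := hy_nu_sfinite φ
  have hs : MeasurableSet {z : (ℝ × ℝ) × (ℝ × ℝ) | |z.1.1 - z.2.1| ≤ a} :=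
    measurableSet_le ((measurable_fst.fst.sub measurable_snd.fst).abs) measurable_const
  have hm : AEMeasurable (fun z : (ℝ × ℝ) × (ℝ × ℝ) => ‖f1 z.1‖ₑ ^ 2 * ‖f2 z.2‖ₑ ^ 2) (φ.nu.prod φ.nu) :=
    (h1.comp_fst.enorm.pow_const 2).mul (h2.comp_snd.enorm.pow_const 2)
  rw [← lintegral_indicator hs, lintegral_prod _ (hm.indicator hs)]
  unfold HyF.cr
  refine lintegral_congr fun x => lintegral_congr fun y => ?_
  by_cases hc : |x.1 - y.1| ≤ a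
  · rw [if_pos hc, Set.indicator_of_mem (show (x, y) ∈ {z : (ℝ × ℝ) × (ℝ × ℝ) | |z.1.1 - z.2.1| ≤ a} from hc)]
  · rw [if_neg hc, Set.indicator_of_notMem (show (x, y) ∉ {z : (ℝ × ℝ) × (ℝ × ℝ) | |z.1.1 - z.2.1| ≤ a} from hc)]

/-- the crossing energy of two windowed functions as an integral over the crossing region -/
theorem hz_cr_reg (φ : HyF) (θ1 θ2 W a : ℝ) (f1 f2 : ℝ × ℝ → E) (h1 : StronglyMeasurable f1) (h2 : StronglyMeasurable f2) :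
    φ.cr a ((hzVel θ1 W).indicator f1) ((hzVel θ2 W).indicator f2)
      = ∫⁻ z in hzReg θ1 θ2 W a, ‖f1 z.1‖ₑ ^ 2 * ‖f2 z.2‖ₑ ^ 2 ∂(φ.nu.prod φ.nu) := by
  have := hy_nu_sfinite φ
  have hm : Measurable (fun z : (ℝ × ℝ) × (ℝ × ℝ) => ‖f1 z.1‖ₑ ^ 2 * ‖f2 z.2‖ₑ ^ 2) :=
    ((h1.comp_measurable measurable_fst).enorm.pow_const 2).mul ((h2.comp_measurable measurable_snd).enorm.pow_const 2)
  rw [hz_reg_lint φ.nu θ1 θ2 W a _ hm, ← lintegral_indicator (hz_vel_meas _ _)]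
  unfold HyF.cr
  refine lintegral_congr fun x => ?_
  by_cases hx : x ∈ hzVel θ1 W
  · simp only [Set.indicator_of_mem hx]
    rw [← lintegral_indicator (hz_vel_meas _ _)]
    refine lintegral_congr fun y => ?_
    by_cases hy : y ∈ hzVel θ2 W
    · simp only [Set.indicator_of_mem hy]
    · simp [Set.indicator_of_notMem hy]
  · simp [Set.indicator_of_notMem hx]

theorem hz_ten_enorm (u v : E) : ‖hyTen E u v‖ₑ = ‖u‖ₑ * ‖v‖ₑ := by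
  rw [← ofReal_norm, hy_ten_norm, ENNReal.ofReal_mul (norm_nonneg _), ofReal_norm, ofReal_norm]

/-- the tensor of two transferred rows is the tensor transfer of the tensor -/
theorem hz_ten_tr (φ : HyF) (h : φ.Ok) (T : ℝ) (k : ℕ) (T' : ℝ) (k' : ℕ) (A1 A2 : ℝ × ℝ → E) (hA1 : MemLp A1 2 φ.nu) (hA2 : MemLp A2 2 φ.nu)
    (z : (ℝ × ℝ) × (ℝ × ℝ)) :
    hyTen E (φ.tr T k T' k' A1 z.1) (φ.tr T k T' k' A2 z.2)
      = ∫ y, (φ.kr T k T' k' z.1 y.1 * φ.kr T k T' k' z.2 y.2) • hyTen E (A1 y.1) (A2 y.2) ∂(φ.nu.prod φ.nu) := by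
  have := hy_nu_sfinite φ
  unfold HyF.tr
  rw [← integral_prod_bilin (hyTen E) (hy_tr_int φ h T k T' k' A1 hA1 z.1) (hy_tr_int φ h T k T' k' A2 hA2 z.2)]
  refine integral_congr_ae (Filter.Eventually.of_forall fun y => ?_)
  simp only [map_smul, _root_.smul_apply, smul_smul]
  rw [mul_comm]

theorem hz_ivs_card (k i0 k1 : ℕ) : (ivs k i0 k1).card = 2 ^ (k1 - k) := by
  unfold ivs
  rw [Nat.card_Ico, add_mul, one_mul, Nat.add_sub_cancel_left]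

/-- **(X1) ONE STEP: parent -> all children.**   `B = hyTen (A₁ ρ₁) (A₂ ρ₂) = B_near + B_far`;  `hyTen (tr A₁ ρ₁') (tr A₂ ρ₂') = ∫∫ kr kr • B` (bounded bilinear maps commute with Bochner integrals, Fubini);
`‖x + y‖² ≤ 2‖x‖² + 2‖y‖²`;  `hz_cross_bessel` for `B_near`, `hz_cross_far` for `B_far` (`2^(k₁-k)` children);  `hy_ten_norm`.   ~450 l. -/
theorem hz_cross_step (φ : HyF) (h : φ.Ok) (k k1 i0 : ℕ) (hk : k ≤ k1) (θ1 θ2 V Λ S : ℝ) (hV : V = |θ1 - θ2|) (hsep : 16 * Λ * φ.d k1 ≤ V) (hΛ : 1 ≤ Λ)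
    (hS : 1 ≤ S) (A1 A2 : ℝ × ℝ → E) (hA1 : MemLp A1 2 φ.nu) (hA2 : MemLp A2 2 φ.nu)
    (hs1 : ∀ ρ, A1 ρ ≠ 0 → ρ ∈ hzVel θ1 (V / 4)) (hs2 : ∀ ρ, A2 ρ ≠ 0 → ρ ∈ hzVel θ2 (V / 4)) :
    ∑ I ∈ ivs k i0 k1, φ.cr (S * (2 : ℝ)⁻¹ ^ k1 * V) ((hzVel θ1 (V / 4)).indicator (φ.tr (tmL k i0) k (tmL k1 I) k1 A1))
        ((hzVel θ2 (V / 4)).indicator (φ.tr (tmL k i0) k (tmL k1 I) k1 A2))
      ≤ ENNReal.ofReal (2 * (340 * S ^ 2 + 8 * 4 ^ (k1 - k) * Real.exp (-Λ ^ 2))) * φ.cr ((S + 3) * (2 : ℝ)⁻¹ ^ k * V) A1 A2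
        + ENNReal.ofReal (2 * 10 ^ 6 * 4 ^ (k1 - k) * Real.exp (-(Λ ^ 2 / 20))) * ((∫⁻ ρ, ‖A1 ρ‖ₑ ^ 2 ∂φ.nu) * ∫⁻ ρ, ‖A2 ρ‖ₑ ^ 2 ∂φ.nu) := by
  have := hz_nu_sigma φ
  obtain ⟨a, ha⟩ : ∃ a, a = S * (2 : ℝ)⁻¹ ^ k1 * V := ⟨_, rfl⟩
  obtain ⟨b, hb⟩ : ∃ b, b = (S + 3) * (2 : ℝ)⁻¹ ^ k * V := ⟨_, rfl⟩
  obtain ⟨L, hL⟩ : ∃ L, L = 340 * S ^ 2 + 8 * 4 ^ (k1 - k) * Real.exp (-Λ ^ 2) := ⟨_, rfl⟩
  obtain ⟨C, hC⟩ : ∃ C, C = 10 ^ 6 * 2 ^ (k1 - k) * Real.exp (-(Λ ^ 2 / 20)) := ⟨_, rfl⟩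
  obtain ⟨P, hP⟩ : ∃ P, P = (∫⁻ ρ, ‖A1 ρ‖ₑ ^ 2 ∂φ.nu) * ∫⁻ ρ, ‖A2 ρ‖ₑ ^ 2 ∂φ.nu := ⟨_, rfl⟩
  have hL0 : 0 ≤ L := by rw [hL]; positivity
  have hC0 : 0 ≤ C := by rw [hC]; positivity
  rw [← ha, ← hb, ← hL, ← hP]
  obtain ⟨B, hBdef⟩ : ∃ B : (ℝ × ℝ) × (ℝ × ℝ) → HyT E, B = fun y => hyTen E (A1 y.1) (A2 y.2) := ⟨_, rfl⟩
  have hBe : ∀ y, ‖B y‖ₑ ^ 2 = ‖A1 y.1‖ₑ ^ 2 * ‖A2 y.2‖ₑ ^ 2 := fun y => by rw [hBdef, hz_ten_enorm, mul_pow]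
  have hBm : AEStronglyMeasurable B (φ.nu.prod φ.nu) := by
    rw [hBdef]
    exact (hyTen E).aestronglyMeasurable_comp₂ hA1.1.comp_fst hA2.1.comp_snd
  have hBi : ∫⁻ y, ‖B y‖ₑ ^ 2 ∂(φ.nu.prod φ.nu) = P := by
    simp_rw [hBe]
    rw [hP]
    exact lintegral_prod_mul (hA1.1.enorm.pow_const 2) (hA2.1.enorm.pow_const 2)
  have hB : MemLp B 2 (φ.nu.prod φ.nu) := hy_memLp_two _ _ hBm (by
    rw [hBi, hP]; exact ENNReal.mul_ne_top (hy_lint_of_memLp _ _ hA1) (hy_lint_of_memLp _ _ hA2))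
  obtain ⟨Nr, hNrd⟩ : ∃ Nr : Set ((ℝ × ℝ) × (ℝ × ℝ)), Nr = {z | |z.1.1 - z.2.1| ≤ b} := ⟨_, rfl⟩
  have hNr : MeasurableSet Nr := by
    rw [hNrd]
    exact measurableSet_le ((measurable_fst.fst.sub measurable_snd.fst).abs) measurable_const
  have hBn : MemLp (Nr.indicator B) 2 (φ.nu.prod φ.nu) := hB.indicator hNr
  have hBf : MemLp (Nrᶜ.indicator B) 2 (φ.nu.prod φ.nu) := hB.indicator hNr.compl
  have hBni : ∫⁻ y, ‖Nr.indicator B y‖ₑ ^ 2 ∂(φ.nu.prod φ.nu) = φ.cr b A1 A2 := by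
    rw [hz_cr_prod φ b A1 A2 hA1.1 hA2.1, ← hNrd, ← lintegral_indicator hNr]
    refine lintegral_congr fun y => ?_
    by_cases hy : y ∈ Nr
    · simp only [Set.indicator_of_mem hy, hBe]
    · simp [Set.indicator_of_notMem hy]
  have hBfi : ∫⁻ y, ‖Nrᶜ.indicator B y‖ₑ ^ 2 ∂(φ.nu.prod φ.nu) ≤ P := by
    rw [← hBi]
    refine lintegral_mono fun y => ?_
    by_cases hy : y ∈ Nrᶜ
    · simp only [Set.indicator_of_mem hy, le_refl]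
    · simp [Set.indicator_of_notMem hy]
  have hsB : ∀ y, Nrᶜ.indicator B y ≠ 0 → y.1 ∈ hzVel θ1 (V / 4) ∧ y.2 ∈ hzVel θ2 (V / 4) ∧ (S + 3) * (2 : ℝ)⁻¹ ^ k * V < |y.1.1 - y.2.1| := by
    intro y hy
    have hy1 : y ∈ Nrᶜ := by
      by_contra hc
      exact hy (Set.indicator_of_notMem hc _)
    rw [Set.indicator_of_mem hy1, hBdef] at hy
    refine ⟨hs1 _ fun h0 => hy (by simp [h0]), hs2 _ fun h0 => hy (by simp [h0]), ?_⟩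
    rw [hNrd] at hy1
    rw [← hb]
    exact not_le.1 hy1
  -- the two black boxes
  have hb1 : ∑ I ∈ ivs k i0 k1, ∫⁻ z in hzReg θ1 θ2 (V / 4) a,
        ‖∫ y, (φ.kr (tmL k i0) k (tmL k1 I) k1 z.1 y.1 * φ.kr (tmL k i0) k (tmL k1 I) k1 z.2 y.2) • Nr.indicator B y ∂(φ.nu.prod φ.nu)‖ₑ ^ 2 ∂(φ.nu.prod φ.nu)
      ≤ ENNReal.ofReal L * φ.cr b A1 A2 := by
    rw [← hBni, ha, hL]
    exact hz_cross_bessel φ h k k1 i0 hk θ1 θ2 V Λ S hV hsep hΛ hS _ hBn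
  have hb2 : ∀ I ∈ ivs k i0 k1, ∫⁻ z in hzReg θ1 θ2 (V / 4) a,
        ‖∫ y, (φ.kr (tmL k i0) k (tmL k1 I) k1 z.1 y.1 * φ.kr (tmL k i0) k (tmL k1 I) k1 z.2 y.2) • Nrᶜ.indicator B y ∂(φ.nu.prod φ.nu)‖ₑ ^ 2 ∂(φ.nu.prod φ.nu)
      ≤ ENNReal.ofReal C * P := by
    intro I hI
    refine le_trans ?_ (mul_le_mul' le_rfl hBfi)
    rw [ha, hC]
    exact hz_cross_far φ h k k1 i0 hk θ1 θ2 V Λ S hV hsep hΛ hS I hI _ hBf hsB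
  -- one child
  have hstep : ∀ I ∈ ivs k i0 k1, φ.cr a ((hzVel θ1 (V / 4)).indicator (φ.tr (tmL k i0) k (tmL k1 I) k1 A1))
        ((hzVel θ2 (V / 4)).indicator (φ.tr (tmL k i0) k (tmL k1 I) k1 A2))
      ≤ 2 * (∫⁻ z in hzReg θ1 θ2 (V / 4) a,
          ‖∫ y, (φ.kr (tmL k i0) k (tmL k1 I) k1 z.1 y.1 * φ.kr (tmL k i0) k (tmL k1 I) k1 z.2 y.2) • Nr.indicator B y ∂(φ.nu.prod φ.nu)‖ₑ ^ 2 ∂(φ.nu.prod φ.nu))
        + 2 * (ENNReal.ofReal C * P) := by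
    intro I hI
    refine le_trans ?_ (add_le_add le_rfl (mul_le_mul' le_rfl (hb2 I hI)))
    rw [hz_cr_reg φ θ1 θ2 (V / 4) a _ _ (hy_tr_meas φ h _ _ _ _ A1 hA1.1) (hy_tr_meas φ h _ _ _ _ A2 hA2.1)]
    have hKK2 : ∀ z : (ℝ × ℝ) × (ℝ × ℝ), MemLp (fun y : (ℝ × ℝ) × (ℝ × ℝ) =>
        φ.kr (tmL k i0) k (tmL k1 I) k1 z.1 y.1 * φ.kr (tmL k i0) k (tmL k1 I) k1 z.2 y.2) 2 (φ.nu.prod φ.nu) := fun z =>
      hz_prod_memLp φ.nu _ _ (hy_kr_memLp φ h _ _ _ _ z.1).1 (hy_kr_memLp φ h _ _ _ _ z.2).1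
    have hpt : ∀ z : (ℝ × ℝ) × (ℝ × ℝ), ‖φ.tr (tmL k i0) k (tmL k1 I) k1 A1 z.1‖ₑ ^ 2 * ‖φ.tr (tmL k i0) k (tmL k1 I) k1 A2 z.2‖ₑ ^ 2
        ≤ 2 * ‖∫ y, (φ.kr (tmL k i0) k (tmL k1 I) k1 z.1 y.1 * φ.kr (tmL k i0) k (tmL k1 I) k1 z.2 y.2) • Nr.indicator B y ∂(φ.nu.prod φ.nu)‖ₑ ^ 2
          + 2 * ‖∫ y, (φ.kr (tmL k i0) k (tmL k1 I) k1 z.1 y.1 * φ.kr (tmL k i0) k (tmL k1 I) k1 z.2 y.2) • Nrᶜ.indicator B y ∂(φ.nu.prod φ.nu)‖ₑ ^ 2 := by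
      intro z
      rw [← mul_pow, ← hz_ten_enorm, hz_ten_tr φ h _ _ _ _ A1 A2 hA1 hA2 z]
      have hsplit : ∫ y, (φ.kr (tmL k i0) k (tmL k1 I) k1 z.1 y.1 * φ.kr (tmL k i0) k (tmL k1 I) k1 z.2 y.2) • hyTen E (A1 y.1) (A2 y.2) ∂(φ.nu.prod φ.nu)
          = ∫ y, (φ.kr (tmL k i0) k (tmL k1 I) k1 z.1 y.1 * φ.kr (tmL k i0) k (tmL k1 I) k1 z.2 y.2) • Nr.indicator B y ∂(φ.nu.prod φ.nu)
            + ∫ y, (φ.kr (tmL k i0) k (tmL k1 I) k1 z.1 y.1 * φ.kr (tmL k i0) k (tmL k1 I) k1 z.2 y.2) • Nrᶜ.indicator B y ∂(φ.nu.prod φ.nu) := by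
        rw [← integral_add (hy_integrable_smul _ _ _ (hKK2 z) hBn) (hy_integrable_smul _ _ _ (hKK2 z) hBf)]
        refine integral_congr_ae (Filter.Eventually.of_forall fun y => ?_)
        show _ = _ • Nr.indicator B y + _ • Nrᶜ.indicator B y
        rw [← smul_add, ← Pi.add_apply, Set.indicator_self_add_compl, hBdef]
      rw [hsplit]
      exact (pow_le_pow_left₀ bot_le (enorm_add_le _ _) 2).trans (hz_add_sq _ _)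
    refine (lintegral_mono fun z => hpt z).trans (le_of_eq ?_)
    have hm1 := ((hz_op_meas (φ.nu.prod φ.nu) _ (hz_KK_meas φ h (tmL k i0) k (tmL k1 I) k1) _ hBn.1).enorm.pow_const 2)
    have hm2 := ((hz_op_meas (φ.nu.prod φ.nu) _ (hz_KK_meas φ h (tmL k i0) k (tmL k1 I) k1) _ hBf.1).enorm.pow_const 2)
    rw [lintegral_add_left (hm1.const_mul 2), lintegral_const_mul _ hm1, lintegral_const_mul _ hm2]
  refine (Finset.sum_le_sum hstep).trans ?_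
  rw [Finset.sum_add_distrib, ← Finset.mul_sum, Finset.sum_const, hz_ivs_card, nsmul_eq_mul]
  refine add_le_add ?_ (le_of_eq ?_)
  · rw [ENNReal.ofReal_mul (by norm_num), mul_assoc]
    refine mul_le_mul' (le_of_eq (by simp)) hb1
  · have e1 : ((2 ^ (k1 - k) : ℕ) : ℝ≥0∞) = ENNReal.ofReal (2 ^ (k1 - k)) := by
      rw [ENNReal.ofReal_pow (by norm_num)]
      simp
    have e2 : (2 : ℝ≥0∞) = ENNReal.ofReal 2 := by simp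
    rw [e1, e2, ← mul_assoc, ← mul_assoc, ← ENNReal.ofReal_mul (by positivity), ← ENNReal.ofReal_mul (by positivity)]
    congr 2
    rw [hC, show (4 : ℝ) = 2 * 2 by norm_num, mul_pow]
    ring

/-! ### X2 -/

/-- the intervals below a root, grouped by their ancestors at an intermediate depth -/
theorem hz_ivs_sum {β : Type*} [AddCommMonoid β] (k0 i0 k' k'' : ℕ) (h1 : k0 ≤ k') (h2 : k' ≤ k'') (F : ℕ → β) :
    ∑ j ∈ ivs k0 i0 k'', F j = ∑ j' ∈ ivs k0 i0 k', ∑ j ∈ ivs k' j' k'', F j := by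
  classical
  rw [← Finset.sum_fiberwise_of_maps_to (s := ivs k0 i0 k'') (t := ivs k0 i0 k') (g := fun j => ancI k'' k' j)]
  · refine Finset.sum_congr rfl fun j' hj' => Finset.sum_congr ?_ fun _ _ => rfl
    ext j
    rw [Finset.mem_filter, gn_mem_ivs, gn_mem_ivs]
    constructor
    · exact fun h => h.2
    · intro h
      refine ⟨?_, h⟩
      rw [← gn_anc_anc h1 h2, h]
      exact (gn_mem_ivs _ _ _ _).mp hj'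
  · intro j hj
    rw [gn_mem_ivs] at hj ⊢
    rw [gn_anc_anc h1 h2]
    exact hj

/-- the real arithmetic of one step of `hz_cross_stop` -/
theorem hz_stop_num (n : ℕ) {S c ε p1 p2 p3 p : ℝ} (hS : 1 ≤ S) (hc0 : 0 ≤ c) (hc : c ≤ 1) (hε : 0 ≤ ε)
    (hp1 : 0 ≤ p1) (hp2 : 0 ≤ p2) (hp3 : 0 ≤ p3) (h1 : p1 ≤ p) (h2 : p2 * p3 ≤ p) :
    hzCx n S * (2 * (340 * (S + 3 * (n + 1)) ^ 2 + c)) ≤ hzCx (n + 1) S ∧
      hzCx n S * (2 * 10 ^ 6 * p1 * ε) + p2 * ((n + 1) * hzCx n S * (2 * 10 ^ 6) * p3 * ε)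
        ≤ ((n + 1 : ℕ) + 1) * hzCx (n + 1) S * (2 * 10 ^ 6) * p * ε := by
  obtain ⟨X, hX⟩ : ∃ X : ℝ, X = 2 * (340 * (S + 3 * ((n + 1 : ℕ) : ℝ)) ^ 2 + 1) := ⟨_, rfl⟩
  obtain ⟨Y, hY⟩ : ∃ Y : ℝ, Y = 2 * (340 * (S + 3 * (n : ℝ)) ^ 2 + 1) := ⟨_, rfl⟩
  have hn : (0 : ℝ) ≤ n := Nat.cast_nonneg n
  have hY0 : 0 ≤ Y := by rw [hY]; positivity
  have hYX : Y ≤ X := by
    rw [hX, hY]
    push_cast
    have : (S + 3 * (n : ℝ)) ^ 2 ≤ (S + 3 * ((n : ℝ) + 1)) ^ 2 := pow_le_pow_left₀ (by positivity) (by linarith) 2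
    linarith
  have hX1 : 1 ≤ X := by
    rw [hX]
    have : 0 ≤ (S + 3 * ((n + 1 : ℕ) : ℝ)) ^ 2 := by positivity
    linarith
  have hC0 : hzCx n S = Y ^ (n + 1) := by rw [hY]; rfl
  have hC1 : hzCx (n + 1) S = X ^ (n + 1) * X := by rw [hX, ← pow_succ]; rfl
  have hYXp : Y ^ (n + 1) ≤ X ^ (n + 1) := pow_le_pow_left₀ hY0 hYX _
  have hXp : 0 < X ^ (n + 1) := by positivity
  have hCle : hzCx n S ≤ hzCx (n + 1) S := by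
    rw [hC0, hC1]
    nlinarith
  have hC0n : 0 ≤ hzCx n S := by rw [hC0]; positivity
  have hC1n : 0 ≤ hzCx (n + 1) S := by rw [hC1]; positivity
  have hp : 0 ≤ p := hp1.trans h1
  constructor
  · rw [hC0, hC1]
    refine mul_le_mul hYXp ?_ (by positivity) hXp.le
    rw [hX]
    push_cast
    linarith
  · calc hzCx n S * (2 * 10 ^ 6 * p1 * ε) + p2 * ((n + 1) * hzCx n S * (2 * 10 ^ 6) * p3 * ε)
        = hzCx n S * ((2 * 10 ^ 6) * ε * (p1 + (n + 1) * (p2 * p3))) := by ring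
      _ ≤ hzCx (n + 1) S * ((2 * 10 ^ 6) * ε * (p + (n + 1) * p)) := by
          refine mul_le_mul hCle ?_ (by positivity) hC1n
          refine mul_le_mul_of_nonneg_left ?_ (by positivity)
          exact add_le_add h1 (mul_le_mul_of_nonneg_left h2 (by positivity))
      _ = _ := by push_cast; ring

/-- one masked transfer -/
theorem hz_stop_stage (φ : HyF) (h : φ.Ok) (T : ℝ) (k : ℕ) (T' : ℝ) (κ : ℕ) (M : ℝ × ℝ → ℝ) (hM : Measurable M) (h01 : ∀ ρ, 0 ≤ M ρ ∧ M ρ ≤ 1) (θ W : ℝ)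
    (hs : ∀ ρ, M ρ ≠ 0 → |ρ.2 - θ| ≤ W) (f : ℝ × ℝ → E) (hf : MemLp f 2 φ.nu) :
    MemLp (fun ρ => ((M ρ : ℝ) : ℂ) • φ.tr T k T' κ f ρ) 2 φ.nu ∧
    (∀ ρ, ((M ρ : ℝ) : ℂ) • φ.tr T k T' κ f ρ ≠ 0 → ρ ∈ hzVel θ W) ∧
    (∀ ρ, ‖((M ρ : ℝ) : ℂ) • φ.tr T k T' κ f ρ‖ ≤ ‖(hzVel θ W).indicator (φ.tr T k T' κ f) ρ‖) ∧
    ∫⁻ ρ, ‖((M ρ : ℝ) : ℂ) • φ.tr T k T' κ f ρ‖ₑ ^ 2 ∂φ.nu ≤ ∫⁻ ρ, ‖f ρ‖ₑ ^ 2 ∂φ.nu := by
  have mG := hy_tr_memLp φ h T k T' κ f hf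
  have cG := hy_tr_contr φ h T k T' κ f hf
  obtain ⟨m1, c1⟩ := hz_mask φ M hM h01 _ mG
  have z1 : ∀ ρ, ((M ρ : ℝ) : ℂ) • φ.tr T k T' κ f ρ ≠ 0 → ρ ∈ hzVel θ W := by
    intro ρ hρ
    refine hs ρ fun h0 => hρ ?_
    rw [h0]
    simp
  refine ⟨m1, z1, ?_, (lintegral_mono fun ρ => pow_le_pow_left₀ bot_le (c1 ρ) 2).trans cG⟩
  intro ρ
  by_cases hρ : ρ ∈ hzVel θ W
  · rw [Set.indicator_of_mem hρ]
    exact enorm_le_iff_norm_le.1 (c1 ρ)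
  · have : ((M ρ : ℝ) : ℂ) • φ.tr T k T' κ f ρ = 0 := by_contra fun hc => hρ (z1 ρ hc)
    rw [this]
    simp

theorem hz_cross_stop' (φ : HyF) (h : φ.Ok) (ks : ℕ) (l1 l2 : List HyStg) (k i0 : ℕ) (hk : k ≤ ks) (hl1 : HzStk k ks l1) (hl2 : HzStk k ks l2)
    (hd : l1.map HyStg.k = l2.map HyStg.k) (θ1 θ2 V Λ S : ℝ) (hV : V = |θ1 - θ2|) (hsep : 16 * Λ * φ.d ks ≤ V) (hΛ : 1 ≤ Λ) (hS : 1 ≤ S)
    (hT : 8 * 4 ^ (ks - k) * Real.exp (-Λ ^ 2) ≤ 1) (hs1 : HzSup θ1 (fun _ => V / 4) l1) (hs2 : HzSup θ2 (fun _ => V / 4) l2)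
    (f1 f2 : ℝ × ℝ → E) (hf1 : MemLp f1 2 φ.nu) (hf2 : MemLp f2 2 φ.nu)
    (hz1 : ∀ ρ, f1 ρ ≠ 0 → ρ ∈ hzVel θ1 (V / 4)) (hz2 : ∀ ρ, f2 ρ ≠ 0 → ρ ∈ hzVel θ2 (V / 4)) :
    ∑ I ∈ ivs k i0 ks, φ.cr (S * (2 : ℝ)⁻¹ ^ ks * V) ((hzVel θ1 (V / 4)).indicator (φ.br ks I l1 (tmL k i0) k f1))
        ((hzVel θ2 (V / 4)).indicator (φ.br ks I l2 (tmL k i0) k f2))
      ≤ ENNReal.ofReal (hzCx l1.length S) * φ.cr ((S + 3 * (l1.length + 1)) * (2 : ℝ)⁻¹ ^ k * V) f1 f2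
        + ENNReal.ofReal ((l1.length + 1) * hzCx l1.length S * (2 * 10 ^ 6) * 4 ^ (ks - k) * Real.exp (-(Λ ^ 2 / 20))) *
          ((∫⁻ ρ, ‖f1 ρ‖ₑ ^ 2 ∂φ.nu) * ∫⁻ ρ, ‖f2 ρ‖ₑ ^ 2 ∂φ.nu) := by
  obtain ⟨ε, hε⟩ : ∃ ε : ℝ, ε = Real.exp (-(Λ ^ 2 / 20)) := ⟨_, rfl⟩
  have hε0 : 0 ≤ ε := by rw [hε]; positivity
  rw [← hε]
  induction l1 generalizing l2 k i0 f1 f2 with
  | nil =>
    have hl2nil : l2 = [] := by
      have := hd.symm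
      simpa using this
    subst hl2nil
    have s := hz_cross_step φ h k ks i0 hk θ1 θ2 V Λ S hV hsep hΛ hS f1 f2 hf1 hf2 hz1 hz2
    rw [← hε] at s
    have hC : hzCx 0 S = 2 * (340 * S ^ 2 + 1) := by
      unfold hzCx
      norm_num
    have hC1 : 1 ≤ hzCx 0 S := by
      rw [hC]
      have : 0 ≤ S ^ 2 := by positivity
      linarith
    refine le_trans s (add_le_add (mul_le_mul' (ENNReal.ofReal_le_ofReal ?_) (le_of_eq ?_)) (mul_le_mul' (ENNReal.ofReal_le_ofReal ?_) le_rfl))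
    · simp only [List.length_nil]
      rw [hC]
      linarith
    · simp only [List.length_nil, Nat.cast_zero, zero_add, mul_one]
    · simp only [List.length_nil, Nat.cast_zero, zero_add, one_mul]
      have : 0 ≤ (2 * 10 ^ 6) * 4 ^ (ks - k) * ε := by positivity
      nlinarith
  | cons σ1 l1' ih =>
    obtain ⟨σ2, l2', rfl⟩ : ∃ σ2 l2', l2 = σ2 :: l2' := by
      cases l2 with
      | nil => simp at hd
      | cons a b => exact ⟨a, b, rfl⟩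
    obtain ⟨κ, M1⟩ := σ1
    obtain ⟨κ2, M2⟩ := σ2
    simp only [List.map_cons, List.cons.injEq] at hd
    obtain ⟨hκ, hd'⟩ := hd
    subst hκ
    have hσk : k ≤ κ ∧ κ ≤ ks := hl1.dep _ List.mem_cons_self
    have hσ1 : ∀ i, Measurable (M1 i) ∧ ∀ ρ, 0 ≤ M1 i ρ ∧ M1 i ρ ≤ 1 := hl1.ok _ List.mem_cons_self
    have hσ2 : ∀ i, Measurable (M2 i) ∧ ∀ ρ, 0 ≤ M2 i ρ ∧ M2 i ρ ≤ 1 := hl2.ok _ List.mem_cons_self
    have hl1' : HzStk κ ks l1' := hz_stk_tail hl1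
    have hl2' : HzStk κ ks l2' := hz_stk_tail hl2
    obtain ⟨n, hn⟩ : ∃ n : ℕ, n = l1'.length := ⟨_, rfl⟩
    obtain ⟨T, hTd⟩ : ∃ T : ℝ, T = tmL k i0 := ⟨_, rfl⟩
    obtain ⟨E1, hE1⟩ : ∃ E1 : ℝ≥0∞, E1 = ∫⁻ ρ, ‖f1 ρ‖ₑ ^ 2 ∂φ.nu := ⟨_, rfl⟩
    obtain ⟨E2, hE2⟩ : ∃ E2 : ℝ≥0∞, E2 = ∫⁻ ρ, ‖f2 ρ‖ₑ ^ 2 ∂φ.nu := ⟨_, rfl⟩
    obtain ⟨a, ha⟩ : ∃ a : ℝ, a = S * (2 : ℝ)⁻¹ ^ ks * V := ⟨_, rfl⟩
    obtain ⟨W1, hW1⟩ : ∃ W1 : Set (ℝ × ℝ), W1 = hzVel θ1 (V / 4) := ⟨_, rfl⟩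
    obtain ⟨W2, hW2⟩ : ∃ W2 : Set (ℝ × ℝ), W2 = hzVel θ2 (V / 4) := ⟨_, rfl⟩
    obtain ⟨F1, hF1⟩ : ∃ F1 : ℕ → ℝ × ℝ → E, F1 = fun J ρ => ((M1 J ρ : ℝ) : ℂ) • φ.tr T k (tmL κ J) κ f1 ρ := ⟨_, rfl⟩
    obtain ⟨F2, hF2⟩ : ∃ F2 : ℕ → ℝ × ℝ → E, F2 = fun J ρ => ((M2 J ρ : ℝ) : ℂ) • φ.tr T k (tmL κ J) κ f2 ρ := ⟨_, rfl⟩
    have st1 : ∀ J, MemLp (F1 J) 2 φ.nu ∧ (∀ ρ, F1 J ρ ≠ 0 → ρ ∈ hzVel θ1 (V / 4)) ∧
        (∀ ρ, ‖F1 J ρ‖ ≤ ‖W1.indicator (φ.tr T k (tmL κ J) κ f1) ρ‖) ∧ ∫⁻ ρ, ‖F1 J ρ‖ₑ ^ 2 ∂φ.nu ≤ E1 := by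
      intro J
      rw [hF1, hE1, hW1]
      exact hz_stop_stage φ h T k (tmL κ J) κ (M1 J) (hσ1 J).1 (hσ1 J).2 θ1 (V / 4) (fun ρ hρ => hs1 ⟨κ, M1⟩ List.mem_cons_self J ρ hρ) f1 hf1
    have st2 : ∀ J, MemLp (F2 J) 2 φ.nu ∧ (∀ ρ, F2 J ρ ≠ 0 → ρ ∈ hzVel θ2 (V / 4)) ∧
        (∀ ρ, ‖F2 J ρ‖ ≤ ‖W2.indicator (φ.tr T k (tmL κ J) κ f2) ρ‖) ∧ ∫⁻ ρ, ‖F2 J ρ‖ₑ ^ 2 ∂φ.nu ≤ E2 := by
      intro J
      rw [hF2, hE2, hW2]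
      exact hz_stop_stage φ h T k (tmL κ J) κ (M2 J) (hσ2 J).1 (hσ2 J).2 θ2 (V / 4) (fun ρ hρ => hs2 ⟨κ, M2⟩ List.mem_cons_self J ρ hρ) f2 hf2
    rw [← hTd, ← hE1, ← hE2, ← ha, ← hW1, ← hW2]
    have eA : ∑ I ∈ ivs k i0 ks, φ.cr a (W1.indicator (φ.br ks I (⟨κ, M1⟩ :: l1') T k f1)) (W2.indicator (φ.br ks I (⟨κ, M2⟩ :: l2') T k f2))
        = ∑ J ∈ ivs k i0 κ, ∑ I ∈ ivs κ J ks, φ.cr a (W1.indicator (φ.br ks I l1' (tmL κ J) κ (F1 J))) (W2.indicator (φ.br ks I l2' (tmL κ J) κ (F2 J))) := by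
      rw [hz_ivs_sum k i0 κ ks hσk.1 hσk.2]
      refine Finset.sum_congr rfl fun J _ => Finset.sum_congr rfl fun I hI => ?_
      have hJ : ancI ks κ I = J := hz_ivs_anc hI
      have b1 : φ.br ks I (⟨κ, M1⟩ :: l1') T k f1 = φ.br ks I l1' (tmL κ J) κ (F1 J) := by
        rw [hF1, ← hJ]
        rfl
      have b2 : φ.br ks I (⟨κ, M2⟩ :: l2') T k f2 = φ.br ks I l2' (tmL κ J) κ (F2 J) := by
        rw [hF2, ← hJ]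
        rfl
      rw [b1, b2]
    have hexp : 0 ≤ Real.exp (-Λ ^ 2) := (Real.exp_pos _).le
    have hTκ : 8 * 4 ^ (ks - κ) * Real.exp (-Λ ^ 2) ≤ 1 := by
      refine le_trans ?_ hT
      have : (4 : ℝ) ^ (ks - κ) ≤ 4 ^ (ks - k) := pow_le_pow_right₀ (by norm_num) (by omega)
      exact mul_le_mul_of_nonneg_right (by linarith) hexp
    have hTκ' : 8 * 4 ^ (κ - k) * Real.exp (-Λ ^ 2) ≤ 1 := by
      refine le_trans ?_ hT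
      have : (4 : ℝ) ^ (κ - k) ≤ 4 ^ (ks - k) := pow_le_pow_right₀ (by norm_num) (by omega)
      exact mul_le_mul_of_nonneg_right (by linarith) hexp
    have hsepκ : 16 * Λ * φ.d κ ≤ V := le_trans (mul_le_mul_of_nonneg_left (hy_qd_mono φ h hσk.2).2 (by positivity)) hsep
    obtain ⟨S', hS'⟩ : ∃ S' : ℝ, S' = S + 3 * ((n : ℝ) + 1) := ⟨_, rfl⟩
    have hS'1 : 1 ≤ S' := by
      rw [hS']
      have : (0 : ℝ) ≤ n := Nat.cast_nonneg n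
      linarith
    have s := hz_cross_step φ h k κ i0 hσk.1 θ1 θ2 V Λ S' hV hsepκ hΛ hS'1 f1 f2 hf1 hf2 hz1 hz2
    rw [← hε, ← hTd, ← hE1, ← hE2, ← hW1, ← hW2] at s
    have hi : ∀ J, ∑ I ∈ ivs κ J ks, φ.cr a (W1.indicator (φ.br ks I l1' (tmL κ J) κ (F1 J))) (W2.indicator (φ.br ks I l2' (tmL κ J) κ (F2 J)))
        ≤ ENNReal.ofReal (hzCx n S) * φ.cr (S' * (2 : ℝ)⁻¹ ^ κ * V) (W1.indicator (φ.tr T k (tmL κ J) κ f1)) (W2.indicator (φ.tr T k (tmL κ J) κ f2))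
          + ENNReal.ofReal (((n : ℝ) + 1) * hzCx n S * (2 * 10 ^ 6) * 4 ^ (ks - κ) * ε) * (E1 * E2) := by
      intro J
      have i0 := ih l2' κ J hσk.2 hl1' hl2' hd' hTκ (fun τ hτ => hs1 τ (List.mem_cons_of_mem _ hτ)) (fun τ hτ => hs2 τ (List.mem_cons_of_mem _ hτ))
        (F1 J) (F2 J) (st1 J).1 (st2 J).1 (st1 J).2.1 (st2 J).2.1
      rw [← hn, ← hS', ← ha, ← hW1, ← hW2] at i0
      refine i0.trans (add_le_add (mul_le_mul' le_rfl ?_) (mul_le_mul' le_rfl (mul_le_mul' (st1 J).2.2.2 (st2 J).2.2.2)))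
      exact (hz_cr_mono φ _ _ le_rfl _ _ _ _ (st1 J).2.2.1 (st2 J).2.2.1 (hy_lint_of_memLp _ _ (st2 J).1)).1
    obtain ⟨X, hX⟩ : ∃ X : ℝ≥0∞, X = φ.cr ((S' + 3) * (2 : ℝ)⁻¹ ^ k * V) f1 f2 := ⟨_, rfl⟩
    rw [← hX] at s
    have hrad : φ.cr ((S + 3 * (((⟨κ, M1⟩ :: l1' : List HyStg).length : ℝ) + 1)) * (2 : ℝ)⁻¹ ^ k * V) f1 f2 = X := by
      rw [hX, hS', hn]
      congr 3
      simp only [List.length_cons]
      push_cast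
      ring
    have hlen' : (⟨κ, M1⟩ :: l1' : List HyStg).length = n + 1 := by rw [hn]; simp
    rw [hrad, hlen']
    have hCn : 0 ≤ hzCx n S := by unfold hzCx; positivity
    obtain ⟨r1, r2⟩ := hz_stop_num n (S := S) (c := 8 * 4 ^ (κ - k) * Real.exp (-Λ ^ 2)) (ε := ε) (p1 := 4 ^ (κ - k)) (p2 := 2 ^ (κ - k))
      (p3 := 4 ^ (ks - κ)) (p := 4 ^ (ks - k)) hS (by positivity) hTκ' hε0 (by positivity) (by positivity) (by positivity)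
      (pow_le_pow_right₀ (by norm_num) (by omega))
      (by
        have e1 : (2 : ℝ) ^ (κ - k) ≤ 4 ^ (κ - k) := pow_le_pow_left₀ (by norm_num) (by norm_num) _
        calc (2 : ℝ) ^ (κ - k) * 4 ^ (ks - κ) ≤ 4 ^ (κ - k) * 4 ^ (ks - κ) := mul_le_mul_of_nonneg_right e1 (by positivity)
          _ = 4 ^ (ks - k) := by
            rw [← pow_add]
            congr 1
            omega)
    rw [← hS'] at r1
    have key : ∀ A c1 c2 c3 : ℝ, 0 ≤ A → 0 ≤ c1 → 0 ≤ c2 → 0 ≤ c3 →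
        ENNReal.ofReal A * (ENNReal.ofReal c1 * X + ENNReal.ofReal c2 * (E1 * E2)) + (2 ^ (κ - k) : ℕ) • (ENNReal.ofReal c3 * (E1 * E2))
          = ENNReal.ofReal (A * c1) * X + ENNReal.ofReal (A * c2 + 2 ^ (κ - k) * c3) * (E1 * E2) := by
      intro A c1 c2 c3 hA h1 h2 h3
      have e1 : ((2 ^ (κ - k) : ℕ) : ℝ≥0∞) = ENNReal.ofReal (2 ^ (κ - k)) := by
        rw [ENNReal.ofReal_pow (by norm_num)]
        simp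
      rw [ENNReal.ofReal_add (mul_nonneg hA h2) (by positivity), ENNReal.ofReal_mul hA, ENNReal.ofReal_mul hA, ENNReal.ofReal_mul (by positivity),
        nsmul_eq_mul, e1]
      ring
    calc ∑ I ∈ ivs k i0 ks, φ.cr a (W1.indicator (φ.br ks I (⟨κ, M1⟩ :: l1') T k f1)) (W2.indicator (φ.br ks I (⟨κ, M2⟩ :: l2') T k f2))
        = ∑ J ∈ ivs k i0 κ, ∑ I ∈ ivs κ J ks, φ.cr a (W1.indicator (φ.br ks I l1' (tmL κ J) κ (F1 J))) (W2.indicator (φ.br ks I l2' (tmL κ J) κ (F2 J))) := eA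
      _ ≤ ∑ J ∈ ivs k i0 κ, (ENNReal.ofReal (hzCx n S) * φ.cr (S' * (2 : ℝ)⁻¹ ^ κ * V) (W1.indicator (φ.tr T k (tmL κ J) κ f1)) (W2.indicator (φ.tr T k (tmL κ J) κ f2))
          + ENNReal.ofReal (((n : ℝ) + 1) * hzCx n S * (2 * 10 ^ 6) * 4 ^ (ks - κ) * ε) * (E1 * E2)) := Finset.sum_le_sum fun J _ => hi J
      _ = ENNReal.ofReal (hzCx n S) * ∑ J ∈ ivs k i0 κ, φ.cr (S' * (2 : ℝ)⁻¹ ^ κ * V) (W1.indicator (φ.tr T k (tmL κ J) κ f1)) (W2.indicator (φ.tr T k (tmL κ J) κ f2))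
          + (2 ^ (κ - k) : ℕ) • (ENNReal.ofReal (((n : ℝ) + 1) * hzCx n S * (2 * 10 ^ 6) * 4 ^ (ks - κ) * ε) * (E1 * E2)) := by
          rw [Finset.sum_add_distrib, ← Finset.mul_sum, Finset.sum_const, hz_ivs_card]
      _ ≤ ENNReal.ofReal (hzCx n S) * (ENNReal.ofReal (2 * (340 * S' ^ 2 + 8 * 4 ^ (κ - k) * Real.exp (-Λ ^ 2))) * X + ENNReal.ofReal (2 * 10 ^ 6 * 4 ^ (κ - k) * ε) * (E1 * E2))
          + (2 ^ (κ - k) : ℕ) • (ENNReal.ofReal (((n : ℝ) + 1) * hzCx n S * (2 * 10 ^ 6) * 4 ^ (ks - κ) * ε) * (E1 * E2)) :=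
          add_le_add (mul_le_mul' le_rfl s) le_rfl
      _ = _ := key _ _ _ _ hCn (by positivity) (by positivity) (by positivity)
      _ ≤ _ := add_le_add (mul_le_mul' (ENNReal.ofReal_le_ofReal r1) le_rfl) (mul_le_mul' (ENNReal.ofReal_le_ofReal r2) le_rfl)

/-- **(X2) INDUCTION OVER THE CUTS BEFORE THE STOP.**   Two stacks with the same depths (different masks allowed), masks and inputs supported in the windows `V/4`.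
Induction on the stacks (generalise `k, i0, f₁, f₂`; `S` fixed).   `ivs k i0 ks = ⊔_{J ∈ ivs k i0 σ.k} ivs σ.k J ks`, `ancI ks σ.k I = J`;  hypothesis at `(σ.k, J)` for `f_{α,J} = M_{α,J} tr f_α`, `‖f_{α,J} ρ‖ ≤ ‖1_win tr f_α ρ‖` (`hz_cr_mono`);
`hz_cross_step` with `S + 3 #l'+3`;  errors: `‖f_{α,J}‖ ≤ ‖f_α‖`, `2^(σ.k-k)` children.   Constants: see `hzCx`.   ~450 l. -/
theorem hz_cross_stop (φ : HyF) (h : φ.Ok) (ks : ℕ) (l1 l2 : List HyStg) (k i0 : ℕ) (hk : k ≤ ks) (hl1 : HzStk k ks l1) (hl2 : HzStk k ks l2)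
    (hd : l1.map HyStg.k = l2.map HyStg.k) (θ1 θ2 V Λ S : ℝ) (hV : V = |θ1 - θ2|) (hsep : 16 * Λ * φ.d ks ≤ V) (hΛ : 1 ≤ Λ) (hS : 1 ≤ S)
    (hT : 8 * 4 ^ (ks - k) * Real.exp (-Λ ^ 2) ≤ 1) (hs1 : HzSup θ1 (fun _ => V / 4) l1) (hs2 : HzSup θ2 (fun _ => V / 4) l2)
    (f1 f2 : ℝ × ℝ → E) (hf1 : MemLp f1 2 φ.nu) (hf2 : MemLp f2 2 φ.nu)
    (hz1 : ∀ ρ, f1 ρ ≠ 0 → ρ ∈ hzVel θ1 (V / 4)) (hz2 : ∀ ρ, f2 ρ ≠ 0 → ρ ∈ hzVel θ2 (V / 4)) :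
    ∑ I ∈ ivs k i0 ks, φ.cr (S * (2 : ℝ)⁻¹ ^ ks * V) ((hzVel θ1 (V / 4)).indicator (φ.br ks I l1 (tmL k i0) k f1))
        ((hzVel θ2 (V / 4)).indicator (φ.br ks I l2 (tmL k i0) k f2))
      ≤ ENNReal.ofReal (hzCx l1.length S) * φ.cr ((S + 3 * (l1.length + 1)) * (2 : ℝ)⁻¹ ^ k * V) f1 f2
        + ENNReal.ofReal ((l1.length + 1) * hzCx l1.length S * (2 * 10 ^ 6) * 4 ^ (ks - k) * Real.exp (-(Λ ^ 2 / 20))) *
          ((∫⁻ ρ, ‖f1 ρ‖ₑ ^ 2 ∂φ.nu) * ∫⁻ ρ, ‖f2 ρ‖ₑ ^ 2 ∂φ.nu) :=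
  hz_cross_stop' φ h ks l1 l2 k i0 hk hl1 hl2 hd θ1 θ2 V Λ S hV hsep hΛ hS hT hs1 hs2 f1 f2 hf1 hf2 hz1 hz2

/-- integers in an interval of radius `r` -/
theorem hz_card_int (s : Finset ℤ) (y r : ℝ) (hr : 0 ≤ r) (hs : ∀ b ∈ s, |(b : ℝ) - y| ≤ r) : (s.card : ℝ) ≤ 2 * r + 1 := by
  have hsub : s ⊆ Finset.Icc ⌈y - r⌉ ⌊y + r⌋ := by
    intro b hb
    have := abs_le.1 (hs b hb)
    rw [Finset.mem_Icc]
    exact ⟨Int.ceil_le.2 (by linarith [this.1]), Int.le_floor.2 (by linarith [this.2])⟩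
  have h1 : (s.card : ℝ) ≤ ((Finset.Icc ⌈y - r⌉ ⌊y + r⌋).card : ℝ) := by exact_mod_cast Finset.card_le_card hsub
  refine h1.trans ?_
  rw [Int.card_Icc]
  have h2 : (0 : ℤ) ≤ ⌊y + r⌋ + 1 - ⌈y - r⌉ := by
    have a1 := Int.lt_floor_add_one (y + r)
    have a2 := Int.ceil_lt_add_one (y - r)
    have : (-1 : ℝ) < ((⌊y + r⌋ + 1 - ⌈y - r⌉ : ℤ) : ℝ) := by
      push_cast
      linarith
    have : (-1 : ℤ) < ⌊y + r⌋ + 1 - ⌈y - r⌉ := by exact_mod_cast this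
    omega
  have h3 : (((⌊y + r⌋ + 1 - ⌈y - r⌉).toNat : ℕ) : ℝ) = ((⌊y + r⌋ + 1 - ⌈y - r⌉ : ℤ) : ℝ) := by
    have := Int.toNat_of_nonneg h2
    exact_mod_cast this
  rw [h3]
  push_cast
  linarith [Int.floor_le (y + r), Int.le_ceil (y - r)]

theorem hz_card_nat (s : Finset ℕ) (y r : ℝ) (hr : 0 ≤ r) (hs : ∀ i ∈ s, |(i : ℝ) - y| ≤ r) : (s.card : ℝ) ≤ 2 * r + 1 := by
  have := hz_card_int (s.map Nat.castEmbedding) y r hr (by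
    intro b hb
    obtain ⟨i, hi, rfl⟩ := Finset.mem_map.1 hb
    simpa using hs i hi)
  rwa [Finset.card_map] at this

/-- the same as a `tsum` of indicators -/
theorem hz_tsum_int (p : ℤ → Prop) [DecidablePred p] (y r : ℝ) (hr : 0 ≤ r) (hp : ∀ b, p b → |(b : ℝ) - y| ≤ r) :
    ∑' b : ℤ, (if p b then (1 : ℝ≥0∞) else 0) ≤ ENNReal.ofReal (2 * r + 1) := by
  have hz : ∀ b ∉ (Finset.Icc ⌈y - r⌉ ⌊y + r⌋).filter p, (if p b then (1 : ℝ≥0∞) else 0) = 0 := by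
    intro b hb
    by_cases hpb : p b
    · exfalso
      apply hb
      have := abs_le.1 (hp b hpb)
      rw [Finset.mem_filter, Finset.mem_Icc]
      exact ⟨⟨Int.ceil_le.2 (by linarith [this.1]), Int.le_floor.2 (by linarith [this.2])⟩, hpb⟩
    · rw [if_neg hpb]
  rw [tsum_eq_sum hz]
  have h1 : ∑ b ∈ (Finset.Icc ⌈y - r⌉ ⌊y + r⌋).filter p, (if p b then (1 : ℝ≥0∞) else 0)
      = (((Finset.Icc ⌈y - r⌉ ⌊y + r⌋).filter p).card : ℝ≥0∞) := by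
    rw [Finset.sum_congr rfl (fun b hb => if_pos (Finset.mem_filter.1 hb).2)]
    simp
  rw [h1, ← ENNReal.ofReal_natCast]
  exact ENNReal.ofReal_le_ofReal (hz_card_int _ y r hr fun b hb => hp b (Finset.mem_filter.1 hb).2)

/-- bounded overlap: sums of local integrals -/
theorem hz_count_lint {Y ι : Type*} [MeasurableSpace Y] (μ : Measure Y) (F : Y → ℝ≥0∞) (hF : AEMeasurable F μ) (s : Finset ι)
    (S : ι → ℤ → Set Y) (hS : ∀ i b, MeasurableSet (S i b)) (T : Set Y) (hT : MeasurableSet T) (N : ℝ≥0∞)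
    (hN : ∀ z, ∑ i ∈ s, ∑' b : ℤ, (S i b).indicator (fun _ => (1 : ℝ≥0∞)) z ≤ T.indicator (fun _ => N) z) :
    ∑ i ∈ s, ∑' b : ℤ, ∫⁻ z in S i b, F z ∂μ ≤ N * ∫⁻ z in T, F z ∂μ := by
  have e1 : ∀ i b, ∫⁻ z in S i b, F z ∂μ = ∫⁻ z, (S i b).indicator F z ∂μ := fun i b => (lintegral_indicator (hS i b) F).symm
  simp_rw [e1]
  have hm : ∀ i b, AEMeasurable ((S i b).indicator F) μ := fun i b => hF.indicator (hS i b)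
  have e2 : ∀ i, ∑' b : ℤ, ∫⁻ z, (S i b).indicator F z ∂μ = ∫⁻ z, ∑' b : ℤ, (S i b).indicator F z ∂μ := fun i =>
    (lintegral_tsum (hm i)).symm
  simp_rw [e2]
  rw [← lintegral_finsetSum' _ (fun i _ => AEMeasurable.tsum (hm i)), ← lintegral_const_mul'' _ hF.restrict,
    ← lintegral_indicator hT]
  refine lintegral_mono fun z => ?_
  have e3 : ∀ i b, (S i b).indicator F z = (S i b).indicator (fun _ => (1 : ℝ≥0∞)) z * F z := by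
    intro i b
    by_cases hz : z ∈ S i b
    · simp [Set.indicator_of_mem hz]
    · simp [Set.indicator_of_notMem hz]
  simp_rw [e3, ENNReal.tsum_mul_right]
  rw [← Finset.sum_mul]
  refine (mul_le_mul' (hN z) le_rfl).trans (le_of_eq ?_)
  by_cases hz : z ∈ T
  · simp [Set.indicator_of_mem hz]
  · simp [Set.indicator_of_notMem hz]

/-- the algebra of the terminal crossing: never sum an additive error over the bins -/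
theorem hz_fin_alg (X1 X2 M1 M2 : ℤ → ℝ≥0∞) (c ε e1 e2 N : ℝ≥0∞) (h1 : ∀ b, X1 b ≤ c * M1 b + ε * e1) (h2 : ∀ b, X2 b ≤ c * M2 b + ε * e2)
    (hX2 : ∑' b, X2 b ≤ e2) (hM1 : ∑' b, M1 b ≤ N * e1) :
    ∑' b, X1 b * X2 b ≤ c ^ 2 * ∑' b, M1 b * M2 b + ε * (1 + c * N) * (e1 * e2) := by
  have hpt : ∀ b, X1 b * X2 b ≤ c ^ 2 * (M1 b * M2 b) + c * ε * e2 * M1 b + ε * e1 * X2 b := by
    intro b
    calc X1 b * X2 b ≤ (c * M1 b + ε * e1) * X2 b := mul_le_mul' (h1 b) le_rfl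
      _ = c * M1 b * X2 b + ε * e1 * X2 b := by ring
      _ ≤ c * M1 b * (c * M2 b + ε * e2) + ε * e1 * X2 b := add_le_add (mul_le_mul' le_rfl (h2 b)) le_rfl
      _ = _ := by ring
  calc ∑' b, X1 b * X2 b ≤ ∑' b, (c ^ 2 * (M1 b * M2 b) + c * ε * e2 * M1 b + ε * e1 * X2 b) := ENNReal.tsum_le_tsum hpt
    _ = c ^ 2 * ∑' b, M1 b * M2 b + c * ε * e2 * ∑' b, M1 b + ε * e1 * ∑' b, X2 b := by
        rw [ENNReal.tsum_add, ENNReal.tsum_add, ENNReal.tsum_mul_left, ENNReal.tsum_mul_left, ENNReal.tsum_mul_left]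
    _ ≤ c ^ 2 * ∑' b, M1 b * M2 b + c * ε * e2 * (N * e1) + ε * e1 * e2 :=
        add_le_add (add_le_add le_rfl (mul_le_mul' le_rfl hM1)) (mul_le_mul' le_rfl hX2)
    _ = _ := by ring

theorem hz_binI_meas (o a : ℝ) (b : ℤ) : MeasurableSet (hzBinI o a b) :=
  (measurableSet_le measurable_const measurable_fst).inter (measurableSet_lt measurable_fst measurable_const)

theorem hz_binI_sub (o a : ℝ) (b : ℤ) : hzBinI o a b ⊆ hzBin (o + (b + 1 / 2) * a) (a / 2) := by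
  intro ρ hρ
  obtain ⟨h1, h2⟩ := hρ
  show |ρ.1 - (o + (b + 1 / 2) * a)| ≤ a / 2
  rw [abs_le]
  constructor <;> nlinarith

theorem hz_binI_disj (o a : ℝ) (ha : 0 < a) : Pairwise (Function.onFun Disjoint (hzBinI o a)) := by
  intro b b' hbb
  refine Set.disjoint_left.2 fun ρ h1 h2 => hbb ?_
  obtain ⟨h11, h12⟩ := h1
  obtain ⟨h21, h22⟩ := h2
  have e1 : (b : ℝ) < b' + 1 := by
    have : (b : ℝ) * a < (b' + 1) * a := by linarith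
    exact lt_of_mul_lt_mul_right this ha.le
  have e2 : (b' : ℝ) < b + 1 := by
    have : (b' : ℝ) * a < (b + 1) * a := by linarith
    exact lt_of_mul_lt_mul_right this ha.le
  have e1' : b < b' + 1 := by exact_mod_cast e1
  have e2' : b' < b + 1 := by exact_mod_cast e2
  omega

/-- the bins are disjoint -/
theorem hz_binI_sum (μ : Measure (ℝ × ℝ)) (o a : ℝ) (ha : 0 < a) (f : ℝ × ℝ → ℝ≥0∞) :
    ∑' b : ℤ, ∫⁻ ρ in hzBinI o a b, f ρ ∂μ ≤ ∫⁻ ρ, f ρ ∂μ := by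
  rw [← lintegral_iUnion (hz_binI_meas o a) (hz_binI_disj o a ha)]
  exact setLIntegral_le_lintegral _ _

theorem hz_win_idx {D c a R : ℝ} (ha : 0 < a) (b : ℤ) (h : |D - (c + (b + 1 / 2) * a)| ≤ R) :
    |(b : ℝ) - ((D - c) / a - 1 / 2)| ≤ R / a := by
  have e : (b : ℝ) - ((D - c) / a - 1 / 2) = -(D - (c + (b + 1 / 2) * a)) / a := by
    field_simp
    ring
  rw [e, abs_div, abs_neg, abs_of_pos ha]
  exact div_le_div_of_nonneg_right h ha.le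

/-- a point lies in at most `2R/a + 1` windows -/
theorem hz_win_sum (μ : Measure (ℝ × ℝ)) (c a R : ℝ) (ha : 0 < a) (hR : 0 ≤ R) (F : ℝ × ℝ → ℝ≥0∞) (hF : AEMeasurable F μ) :
    ∑' b : ℤ, ∫⁻ ρ in hzBin (c + (b + 1 / 2) * a) R, F ρ ∂μ ≤ ENNReal.ofReal (2 * (R / a) + 1) * ∫⁻ ρ, F ρ ∂μ := by
  classical
  have := hz_count_lint μ F hF ({()} : Finset Unit) (fun _ b => hzBin (c + (b + 1 / 2) * a) R) (fun _ b => hz_bin_meas _ _) Set.univ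
    MeasurableSet.univ (ENNReal.ofReal (2 * (R / a) + 1)) (by
      intro z
      rw [Finset.sum_singleton, Set.indicator_of_mem (Set.mem_univ z)]
      simp only [Set.indicator_apply]
      exact hz_tsum_int _ ((z.1 - c) / a - 1 / 2) (R / a) (by positivity) fun b hb => hz_win_idx ha b hb)
  rwa [Finset.sum_singleton, setLIntegral_univ] at this

/-- **counting of the pairs (time, bin)** -/
theorem hz_pair_count (s : Finset ℕ) (o t : ℕ → ℝ) (a R θ1 θ2 V u T0 w a' : ℝ) (ha : 0 < a) (hR : 0 ≤ R) (hV : V = |θ1 - θ2|) (hV0 : 0 < V)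
    (hu : 0 < u) (ht : ∀ i ∈ s, t i = (i : ℝ) / u - T0) (htw : ∀ i ∈ s, |t i| ≤ w) (ha' : 2 * R + w * V ≤ a') (z : (ℝ × ℝ) × (ℝ × ℝ)) :
    ∑ i ∈ s, ∑' b : ℤ, ((hzBin (o i + (b + 1 / 2) * a - t i * θ1) R) ×ˢ (hzBin (o i + (b + 1 / 2) * a - t i * θ2) R)).indicator
        (fun _ => (1 : ℝ≥0∞)) z
      ≤ {z : (ℝ × ℝ) × (ℝ × ℝ) | |z.1.1 - z.2.1| ≤ a'}.indicator
        (fun _ => ENNReal.ofReal ((2 * (R / a) + 1) * (2 * (2 * R * u / V) + 1))) z := by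
  classical
  obtain ⟨v, hv⟩ : ∃ v, v = θ1 - θ2 := ⟨_, rfl⟩
  have hv0 : v ≠ 0 := by
    intro h0
    rw [hV, ← hv, h0, abs_zero] at hV0
    exact lt_irrefl _ hV0
  have hVv : V = |v| := by rw [hV, hv]
  -- one time
  have hone : ∀ i ∈ s, ∑' b : ℤ, ((hzBin (o i + (b + 1 / 2) * a - t i * θ1) R) ×ˢ (hzBin (o i + (b + 1 / 2) * a - t i * θ2) R)).indicator
        (fun _ => (1 : ℝ≥0∞)) z
      ≤ if |z.1.1 - z.2.1 + t i * v| ≤ 2 * R then ENNReal.ofReal (2 * (R / a) + 1) else 0 := by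
    intro i _
    simp only [Set.indicator_apply]
    by_cases hQ : |z.1.1 - z.2.1 + t i * v| ≤ 2 * R
    · rw [if_pos hQ]
      refine hz_tsum_int _ ((z.1.1 - (o i - t i * θ1)) / a - 1 / 2) (R / a) (by positivity) fun b hb => hz_win_idx ha b ?_
      have h1 : |z.1.1 - (o i + (b + 1 / 2) * a - t i * θ1)| ≤ R := hb.1
      have e : z.1.1 - (o i - t i * θ1 + (b + 1 / 2) * a) = z.1.1 - (o i + (b + 1 / 2) * a - t i * θ1) := by ring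
      rw [e]
      exact h1
    · rw [if_neg hQ]
      refine le_of_eq (ENNReal.tsum_eq_zero.2 fun b => if_neg fun hb => hQ ?_)
      have h1 : |z.1.1 - (o i + (b + 1 / 2) * a - t i * θ1)| ≤ R := hb.1
      have h2 : |z.2.1 - (o i + (b + 1 / 2) * a - t i * θ2)| ≤ R := hb.2
      have e : z.1.1 - z.2.1 + t i * v = (z.1.1 - (o i + (b + 1 / 2) * a - t i * θ1)) - (z.2.1 - (o i + (b + 1 / 2) * a - t i * θ2)) := by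
        rw [hv]; ring
      rw [e]
      exact (abs_sub _ _).trans (by linarith)
  refine (Finset.sum_le_sum hone).trans ?_
  rw [← Finset.sum_filter, Finset.sum_const, nsmul_eq_mul]
  by_cases hz : z ∈ {z : (ℝ × ℝ) × (ℝ × ℝ) | |z.1.1 - z.2.1| ≤ a'}
  · rw [Set.indicator_of_mem hz, mul_comm (2 * (R / a) + 1), ENNReal.ofReal_mul (by positivity), ← ENNReal.ofReal_natCast]
    refine mul_le_mul' (ENNReal.ofReal_le_ofReal ?_) le_rfl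
    refine hz_card_nat _ (-((z.1.1 - z.2.1 - T0 * v) * u / v)) (2 * R * u / V) (by positivity) fun i hi => ?_
    obtain ⟨his, hQ⟩ := Finset.mem_filter.1 hi
    have e : (i : ℝ) - -((z.1.1 - z.2.1 - T0 * v) * u / v) = (z.1.1 - z.2.1 + t i * v) * u / v := by
      rw [ht i his]
      field_simp
      ring
    rw [e, abs_div, abs_mul, abs_of_pos hu, ← hVv]
    exact div_le_div_of_nonneg_right (mul_le_mul_of_nonneg_right hQ hu.le) hV0.le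
  · rw [Set.indicator_of_notMem hz]
    have hemp : s.filter (fun i => |z.1.1 - z.2.1 + t i * v| ≤ 2 * R) = ∅ := by
      refine Finset.filter_eq_empty_iff.2 fun i hi hQ => hz ?_
      show |z.1.1 - z.2.1| ≤ a'
      have e : z.1.1 - z.2.1 = (z.1.1 - z.2.1 + t i * v) - t i * v := by ring
      have h3 : |t i * v| ≤ w * V := by
        rw [abs_mul, ← hVv]
        exact mul_le_mul_of_nonneg_right (htw i hi) hV0.le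
      rw [e]
      exact (abs_sub _ _).trans (by linarith)
    rw [hemp]
    simp

theorem hz_Ce_mono {n m : ℕ} (hnm : n ≤ m) {Λ : ℝ} (hΛ : 1 ≤ Λ) : 1 ≤ hzCe n Λ ∧ hzCe n Λ ≤ hzCe m Λ := by
  unfold hzCe
  have hn : (n : ℝ) ≤ m := by exact_mod_cast hnm
  have hn0 : (0 : ℝ) ≤ n := Nat.cast_nonneg n
  have hL : 1 ≤ Λ ^ 2 := one_le_pow₀ hΛ
  have h1 : 1 ≤ 34 * (2 * (n : ℝ) + 1) * Λ ^ 2 := by nlinarith
  have h2 : 34 * (2 * (n : ℝ) + 1) * Λ ^ 2 ≤ 34 * (2 * (m : ℝ) + 1) * Λ ^ 2 := by gcongr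
  refine ⟨one_le_pow₀ h1, ?_⟩
  calc (34 * (2 * (n : ℝ) + 1) * Λ ^ 2) ^ (n + 1) ≤ (34 * (2 * (m : ℝ) + 1) * Λ ^ 2) ^ (n + 1) := pow_le_pow_left₀ (by linarith) h2 _
    _ ≤ (34 * (2 * (m : ℝ) + 1) * Λ ^ 2) ^ (m + 1) := pow_le_pow_right₀ (h1.trans h2) (by omega)

/-- the envelope for one half-open bin, constants uniform in the length of the stack -/
theorem hz_fin_env (φ : HyF) (h : φ.Ok) (ks kf : ℕ) (h1 : ks ≤ kf) (m : ℕ) (l : List HyStg) (hl : HzStk ks kf l) (hm : l.length ≤ m)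
    (θ Λ : ℝ) (hΛ : 1 ≤ Λ) (hs : HzSup θ (fun κ => Λ * φ.d κ) l) (g : ℝ × ℝ → E) (hg : MemLp g 2 φ.nu)
    (hz : ∀ ρ, g ρ ≠ 0 → |ρ.2 - θ| ≤ Λ * φ.d ks) (a : ℝ) (ha : 0 < a) (ha' : a ≤ φ.q kf) (o : ℝ) (i : ℕ) (b : ℤ) :
    ∫⁻ ρ in hzBinI o a b, ‖φ.br kf i l (tmL ks (ancI kf ks i)) ks g ρ‖ₑ ^ 2 ∂φ.nu
      ≤ ENNReal.ofReal (hzCe m Λ * (a / 2 / φ.q ks)) *
          ∫⁻ ρ in hzBin (o + (b + 1 / 2) * a - (tmL kf i - tmL ks (ancI kf ks i)) * θ) (a / 2 + 2 * (m + 1) * Λ * φ.q ks), ‖g ρ‖ₑ ^ 2 ∂φ.nu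
        + ENNReal.ofReal ((m + 1) * hzCe m Λ * Real.exp (-(Λ ^ 2 / 20))) * ∫⁻ ρ, ‖g ρ‖ₑ ^ 2 ∂φ.nu := by
  have hqs := (hy_qd φ h ks).1
  have hqf := (hy_qd φ h kf).1
  obtain ⟨hc1, hc2⟩ := hz_Ce_mono hm hΛ
  have hlm : (l.length : ℝ) ≤ m := by exact_mod_cast hm
  have hl0 : (0 : ℝ) ≤ l.length := Nat.cast_nonneg _
  have hexp := Real.exp_pos (-(Λ ^ 2 / 20))
  refine (lintegral_mono_set (hz_binI_sub o a b)).trans ?_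
  refine (hz_env φ h kf i l ks h1 hl θ Λ hΛ hs g hg hz (o + (b + 1 / 2) * a) (a / 2) (by linarith) (by nlinarith)).trans ?_
  refine add_le_add (mul_le_mul' (ENNReal.ofReal_le_ofReal ?_) (lintegral_mono_set (hz_bin_mono _ ?_)))
    (mul_le_mul' (ENNReal.ofReal_le_ofReal ?_) le_rfl)
  · exact mul_le_mul_of_nonneg_right hc2 (by positivity)
  · have : 2 * ((l.length : ℝ) + 1) * Λ * φ.q ks ≤ 2 * ((m : ℝ) + 1) * Λ * φ.q ks := by gcongr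
    linarith
  · have e1 : a / 2 / φ.q kf ≤ 1 := by
      rw [div_le_one hqf]
      linarith
    have e2 : 0 ≤ a / 2 / φ.q kf := by positivity
    calc ((l.length : ℝ) + 1) * hzCe l.length Λ * (a / 2 / φ.q kf) * Real.exp (-(Λ ^ 2 / 20))
        ≤ ((m : ℝ) + 1) * hzCe m Λ * 1 * Real.exp (-(Λ ^ 2 / 20)) := by
          have h5 : (0 : ℝ) ≤ hzCe l.length Λ := by linarith
          have h6 : (0 : ℝ) ≤ hzCe m Λ := by linarith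
          have h7 : (0 : ℝ) ≤ m := Nat.cast_nonneg m
          gcongr
      _ = _ := by ring

/-- the constants of the terminal crossing -/
theorem hz_fin_const {a qs Λ Ce u V R M : ℝ} (ha : 0 < a) (haq : a ≤ qs) (hΛ : 1 ≤ Λ) (hCe : 0 ≤ Ce) (hu : 0 < u) (hV : 0 < V) (hM : 0 ≤ M)
    (hR : R = a / 2 + 2 * (M + 1) * Λ * qs) :
    Ce * (a / 2 / qs) * (2 * (R / a) + 1) ≤ Ce * ((2 * M + 4) * Λ) ∧
      Ce * (a / 2 / qs) * (2 * (2 * R * u / V) + 1) ≤ Ce * (2 * (2 * M + 3) * Λ * (a * u / V) + a / (2 * qs)) := by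
  have hqs : 0 < qs := lt_of_lt_of_le ha haq
  have hx : a / qs ≤ 1 := (div_le_one hqs).2 haq
  have hx0 : 0 < a / qs := by positivity
  have E1 : a / 2 / qs * (2 * (R / a) + 1) = a / qs + 2 * (M + 1) * Λ := by
    rw [hR]
    field_simp
    ring
  have E2 : a / 2 / qs * (2 * (2 * R * u / V) + 1) = 2 * (a / qs / 2 + 2 * (M + 1) * Λ) * (a * u / V) + a / (2 * qs) := by
    rw [hR]
    field_simp
  constructor
  · rw [mul_assoc, E1]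
    refine mul_le_mul_of_nonneg_left ?_ hCe
    nlinarith
  · rw [mul_assoc, E2]
    refine mul_le_mul_of_nonneg_left ?_ hCe
    have hy : 0 ≤ a * u / V := by positivity
    have : a / qs / 2 + 2 * (M + 1) * Λ ≤ (2 * M + 3) * Λ := by nlinarith
    nlinarith

/-- the terminal crossings below one stop interval -/
theorem hz_fin_one (φ : HyF) (h : φ.Ok) (ks kf : ℕ) (h1 : ks ≤ kf) (m : ℕ) (l1 l2 : List HyStg) (hl1 : HzStk ks kf l1) (hl2 : HzStk ks kf l2)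
    (hm1 : l1.length ≤ m) (hm2 : l2.length ≤ m) (θ1 θ2 V Λ : ℝ) (hV : V = |θ1 - θ2|) (hsep : 16 * Λ * φ.d ks ≤ V) (hΛ : 1 ≤ Λ)
    (hs1 : HzSup θ1 (fun κ => Λ * φ.d κ) l1) (hs2 : HzSup θ2 (fun κ => Λ * φ.d κ) l2)
    (G1 G2 : ℝ × ℝ → E) (hg1 : MemLp G1 2 φ.nu) (hg2 : MemLp G2 2 φ.nu)
    (hz1 : ∀ ρ, G1 ρ ≠ 0 → |ρ.2 - θ1| ≤ Λ * φ.d ks) (hz2 : ∀ ρ, G2 ρ ≠ 0 → |ρ.2 - θ2| ≤ Λ * φ.d ks)
    (a : ℝ) (ha : 0 < a) (ha' : a ≤ φ.q kf) (o : ℕ → ℝ) (I : ℕ) :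
    ∑ i ∈ ivs ks I kf, ∑' b : ℤ,
        (∫⁻ ρ in hzBinI (o i) a b, ‖φ.br kf i l1 (tmL ks I) ks G1 ρ‖ₑ ^ 2 ∂φ.nu) *
        (∫⁻ ρ in hzBinI (o i) a b, ‖φ.br kf i l2 (tmL ks I) ks G2 ρ‖ₑ ^ 2 ∂φ.nu)
      ≤ ENNReal.ofReal (hzCe m Λ ^ 2 * ((2 * m + 4) * Λ) * (2 * (2 * m + 3) * Λ * (a * 2 ^ kf / V) + a / (2 * φ.q ks))) *
          φ.cr ((m + 2) * (2 : ℝ)⁻¹ ^ ks * V) G1 G2
        + ENNReal.ofReal ((m + 1) * hzCe m Λ * (1 + hzCe m Λ * ((2 * m + 4) * Λ)) * 2 ^ (kf - ks) * Real.exp (-(Λ ^ 2 / 20))) *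
          ((∫⁻ ρ, ‖G1 ρ‖ₑ ^ 2 ∂φ.nu) * ∫⁻ ρ, ‖G2 ρ‖ₑ ^ 2 ∂φ.nu) := by
  have := hy_nu_sfinite φ
  obtain ⟨hqs, hds, -, hql, -, -⟩ := hy_qd φ h ks
  have hqq : φ.q kf ≤ φ.q ks := (hy_qd_mono φ h h1).1
  have hm0 : (0 : ℝ) ≤ m := Nat.cast_nonneg m
  have hV0 : 0 < V := lt_of_lt_of_le (by positivity) hsep
  have hexp := Real.exp_pos (-(Λ ^ 2 / 20))
  obtain ⟨Ce, hCe⟩ : ∃ Ce, Ce = hzCe m Λ := ⟨_, rfl⟩
  have hCe1 : 1 ≤ Ce := hCe ▸ (hz_Ce_mono le_rfl hΛ).1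
  obtain ⟨R, hR⟩ : ∃ R, R = a / 2 + 2 * ((m : ℝ) + 1) * Λ * φ.q ks := ⟨_, rfl⟩
  have hR0 : 0 ≤ R := by rw [hR]; positivity
  obtain ⟨c1, hc1⟩ : ∃ c1, c1 = Ce * (a / 2 / φ.q ks) := ⟨_, rfl⟩
  have hc10 : 0 ≤ c1 := by rw [hc1]; positivity
  obtain ⟨ε0, hε0⟩ : ∃ ε0, ε0 = ((m : ℝ) + 1) * Ce * Real.exp (-(Λ ^ 2 / 20)) := ⟨_, rfl⟩
  have hε00 : 0 ≤ ε0 := by rw [hε0]; positivity
  obtain ⟨N1, hN1⟩ : ∃ N1, N1 = 2 * (R / a) + 1 := ⟨_, rfl⟩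
  have hN10 : 0 ≤ N1 := by rw [hN1]; positivity
  obtain ⟨N2, hN2⟩ : ∃ N2, N2 = 2 * (2 * R * 2 ^ kf / V) + 1 := ⟨_, rfl⟩
  have hN20 : 0 ≤ N2 := by rw [hN2]; positivity
  obtain ⟨a', ha'd⟩ : ∃ a', a' = ((m : ℝ) + 2) * (2 : ℝ)⁻¹ ^ ks * V := ⟨_, rfl⟩
  obtain ⟨e1, he1⟩ : ∃ e1, e1 = ∫⁻ ρ, ‖G1 ρ‖ₑ ^ 2 ∂φ.nu := ⟨_, rfl⟩
  obtain ⟨e2, he2⟩ : ∃ e2, e2 = ∫⁻ ρ, ‖G2 ρ‖ₑ ^ 2 ∂φ.nu := ⟨_, rfl⟩
  rw [← hCe, ← ha'd, ← he1, ← he2]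
  -- one time
  have hper : ∀ i ∈ ivs ks I kf, ∑' b : ℤ,
        (∫⁻ ρ in hzBinI (o i) a b, ‖φ.br kf i l1 (tmL ks I) ks G1 ρ‖ₑ ^ 2 ∂φ.nu) *
        (∫⁻ ρ in hzBinI (o i) a b, ‖φ.br kf i l2 (tmL ks I) ks G2 ρ‖ₑ ^ 2 ∂φ.nu)
      ≤ ENNReal.ofReal c1 ^ 2 * ∑' b : ℤ,
          (∫⁻ ρ in hzBin (o i + (b + 1 / 2) * a - (tmL kf i - tmL ks I) * θ1) R, ‖G1 ρ‖ₑ ^ 2 ∂φ.nu) *
          (∫⁻ ρ in hzBin (o i + (b + 1 / 2) * a - (tmL kf i - tmL ks I) * θ2) R, ‖G2 ρ‖ₑ ^ 2 ∂φ.nu)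
        + ENNReal.ofReal ε0 * (1 + ENNReal.ofReal c1 * ENNReal.ofReal N1) * (e1 * e2) := by
    intro i hi
    have hanc : ancI kf ks i = I := (gn_mem_ivs ks I kf i).1 hi
    refine hz_fin_alg _ _ _ _ _ _ _ _ _ (fun b => ?_) (fun b => ?_) ?_ ?_
    · have h5 := hz_fin_env φ h ks kf h1 m l1 hl1 hm1 θ1 Λ hΛ hs1 G1 hg1 hz1 a ha ha' (o i) i b
      rw [hanc, ← hCe, ← hR, ← hc1, ← hε0, ← he1] at h5
      exact h5
    · have h5 := hz_fin_env φ h ks kf h1 m l2 hl2 hm2 θ2 Λ hΛ hs2 G2 hg2 hz2 a ha ha' (o i) i b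
      rw [hanc, ← hCe, ← hR, ← hc1, ← hε0, ← he2] at h5
      exact h5
    · rw [he2]
      exact (hz_binI_sum φ.nu (o i) a ha _).trans (hz_br_contr φ h kf i l2 hl2.ok _ _ G2 hg2).2
    · have e : ∀ b : ℤ, o i + ((b : ℝ) + 1 / 2) * a - (tmL kf i - tmL ks I) * θ1 = (o i - (tmL kf i - tmL ks I) * θ1) + ((b : ℝ) + 1 / 2) * a :=
        fun b => by ring
      simp_rw [e]
      rw [hN1, he1]
      exact hz_win_sum φ.nu _ a R ha hR0 _ (hg1.1.enorm.pow_const 2)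
  refine (Finset.sum_le_sum hper).trans ?_
  rw [Finset.sum_add_distrib, ← Finset.mul_sum, Finset.sum_const, hz_ivs_card, nsmul_eq_mul]
  -- times in the stop interval
  have htw : ∀ i ∈ ivs ks I kf, |tmL kf i - tmL ks I| ≤ (2 : ℝ)⁻¹ ^ ks := by
    intro i hi
    have hanc : ancI kf ks i = I := (gn_mem_ivs ks I kf i).1 hi
    obtain ⟨t1, t2, -, t4⟩ := hz_anc_time ks kf kf i h1 le_rfl
    rw [hanc, t4] at t1 t2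
    have : (0 : ℝ) < (2 : ℝ)⁻¹ ^ kf := by positivity
    rw [abs_le]
    constructor <;> linarith
  have hrad : 2 * R + (2 : ℝ)⁻¹ ^ ks * V ≤ a' := by
    have e1 : 16 * Λ * φ.q ks ≤ (2 : ℝ)⁻¹ ^ ks * V := by
      rw [hql]
      calc 16 * Λ * ((2 : ℝ)⁻¹ ^ ks * φ.d ks) = (2 : ℝ)⁻¹ ^ ks * (16 * Λ * φ.d ks) := by ring
        _ ≤ (2 : ℝ)⁻¹ ^ ks * V := mul_le_mul_of_nonneg_left hsep (by positivity)
    have e2 : a ≤ Λ * φ.q ks := by nlinarith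
    have e3 : 0 ≤ Λ * φ.q ks := by positivity
    rw [ha'd, hR]
    nlinarith
  have hmain : ∑ i ∈ ivs ks I kf, ∑' b : ℤ,
          (∫⁻ ρ in hzBin (o i + (b + 1 / 2) * a - (tmL kf i - tmL ks I) * θ1) R, ‖G1 ρ‖ₑ ^ 2 ∂φ.nu) *
          (∫⁻ ρ in hzBin (o i + (b + 1 / 2) * a - (tmL kf i - tmL ks I) * θ2) R, ‖G2 ρ‖ₑ ^ 2 ∂φ.nu)
      ≤ ENNReal.ofReal (N1 * N2) * φ.cr a' G1 G2 := by
    have e : ∀ (i : ℕ) (b : ℤ),
        (∫⁻ ρ in hzBin (o i + (b + 1 / 2) * a - (tmL kf i - tmL ks I) * θ1) R, ‖G1 ρ‖ₑ ^ 2 ∂φ.nu) *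
          (∫⁻ ρ in hzBin (o i + (b + 1 / 2) * a - (tmL kf i - tmL ks I) * θ2) R, ‖G2 ρ‖ₑ ^ 2 ∂φ.nu)
        = ∫⁻ z in (hzBin (o i + (b + 1 / 2) * a - (tmL kf i - tmL ks I) * θ1) R) ×ˢ (hzBin (o i + (b + 1 / 2) * a - (tmL kf i - tmL ks I) * θ2) R),
            ‖G1 z.1‖ₑ ^ 2 * ‖G2 z.2‖ₑ ^ 2 ∂(φ.nu.prod φ.nu) := by
      intro i b
      rw [← Measure.prod_restrict, lintegral_prod_mul (hg1.1.enorm.pow_const 2).restrict (hg2.1.enorm.pow_const 2).restrict]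
    simp_rw [e]
    rw [hz_cr_prod φ a' G1 G2 hg1.1 hg2.1, hN1, hN2]
    exact hz_count_lint (φ.nu.prod φ.nu) _ ((hg1.1.comp_fst.enorm.pow_const 2).mul (hg2.1.comp_snd.enorm.pow_const 2)) (ivs ks I kf) _
      (fun i b => (hz_bin_meas _ _).prod (hz_bin_meas _ _)) _
      (measurableSet_le ((measurable_fst.fst.sub measurable_snd.fst).abs) measurable_const) _
      (fun z => hz_pair_count (ivs ks I kf) o (fun i => tmL kf i - tmL ks I) a R θ1 θ2 V (2 ^ kf) (tmL ks I) ((2 : ℝ)⁻¹ ^ ks) a' ha hR0 hV hV0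
        (by positivity) (fun i _ => rfl) htw hrad z)
  obtain ⟨k1, k2⟩ := hz_fin_const (a := a) (qs := φ.q ks) (Λ := Λ) (Ce := Ce) (u := 2 ^ kf) (V := V) (R := R) (M := m) ha (ha'.trans hqq) hΛ
    (by linarith) (by positivity) hV0 hm0 hR
  rw [← hc1, ← hN1] at k1
  rw [← hc1, ← hN2] at k2
  refine add_le_add ?_ ?_
  · refine (mul_le_mul' le_rfl hmain).trans ?_
    rw [← mul_assoc, ← ENNReal.ofReal_pow hc10, ← ENNReal.ofReal_mul (by positivity)]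
    refine mul_le_mul' (ENNReal.ofReal_le_ofReal ?_) le_rfl
    calc c1 ^ 2 * (N1 * N2) = (c1 * N1) * (c1 * N2) := by ring
      _ ≤ (Ce * ((2 * m + 4) * Λ)) * (Ce * (2 * (2 * m + 3) * Λ * (a * 2 ^ kf / V) + a / (2 * φ.q ks))) :=
          mul_le_mul k1 k2 (by positivity) (by positivity)
      _ = _ := by ring
  · have e1' : ((2 ^ (kf - ks) : ℕ) : ℝ≥0∞) = ENNReal.ofReal (2 ^ (kf - ks)) := by
      rw [ENNReal.ofReal_pow (by norm_num)]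
      simp
    have e2' : (1 : ℝ≥0∞) = ENNReal.ofReal 1 := by simp
    rw [e1', e2', ← ENNReal.ofReal_mul hc10, ← ENNReal.ofReal_add (by norm_num) (by positivity), ← ENNReal.ofReal_mul hε00, ← mul_assoc,
      ← ENNReal.ofReal_mul (by positivity)]
    refine mul_le_mul' (ENNReal.ofReal_le_ofReal ?_) le_rfl
    rw [hε0]
    calc (2 : ℝ) ^ (kf - ks) * (((m : ℝ) + 1) * Ce * Real.exp (-(Λ ^ 2 / 20)) * (1 + c1 * N1))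
        ≤ (2 : ℝ) ^ (kf - ks) * (((m : ℝ) + 1) * Ce * Real.exp (-(Λ ^ 2 / 20)) * (1 + Ce * ((2 * m + 4) * Λ))) := by
          gcongr
      _ = _ := by ring

/-- **(X3) FROM THE STOP TO THE TERMINAL CROSSINGS** (03 l.952-965).   Stop rows `g_α I` (`I ∈ ivs k0 i0 ks`) supported in `|N - θ_α| ≤ Λ d ks`; post-stop stacks of `≤ m` masks supported in `Λ d(depth)`; final bins of length `a ≤ q kf`, ANY offsets `o i`.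
`G^α_i(b) ≤ Ce (a/2q_s) Mn^α_i(b) + ε e_α` (`hz_env`, `R = a/2`, `R_s = a/2 + 2(m+1)Λ q_s`);   `Σ_b G¹G² ≤ Ce²(a/2q_s)² Σ_b Mn¹Mn² + Ce (a/2q_s) ε e₂ Σ_b Mn¹ + ε e₁ e₂`  (`Σ_b G² ≤ e₂`: never sum an additive error over `b`);
a point lies in `≤ 2R_s/a + 1` windows;  for fixed `(ρ₁,ρ₂)`: `|D₁-D₂ + t_i(θ₁-θ₂)| ≤ 2R_s`, so `≤ 4R_s 2^kf/V + 1` times `i`, and `|D₁-D₂| ≤ 2R_s + 2^-ks V ≤ (m+2) 2^-ks V`.   ~700 l. (cut: counting / algebra) -/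
theorem hz_cross_fin (φ : HyF) (h : φ.Ok) (k0 i0 ks kf : ℕ) (h0 : k0 ≤ ks) (h1 : ks ≤ kf) (m : ℕ) (l1 l2 : List HyStg) (hl1 : HzStk ks kf l1) (hl2 : HzStk ks kf l2)
    (hm1 : l1.length ≤ m) (hm2 : l2.length ≤ m) (θ1 θ2 V Λ : ℝ) (hV : V = |θ1 - θ2|) (hsep : 16 * Λ * φ.d ks ≤ V) (hΛ : 1 ≤ Λ)
    (hs1 : HzSup θ1 (fun κ => Λ * φ.d κ) l1) (hs2 : HzSup θ2 (fun κ => Λ * φ.d κ) l2)
    (g1 g2 : ℕ → ℝ × ℝ → E) (hg1 : ∀ I, MemLp (g1 I) 2 φ.nu) (hg2 : ∀ I, MemLp (g2 I) 2 φ.nu)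
    (hz1 : ∀ I ρ, g1 I ρ ≠ 0 → |ρ.2 - θ1| ≤ Λ * φ.d ks) (hz2 : ∀ I ρ, g2 I ρ ≠ 0 → |ρ.2 - θ2| ≤ Λ * φ.d ks)
    (a : ℝ) (ha : 0 < a) (ha' : a ≤ φ.q kf) (o : ℕ → ℝ) :
    ∑ i ∈ ivs k0 i0 kf, ∑' b : ℤ,
        (∫⁻ ρ in hzBinI (o i) a b, ‖φ.br kf i l1 (tmL ks (ancI kf ks i)) ks (g1 (ancI kf ks i)) ρ‖ₑ ^ 2 ∂φ.nu) *
        (∫⁻ ρ in hzBinI (o i) a b, ‖φ.br kf i l2 (tmL ks (ancI kf ks i)) ks (g2 (ancI kf ks i)) ρ‖ₑ ^ 2 ∂φ.nu)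
      ≤ ENNReal.ofReal (hzCe m Λ ^ 2 * ((2 * m + 4) * Λ) * (2 * (2 * m + 3) * Λ * (a * 2 ^ kf / V) + a / (2 * φ.q ks))) *
          ∑ I ∈ ivs k0 i0 ks, φ.cr ((m + 2) * (2 : ℝ)⁻¹ ^ ks * V) (g1 I) (g2 I)
        + ENNReal.ofReal ((m + 1) * hzCe m Λ * (1 + hzCe m Λ * ((2 * m + 4) * Λ)) * 2 ^ (kf - ks) * Real.exp (-(Λ ^ 2 / 20))) *
          ∑ I ∈ ivs k0 i0 ks, (∫⁻ ρ, ‖g1 I ρ‖ₑ ^ 2 ∂φ.nu) * ∫⁻ ρ, ‖g2 I ρ‖ₑ ^ 2 ∂φ.nu := by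
  rw [hz_ivs_sum k0 i0 ks kf h0 h1, Finset.mul_sum, Finset.mul_sum, ← Finset.sum_add_distrib]
  refine Finset.sum_le_sum fun I _ => ?_
  refine le_trans (le_of_eq ?_) (hz_fin_one φ h ks kf h1 m l1 l2 hl1 hl2 hm1 hm2 θ1 θ2 V Λ hV hsep hΛ hs1 hs2 (g1 I) (g2 I) (hg1 I) (hg2 I)
    (hz1 I) (hz2 I) a ha ha' o I)
  refine Finset.sum_congr rfl fun i hi => ?_
  rw [(gn_mem_ivs ks I kf i).1 hi]

/-! ### FT5 -/

theorem hz_sq_add_le {E' : Type*} [NormedAddCommGroup E'] (a b : E') : ‖a + b‖ₑ ^ 2 ≤ 2 * ‖a‖ₑ ^ 2 + 2 * ‖b‖ₑ ^ 2 := by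
  have h1 : ‖a + b‖ₑ ≤ ‖a‖ₑ + ‖b‖ₑ := enorm_add_le a b
  refine (pow_le_pow_left₀ bot_le h1 2).trans ?_
  have h2 : 2 * (‖a‖ₑ * ‖b‖ₑ) ≤ ‖a‖ₑ ^ 2 + ‖b‖ₑ ^ 2 := by
    have h3 : ∀ x y : NNReal, 2 * ((x : ℝ≥0∞) * y) ≤ (x : ℝ≥0∞) ^ 2 + (y : ℝ≥0∞) ^ 2 := by
      intro x y
      have := two_mul_le_add_sq x y
      rw [mul_assoc] at this
      exact_mod_cast this
    exact h3 ‖a‖₊ ‖b‖₊
  calc (‖a‖ₑ + ‖b‖ₑ) ^ 2 = ‖a‖ₑ ^ 2 + ‖b‖ₑ ^ 2 + 2 * (‖a‖ₑ * ‖b‖ₑ) := by ring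
    _ ≤ ‖a‖ₑ ^ 2 + ‖b‖ₑ ^ 2 + (‖a‖ₑ ^ 2 + ‖b‖ₑ ^ 2) := add_le_add le_rfl h2
    _ = _ := by ring

theorem hz_tran' (φ : HyF) (h : φ.Ok) (T : ℝ) (k : ℕ) (T' : ℝ) (k' : ℕ) (hk : k ≤ k') (ht : |T' - T| ≤ (2 : ℝ)⁻¹ ^ k) (θ Λ W : ℝ) (hΛ : 1 ≤ Λ)
    (hW : W ≤ Λ * φ.d k) (g : ℝ × ℝ → E) (hg : MemLp g 2 φ.nu) (x R : ℝ) (hR : 0 ≤ R) :
    ∫⁻ ρ in hzBin x R ∩ hzVel θ W, ‖φ.tr T' k' T k g ρ‖ₑ ^ 2 ∂φ.nu
      ≤ 2 * ∫⁻ ρ' in hzBin (x + (T' - T) * θ) (R + 2 * Λ * φ.q k), ‖g ρ'‖ₑ ^ 2 ∂φ.nu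
        + ENNReal.ofReal (2 * (26 * Real.exp (-(Λ ^ 2 / 40))) ^ 2 * (φ.q k / φ.q k')) * ∫⁻ ρ', ‖g ρ'‖ₑ ^ 2 ∂φ.nu := by
  have := hy_nu_sfinite φ
  obtain ⟨hq, hd, -, hql, -, -⟩ := hy_qd φ h k
  have hq' := (hy_qd φ h k').1
  have hΛ0 : 0 ≤ Λ := by linarith
  obtain ⟨t, htd⟩ : ∃ t : ℝ, t = T' - T := ⟨_, rfl⟩
  obtain ⟨P, hP⟩ : ∃ P : Set (ℝ × ℝ), P = hzBin (x + t * θ) (R + 2 * Λ * φ.q k) := ⟨_, rfl⟩
  have hPm : MeasurableSet P := by rw [hP]; exact hz_bin_meas _ _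
  rw [← htd, ← hP]
  obtain ⟨Q, hQ⟩ : ∃ Q : Set (ℝ × ℝ), Q = hzBin x R ∩ hzVel θ W := ⟨_, rfl⟩
  have hQm : MeasurableSet Q := by rw [hQ]; exact (hz_bin_meas _ _).inter (hz_vel_meas _ _)
  rw [← hQ]
  obtain ⟨g1, hg1⟩ : ∃ g1 : ℝ × ℝ → E, g1 = P.indicator g := ⟨_, rfl⟩
  obtain ⟨g2, hg2⟩ : ∃ g2 : ℝ × ℝ → E, g2 = Pᶜ.indicator g := ⟨_, rfl⟩
  have m1 : MemLp g1 2 φ.nu := by rw [hg1]; exact hg.indicator hPm
  have m2 : MemLp g2 2 φ.nu := by rw [hg2]; exact hg.indicator hPm.compl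
  have hsum : g = fun ρ => g1 ρ + g2 ρ := by
    funext ρ
    rw [hg1, hg2]
    exact (congrFun (Set.indicator_self_add_compl P g) ρ).symm
  have hdec : ∀ ρ, φ.tr T' k' T k g ρ = φ.tr T' k' T k g1 ρ + φ.tr T' k' T k g2 ρ := by
    intro ρ
    conv_lhs => rw [hsum]
    exact hy_tr_add φ h T' k' T k g1 g2 m1 m2 ρ
  -- near part
  have n1 : ∫⁻ ρ in Q, ‖φ.tr T' k' T k g1 ρ‖ₑ ^ 2 ∂φ.nu ≤ ∫⁻ ρ' in P, ‖g ρ'‖ₑ ^ 2 ∂φ.nu := by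
    refine (setLIntegral_le_lintegral _ _).trans ((hy_tr_contr φ h T' k' T k g1 m1).trans (le_of_eq ?_))
    rw [← lintegral_indicator hPm]
    refine lintegral_congr fun ρ => ?_
    rw [hg1]
    by_cases hρ : ρ ∈ P
    · rw [Set.indicator_of_mem hρ, Set.indicator_of_mem hρ]
    · rw [Set.indicator_of_notMem hρ, Set.indicator_of_notMem hρ]
      simp
  -- far part
  obtain ⟨Far, hFar⟩ : ∃ Far : Set ((ℝ × ℝ) × (ℝ × ℝ)), Far = {z | Λ * φ.q k ≤ |z.2.1 - z.1.1 - t * z.1.2|} := ⟨_, rfl⟩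
  have hFm : MeasurableSet Far := by
    rw [hFar]
    exact measurableSet_le measurable_const (by fun_prop)
  obtain ⟨K, hKd⟩ : ∃ K : ℝ × ℝ → ℝ × ℝ → ℂ, K = fun ρ ρ' => Far.indicator (Function.uncurry (φ.kr T' k' T k)) (ρ, ρ') := ⟨_, rfl⟩
  have hK : Measurable (Function.uncurry K) := by
    have : Function.uncurry K = Far.indicator (Function.uncurry (φ.kr T' k' T k)) := by
      rw [hKd]
      rfl
    rw [this]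
    exact (hy_kr_meas φ h T' k' T k).indicator hFm
  have hkle : ∀ ρ ρ', ‖φ.kr T' k' T k ρ ρ'‖ₑ ≤ ENNReal.ofReal (φ.kb k k' t ρ' ρ) := by
    intro ρ ρ'
    rw [hy_kr_conj, htd]
    have : ‖conj (φ.kr T k T' k' ρ' ρ)‖ₑ = ‖φ.kr T k T' k' ρ' ρ‖ₑ := by
      rw [← ofReal_norm, ← ofReal_norm, RCLike.norm_conj]
    rw [this]
    exact hz_kr_enorm_le φ h T k T' k' hk ht ρ' ρ
  have hKe : ∀ ρ ρ', ‖K ρ ρ'‖ₑ ≤ Far.indicator (fun z => ENNReal.ofReal (φ.kb k k' t z.2 z.1)) (ρ, ρ') := by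
    intro ρ ρ'
    rw [hKd]
    by_cases hz : (ρ, ρ') ∈ Far
    · simp only [Set.indicator_of_mem hz, Function.uncurry_apply_pair]
      exact hkle ρ ρ'
    · simp only [Set.indicator_of_notMem hz, enorm_zero, le_refl]
  have b1 : ∀ ρ, ∫⁻ ρ', ‖K ρ ρ'‖ₑ ∂φ.nu ≤ ENNReal.ofReal (26 * Real.exp (-(Λ ^ 2 / 40)) * Real.sqrt (φ.q k / φ.q k')) := by
    intro ρ
    refine le_trans ((lintegral_mono fun ρ' => hKe ρ ρ').trans (le_of_eq ?_)) (hy_kb_tgt_farD φ h k k' t Λ hΛ0 ρ)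
    have hm : MeasurableSet {ρ' : ℝ × ℝ | Λ * φ.q k ≤ |ρ'.1 - ρ.1 - t * ρ.2|} := measurableSet_le measurable_const (by fun_prop)
    rw [← lintegral_indicator hm]
    refine lintegral_congr fun ρ' => ?_
    rw [hFar]
    rfl
  have b2 : ∀ ρ', ∫⁻ ρ, ‖K ρ ρ'‖ₑ ∂φ.nu ≤ ENNReal.ofReal (26 * Real.exp (-(Λ ^ 2 / 40)) * Real.sqrt (φ.q k / φ.q k')) := by
    intro ρ'
    refine le_trans ((lintegral_mono fun ρ => hKe ρ ρ').trans (le_of_eq ?_)) (hy_kb_src_farD φ h k k' t Λ hΛ0 ρ')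
    have hm : MeasurableSet {ρ : ℝ × ℝ | Λ * φ.q k ≤ |ρ'.1 - ρ.1 - t * ρ.2|} := measurableSet_le measurable_const (by fun_prop)
    rw [← lintegral_indicator hm]
    refine lintegral_congr fun ρ => ?_
    rw [hFar]
    rfl
  have h1 := hy_schur φ.nu φ.nu K hK g2 m2.1 _ _ b1 b2
  have hc : ENNReal.ofReal (26 * Real.exp (-(Λ ^ 2 / 40)) * Real.sqrt (φ.q k / φ.q k')) *
      ENNReal.ofReal (26 * Real.exp (-(Λ ^ 2 / 40)) * Real.sqrt (φ.q k / φ.q k')) =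
      ENNReal.ofReal ((26 * Real.exp (-(Λ ^ 2 / 40))) ^ 2 * (φ.q k / φ.q k')) := by
    rw [← ENNReal.ofReal_mul (by positivity)]
    congr 1
    have := Real.mul_self_sqrt (show 0 ≤ φ.q k / φ.q k' by positivity)
    calc _ = (26 * Real.exp (-(Λ ^ 2 / 40))) ^ 2 * (Real.sqrt (φ.q k / φ.q k') * Real.sqrt (φ.q k / φ.q k')) := by ring
      _ = _ := by rw [this]
  rw [hc] at h1
  have hg2le : ∫⁻ ρ, ‖g2 ρ‖ₑ ^ 2 ∂φ.nu ≤ ∫⁻ ρ, ‖g ρ‖ₑ ^ 2 ∂φ.nu := by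
    refine lintegral_mono fun ρ => ?_
    rw [hg2]
    by_cases hρ : ρ ∈ Pᶜ
    · rw [Set.indicator_of_mem hρ]
    · rw [Set.indicator_of_notMem hρ]
      simp
  have n2 : ∫⁻ ρ in Q, ‖φ.tr T' k' T k g2 ρ‖ₑ ^ 2 ∂φ.nu
      ≤ ENNReal.ofReal ((26 * Real.exp (-(Λ ^ 2 / 40))) ^ 2 * (φ.q k / φ.q k')) * ∫⁻ ρ, ‖g ρ‖ₑ ^ 2 ∂φ.nu := by
    refine le_trans ?_ (h1.trans (mul_le_mul' le_rfl hg2le))
    refine le_trans (le_of_eq ?_) (setLIntegral_le_lintegral Q _)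
    refine setLIntegral_congr_fun hQm fun ρ hρ => ?_
    congr 2
    unfold HyF.tr
    refine integral_congr_ae (Filter.Eventually.of_forall fun ρ' => ?_)
    show φ.kr T' k' T k ρ ρ' • g2 ρ' = K ρ ρ' • g2 ρ'
    by_cases hfρ : g2 ρ' = 0
    · rw [hfρ, smul_zero, smul_zero]
    · have hρ'P : ρ' ∉ P := by
        intro hc
        apply hfρ
        rw [hg2]
        exact Set.indicator_of_notMem (fun hcc : ρ' ∈ Pᶜ => hcc hc) _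
      rw [hP] at hρ'P
      rw [hQ] at hρ
      have h2 : R + 2 * Λ * φ.q k < |ρ'.1 - (x + t * θ)| := not_le.1 hρ'P
      have h3 : |ρ.1 - x| ≤ R := hρ.1
      have h4 : |ρ.2 - θ| ≤ W := hρ.2
      have h5 : |t * (ρ.2 - θ)| ≤ Λ * φ.q k := by
        rw [abs_mul, hql]
        calc |t| * |ρ.2 - θ| ≤ (2 : ℝ)⁻¹ ^ k * (Λ * φ.d k) := mul_le_mul (by rw [htd]; exact ht) (h4.trans hW) (abs_nonneg _) (by positivity)
          _ = Λ * ((2 : ℝ)⁻¹ ^ k * φ.d k) := by ring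
      have h6 : (ρ, ρ') ∈ Far := by
        rw [hFar]
        show Λ * φ.q k ≤ |ρ'.1 - ρ.1 - t * ρ.2|
        have e : ρ'.1 - (x + t * θ) = (ρ'.1 - ρ.1 - t * ρ.2) + ((ρ.1 - x) + t * (ρ.2 - θ)) := by ring
        have a1 := abs_add_le (ρ'.1 - ρ.1 - t * ρ.2) ((ρ.1 - x) + t * (ρ.2 - θ))
        have a2 := abs_add_le (ρ.1 - x) (t * (ρ.2 - θ))
        rw [← e] at a1
        linarith
      rw [hKd]
      simp only [Set.indicator_of_mem h6, Function.uncurry_apply_pair]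
  have mt1 : AEMeasurable (fun ρ => 2 * ‖φ.tr T' k' T k g1 ρ‖ₑ ^ 2) (φ.nu.restrict Q) :=
    (((hy_tr_memLp φ h T' k' T k g1 m1).1.enorm.pow_const 2).const_mul 2).restrict
  calc ∫⁻ ρ in Q, ‖φ.tr T' k' T k g ρ‖ₑ ^ 2 ∂φ.nu
      ≤ ∫⁻ ρ in Q, (2 * ‖φ.tr T' k' T k g1 ρ‖ₑ ^ 2 + 2 * ‖φ.tr T' k' T k g2 ρ‖ₑ ^ 2) ∂φ.nu := by
        refine lintegral_mono fun ρ => ?_
        rw [hdec]
        exact hz_sq_add_le _ _
    _ = 2 * ∫⁻ ρ in Q, ‖φ.tr T' k' T k g1 ρ‖ₑ ^ 2 ∂φ.nu + 2 * ∫⁻ ρ in Q, ‖φ.tr T' k' T k g2 ρ‖ₑ ^ 2 ∂φ.nu := by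
        rw [lintegral_add_left' mt1, lintegral_const_mul' _ _ (by norm_num), lintegral_const_mul' _ _ (by norm_num)]
    _ ≤ 2 * ∫⁻ ρ' in P, ‖g ρ'‖ₑ ^ 2 ∂φ.nu
        + 2 * (ENNReal.ofReal ((26 * Real.exp (-(Λ ^ 2 / 40))) ^ 2 * (φ.q k / φ.q k')) * ∫⁻ ρ, ‖g ρ‖ₑ ^ 2 ∂φ.nu) :=
        add_le_add (mul_le_mul' le_rfl n1) (mul_le_mul' le_rfl n2)
    _ = _ := by
        congr 1
        rw [← mul_assoc]
        congr 1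
        rw [show (2 : ℝ≥0∞) = ENNReal.ofReal 2 by norm_num, ← ENNReal.ofReal_mul (by norm_num)]
        congr 1
        ring

/-- **(FT5) WINDOW TRANSFER** back from a finer frame `(T',k')` to a coarser frame `(T,k)` (03 l.1017-1030): local energy at the coarse frame, velocities in a window `W ≤ Λ d k`, is bounded by the local energy at the fine frame.
`g = 1_{P'} g + 1_{P'ᶜ} g`;  near part: `hy_tr_contr`;  far part: `hy_schur`, `|kr T' k' T k ρ ρ'| = |kr T k T' k' ρ' ρ| ≤ kb` (`hy_kr_conj`, `hy_kr_le`), `|D' - D - tN| ≥ Λ q k` (`hy_kb_src_farD`, `hy_kb_tgt_farD`).   ~350 l. -/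
theorem hz_tran (φ : HyF) (h : φ.Ok) (T : ℝ) (k : ℕ) (T' : ℝ) (k' : ℕ) (hk : k ≤ k') (ht : |T' - T| ≤ (2 : ℝ)⁻¹ ^ k) (θ Λ W : ℝ) (hΛ : 1 ≤ Λ)
    (hW : W ≤ Λ * φ.d k) (g : ℝ × ℝ → E) (hg : MemLp g 2 φ.nu) (x R : ℝ) (hR : 0 ≤ R) :
    ∫⁻ ρ in hzBin x R ∩ hzVel θ W, ‖φ.tr T' k' T k g ρ‖ₑ ^ 2 ∂φ.nu
      ≤ 2 * ∫⁻ ρ' in hzBin (x + (T' - T) * θ) (R + 2 * Λ * φ.q k), ‖g ρ'‖ₑ ^ 2 ∂φ.nu
        + ENNReal.ofReal (2 * (26 * Real.exp (-(Λ ^ 2 / 40))) ^ 2 * (φ.q k / φ.q k')) * ∫⁻ ρ', ‖g ρ'‖ₑ ^ 2 ∂φ.nu :=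
  hz_tran' φ h T k T' k' hk ht θ Λ W hΛ hW g hg x R hR

theorem hz_br_append' (φ : HyF) (k' i : ℕ) (l : List HyStg) (σ : HyStg) (l' : List HyStg) (hl : ∀ τ ∈ l, τ.k ≤ σ.k) (hσ : σ.k ≤ k') (T : ℝ) (k : ℕ) (f : ℝ × ℝ → E) :
    φ.br k' i (l ++ σ :: l') T k f = φ.br k' i l' (tmL σ.k (ancI k' σ.k i)) σ.k
      (fun ρ => ((σ.M (ancI k' σ.k i) ρ : ℝ) : ℂ) • φ.br σ.k (ancI k' σ.k i) l T k f ρ) := by
  induction l generalizing T k f with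
  | nil => rfl
  | cons τ l₁ ih =>
    have e := (hz_anc_time' τ.k σ.k k' i (hl τ List.mem_cons_self) hσ).2.2.1
    have h1 := ih (fun τ' h' => hl τ' (List.mem_cons_of_mem _ h')) (tmL τ.k (ancI k' τ.k i)) τ.k
      (fun ρ => ((τ.M (ancI k' τ.k i) ρ : ℝ) : ℂ) • φ.tr T k (tmL τ.k (ancI k' τ.k i)) τ.k f ρ)
    show φ.br k' i (l₁ ++ σ :: l') (tmL τ.k (ancI k' τ.k i)) τ.k
      (fun ρ => ((τ.M (ancI k' τ.k i) ρ : ℝ) : ℂ) • φ.tr T k (tmL τ.k (ancI k' τ.k i)) τ.k f ρ) = _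
    rw [h1]
    show _ = φ.br k' i l' (tmL σ.k (ancI k' σ.k i)) σ.k (fun ρ => ((σ.M (ancI k' σ.k i) ρ : ℝ) : ℂ) •
      φ.br σ.k (ancI k' σ.k i) l₁ (tmL τ.k (ancI σ.k τ.k (ancI k' σ.k i))) τ.k
        (fun ρ => ((τ.M (ancI σ.k τ.k (ancI k' σ.k i)) ρ : ℝ) : ℂ) • φ.tr T k (tmL τ.k (ancI σ.k τ.k (ancI k' σ.k i))) τ.k f ρ) ρ)
    rw [e]

/-- structure of a branch through a concatenated stack.  Induction on `l`; `hz_anc_time`.  ~120 l. -/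
theorem hz_br_append (φ : HyF) (k' i : ℕ) (l : List HyStg) (σ : HyStg) (l' : List HyStg) (hl : ∀ τ ∈ l, τ.k ≤ σ.k) (hσ : σ.k ≤ k') (T : ℝ) (k : ℕ) (f : ℝ × ℝ → E) :
    φ.br k' i (l ++ σ :: l') T k f = φ.br k' i l' (tmL σ.k (ancI k' σ.k i)) σ.k
      (fun ρ => ((σ.M (ancI k' σ.k i) ρ : ℝ) : ℂ) • φ.br σ.k (ancI k' σ.k i) l T k f ρ) :=
  hz_br_append' φ k' i l σ l' hl hσ T k f

end Claimed.Agent.R256
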