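import Claimed.Agent.R256.Hz.Grp

/-!
# Row 256, unit HZ, file 10: FROM THE FIBRES TO THE ROWS: tools for all global leaves      (helper82; prefix `hz_fg_`)

* `hz_fg_congr`     a branch depends only on the a.e. class of its input
* `hz_fg_stk`       the fibre of an admissible stack is an admissible fibre stack
* `hz_fg_memLp`     a.e. fibre of an `L²` row function is `L²`
* `hz_fg_ms`        **mass of a set of rows of a branch = iterated `lintegral` of the explicit fibre branch**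
* `hz_fg_le`        a fibre inequality `∫_{S'_ω} ‖br F_ω‖² ≤ c ∫ ‖F_ω‖²` for a.e. `ω` gives `ms S' ≤ c ‖F‖²`
-/

set_option autoImplicit false

namespace Claimed.Agent.R256

open MeasureTheory
open scoped ENNReal

/-- a branch depends only on the a.e. class of its input -/
theorem hz_fg_congr {E : Type} [NormedAddCommGroup E] [NormedSpace ℂ E] (φ : HyF) (k' i : ℕ) (l : List HyStg) (T : ℝ) (k : ℕ) (f g : ℝ × ℝ → E)
    (hfg : f =ᵐ[φ.nu] g) : φ.br k' i l T k f = φ.br k' i l T k g := by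
  have htr : ∀ (T' : ℝ) (k'' : ℕ), φ.tr T k T' k'' f = φ.tr T k T' k'' g := by
    intro T' k''
    funext ρ'
    unfold HyF.tr
    exact integral_congr_ae (hfg.mono fun ρ hρ => by simp only [hρ])
  cases l with
  | nil => exact htr _ _
  | cons σ l =>
    simp only [HyF.br]
    rw [htr]

/-- the fibre of an admissible stack -/
theorem hz_fg_stk (p : ChyPar) (η : ℝ) (k0 kf : ℕ) (st : List (Stg (p.sys η))) (hst : StM st) (hdep : ∀ σ ∈ st, k0 ≤ σ.k ∧ σ.k ≤ kf)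
    (hmono : st.Pairwise fun σ σ' => σ.k ≤ σ'.k) (ω : p.Om) : HzStk k0 kf (st.map (p.fst η ω)) := by
  refine ⟨?_, ?_, ?_⟩
  · intro τ hτ
    obtain ⟨σ, hσ, rfl⟩ := List.mem_map.1 hτ
    intro j
    exact ⟨(hst σ hσ j).1.comp measurable_prodMk_left, fun ρ => (hst σ hσ j).2 (ω, ρ)⟩
  · intro τ hτ
    obtain ⟨σ, hσ, rfl⟩ := List.mem_map.1 hτ
    exact hdep σ hσ
  · rw [List.pairwise_map]
    exact hmono

/-- a.e. fibre of an `L²` row function is `L²` -/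
theorem hz_fg_memLp (p : ChyPar) (h : p.Ok) (F : Lp p.Fb 2 p.rw) :
    ∀ᵐ ω ∂p.m, MemLp (fun ρ => (F : p.Om × ℝ × ℝ → p.Fb) (ω, ρ)) 2 (p.fib ω).nu := by
  have hFm : StronglyMeasurable (F : p.Om × ℝ × ℝ → p.Fb) := Lp.stronglyMeasurable F
  have h1 := hy_lk_lint p h (fun x => ‖(F : p.Om × ℝ × ℝ → p.Fb) x‖ₑ ^ 2) (hFm.enorm.pow_const 2).aemeasurable
  rw [hy_lk_normsq F] at h1
  have := h.sf
  have hmeas : AEMeasurable (fun ω => ∫⁻ ρ, ‖(F : p.Om × ℝ × ℝ → p.Fb) (ω, ρ)‖ₑ ^ 2 ∂(p.fib ω).nu) p.m := by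
    have e : (fun ω => ∫⁻ ρ, ‖(F : p.Om × ℝ × ℝ → p.Fb) (ω, ρ)‖ₑ ^ 2 ∂(p.fib ω).nu)
        = fun ω => ENNReal.ofReal (p.sg ω / (2 * Real.pi * p.H)) * ∫⁻ ρ, ‖(F : p.Om × ℝ × ℝ → p.Fb) (ω, ρ)‖ₑ ^ 2 := by
      funext ω
      unfold HyF.nu
      rw [lintegral_smul_measure]
      rfl
    rw [e]
    refine AEMeasurable.mul ?_ ?_
    · exact ((h.mS.div_const _).ennreal_ofReal).aemeasurable
    · exact ((hFm.enorm.pow_const 2).lintegral_prod_right').aemeasurable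
  have hfin : ∀ᵐ ω ∂p.m, ∫⁻ ρ, ‖(F : p.Om × ℝ × ℝ → p.Fb) (ω, ρ)‖ₑ ^ 2 ∂(p.fib ω).nu < ∞ :=
    ae_lt_top' hmeas (by rw [← h1]; exact ENNReal.ofReal_ne_top)
  refine hfin.mono fun ω hω => ?_
  exact hy_memLp_two _ _ (hFm.comp_measurable measurable_prodMk_left).aestronglyMeasurable hω.ne

/-- **mass of a set of rows of a branch** -/
theorem hz_fg_ms (p : ChyPar) (h : p.Ok) (η : ℝ) (k' i : ℕ) (st : List (Stg (p.sys η))) (hst : StM st) (T : ℝ) (k : ℕ) (F : Lp p.Fb 2 p.rw)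
    (b c : ℕ) {S : Set (p.Om × ℝ × ℝ)} (hS : MeasurableSet S) :
    ENNReal.ofReal ((p.sys η).ms (tmL k' i) k' b S (Xp.run k' i st (ContinuousLinearMap.adjoint ((p.sys η).An T k c) F)))
      = ∫⁻ ω, ∫⁻ ρ in {ρ | (ω, ρ) ∈ S}, ‖(p.fib ω).br k' i (st.map (p.fst η ω)) T k (fun ρ => (F : p.Om × ℝ × ℝ → p.Fb) (ω, ρ)) ρ‖ₑ ^ 2 ∂(p.fib ω).nu ∂p.m := by
  have hR := hy_run_rows p h η k' i st hst T k F
  show ENNReal.ofReal ((p.sys η).ms (tmL k' i) k' b S (Xp.run (P := p.sys η) k' i st (ContinuousLinearMap.adjoint (p.an T k) F))) = _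
  rw [hy_tl_ms_lint p h η (tmL k' i) k' b hS, ← lintegral_indicator hS]
  have hUm : AEStronglyMeasurable (p.an (tmL k' i) k' (Xp.run (P := p.sys η) k' i st (ContinuousLinearMap.adjoint (p.an T k) F)) : p.Om × ℝ × ℝ → p.Fb) p.rw :=
    Lp.aestronglyMeasurable _
  rw [hy_lk_lint p h _ ((hUm.enorm.pow_const 2).indicator hS)]
  refine lintegral_congr_ae ((hy_lk_ae p h hR).mono fun ω hω => ?_)
  simp only
  have hSω : MeasurableSet {ρ : ℝ × ℝ | (ω, ρ) ∈ S} := measurable_prodMk_left hS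
  rw [← lintegral_indicator hSω]
  refine lintegral_congr_ae (hω.mono fun ρ hρ => ?_)
  beta_reduce
  by_cases hx : (ω, ρ) ∈ S
  · rw [Set.indicator_of_mem hx, Set.indicator_of_mem (show ρ ∈ {ρ | (ω, ρ) ∈ S} from hx)]
    exact congrArg (fun y => ‖y‖ₑ ^ 2) hρ
  · rw [Set.indicator_of_notMem hx, Set.indicator_of_notMem (show ρ ∉ {ρ | (ω, ρ) ∈ S} from hx)]

/-- a fibre inequality for a.e. exact index gives the inequality for the masses -/
theorem hz_fg_le (p : ChyPar) (h : p.Ok) (η : ℝ) (k' i : ℕ) (st : List (Stg (p.sys η))) (hst : StM st) (T : ℝ) (k : ℕ) (F : Lp p.Fb 2 p.rw)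
    (b c : ℕ) {S : Set (p.Om × ℝ × ℝ)} (hS : MeasurableSet S) (C : ℝ) (hC : 0 ≤ C)
    (hfib : ∀ᵐ ω ∂p.m, ∫⁻ ρ in {ρ | (ω, ρ) ∈ S}, ‖(p.fib ω).br k' i (st.map (p.fst η ω)) T k (fun ρ => (F : p.Om × ℝ × ℝ → p.Fb) (ω, ρ)) ρ‖ₑ ^ 2 ∂(p.fib ω).nu
      ≤ ENNReal.ofReal C * ∫⁻ ρ, ‖(F : p.Om × ℝ × ℝ → p.Fb) (ω, ρ)‖ₑ ^ 2 ∂(p.fib ω).nu) :
    (p.sys η).ms (tmL k' i) k' b S (Xp.run k' i st (ContinuousLinearMap.adjoint ((p.sys η).An T k c) F)) ≤ C * ‖F‖ ^ 2 := by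
  have hFm : StronglyMeasurable (F : p.Om × ℝ × ℝ → p.Fb) := Lp.stronglyMeasurable F
  have h1 := hz_fg_ms p h η k' i st hst T k F b c hS
  have h2 : ENNReal.ofReal ((p.sys η).ms (tmL k' i) k' b S (Xp.run k' i st (ContinuousLinearMap.adjoint ((p.sys η).An T k c) F)))
      ≤ ENNReal.ofReal (C * ‖F‖ ^ 2) := by
    rw [h1]
    refine (lintegral_mono_ae hfib).trans (le_of_eq ?_)
    rw [lintegral_const_mul' _ _ ENNReal.ofReal_ne_top,
      ← hy_lk_lint p h (fun x => ‖(F : p.Om × ℝ × ℝ → p.Fb) x‖ₑ ^ 2) (hFm.enorm.pow_const 2).aemeasurable,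
      hy_lk_normsq F, ← ENNReal.ofReal_mul hC]
  exact (ENNReal.ofReal_le_ofReal_iff (by positivity)).1 h2

end Claimed.Agent.R256
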