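import Claimed.Agent.R256.Hyb.Iso
import Claimed.Agent.R256.Hyb.Gau
import Claimed.Agent.R256.Gen.Contract

/-!
# Row 256, unit HZ, file 2: FIBRE THEORY I = stacks, velocity windows, envelope      (chief helper82; prefix `hz_`)      Base-free (one fibre `φ = (H, σ)`, functions `ℝ × ℝ → E`).

NON-ASYMPTOTIC statements with a slack `Λ ≥ 1` and errors `exp(-Λ²/c)`.      `ρ = (D, N)`.
* `hzBin x R = {|D - x| ≤ R}`,  `hzVel θ W = {|N - θ| ≤ W}`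
* `HzStk φ k k' l`      admissible stack between the depths `k ≤ k'`
* `hz_anc_time`         nested dyadic times
* `hz_br_contr`, `hz_br_sub`, `hz_br_memLp`     a branch is a linear contraction
* (FT1) `hz_win`        replacing the masks by windowed masks changes the rows by `#l · 26 · 2^((k'-k)/4) exp(-Λ²/16)` in `L²`
* (E1)  `hz_env_step`   one transfer DOWN the scales, sources in a velocity window `Λ d`:  mass of a position bin `≤ 34 Λ (R/q)` × mass of the window `R + 2Λq` (+ Gaussian error).   THE FACTOR `R/q` IS (env).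
* (FT3) `hz_env`        the same through a stack of windowed masks.
-/

set_option autoImplicit false

namespace Claimed.Agent.R256

open MeasureTheory
open scoped ENNReal

/-- position bin -/
def hzBin (x R : ℝ) : Set (ℝ × ℝ) := {ρ | |ρ.1 - x| ≤ R}

/-- velocity window -/
def hzVel (θ W : ℝ) : Set (ℝ × ℝ) := {ρ | |ρ.2 - θ| ≤ W}

/-- an admissible stack between the depths `k` and `k'` -/
structure HzStk (k k' : ℕ) (l : List HyStg) : Prop where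
  ok : ∀ σ ∈ l, σ.Ok
  dep : ∀ σ ∈ l, k ≤ σ.k ∧ σ.k ≤ k'
  mono : l.Pairwise fun σ σ' => σ.k ≤ σ'.k

/-- the masks of the stack vanish outside the velocity windows `|N - θ| ≤ W (depth)` -/
def HzSup (θ : ℝ) (W : ℕ → ℝ) (l : List HyStg) : Prop := ∀ σ ∈ l, ∀ i ρ, σ.M i ρ ≠ 0 → |ρ.2 - θ| ≤ W σ.k

/-- windowed stage -/
noncomputable def HyStg.win (σ : HyStg) (θ W : ℝ) : HyStg := ⟨σ.k, fun i ρ => if |ρ.2 - θ| ≤ W then σ.M i ρ else 0⟩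

/-- windowed stack: the stage number `j` (counted from `j0`) gets the window `W0 + (j+1) Λ d(depth)` -/
noncomputable def hzWinL (φ : HyF) (θ W0 Λ : ℝ) : ℕ → List HyStg → List HyStg
  | _, [] => []
  | j, σ :: l => σ.win θ (W0 + (j + 1) * Λ * φ.d σ.k) :: hzWinL φ θ W0 Λ (j + 1) l

theorem hz_fib_eqns_cite : True := by
  have := @hzBin.eq_1
  have := @hzVel.eq_1
  have := @HzSup.eq_1
  have := @HyStg.win.eq_1
  have := @hzWinL.eq_1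
  have := @hzWinL.eq_2
  trivial

theorem hz_anc_time' (k k1 k' i : ℕ) (h1 : k ≤ k1) (h2 : k1 ≤ k') :
    tmL k (ancI k' k i) ≤ tmL k1 (ancI k' k1 i) ∧ tmL k1 (ancI k' k1 i) + (2 : ℝ)⁻¹ ^ k1 ≤ tmL k (ancI k' k i) + (2 : ℝ)⁻¹ ^ k ∧
      ancI k1 k (ancI k' k1 i) = ancI k' k i ∧ ancI k' k' i = i := by
  have e3 : ancI k1 k (ancI k' k1 i) = ancI k' k i := by
    unfold ancI
    rw [Nat.div_div_eq_div_mul, ← pow_add]
    congr 2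
    omega
  have e4 : ancI k' k' i = i := by
    unfold ancI
    simp
  obtain ⟨a, ha⟩ : ∃ a : ℕ, a = ancI k' k1 i := ⟨_, rfl⟩
  obtain ⟨m, hm⟩ : ∃ m : ℕ, m = 2 ^ (k1 - k) := ⟨_, rfl⟩
  have hm0 : 0 < m := by rw [hm]; positivity
  rw [← e3, ← ha]
  have hb : ancI k1 k a = a / m := by rw [hm]; rfl
  rw [hb]
  have hk1 : (2 : ℝ) ^ k1 = 2 ^ k * (m : ℝ) := by
    rw [hm]
    push_cast
    rw [← pow_add]
    congr 1
    omega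
  have c1 : ((a / m : ℕ) : ℝ) * m ≤ a := by exact_mod_cast Nat.div_mul_le_self a m
  have c2 : (a : ℝ) + 1 ≤ (((a / m : ℕ) : ℝ) + 1) * m := by
    have : a < (a / m + 1) * m := by
      rw [mul_comm]
      exact Nat.lt_mul_div_succ a hm0
    exact_mod_cast this
  have hmR : (0 : ℝ) < m := by exact_mod_cast hm0
  have hkR : (0 : ℝ) < 2 ^ k := by positivity
  refine ⟨?_, ?_, rfl, e4⟩
  · unfold tmL
    rw [hk1, div_le_div_iff₀ hkR (by positivity)]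
    nlinarith
  · unfold tmL
    rw [inv_pow, inv_pow, hk1, div_add' _ _ _ (by positivity), div_add' _ _ _ (by positivity),
      inv_mul_cancel₀ (by positivity), inv_mul_cancel₀ (by positivity), div_le_div_iff₀ (by positivity) hkR]
    nlinarith

/-- nested dyadic times.  ~80 l. (Nat.div, casts) -/
theorem hz_anc_time (k k1 k' i : ℕ) (h1 : k ≤ k1) (h2 : k1 ≤ k') :
    tmL k (ancI k' k i) ≤ tmL k1 (ancI k' k1 i) ∧ tmL k1 (ancI k' k1 i) + (2 : ℝ)⁻¹ ^ k1 ≤ tmL k (ancI k' k i) + (2 : ℝ)⁻¹ ^ k ∧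
      ancI k1 k (ancI k' k1 i) = ancI k' k i ∧ ancI k' k' i = i := hz_anc_time' k k1 k' i h1 h2

variable {E : Type} [NormedAddCommGroup E] [InnerProductSpace ℂ E] [CompleteSpace E]

/-- a mask acts on `L²` as a contraction -/
theorem hz_mask (φ : HyF) (M : ℝ × ℝ → ℝ) (hM : Measurable M) (h01 : ∀ ρ, 0 ≤ M ρ ∧ M ρ ≤ 1) (g : ℝ × ℝ → E) (hg : MemLp g 2 φ.nu) :
    MemLp (fun ρ => ((M ρ : ℝ) : ℂ) • g ρ) 2 φ.nu ∧ ∀ ρ, ‖((M ρ : ℝ) : ℂ) • g ρ‖ₑ ≤ ‖g ρ‖ₑ := by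
  have hn : ∀ ρ, ‖((M ρ : ℝ) : ℂ) • g ρ‖ ≤ ‖g ρ‖ := by
    intro ρ
    rw [norm_smul, Complex.norm_real, Real.norm_of_nonneg (h01 ρ).1]
    exact mul_le_of_le_one_left (norm_nonneg _) (h01 ρ).2
  refine ⟨hg.of_le ?_ (Filter.Eventually.of_forall hn), fun ρ => ?_⟩
  · exact (Complex.measurable_ofReal.comp hM).aestronglyMeasurable.smul hg.1
  · rw [← ofReal_norm, ← ofReal_norm]
    exact ENNReal.ofReal_le_ofReal (hn ρ)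

theorem hz_br_contr' (φ : HyF) (h : φ.Ok) (k' i : ℕ) (l : List HyStg) (hl : ∀ σ ∈ l, σ.Ok) (T : ℝ) (k : ℕ) (f : ℝ × ℝ → E) (hf : MemLp f 2 φ.nu) :
    MemLp (φ.br k' i l T k f) 2 φ.nu ∧ ∫⁻ ρ, ‖φ.br k' i l T k f ρ‖ₑ ^ 2 ∂φ.nu ≤ ∫⁻ ρ, ‖f ρ‖ₑ ^ 2 ∂φ.nu := by
  induction l generalizing T k f with
  | nil => exact ⟨hy_tr_memLp φ h T k _ k' f hf, hy_tr_contr φ h T k _ k' f hf⟩
  | cons σ l ih =>
    have hσ := hl σ (List.mem_cons_self)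
    have hg := hy_tr_memLp φ h T k (tmL σ.k (ancI k' σ.k i)) σ.k f hf
    obtain ⟨m1, m2⟩ := hz_mask φ (σ.M (ancI k' σ.k i)) (hσ _).1 (hσ _).2 _ hg
    obtain ⟨i1, i2⟩ := ih (fun σ' h' => hl σ' (List.mem_cons_of_mem _ h')) (tmL σ.k (ancI k' σ.k i)) σ.k _ m1
    refine ⟨i1, i2.trans (le_trans (lintegral_mono fun ρ => ?_) (hy_tr_contr φ h T k (tmL σ.k (ancI k' σ.k i)) σ.k f hf))⟩
    exact pow_le_pow_left₀ bot_le (m2 ρ) 2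

theorem hz_br_sub' (φ : HyF) (h : φ.Ok) (k' i : ℕ) (l : List HyStg) (hl : ∀ σ ∈ l, σ.Ok) (T : ℝ) (k : ℕ) (f g : ℝ × ℝ → E)
    (hf : MemLp f 2 φ.nu) (hg : MemLp g 2 φ.nu) (ρ : ℝ × ℝ) :
    φ.br k' i l T k (fun x => f x - g x) ρ = φ.br k' i l T k f ρ - φ.br k' i l T k g ρ := by
  induction l generalizing T k f g with
  | nil => exact hy_tr_sub φ h T k _ k' f g hf hg ρ
  | cons σ l ih =>
    have hσ := hl σ (List.mem_cons_self)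
    have m1 := (hz_mask φ (σ.M (ancI k' σ.k i)) (hσ _).1 (hσ _).2 _ (hy_tr_memLp φ h T k (tmL σ.k (ancI k' σ.k i)) σ.k f hf)).1
    have m2 := (hz_mask φ (σ.M (ancI k' σ.k i)) (hσ _).1 (hσ _).2 _ (hy_tr_memLp φ h T k (tmL σ.k (ancI k' σ.k i)) σ.k g hg)).1
    have := ih (fun σ' h' => hl σ' (List.mem_cons_of_mem _ h')) (tmL σ.k (ancI k' σ.k i)) σ.k _ _ m1 m2
    show φ.br k' i l _ σ.k (fun ρ => ((σ.M (ancI k' σ.k i) ρ : ℝ) : ℂ) • φ.tr T k (tmL σ.k (ancI k' σ.k i)) σ.k (fun x => f x - g x) ρ) ρ = _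
    simp only [hy_tr_sub φ h T k _ σ.k f g hf hg, smul_sub]
    exact this

theorem hz_br_add (φ : HyF) (h : φ.Ok) (k' i : ℕ) (l : List HyStg) (hl : ∀ σ ∈ l, σ.Ok) (T : ℝ) (k : ℕ) (f g : ℝ × ℝ → E)
    (hf : MemLp f 2 φ.nu) (hg : MemLp g 2 φ.nu) (ρ : ℝ × ℝ) :
    φ.br k' i l T k (fun x => f x + g x) ρ = φ.br k' i l T k f ρ + φ.br k' i l T k g ρ := by
  induction l generalizing T k f g with
  | nil => exact hy_tr_add φ h T k _ k' f g hf hg ρ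
  | cons σ l ih =>
    have hσ := hl σ (List.mem_cons_self)
    have m1 := (hz_mask φ (σ.M (ancI k' σ.k i)) (hσ _).1 (hσ _).2 _ (hy_tr_memLp φ h T k (tmL σ.k (ancI k' σ.k i)) σ.k f hf)).1
    have m2 := (hz_mask φ (σ.M (ancI k' σ.k i)) (hσ _).1 (hσ _).2 _ (hy_tr_memLp φ h T k (tmL σ.k (ancI k' σ.k i)) σ.k g hg)).1
    have := ih (fun σ' h' => hl σ' (List.mem_cons_of_mem _ h')) (tmL σ.k (ancI k' σ.k i)) σ.k _ _ m1 m2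
    show φ.br k' i l _ σ.k (fun ρ => ((σ.M (ancI k' σ.k i) ρ : ℝ) : ℂ) • φ.tr T k (tmL σ.k (ancI k' σ.k i)) σ.k (fun x => f x + g x) ρ) ρ = _
    simp only [hy_tr_add φ h T k _ σ.k f g hf hg, smul_add]
    exact this

theorem hz_br_zero (φ : HyF) (k' i : ℕ) (l : List HyStg) (T : ℝ) (k : ℕ) (ρ : ℝ × ℝ) :
    φ.br k' i l T k (fun _ => (0 : E)) ρ = 0 := by
  have ht : ∀ (T : ℝ) (k : ℕ) (T' : ℝ) (k' : ℕ) (ρ : ℝ × ℝ), φ.tr T k T' k' (fun _ => (0 : E)) ρ = 0 := by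
    intro T k T' k' ρ
    unfold HyF.tr
    simp
  induction l generalizing T k with
  | nil => exact ht _ _ _ _ _
  | cons σ l ih =>
    show φ.br k' i l _ σ.k (fun ρ => ((σ.M (ancI k' σ.k i) ρ : ℝ) : ℂ) • φ.tr T k (tmL σ.k (ancI k' σ.k i)) σ.k (fun _ => (0 : E)) ρ) ρ = _
    simp only [ht, smul_zero]
    exact ih _ _

theorem hz_br_sum' (φ : HyF) (h : φ.Ok) (k' i : ℕ) (l : List HyStg) (hl : ∀ σ ∈ l, σ.Ok) (T : ℝ) (k : ℕ) {ι : Type} (J : Finset ι) (f : ι → ℝ × ℝ → E)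
    (hf : ∀ j ∈ J, MemLp (f j) 2 φ.nu) (ρ : ℝ × ℝ) :
    φ.br k' i l T k (fun x => ∑ j ∈ J, f j x) ρ = ∑ j ∈ J, φ.br k' i l T k (f j) ρ := by
  classical
  induction J using Finset.induction_on with
  | empty =>
    simp only [Finset.sum_empty]
    exact hz_br_zero φ k' i l T k ρ
  | insert a J ha ih =>
    have h1 : MemLp (f a) 2 φ.nu := hf a (Finset.mem_insert_self _ _)
    have h2 : ∀ j ∈ J, MemLp (f j) 2 φ.nu := fun j hj => hf j (Finset.mem_insert_of_mem hj)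
    have h3 : MemLp (fun x => ∑ j ∈ J, f j x) 2 φ.nu := memLp_finsetSum J h2
    simp only [Finset.sum_insert ha]
    rw [hz_br_add φ h k' i l hl T k _ _ h1 h3, ih h2]

theorem hz_win_stage_ok (σ : HyStg) (hσ : σ.Ok) (θ W : ℝ) : (σ.win θ W).Ok := by
  intro i
  refine ⟨?_, fun ρ => ?_⟩
  · have hs : MeasurableSet {ρ : ℝ × ℝ | |ρ.2 - θ| ≤ W} := measurableSet_le (by fun_prop) measurable_const
    exact Measurable.ite hs (hσ i).1 measurable_const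
  · show 0 ≤ (if |ρ.2 - θ| ≤ W then σ.M i ρ else 0) ∧ (if |ρ.2 - θ| ≤ W then σ.M i ρ else 0) ≤ 1
    split_ifs
    · exact (hσ i).2 ρ
    · exact ⟨le_rfl, zero_le_one⟩

theorem hz_winL_map (φ : HyF) (θ W0 Λ : ℝ) (j : ℕ) (l : List HyStg) : (hzWinL φ θ W0 Λ j l).map HyStg.k = l.map HyStg.k := by
  induction l generalizing j with
  | nil => rfl
  | cons σ l ih =>
    show (σ.win θ _).k :: (hzWinL φ θ W0 Λ (j + 1) l).map HyStg.k = σ.k :: l.map HyStg.k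
    rw [ih]
    rfl

theorem hz_winL_mem (φ : HyF) (θ W0 Λ : ℝ) (j : ℕ) (l : List HyStg) (τ : HyStg) (hτ : τ ∈ hzWinL φ θ W0 Λ j l) :
    ∃ σ ∈ l, ∃ j' : ℕ, j ≤ j' ∧ j' + 1 ≤ j + l.length ∧ τ = σ.win θ (W0 + (j' + 1) * Λ * φ.d σ.k) := by
  induction l generalizing j with
  | nil => exact absurd hτ (List.not_mem_nil)
  | cons σ l ih =>
    rcases List.mem_cons.1 hτ with h1 | h1
    · exact ⟨σ, List.mem_cons_self, j, le_rfl, by simp, h1⟩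
    · obtain ⟨σ', m1, j', a1, a2, a3⟩ := ih (j + 1) h1
      refine ⟨σ', List.mem_cons_of_mem _ m1, j', by omega, ?_, a3⟩
      simp only [List.length_cons]
      omega

theorem hz_winL_ok' (φ : HyF) (h : φ.Ok) (k k' : ℕ) (l : List HyStg) (hl : HzStk k k' l) (θ W0 Λ : ℝ) (hΛ : 0 ≤ Λ) (j : ℕ) :
    HzStk k k' (hzWinL φ θ W0 Λ j l) ∧ (hzWinL φ θ W0 Λ j l).map HyStg.k = l.map HyStg.k ∧
      HzSup θ (fun κ => W0 + (j + l.length) * Λ * φ.d κ) (hzWinL φ θ W0 Λ j l) := by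
  refine ⟨⟨?_, ?_, ?_⟩, hz_winL_map φ θ W0 Λ j l, ?_⟩
  · intro τ hτ
    obtain ⟨σ, m1, j', -, -, rfl⟩ := hz_winL_mem φ θ W0 Λ j l τ hτ
    exact hz_win_stage_ok σ (hl.ok σ m1) _ _
  · intro τ hτ
    obtain ⟨σ, m1, j', -, -, rfl⟩ := hz_winL_mem φ θ W0 Λ j l τ hτ
    exact hl.dep σ m1
  · have h1 : (l.map HyStg.k).Pairwise (· ≤ ·) := List.pairwise_map.2 hl.mono
    rw [← hz_winL_map φ θ W0 Λ j l] at h1
    exact List.pairwise_map.1 h1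
  · intro τ hτ i ρ hρ
    obtain ⟨σ, m1, j', -, a2, rfl⟩ := hz_winL_mem φ θ W0 Λ j l τ hτ
    have hd := (hy_qd φ h σ.k).2.1
    have h2 : |ρ.2 - θ| ≤ W0 + (j' + 1) * Λ * φ.d σ.k := by
      by_contra hc
      apply hρ
      show (if |ρ.2 - θ| ≤ W0 + (j' + 1) * Λ * φ.d σ.k then σ.M i ρ else 0) = 0
      rw [if_neg hc]
    refine h2.trans ?_
    show W0 + (j' + 1) * Λ * φ.d σ.k ≤ W0 + (j + l.length) * Λ * φ.d σ.k
    have h3 : ((j' : ℝ) + 1) ≤ (j : ℝ) + l.length := by exact_mod_cast a2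
    have h4 : 0 ≤ Λ * φ.d σ.k := by positivity
    nlinarith

theorem hz_kr_enorm_le (φ : HyF) (h : φ.Ok) (T : ℝ) (k : ℕ) (T' : ℝ) (k' : ℕ) (hk : k ≤ k') (ht : |T' - T| ≤ (2 : ℝ)⁻¹ ^ k) (ρ' ρ : ℝ × ℝ) :
    ‖φ.kr T k T' k' ρ' ρ‖ₑ ≤ ENNReal.ofReal (φ.kb k k' (T' - T) ρ' ρ) := by
  rw [← ofReal_norm]
  exact ENNReal.ofReal_le_ofReal (hy_kr_le φ h T k T' k' hk ht ρ' ρ)

theorem hz_vel_step' (φ : HyF) (h : φ.Ok) (T : ℝ) (k : ℕ) (T' : ℝ) (k' : ℕ) (hk : k ≤ k') (ht : |T' - T| ≤ (2 : ℝ)⁻¹ ^ k) (θ W Λ : ℝ) (hΛ : 0 ≤ Λ)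
    (f : ℝ × ℝ → E) (hf : MemLp f 2 φ.nu) (hs : ∀ ρ, f ρ ≠ 0 → |ρ.2 - θ| ≤ W) :
    ∫⁻ ρ' in (hzVel θ (W + Λ * φ.d k'))ᶜ, ‖φ.tr T k T' k' f ρ'‖ₑ ^ 2 ∂φ.nu
      ≤ ENNReal.ofReal ((26 * Real.exp (-(Λ ^ 2 / 16))) ^ 2 * (φ.q k / φ.q k')) * ∫⁻ ρ, ‖f ρ‖ₑ ^ 2 ∂φ.nu := by
  have := hy_nu_sfinite φ
  have hq := (hy_qd φ h k).1
  have hq' := (hy_qd φ h k').1
  obtain ⟨Far, hFar⟩ : ∃ Far : Set ((ℝ × ℝ) × (ℝ × ℝ)), Far = {z | Λ * φ.d k' ≤ |z.2.2 - z.1.2|} := ⟨_, rfl⟩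
  have hFm : MeasurableSet Far := by
    rw [hFar]
    exact measurableSet_le measurable_const (by fun_prop)
  obtain ⟨K, hKd⟩ : ∃ K : ℝ × ℝ → ℝ × ℝ → ℂ, K = fun ρ' ρ => Far.indicator (Function.uncurry (φ.kr T k T' k')) (ρ', ρ) := ⟨_, rfl⟩
  have hK : Measurable (Function.uncurry K) := by
    have : Function.uncurry K = Far.indicator (Function.uncurry (φ.kr T k T' k')) := by
      rw [hKd]
      rfl
    rw [this]
    exact (hy_kr_meas φ h T k T' k').indicator hFm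
  have hKe : ∀ ρ' ρ, ‖K ρ' ρ‖ₑ = Far.indicator (fun z => ‖φ.kr T k T' k' z.1 z.2‖ₑ) (ρ', ρ) := by
    intro ρ' ρ
    rw [hKd]
    by_cases hz : (ρ', ρ) ∈ Far
    · simp only [Set.indicator_of_mem hz, Function.uncurry_apply_pair]
    · simp only [Set.indicator_of_notMem hz, enorm_zero]
  have b1 : ∀ ρ', ∫⁻ ρ, ‖K ρ' ρ‖ₑ ∂φ.nu ≤ ENNReal.ofReal (26 * Real.exp (-(Λ ^ 2 / 16)) * Real.sqrt (φ.q k / φ.q k')) := by
    intro ρ'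
    refine le_trans (le_of_eq ?_) ((lintegral_mono fun ρ => hz_kr_enorm_le φ h T k T' k' hk ht ρ' ρ).trans
      (hy_kb_src_farN φ h k k' (T' - T) Λ hΛ ρ'))
    have hm : MeasurableSet {ρ : ℝ × ℝ | Λ * φ.d k' ≤ |ρ.2 - ρ'.2|} := measurableSet_le measurable_const (by fun_prop)
    rw [← lintegral_indicator hm]
    refine lintegral_congr fun ρ => ?_
    rw [hKe, hFar]
    rfl
  have b2 : ∀ ρ, ∫⁻ ρ', ‖K ρ' ρ‖ₑ ∂φ.nu ≤ ENNReal.ofReal (26 * Real.exp (-(Λ ^ 2 / 16)) * Real.sqrt (φ.q k / φ.q k')) := by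
    intro ρ
    refine le_trans (le_of_eq ?_) ((lintegral_mono fun ρ' => hz_kr_enorm_le φ h T k T' k' hk ht ρ' ρ).trans
      (hy_kb_tgt_farN φ h k k' (T' - T) Λ hΛ ρ))
    have hm : MeasurableSet {ρ' : ℝ × ℝ | Λ * φ.d k' ≤ |ρ.2 - ρ'.2|} := measurableSet_le measurable_const (by fun_prop)
    rw [← lintegral_indicator hm]
    refine lintegral_congr fun ρ' => ?_
    rw [hKe, hFar]
    rfl
  have h1 := hy_schur φ.nu φ.nu K hK f hf.1 _ _ b1 b2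
  have hc : ENNReal.ofReal (26 * Real.exp (-(Λ ^ 2 / 16)) * Real.sqrt (φ.q k / φ.q k')) *
      ENNReal.ofReal (26 * Real.exp (-(Λ ^ 2 / 16)) * Real.sqrt (φ.q k / φ.q k')) =
      ENNReal.ofReal ((26 * Real.exp (-(Λ ^ 2 / 16))) ^ 2 * (φ.q k / φ.q k')) := by
    rw [← ENNReal.ofReal_mul (by positivity)]
    congr 1
    have := Real.mul_self_sqrt (show 0 ≤ φ.q k / φ.q k' by positivity)
    calc _ = (26 * Real.exp (-(Λ ^ 2 / 16))) ^ 2 * (Real.sqrt (φ.q k / φ.q k') * Real.sqrt (φ.q k / φ.q k')) := by ring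
      _ = _ := by rw [this]
  rw [hc] at h1
  refine le_trans ?_ h1
  have hVm : MeasurableSet (hzVel θ (W + Λ * φ.d k'))ᶜ := by
    unfold hzVel
    exact (measurableSet_le (by fun_prop) measurable_const).compl
  refine le_trans (le_of_eq ?_) (setLIntegral_le_lintegral (hzVel θ (W + Λ * φ.d k'))ᶜ _)
  refine setLIntegral_congr_fun hVm fun ρ' hρ' => ?_
  congr 2
  unfold HyF.tr
  refine integral_congr_ae (Filter.Eventually.of_forall fun ρ => ?_)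
  show φ.kr T k T' k' ρ' ρ • f ρ = K ρ' ρ • f ρ
  by_cases hfρ : f ρ = 0
  · rw [hfρ, smul_zero, smul_zero]
  · have h2 := hs ρ hfρ
    have h3 : W + Λ * φ.d k' < |ρ'.2 - θ| := not_le.1 hρ'
    have h4 : (ρ', ρ) ∈ Far := by
      rw [hFar]
      show Λ * φ.d k' ≤ |ρ.2 - ρ'.2|
      have := abs_sub_abs_le_abs_sub (ρ'.2 - θ) (ρ.2 - θ)
      rw [show ρ'.2 - θ - (ρ.2 - θ) = -(ρ.2 - ρ'.2) by ring, abs_neg] at this
      linarith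
    rw [hKd]
    simp only [Set.indicator_of_mem h4, Function.uncurry_apply_pair]

/-- a branch maps `L²` to `L²` and is a contraction (induction with `hy_tr_contr`, `hy_tr_memLp`; masks are in `[0,1]`).  ~200 l. -/
theorem hz_br_contr (φ : HyF) (h : φ.Ok) (k' i : ℕ) (l : List HyStg) (hl : ∀ σ ∈ l, σ.Ok) (T : ℝ) (k : ℕ) (f : ℝ × ℝ → E) (hf : MemLp f 2 φ.nu) :
    MemLp (φ.br k' i l T k f) 2 φ.nu ∧ ∫⁻ ρ, ‖φ.br k' i l T k f ρ‖ₑ ^ 2 ∂φ.nu ≤ ∫⁻ ρ, ‖f ρ‖ₑ ^ 2 ∂φ.nu :=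
  hz_br_contr' φ h k' i l hl T k f hf

/-- a branch is additive (induction with `hy_tr_sub`).  ~120 l. -/
theorem hz_br_sub (φ : HyF) (h : φ.Ok) (k' i : ℕ) (l : List HyStg) (hl : ∀ σ ∈ l, σ.Ok) (T : ℝ) (k : ℕ) (f g : ℝ × ℝ → E)
    (hf : MemLp f 2 φ.nu) (hg : MemLp g 2 φ.nu) (ρ : ℝ × ℝ) :
    φ.br k' i l T k (fun x => f x - g x) ρ = φ.br k' i l T k f ρ - φ.br k' i l T k g ρ :=
  hz_br_sub' φ h k' i l hl T k f g hf hg ρ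

/-- finite sums -/
theorem hz_br_sum (φ : HyF) (h : φ.Ok) (k' i : ℕ) (l : List HyStg) (hl : ∀ σ ∈ l, σ.Ok) (T : ℝ) (k : ℕ) {ι : Type} (J : Finset ι) (f : ι → ℝ × ℝ → E)
    (hf : ∀ j ∈ J, MemLp (f j) 2 φ.nu) (ρ : ℝ × ℝ) :
    φ.br k' i l T k (fun x => ∑ j ∈ J, f j x) ρ = ∑ j ∈ J, φ.br k' i l T k (f j) ρ :=
  hz_br_sum' φ h k' i l hl T k J f hf ρ

/-- **(V0)** one transfer: rows outside the enlarged velocity window.   `hy_kr_le`, `hy_kb_src_farN`, `hy_kb_tgt_farN`, `hy_schur` with the kernel `1_{far} kr`.  ~200 l. -/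
theorem hz_vel_step (φ : HyF) (h : φ.Ok) (T : ℝ) (k : ℕ) (T' : ℝ) (k' : ℕ) (hk : k ≤ k') (ht : |T' - T| ≤ (2 : ℝ)⁻¹ ^ k) (θ W Λ : ℝ) (hΛ : 0 ≤ Λ)
    (f : ℝ × ℝ → E) (hf : MemLp f 2 φ.nu) (hs : ∀ ρ, f ρ ≠ 0 → |ρ.2 - θ| ≤ W) :
    ∫⁻ ρ' in (hzVel θ (W + Λ * φ.d k'))ᶜ, ‖φ.tr T k T' k' f ρ'‖ₑ ^ 2 ∂φ.nu
      ≤ ENNReal.ofReal ((26 * Real.exp (-(Λ ^ 2 / 16))) ^ 2 * (φ.q k / φ.q k')) * ∫⁻ ρ, ‖f ρ‖ₑ ^ 2 ∂φ.nu :=
  hz_vel_step' φ h T k T' k' hk ht θ W Λ hΛ f hf hs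

/-! ### FT1 -/

theorem hz_elp_sq {X : Type*} [MeasurableSpace X] (μ : Measure X) {E' : Type*} [NormedAddCommGroup E'] (f : X → E') :
    eLpNorm f 2 μ ^ 2 = ∫⁻ x, ‖f x‖ₑ ^ 2 ∂μ := by
  rw [eLpNorm_eq_lintegral_rpow_enorm_toReal (by norm_num) (by norm_num), ← ENNReal.rpow_natCast, ← ENNReal.rpow_mul]
  simp

theorem hz_elp_le {X : Type*} [MeasurableSpace X] (μ : Measure X) {E' E'' : Type*} [NormedAddCommGroup E'] [NormedAddCommGroup E'']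
    (f : X → E') (g : X → E'') (c : ℝ) (hc : 0 ≤ c) (h : ∫⁻ x, ‖f x‖ₑ ^ 2 ∂μ ≤ ENNReal.ofReal (c ^ 2) * ∫⁻ x, ‖g x‖ₑ ^ 2 ∂μ) :
    eLpNorm f 2 μ ≤ ENNReal.ofReal c * eLpNorm g 2 μ := by
  rw [← hz_elp_sq, ← hz_elp_sq, ENNReal.ofReal_pow hc, ← mul_pow] at h
  exact (ENNReal.pow_le_pow_left_iff two_ne_zero).1 h

theorem hz_elp_le_one {X : Type*} [MeasurableSpace X] (μ : Measure X) {E' E'' : Type*} [NormedAddCommGroup E'] [NormedAddCommGroup E'']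
    (f : X → E') (g : X → E'') (h : ∫⁻ x, ‖f x‖ₑ ^ 2 ∂μ ≤ ∫⁻ x, ‖g x‖ₑ ^ 2 ∂μ) : eLpNorm f 2 μ ≤ eLpNorm g 2 μ := by
  rw [← hz_elp_sq, ← hz_elp_sq] at h
  exact (ENNReal.pow_le_pow_left_iff two_ne_zero).1 h

theorem hz_q_ratio (φ : HyF) (h : φ.Ok) (k k1 : ℕ) : Real.sqrt (φ.q k / φ.q k1) = 2 ^ (((k1 : ℝ) - k) / 4) := by
  obtain ⟨hq, -, -, -, hq2, -⟩ := hy_qd φ h k
  obtain ⟨hq1, -, -, -, hq12, -⟩ := hy_qd φ h k1
  have hH := h.H_pos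
  have hr : φ.q k / φ.q k1 = 2 ^ (((k1 : ℝ) - k) / 2) := by
    refine (pow_left_inj₀ (by positivity) (by positivity) two_ne_zero).1 ?_
    rw [div_pow, hq2, hq12, ← Real.rpow_natCast (2 ^ (((k1 : ℝ) - k) / 2)), ← Real.rpow_mul (by norm_num),
      show ((k1 : ℝ) - k) / 2 * ((2 : ℕ) : ℝ) = (k1 : ℝ) - k by push_cast; ring, Real.rpow_sub (by norm_num), Real.rpow_natCast,
      Real.rpow_natCast, inv_pow, inv_pow]
    field_simp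
  rw [hr, Real.sqrt_eq_rpow, ← Real.rpow_mul (by norm_num)]
  congr 1
  ring

theorem hz_stk_tail {k k' : ℕ} {σ : HyStg} {l : List HyStg} (hl : HzStk k k' (σ :: l)) : HzStk σ.k k' l := by
  refine ⟨fun τ hτ => hl.ok τ (List.mem_cons_of_mem _ hτ), fun τ hτ => ⟨?_, (hl.dep τ (List.mem_cons_of_mem _ hτ)).2⟩, ?_⟩
  · exact (List.pairwise_cons.1 hl.mono).1 τ hτ
  · exact (List.pairwise_cons.1 hl.mono).2

theorem hz_time_le (k k1 k' i : ℕ) (h1 : k ≤ k1) (h2 : k1 ≤ k') :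
    |tmL k1 (ancI k' k1 i) - tmL k (ancI k' k i)| ≤ (2 : ℝ)⁻¹ ^ k := by
  obtain ⟨a1, a2, -, -⟩ := hz_anc_time k k1 k' i h1 h2
  have : (0 : ℝ) < (2 : ℝ)⁻¹ ^ k1 := by positivity
  rw [abs_of_nonneg (by linarith)]
  linarith

theorem hz_win' (φ : HyF) (h : φ.Ok) (k' i : ℕ) (l : List HyStg) (k : ℕ) (hl : HzStk k k' l) (θ W0 Λ : ℝ) (hΛ : 0 ≤ Λ) (j : ℕ)
    (f : ℝ × ℝ → E) (hf : MemLp f 2 φ.nu) (hs : ∀ ρ, f ρ ≠ 0 → |ρ.2 - θ| ≤ W0 + j * Λ * φ.d k) :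
    eLpNorm (fun ρ => φ.br k' i l (tmL k (ancI k' k i)) k f ρ - φ.br k' i (hzWinL φ θ W0 Λ j l) (tmL k (ancI k' k i)) k f ρ) 2 φ.nu
      ≤ ENNReal.ofReal (l.length * 26 * Real.exp (-(Λ ^ 2 / 16)) * 2 ^ (((k' : ℝ) - k) / 4)) * eLpNorm f 2 φ.nu := by
  induction l generalizing k j f with
  | nil =>
    have : (fun ρ => φ.br k' i [] (tmL k (ancI k' k i)) k f ρ - φ.br k' i (hzWinL φ θ W0 Λ j []) (tmL k (ancI k' k i)) k f ρ)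
        = fun _ => (0 : E) := by
      funext ρ
      exact sub_self _
    rw [this]
    simp
  | cons σ l ih =>
    have hσk := hl.dep σ List.mem_cons_self
    have hσ := hl.ok σ List.mem_cons_self
    have hl' := hz_stk_tail hl
    obtain ⟨a, ha⟩ : ∃ a : ℕ, a = ancI k' σ.k i := ⟨_, rfl⟩
    obtain ⟨Tk, hTk⟩ : ∃ Tk : ℝ, Tk = tmL k (ancI k' k i) := ⟨_, rfl⟩
    obtain ⟨W1, hW1⟩ : ∃ W1 : ℝ, W1 = W0 + ((j : ℝ) + 1) * Λ * φ.d σ.k := ⟨_, rfl⟩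
    have ht : |tmL σ.k a - Tk| ≤ (2 : ℝ)⁻¹ ^ k := by
      rw [ha, hTk]
      exact hz_time_le k σ.k k' i hσk.1 hσk.2
    obtain ⟨g, hg⟩ : ∃ g : ℝ × ℝ → E, g = φ.tr Tk k (tmL σ.k a) σ.k f := ⟨_, rfl⟩
    have hgm : MemLp g 2 φ.nu := by rw [hg]; exact hy_tr_memLp φ h Tk k _ σ.k f hf
    have hgc : ∫⁻ ρ, ‖g ρ‖ₑ ^ 2 ∂φ.nu ≤ ∫⁻ ρ, ‖f ρ‖ₑ ^ 2 ∂φ.nu := by rw [hg]; exact hy_tr_contr φ h Tk k _ σ.k f hf
    obtain ⟨fM, hfM⟩ : ∃ fM : ℝ × ℝ → E, fM = fun ρ => ((σ.M a ρ : ℝ) : ℂ) • g ρ := ⟨_, rfl⟩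
    obtain ⟨fW, hfW⟩ : ∃ fW : ℝ × ℝ → E, fW = fun ρ => (((σ.win θ W1).M a ρ : ℝ) : ℂ) • g ρ := ⟨_, rfl⟩
    have hσw := hz_win_stage_ok σ hσ θ W1
    obtain ⟨mM, -⟩ := hz_mask φ (σ.M a) (hσ a).1 (hσ a).2 g hgm
    obtain ⟨mW, cW⟩ := hz_mask φ ((σ.win θ W1).M a) (hσw a).1 (hσw a).2 g hgm
    rw [← hfM] at mM
    rw [← hfW] at mW
    have hlok : ∀ τ ∈ l, τ.Ok := hl'.ok
    have hlwok : ∀ τ ∈ hzWinL φ θ W0 Λ (j + 1) l, τ.Ok := (hz_winL_ok' φ h σ.k k' l hl' θ W0 Λ hΛ (j + 1)).1.ok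
    -- the decomposition
    have hdec : (fun ρ => φ.br k' i (σ :: l) Tk k f ρ - φ.br k' i (hzWinL φ θ W0 Λ j (σ :: l)) Tk k f ρ) =
        fun ρ => φ.br k' i l (tmL σ.k a) σ.k (fun x => fM x - fW x) ρ +
          (φ.br k' i l (tmL σ.k a) σ.k fW ρ - φ.br k' i (hzWinL φ θ W0 Λ (j + 1) l) (tmL σ.k a) σ.k fW ρ) := by
      funext ρ
      rw [hz_br_sub φ h k' i l hlok _ _ fM fW mM mW]
      have e1 : φ.br k' i (σ :: l) Tk k f ρ = φ.br k' i l (tmL σ.k a) σ.k fM ρ := by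
        rw [hfM, hg, ha]
        rfl
      have e2 : φ.br k' i (hzWinL φ θ W0 Λ j (σ :: l)) Tk k f ρ = φ.br k' i (hzWinL φ θ W0 Λ (j + 1) l) (tmL σ.k a) σ.k fW ρ := by
        rw [hfW, hg, ha, hW1]
        rfl
      rw [e1, e2]
      abel
    rw [← hTk, hdec]
    obtain ⟨c0, hc0⟩ : ∃ c0 : ℝ, c0 = 26 * Real.exp (-(Λ ^ 2 / 16)) := ⟨_, rfl⟩
    have hc0p : 0 ≤ c0 := by rw [hc0]; positivity
    obtain ⟨P, hP⟩ : ∃ P : ℝ, P = 2 ^ (((k' : ℝ) - k) / 4) := ⟨_, rfl⟩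
    have hPp : 0 ≤ P := by rw [hP]; positivity
    -- first term
    have t1 : eLpNorm (φ.br k' i l (tmL σ.k a) σ.k (fun x => fM x - fW x)) 2 φ.nu ≤ ENNReal.ofReal (c0 * P) * eLpNorm f 2 φ.nu := by
      have hsub : MemLp (fun x => fM x - fW x) 2 φ.nu := mM.sub mW
      refine (hz_elp_le_one _ _ _ (hz_br_contr φ h k' i l hlok _ _ _ hsub).2).trans ?_
      have hd := (hy_qd_mono φ h hσk.1).2
      have hdk := (hy_qd φ h k).2.1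
      have v := hz_vel_step φ h Tk k (tmL σ.k a) σ.k hσk.1 ht θ (W0 + j * Λ * φ.d k) Λ hΛ f hf hs
      rw [← hg] at v
      have hVm : MeasurableSet (hzVel θ (W0 + j * Λ * φ.d k + Λ * φ.d σ.k))ᶜ := by
        unfold hzVel
        exact (measurableSet_le (by fun_prop) measurable_const).compl
      have hle : ∫⁻ ρ, ‖fM ρ - fW ρ‖ₑ ^ 2 ∂φ.nu ≤ ∫⁻ ρ in (hzVel θ (W0 + j * Λ * φ.d k + Λ * φ.d σ.k))ᶜ, ‖g ρ‖ₑ ^ 2 ∂φ.nu := by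
        rw [← lintegral_indicator hVm]
        refine lintegral_mono fun ρ => ?_
        by_cases hρ : |ρ.2 - θ| ≤ W1
        · have : fM ρ - fW ρ = 0 := by
            rw [hfM, hfW]
            show ((σ.M a ρ : ℝ) : ℂ) • g ρ - (((if |ρ.2 - θ| ≤ W1 then σ.M a ρ else 0 : ℝ)) : ℂ) • g ρ = 0
            rw [if_pos hρ, sub_self]
          rw [this]
          simp
        · have hmem : ρ ∈ (hzVel θ (W0 + j * Λ * φ.d k + Λ * φ.d σ.k))ᶜ := by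
            intro hc
            apply hρ
            have hc' : |ρ.2 - θ| ≤ W0 + j * Λ * φ.d k + Λ * φ.d σ.k := hc
            refine hc'.trans ?_
            rw [hW1]
            have : (j : ℝ) * Λ * φ.d k ≤ j * Λ * φ.d σ.k := mul_le_mul_of_nonneg_left hd (by positivity)
            linarith
          rw [Set.indicator_of_mem hmem]
          have : fM ρ - fW ρ = ((σ.M a ρ : ℝ) : ℂ) • g ρ := by
            rw [hfM, hfW]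
            show ((σ.M a ρ : ℝ) : ℂ) • g ρ - (((if |ρ.2 - θ| ≤ W1 then σ.M a ρ else 0 : ℝ)) : ℂ) • g ρ = _
            rw [if_neg hρ]
            simp
          rw [this]
          exact pow_le_pow_left₀ bot_le ((hz_mask φ (σ.M a) (hσ a).1 (hσ a).2 g hgm).2 ρ) 2
      have hr := hz_q_ratio φ h k σ.k
      have hrP : Real.sqrt (φ.q k / φ.q σ.k) ≤ P := by
        rw [hr, hP]
        refine Real.rpow_le_rpow_of_exponent_le (by norm_num) ?_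
        have : (σ.k : ℝ) ≤ k' := by exact_mod_cast hσk.2
        linarith
      have hq := (hy_qd φ h k).1
      have hq1 := (hy_qd φ h σ.k).1
      refine hz_elp_le _ _ _ (c0 * P) (by positivity) ((hle.trans v).trans ?_)
      gcongr
      rw [← hc0, mul_pow]
      refine mul_le_mul_of_nonneg_left ?_ (by positivity)
      calc φ.q k / φ.q σ.k = Real.sqrt (φ.q k / φ.q σ.k) ^ 2 := (Real.sq_sqrt (by positivity)).symm
        _ ≤ P ^ 2 := pow_le_pow_left₀ (Real.sqrt_nonneg _) hrP 2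
    -- second term
    have t2 : eLpNorm (fun ρ => φ.br k' i l (tmL σ.k a) σ.k fW ρ - φ.br k' i (hzWinL φ θ W0 Λ (j + 1) l) (tmL σ.k a) σ.k fW ρ) 2 φ.nu
        ≤ ENNReal.ofReal (l.length * c0 * P) * eLpNorm f 2 φ.nu := by
      have hsW : ∀ ρ, fW ρ ≠ 0 → |ρ.2 - θ| ≤ W0 + ((j + 1 : ℕ) : ℝ) * Λ * φ.d σ.k := by
        intro ρ hρ
        by_contra hc
        apply hρ
        rw [hfW]
        show (((if |ρ.2 - θ| ≤ W1 then σ.M a ρ else 0 : ℝ)) : ℂ) • g ρ = 0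
        rw [if_neg (by rw [hW1]; push_cast at hc; exact hc)]
        simp
      have hi := ih σ.k hl' (j + 1) fW mW hsW
      rw [← ha] at hi
      refine hi.trans ?_
      have n1 : eLpNorm fW 2 φ.nu ≤ eLpNorm f 2 φ.nu := by
        refine hz_elp_le_one _ _ _ (le_trans (lintegral_mono fun ρ => ?_) hgc)
        rw [hfW]
        exact pow_le_pow_left₀ bot_le (cW ρ) 2
      refine mul_le_mul' (ENNReal.ofReal_le_ofReal ?_) n1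
      have : (2 : ℝ) ^ (((k' : ℝ) - σ.k) / 4) ≤ P := by
        rw [hP]
        refine Real.rpow_le_rpow_of_exponent_le (by norm_num) ?_
        have : (k : ℝ) ≤ σ.k := by exact_mod_cast hσk.1
        linarith
      calc (l.length : ℝ) * 26 * Real.exp (-(Λ ^ 2 / 16)) * 2 ^ (((k' : ℝ) - σ.k) / 4)
          = (l.length * c0) * 2 ^ (((k' : ℝ) - σ.k) / 4) := by rw [hc0]; ring
        _ ≤ (l.length * c0) * P := mul_le_mul_of_nonneg_left this (by positivity)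
    have s1 : AEStronglyMeasurable (φ.br k' i l (tmL σ.k a) σ.k (fun x => fM x - fW x)) φ.nu :=
      (hz_br_contr φ h k' i l hlok _ _ _ (mM.sub mW)).1.1
    have s2 : AEStronglyMeasurable (fun ρ => φ.br k' i l (tmL σ.k a) σ.k fW ρ - φ.br k' i (hzWinL φ θ W0 Λ (j + 1) l) (tmL σ.k a) σ.k fW ρ) φ.nu :=
      (hz_br_contr φ h k' i l hlok _ _ _ mW).1.1.sub (hz_br_contr φ h k' i _ hlwok _ _ _ mW).1.1
    refine (eLpNorm_add_le s1 s2 (by norm_num)).trans ((add_le_add t1 t2).trans (le_of_eq ?_))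
    rw [← add_mul, ← ENNReal.ofReal_add (by positivity) (by positivity), ← hP]
    congr 2
    simp only [List.length_cons]
    push_cast
    rw [hc0]
    ring

/-- **(FT1) VELOCITY WINDOWS.**   Induction on the stack:  `br (σ::l) f - br (σʷ::lʷ) f = br l ((M - Mʷ) tr f) + (br l f₁ʷ - br lʷ f₁ʷ)`, `f₁ʷ = Mʷ tr f`;  first term: `hz_br_contr` + `hz_vel_step`
(`W_{j+1} ≥ W_j + Λ d(σ.k)` since `d` increases with the depth);  second term: induction hypothesis, `‖f₁ʷ‖ ≤ ‖f‖`.   `q k / q k₁ = 2^((k₁-k)/2)`.   ~350 l. -/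
theorem hz_win (φ : HyF) (h : φ.Ok) (k' i : ℕ) (l : List HyStg) (k : ℕ) (hl : HzStk k k' l) (θ W0 Λ : ℝ) (hΛ : 0 ≤ Λ) (j : ℕ)
    (f : ℝ × ℝ → E) (hf : MemLp f 2 φ.nu) (hs : ∀ ρ, f ρ ≠ 0 → |ρ.2 - θ| ≤ W0 + j * Λ * φ.d k) :
    eLpNorm (fun ρ => φ.br k' i l (tmL k (ancI k' k i)) k f ρ - φ.br k' i (hzWinL φ θ W0 Λ j l) (tmL k (ancI k' k i)) k f ρ) 2 φ.nu
      ≤ ENNReal.ofReal (l.length * 26 * Real.exp (-(Λ ^ 2 / 16)) * 2 ^ (((k' : ℝ) - k) / 4)) * eLpNorm f 2 φ.nu :=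
  hz_win' φ h k' i l k hl θ W0 Λ hΛ j f hf hs

/-- the windowed stack is admissible and supported in the windows -/
theorem hz_winL_ok (φ : HyF) (h : φ.Ok) (k k' : ℕ) (l : List HyStg) (hl : HzStk k k' l) (θ W0 Λ : ℝ) (hΛ : 0 ≤ Λ) (j : ℕ) :
    HzStk k k' (hzWinL φ θ W0 Λ j l) ∧ (hzWinL φ θ W0 Λ j l).map HyStg.k = l.map HyStg.k ∧
      HzSup θ (fun κ => W0 + (j + l.length) * Λ * φ.d κ) (hzWinL φ θ W0 Λ j l) := hz_winL_ok' φ h k k' l hl θ W0 Λ hΛ j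

/-! ### E1 -/

theorem hz_bin_meas (x R : ℝ) : MeasurableSet (hzBin x R) := by
  unfold hzBin
  exact measurableSet_le (by fun_prop) measurable_const

theorem hz_env_step' (φ : HyF) (h : φ.Ok) (T : ℝ) (k : ℕ) (T' : ℝ) (k' : ℕ) (hk : k ≤ k') (ht : |T' - T| ≤ (2 : ℝ)⁻¹ ^ k) (θ Λ : ℝ) (hΛ : 1 ≤ Λ)
    (f : ℝ × ℝ → E) (hf : MemLp f 2 φ.nu) (hs : ∀ ρ, f ρ ≠ 0 → |ρ.2 - θ| ≤ Λ * φ.d k) (x R : ℝ) (hR : 0 ≤ R) :
    ∫⁻ ρ' in hzBin x R, ‖φ.tr T k T' k' f ρ'‖ₑ ^ 2 ∂φ.nu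
      ≤ ENNReal.ofReal (34 * Λ * (R / φ.q k)) *
        (∫⁻ ρ in hzBin (x - (T' - T) * θ) (R + 2 * Λ * φ.q k), ‖f ρ‖ₑ ^ 2 ∂φ.nu + ENNReal.ofReal (Real.exp (-(Λ ^ 2 / 20))) * ∫⁻ ρ, ‖f ρ‖ₑ ^ 2 ∂φ.nu) := by
  have := hy_nu_sfinite φ
  obtain ⟨hq, hd, -, hql, -, -⟩ := hy_qd φ h k
  have hq' := (hy_qd φ h k').1
  have hΛ0 : 0 ≤ Λ := by linarith
  obtain ⟨t, htd⟩ : ∃ t : ℝ, t = T' - T := ⟨_, rfl⟩
  rw [← htd] at ht ⊢
  obtain ⟨S, hS⟩ : ∃ S : Set (ℝ × ℝ), S = {ρ | |ρ.2 - θ| ≤ Λ * φ.d k} := ⟨_, rfl⟩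
  have hSm : MeasurableSet S := by
    rw [hS]
    exact measurableSet_le (by fun_prop) measurable_const
  obtain ⟨kbE, hkbE⟩ : ∃ kbE : ℝ × ℝ → ℝ × ℝ → ℝ≥0∞, kbE = fun ρ' ρ => ENNReal.ofReal (φ.kb k k' t ρ' ρ) := ⟨_, rfl⟩
  have hkbm : Measurable (Function.uncurry kbE) := by
    rw [hkbE]
    exact ENNReal.measurable_ofReal.comp (hy_kb_cont φ k k' t).measurable
  have hkle : ∀ ρ' ρ, ‖φ.kr T k T' k' ρ' ρ‖ₑ ≤ kbE ρ' ρ := by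
    intro ρ' ρ
    rw [hkbE, htd]
    exact hz_kr_enorm_le φ h T k T' k' hk (by rw [← htd]; exact ht) ρ' ρ
  obtain ⟨A, hA⟩ : ∃ A : ℝ≥0∞, A = ENNReal.ofReal (36 / 5 * Real.sqrt (φ.q k' / φ.q k) * Λ) := ⟨_, rfl⟩
  obtain ⟨B, hB⟩ : ∃ B : ℝ≥0∞, B = ENNReal.ofReal (23 / 5 * Real.sqrt (φ.q k' / φ.q k) * (R / φ.q k')) := ⟨_, rfl⟩
  obtain ⟨e, he⟩ : ∃ e : ℝ≥0∞, e = ENNReal.ofReal (Real.exp (-(Λ ^ 2 / 20))) := ⟨_, rfl⟩
  rw [← he]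
  have hf2 : AEMeasurable (fun ρ => ‖f ρ‖ₑ ^ 2) φ.nu := hf.1.enorm.pow_const 2
  -- step 1
  have s1 : ∀ ρ', ‖φ.tr T k T' k' f ρ'‖ₑ ^ 2 ≤ A * ∫⁻ ρ, kbE ρ' ρ * ‖f ρ‖ₑ ^ 2 ∂φ.nu := by
    intro ρ'
    have hkm : Measurable (φ.kr T k T' k' ρ') := (hy_kr_meas φ h T k T' k').of_uncurry_left
    have e1 : φ.tr T k T' k' f ρ' = ∫ ρ, S.indicator (φ.kr T k T' k' ρ') ρ • f ρ ∂φ.nu := by
      unfold HyF.tr
      refine integral_congr_ae (Filter.Eventually.of_forall fun ρ => ?_)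
      show φ.kr T k T' k' ρ' ρ • f ρ = S.indicator (φ.kr T k T' k' ρ') ρ • f ρ
      by_cases hfρ : f ρ = 0
      · rw [hfρ, smul_zero, smul_zero]
      · rw [Set.indicator_of_mem (show ρ ∈ S by rw [hS]; exact hs ρ hfρ)]
    rw [e1]
    refine (hy_cs φ.nu _ (hkm.indicator hSm).aemeasurable f hf.1).trans (mul_le_mul' ?_ ?_)
    · have e2 : ∫⁻ ρ, ‖S.indicator (φ.kr T k T' k' ρ') ρ‖ₑ ∂φ.nu ≤ ∫⁻ ρ in S, kbE ρ' ρ ∂φ.nu := by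
        rw [← lintegral_indicator hSm]
        refine lintegral_mono fun ρ => ?_
        by_cases hρ : ρ ∈ S
        · rw [Set.indicator_of_mem hρ, Set.indicator_of_mem hρ]
          exact hkle ρ' ρ
        · rw [Set.indicator_of_notMem hρ, Set.indicator_of_notMem hρ, enorm_zero]
      refine e2.trans ?_
      have e3 := hy_kb_src_win φ h k k' t θ (Λ * φ.d k) (by positivity) ρ'
      rw [hS, hkbE, hA]
      refine e3.trans (le_of_eq ?_)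
      congr 2
      field_simp
    · refine lintegral_mono fun ρ => mul_le_mul' ?_ le_rfl
      by_cases hρ : ρ ∈ S
      · rw [Set.indicator_of_mem hρ]
        exact hkle ρ' ρ
      · rw [Set.indicator_of_notMem hρ, enorm_zero]
        exact bot_le
  -- step 3
  have s3 : ∀ ρ, (∫⁻ ρ' in hzBin x R, kbE ρ' ρ ∂φ.nu) * ‖f ρ‖ₑ ^ 2 ≤
      B * ((hzBin (x - t * θ) (R + 2 * Λ * φ.q k)).indicator (fun ρ => ‖f ρ‖ₑ ^ 2) ρ + e * ‖f ρ‖ₑ ^ 2) := by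
    intro ρ
    by_cases hfρ : f ρ = 0
    · rw [hfρ]
      simp
    have hρS := hs ρ hfρ
    by_cases hb : ρ ∈ hzBin (x - t * θ) (R + 2 * Λ * φ.q k)
    · rw [Set.indicator_of_mem hb, mul_add]
      refine le_trans (mul_le_mul' ?_ le_rfl) le_self_add
      rw [hkbE, hB]
      exact hy_kb_tgt_bin φ h k k' t x R hR ρ
    · rw [Set.indicator_of_notMem hb, zero_add, ← mul_assoc]
      refine mul_le_mul' ?_ le_rfl
      have hb' : R + 2 * Λ * φ.q k < |ρ.1 - (x - t * θ)| := not_le.1 hb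
      have hfar : R + Λ * φ.q k ≤ |ρ.1 + t * ρ.2 - x| := by
        have h1 : |t * (ρ.2 - θ)| ≤ Λ * φ.q k := by
          rw [abs_mul, hql]
          calc |t| * |ρ.2 - θ| ≤ (2 : ℝ)⁻¹ ^ k * (Λ * φ.d k) := mul_le_mul ht hρS (abs_nonneg _) (by positivity)
            _ = Λ * ((2 : ℝ)⁻¹ ^ k * φ.d k) := by ring
        have h2 := abs_sub_abs_le_abs_sub (ρ.1 - (x - t * θ)) (-(t * (ρ.2 - θ)))
        rw [abs_neg, show ρ.1 - (x - t * θ) - -(t * (ρ.2 - θ)) = ρ.1 + t * ρ.2 - x by ring] at h2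
        linarith
      have h3 := hy_kb_tgt_bin_far φ h k k' t x R Λ hR hΛ0 ρ hfar
      rw [hkbE, hB, he, ← ENNReal.ofReal_mul (by positivity)]
      refine h3.trans (le_of_eq ?_)
      congr 1
      ring
  have hmm : AEMeasurable (Function.uncurry fun ρ' ρ => kbE ρ' ρ * ‖f ρ‖ₑ ^ 2) ((φ.nu.restrict (hzBin x R)).prod φ.nu) :=
    hkbm.aemeasurable.mul hf2.comp_snd
  calc ∫⁻ ρ' in hzBin x R, ‖φ.tr T k T' k' f ρ'‖ₑ ^ 2 ∂φ.nu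
      ≤ ∫⁻ ρ' in hzBin x R, A * ∫⁻ ρ, kbE ρ' ρ * ‖f ρ‖ₑ ^ 2 ∂φ.nu ∂φ.nu := lintegral_mono fun ρ' => s1 ρ'
    _ = A * ∫⁻ ρ' in hzBin x R, ∫⁻ ρ, kbE ρ' ρ * ‖f ρ‖ₑ ^ 2 ∂φ.nu ∂φ.nu := lintegral_const_mul'' _ hmm.lintegral_prod_right'
    _ = A * ∫⁻ ρ, ∫⁻ ρ' in hzBin x R, kbE ρ' ρ * ‖f ρ‖ₑ ^ 2 ∂φ.nu ∂φ.nu := by rw [lintegral_lintegral_swap hmm]
    _ = A * ∫⁻ ρ, (∫⁻ ρ' in hzBin x R, kbE ρ' ρ ∂φ.nu) * ‖f ρ‖ₑ ^ 2 ∂φ.nu := by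
        congr 1
        refine lintegral_congr fun ρ => ?_
        exact lintegral_mul_const _ (hkbm.comp measurable_prodMk_right)
    _ ≤ A * ∫⁻ ρ, B * ((hzBin (x - t * θ) (R + 2 * Λ * φ.q k)).indicator (fun ρ => ‖f ρ‖ₑ ^ 2) ρ + e * ‖f ρ‖ₑ ^ 2) ∂φ.nu := by
        exact mul_le_mul' le_rfl (lintegral_mono fun ρ => s3 ρ)
    _ = A * (B * (∫⁻ ρ in hzBin (x - t * θ) (R + 2 * Λ * φ.q k), ‖f ρ‖ₑ ^ 2 ∂φ.nu + e * ∫⁻ ρ, ‖f ρ‖ₑ ^ 2 ∂φ.nu)) := by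
        have hi : AEMeasurable ((hzBin (x - t * θ) (R + 2 * Λ * φ.q k)).indicator fun ρ => ‖f ρ‖ₑ ^ 2) φ.nu :=
          hf2.indicator (hz_bin_meas _ _)
        have hi2 : AEMeasurable (fun ρ => (hzBin (x - t * θ) (R + 2 * Λ * φ.q k)).indicator (fun ρ => ‖f ρ‖ₑ ^ 2) ρ + e * ‖f ρ‖ₑ ^ 2) φ.nu :=
          hi.add (hf2.const_mul e)
        rw [lintegral_const_mul'' _ hi2, lintegral_add_left' hi, lintegral_indicator (hz_bin_meas _ _),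
          lintegral_const_mul'' _ hf2]
    _ ≤ _ := by
        rw [← mul_assoc]
        refine mul_le_mul' ?_ le_rfl
        rw [hA, hB, ← ENNReal.ofReal_mul (by positivity)]
        refine ENNReal.ofReal_le_ofReal ?_
        have hsq := Real.mul_self_sqrt (show 0 ≤ φ.q k' / φ.q k by positivity)
        calc 36 / 5 * Real.sqrt (φ.q k' / φ.q k) * Λ * (23 / 5 * Real.sqrt (φ.q k' / φ.q k) * (R / φ.q k'))
            = 828 / 25 * Λ * ((Real.sqrt (φ.q k' / φ.q k) * Real.sqrt (φ.q k' / φ.q k)) * (R / φ.q k')) := by ring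
          _ = 828 / 25 * Λ * (R / φ.q k) := by
              rw [hsq]
              congr 1
              field_simp
          _ ≤ 34 * Λ * (R / φ.q k) := by
              have : 0 ≤ Λ * (R / φ.q k) := by positivity
              nlinarith

/-- **(E1) ONE STEP OF THE ENVELOPE.**
`‖tr f ρ'‖² ≤ (∫_{supp f} |kr|)(∫ |kr| ‖f‖²)` (`hy_cs`);  first factor `≤ 7.2 sqrt(q'/q) Λ` (`hy_kr_le`, `hy_kb_src_win`, `W = Λ d k`);  integrate over the bin, Tonelli;  `∫_{bin} |kr| dν ρ' ≤ 4.6 sqrt(q'/q) R/q'`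
(`hy_kb_tgt_bin`), times `exp(-Λ²/20)` if `|D + tN - x| ≥ R + Λq` (`hy_kb_tgt_bin_far`);  on the support `|tN - tθ| ≤ 2^-k Λ d k = Λ q k`.   `7.2 · 4.6 ≤ 34`.   ~300 l. -/
theorem hz_env_step (φ : HyF) (h : φ.Ok) (T : ℝ) (k : ℕ) (T' : ℝ) (k' : ℕ) (hk : k ≤ k') (ht : |T' - T| ≤ (2 : ℝ)⁻¹ ^ k) (θ Λ : ℝ) (hΛ : 1 ≤ Λ)
    (f : ℝ × ℝ → E) (hf : MemLp f 2 φ.nu) (hs : ∀ ρ, f ρ ≠ 0 → |ρ.2 - θ| ≤ Λ * φ.d k) (x R : ℝ) (hR : 0 ≤ R) :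
    ∫⁻ ρ' in hzBin x R, ‖φ.tr T k T' k' f ρ'‖ₑ ^ 2 ∂φ.nu
      ≤ ENNReal.ofReal (34 * Λ * (R / φ.q k)) *
        (∫⁻ ρ in hzBin (x - (T' - T) * θ) (R + 2 * Λ * φ.q k), ‖f ρ‖ₑ ^ 2 ∂φ.nu + ENNReal.ofReal (Real.exp (-(Λ ^ 2 / 20))) * ∫⁻ ρ, ‖f ρ‖ₑ ^ 2 ∂φ.nu) :=
  hz_env_step' φ h T k T' k' hk ht θ Λ hΛ f hf hs x R hR

/-- the constant of the envelope through `m` stages -/
noncomputable def hzCe (m : ℕ) (Λ : ℝ) : ℝ := (34 * (2 * m + 1) * Λ ^ 2) ^ (m + 1)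

/-! ### FT3 -/

theorem hz_bin_mono (x : ℝ) {R R' : ℝ} (h : R ≤ R') : hzBin x R ⊆ hzBin x R' := fun _ hρ => le_trans hρ h

/-- the real arithmetic of one step of `hz_env` -/
theorem hz_env_num (n : ℕ) {Λ R q qs q' ε : ℝ} (hΛ : 1 ≤ Λ) (hR : 0 ≤ R) (hq : 0 < q) (hqs : 0 < qs) (hq' : 0 < q') (h1 : qs ≤ q) (h2 : q' ≤ qs)
    (hR' : R ≤ Λ * q') (hε : 0 ≤ ε) :
    hzCe n Λ * (R / qs) * (34 * Λ * ((R + 2 * (n + 1) * Λ * qs) / q)) ≤ hzCe (n + 1) Λ * (R / q) ∧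
      hzCe n Λ * (R / qs) * (34 * Λ * ((R + 2 * (n + 1) * Λ * qs) / q)) * ε + (n + 1) * hzCe n Λ * (R / q') * ε
        ≤ ((n + 1 : ℕ) + 1) * hzCe (n + 1) Λ * (R / q') * ε := by
  have hΛ0 : 0 < Λ := by linarith
  obtain ⟨X, hX⟩ : ∃ X : ℝ, X = 34 * (2 * ((n + 1 : ℕ) : ℝ) + 1) * Λ ^ 2 := ⟨_, rfl⟩
  obtain ⟨Y, hY⟩ : ∃ Y : ℝ, Y = 34 * (2 * (n : ℝ) + 1) * Λ ^ 2 := ⟨_, rfl⟩
  have hn : (0 : ℝ) ≤ n := Nat.cast_nonneg n
  have hY0 : 0 ≤ Y := by rw [hY]; positivity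
  have hYX : Y ≤ X := by
    rw [hX, hY]
    push_cast
    have : 0 < Λ ^ 2 := by positivity
    nlinarith
  have hX1 : 1 ≤ X := by
    rw [hX]
    push_cast
    have : 1 ≤ Λ ^ 2 := one_le_pow₀ hΛ
    nlinarith
  have hC0 : hzCe n Λ = Y ^ (n + 1) := by rw [hY]; rfl
  have hC1 : hzCe (n + 1) Λ = X ^ (n + 1) * X := by rw [hX, ← pow_succ]; rfl
  have hYXp : Y ^ (n + 1) ≤ X ^ (n + 1) := pow_le_pow_left₀ hY0 hYX _
  have hXp : 0 < X ^ (n + 1) := by positivity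
  have hCle : hzCe n Λ ≤ hzCe (n + 1) Λ := by
    rw [hC0, hC1]
    nlinarith
  have hC0n : 0 ≤ hzCe n Λ := by rw [hC0]; positivity
  have hC1n : 0 ≤ hzCe (n + 1) Λ := by rw [hC1]; positivity
  have hRq : R / q ≤ R / q' := div_le_div_of_nonneg_left hR hq' (h2.trans h1)
  have hRq0 : 0 ≤ R / q := by positivity
  have hRq'0 : 0 ≤ R / q' := by positivity
  have r1 : hzCe n Λ * (R / qs) * (34 * Λ * ((R + 2 * (n + 1) * Λ * qs) / q)) ≤ hzCe (n + 1) Λ * (R / q) := by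
    have e1 : hzCe n Λ * (R / qs) * (34 * Λ * ((R + 2 * (n + 1) * Λ * qs) / q))
        = hzCe n Λ * (34 * Λ * ((R + 2 * (n + 1) * Λ * qs) / qs)) * (R / q) := by
      field_simp
    have e2 : (R + 2 * (n + 1) * Λ * qs) / qs ≤ (2 * ((n + 1 : ℕ) : ℝ) + 1) * Λ := by
      rw [div_le_iff₀ hqs]
      push_cast
      have : R ≤ Λ * qs := hR'.trans (mul_le_mul_of_nonneg_left h2 hΛ0.le)
      nlinarith
    have e3 : 34 * Λ * ((R + 2 * (n + 1) * Λ * qs) / qs) ≤ X := by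
      rw [hX]
      calc 34 * Λ * ((R + 2 * (n + 1) * Λ * qs) / qs) ≤ 34 * Λ * ((2 * ((n + 1 : ℕ) : ℝ) + 1) * Λ) :=
            mul_le_mul_of_nonneg_left e2 (by positivity)
        _ = _ := by ring
    rw [e1]
    refine mul_le_mul_of_nonneg_right ?_ hRq0
    rw [hC0, hC1]
    exact mul_le_mul hYXp e3 (by positivity) hXp.le
  refine ⟨r1, ?_⟩
  have r2 : hzCe n Λ * (R / qs) * (34 * Λ * ((R + 2 * (n + 1) * Λ * qs) / q)) * ε ≤ hzCe (n + 1) Λ * (R / q') * ε :=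
    mul_le_mul_of_nonneg_right (r1.trans (mul_le_mul_of_nonneg_left hRq hC1n)) hε
  have r3 : ((n : ℝ) + 1) * hzCe n Λ * (R / q') * ε ≤ ((n : ℝ) + 1) * hzCe (n + 1) Λ * (R / q') * ε := by
    refine mul_le_mul_of_nonneg_right (mul_le_mul_of_nonneg_right (mul_le_mul_of_nonneg_left hCle (by positivity)) hRq'0) hε
  push_cast
  nlinarith

theorem hz_env' (φ : HyF) (h : φ.Ok) (k' i : ℕ) (l : List HyStg) (k : ℕ) (hk : k ≤ k') (hl : HzStk k k' l) (θ Λ : ℝ) (hΛ : 1 ≤ Λ)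
    (hsup : HzSup θ (fun κ => Λ * φ.d κ) l) (f : ℝ × ℝ → E) (hf : MemLp f 2 φ.nu) (hs : ∀ ρ, f ρ ≠ 0 → |ρ.2 - θ| ≤ Λ * φ.d k)
    (x R : ℝ) (hR : 0 ≤ R) (hR' : R ≤ Λ * φ.q k') :
    ∫⁻ ρ' in hzBin x R, ‖φ.br k' i l (tmL k (ancI k' k i)) k f ρ'‖ₑ ^ 2 ∂φ.nu
      ≤ ENNReal.ofReal (hzCe l.length Λ * (R / φ.q k)) *
          ∫⁻ ρ in hzBin (x - (tmL k' i - tmL k (ancI k' k i)) * θ) (R + 2 * (l.length + 1) * Λ * φ.q k), ‖f ρ‖ₑ ^ 2 ∂φ.nu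
        + ENNReal.ofReal ((l.length + 1) * hzCe l.length Λ * (R / φ.q k') * Real.exp (-(Λ ^ 2 / 20))) * ∫⁻ ρ, ‖f ρ‖ₑ ^ 2 ∂φ.nu := by
  have hΛ0 : 0 < Λ := by linarith
  have hq' := (hy_qd φ h k').1
  obtain ⟨ε, hε⟩ : ∃ ε : ℝ, ε = Real.exp (-(Λ ^ 2 / 20)) := ⟨_, rfl⟩
  have hε0 : 0 ≤ ε := by rw [hε]; positivity
  rw [← hε]
  induction l generalizing k f with
  | nil =>
    have hq := (hy_qd φ h k).1
    have hqq := (hy_qd_mono φ h hk).1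
    have ht : |tmL k' i - tmL k (ancI k' k i)| ≤ (2 : ℝ)⁻¹ ^ k := by
      have := hz_time_le k k' k' i hk le_rfl
      rwa [(hz_anc_time k k' k' i hk le_rfl).2.2.2] at this
    have s := hz_env_step φ h (tmL k (ancI k' k i)) k (tmL k' i) k' hk ht θ Λ hΛ f hf hs x R hR
    rw [← hε] at s
    refine s.trans ?_
    have hC : hzCe 0 Λ = 34 * Λ ^ 2 := by
      unfold hzCe
      norm_num
    simp only [List.length_nil, Nat.cast_zero, zero_add, mul_one, one_mul]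
    rw [mul_add, ← mul_assoc, ← ENNReal.ofReal_mul (by positivity), hC]
    have hRq : R / φ.q k ≤ R / φ.q k' := div_le_div_of_nonneg_left hR hq' hqq
    have hRq0 : 0 ≤ R / φ.q k := by positivity
    have hLL : Λ ≤ Λ ^ 2 := by nlinarith
    refine add_le_add (mul_le_mul' (ENNReal.ofReal_le_ofReal ?_) le_rfl) (mul_le_mul' (ENNReal.ofReal_le_ofReal ?_) le_rfl)
    · exact mul_le_mul_of_nonneg_right (by linarith) hRq0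
    · refine mul_le_mul_of_nonneg_right ?_ hε0
      exact mul_le_mul (by linarith) hRq hRq0 (by positivity)
  | cons σ l ih =>
    have hσk := hl.dep σ List.mem_cons_self
    have hσ := hl.ok σ List.mem_cons_self
    have hl' := hz_stk_tail hl
    have hq := (hy_qd φ h k).1
    have hqs := (hy_qd φ h σ.k).1
    have hq1 := (hy_qd_mono φ h hσk.1).1
    have hq2 := (hy_qd_mono φ h hσk.2).1
    obtain ⟨a, ha⟩ : ∃ a : ℕ, a = ancI k' σ.k i := ⟨_, rfl⟩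
    obtain ⟨Tk, hTk⟩ : ∃ Tk : ℝ, Tk = tmL k (ancI k' k i) := ⟨_, rfl⟩
    obtain ⟨n, hn⟩ : ∃ n : ℕ, n = l.length := ⟨_, rfl⟩
    have ht : |tmL σ.k a - Tk| ≤ (2 : ℝ)⁻¹ ^ k := by
      rw [ha, hTk]
      exact hz_time_le k σ.k k' i hσk.1 hσk.2
    obtain ⟨g, hg⟩ : ∃ g : ℝ × ℝ → E, g = φ.tr Tk k (tmL σ.k a) σ.k f := ⟨_, rfl⟩
    have hgm : MemLp g 2 φ.nu := by rw [hg]; exact hy_tr_memLp φ h Tk k _ σ.k f hf
    have hgc : ∫⁻ ρ, ‖g ρ‖ₑ ^ 2 ∂φ.nu ≤ ∫⁻ ρ, ‖f ρ‖ₑ ^ 2 ∂φ.nu := by rw [hg]; exact hy_tr_contr φ h Tk k _ σ.k f hf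
    obtain ⟨f1, hf1⟩ : ∃ f1 : ℝ × ℝ → E, f1 = fun ρ => ((σ.M a ρ : ℝ) : ℂ) • g ρ := ⟨_, rfl⟩
    obtain ⟨m1, c1⟩ := hz_mask φ (σ.M a) (hσ a).1 (hσ a).2 g hgm
    rw [← hf1] at m1
    have c1' : ∀ ρ, ‖f1 ρ‖ₑ ^ 2 ≤ ‖g ρ‖ₑ ^ 2 := fun ρ => by
      rw [hf1]
      exact pow_le_pow_left₀ bot_le (c1 ρ) 2
    have hs1 : ∀ ρ, f1 ρ ≠ 0 → |ρ.2 - θ| ≤ Λ * φ.d σ.k := by
      intro ρ hρ
      refine hsup σ List.mem_cons_self a ρ fun h0 => hρ ?_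
      rw [hf1]
      show ((σ.M a ρ : ℝ) : ℂ) • g ρ = 0
      rw [h0]
      simp
    have hi := ih σ.k hσk.2 hl' (fun τ hτ => hsup τ (List.mem_cons_of_mem _ hτ)) f1 m1 hs1
    rw [← ha, ← hn] at hi
    have e0 : φ.br k' i (σ :: l) Tk k f = φ.br k' i l (tmL σ.k a) σ.k f1 := by
      rw [hf1, hg, ha]
      rfl
    rw [← hTk, e0]
    obtain ⟨R1, hR1⟩ : ∃ R1 : ℝ, R1 = R + 2 * ((n : ℝ) + 1) * Λ * φ.q σ.k := ⟨_, rfl⟩
    have hR10 : 0 ≤ R1 := by rw [hR1]; positivity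
    rw [← hR1] at hi
    have s := hz_env_step φ h Tk k (tmL σ.k a) σ.k hσk.1 ht θ Λ hΛ f hf hs (x - (tmL k' i - tmL σ.k a) * θ) R1 hR10
    rw [← hg, ← hε] at s
    have ex : x - (tmL k' i - tmL σ.k a) * θ - (tmL σ.k a - Tk) * θ = x - (tmL k' i - Tk) * θ := by ring
    rw [ex] at s
    obtain ⟨I1, hI1⟩ : ∃ I1 : ℝ≥0∞, I1 = ∫⁻ ρ in hzBin (x - (tmL k' i - Tk) * θ)
        (R + 2 * (((σ :: l).length : ℝ) + 1) * Λ * φ.q k), ‖f ρ‖ₑ ^ 2 ∂φ.nu := ⟨_, rfl⟩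
    obtain ⟨I, hI⟩ : ∃ I : ℝ≥0∞, I = ∫⁻ ρ, ‖f ρ‖ₑ ^ 2 ∂φ.nu := ⟨_, rfl⟩
    rw [← hI1, ← hI]
    rw [← hI] at s hgc
    have hlen : ((σ :: l).length : ℝ) = ((n + 1 : ℕ) : ℝ) := by rw [hn]; simp
    have hlen' : (σ :: l).length = n + 1 := by rw [hn]; simp
    have b1 : ∫⁻ ρ in hzBin (x - (tmL k' i - Tk) * θ) (R1 + 2 * Λ * φ.q k), ‖f ρ‖ₑ ^ 2 ∂φ.nu ≤ I1 := by
      rw [hI1]
      refine lintegral_mono_set (hz_bin_mono _ ?_)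
      rw [hR1, hlen]
      push_cast
      have : 2 * ((n : ℝ) + 1) * Λ * φ.q σ.k ≤ 2 * ((n : ℝ) + 1) * Λ * φ.q k := mul_le_mul_of_nonneg_left hq1 (by positivity)
      linarith
    have b2 : ∫⁻ ρ in hzBin (x - (tmL k' i - tmL σ.k a) * θ) R1, ‖f1 ρ‖ₑ ^ 2 ∂φ.nu
        ≤ ENNReal.ofReal (34 * Λ * (R1 / φ.q k)) * (I1 + ENNReal.ofReal ε * I) :=
      (lintegral_mono fun ρ => c1' ρ).trans (s.trans (mul_le_mul' le_rfl (add_le_add b1 le_rfl)))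
    have b3 : ∫⁻ ρ, ‖f1 ρ‖ₑ ^ 2 ∂φ.nu ≤ I := (lintegral_mono fun ρ => c1' ρ).trans hgc
    obtain ⟨r1, r2⟩ := hz_env_num n hΛ hR hq hqs hq' hq1 hq2 hR' hε0
    rw [← hR1] at r1 r2
    refine hi.trans ((add_le_add (mul_le_mul' le_rfl b2) (mul_le_mul' le_rfl b3)).trans ?_)
    have hCn : 0 ≤ hzCe n Λ := by unfold hzCe; positivity
    rw [hlen']
    calc ENNReal.ofReal (hzCe n Λ * (R / φ.q σ.k)) * (ENNReal.ofReal (34 * Λ * (R1 / φ.q k)) * (I1 + ENNReal.ofReal ε * I)) +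
          ENNReal.ofReal (((n : ℝ) + 1) * hzCe n Λ * (R / φ.q k') * ε) * I
        = ENNReal.ofReal (hzCe n Λ * (R / φ.q σ.k) * (34 * Λ * (R1 / φ.q k))) * I1 +
          ENNReal.ofReal (hzCe n Λ * (R / φ.q σ.k) * (34 * Λ * (R1 / φ.q k)) * ε + ((n : ℝ) + 1) * hzCe n Λ * (R / φ.q k') * ε) * I := by
          have key : ∀ A B D : ℝ, 0 ≤ A → 0 ≤ B → 0 ≤ D →
              ENNReal.ofReal A * (ENNReal.ofReal B * (I1 + ENNReal.ofReal ε * I)) + ENNReal.ofReal D * I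
                = ENNReal.ofReal (A * B) * I1 + ENNReal.ofReal (A * B * ε + D) * I := by
            intro A B D hA hB hD
            have hAB : 0 ≤ A * B := mul_nonneg hA hB
            rw [ENNReal.ofReal_add (mul_nonneg hAB hε0) hD, ENNReal.ofReal_mul hAB, ENNReal.ofReal_mul hA]
            ring
          exact key _ _ _ (by positivity) (by positivity) (by positivity)
      _ ≤ _ := add_le_add (mul_le_mul' (ENNReal.ofReal_le_ofReal r1) le_rfl) (mul_le_mul' (ENNReal.ofReal_le_ofReal r2) le_rfl)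

/-- **(FT3) = (env)** through a stack of masks supported in the windows `Λ d(depth)`.
Induction on the stack (generalise `k, f, x`).   Step `σ :: l'`, `f₁ = M tr f`, `m' = #l' + 1`: hypothesis at `(T_σ, σ.k, f₁)` with radius `R₁ = R + 2 m' Λ q(σ.k)`, then `hz_env_step` with `R₁`;
`(R/q(σ.k)) (R₁/q k) = (R₁/q(σ.k)) (R/q k)` and `R₁/q(σ.k) ≤ (2m'+1) Λ` because `R ≤ Λ q k' ≤ Λ q(σ.k)`;  radius `R₁ + 2Λ q k ≤ R + 2(m'+1) Λ q k`;  drift `x - (T_i - T_σ)θ - (T_σ - T)θ`;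
errors: `∫‖f₁‖² ≤ ∫‖f‖²`, `R/q(σ.k) ≤ R/q k'`.   ~450 l. -/
theorem hz_env (φ : HyF) (h : φ.Ok) (k' i : ℕ) (l : List HyStg) (k : ℕ) (hk : k ≤ k') (hl : HzStk k k' l) (θ Λ : ℝ) (hΛ : 1 ≤ Λ)
    (hsup : HzSup θ (fun κ => Λ * φ.d κ) l) (f : ℝ × ℝ → E) (hf : MemLp f 2 φ.nu) (hs : ∀ ρ, f ρ ≠ 0 → |ρ.2 - θ| ≤ Λ * φ.d k)
    (x R : ℝ) (hR : 0 ≤ R) (hR' : R ≤ Λ * φ.q k') :
    ∫⁻ ρ' in hzBin x R, ‖φ.br k' i l (tmL k (ancI k' k i)) k f ρ'‖ₑ ^ 2 ∂φ.nu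
      ≤ ENNReal.ofReal (hzCe l.length Λ * (R / φ.q k)) *
          ∫⁻ ρ in hzBin (x - (tmL k' i - tmL k (ancI k' k i)) * θ) (R + 2 * (l.length + 1) * Λ * φ.q k), ‖f ρ‖ₑ ^ 2 ∂φ.nu
        + ENNReal.ofReal ((l.length + 1) * hzCe l.length Λ * (R / φ.q k') * Real.exp (-(Λ ^ 2 / 20))) * ∫⁻ ρ, ‖f ρ‖ₑ ^ 2 ∂φ.nu :=
  hz_env' φ h k' i l k hk hl θ Λ hΛ hsup f hf hs x R hR hR'

theorem hz_fib2_eqns_cite : True := by
  have := @hzCe.eq_1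
  trivial

end Claimed.Agent.R256
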