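import Claimed.Agent.R256.Hz.Contract
import Claimed.Agent.R256.Cyl.Alg

/-!
# Row 256, unit HZ, file 5: GEOMETRY OF FRAMES, GROUPS AND LATTICE CELLS      (chief helper82; prefix `hz_`)      pure real algebra on `Cy5`, `CyT`; floors.

* `hzFr Q t`         the frame `Q` transported by the time `t`: base centre on its own ray, shear coefficients extended
* `p.vo Q T ω`, `p.po Q T ω`     velocity / position offset of the frame in the fibre `ω`:  `cyVel Q (co T (ω,D,N)) = N - vo`,  `cyPos Q (co T (ω,D,N)) = D - po`;   `vo` is conserved, `po` drifts with the velocity `vo`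
* `hzGi Q0 l0 t z`   GROUP INDEX `(jX, jN, jD)` of a row at the time `T0 + t` = root cell of its classical backflow
* `hzGf Q0 l0 g`     the frame of the group `g`
* `hzGp Q l0 N1`     the enlarged root cell of a group frame
* `hzCell Q l a z`   LATTICE CELL `(⌊B'⌋, ⌊Y'⌋, ⌊D'/a⌋)` in a frame
* (T)  `hz_taylor`   zero costs: a label cell lies in a box of the frame coordinates      (03 l.605-615)
* (N)  `hz_count`    a label cell meets `≤ 2·10^5 σ³ (l f/a)` pairs (group, lattice cell)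
* (K)  `hz_base_fr`  the normalised base coordinates move as in KIN
-/

set_option autoImplicit false

namespace Claimed.Agent.R256

/-- the frame transported by the time `t` -/
def hzFr (Q : CyT) (t : ℝ) : CyT := cyBack Q (-t) Q.x Q.r Q.f

/-- velocity offset of the frame in the fibre -/
def ChyPar.vo (p : ChyPar) (Q : CyT) (T : ℝ) (ω : p.Om) : ℝ := -cyVel Q (p.co T (ω, 0, 0))

/-- position offset of the frame in the fibre -/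
def ChyPar.po (p : ChyPar) (Q : CyT) (T : ℝ) (ω : p.Om) : ℝ := -cyPos Q (p.co T (ω, 0, 0))

/-- group index of a row with the instantaneous coordinates `z` at the time `T0 + t` -/
noncomputable def hzGi (Q0 : CyT) (l0 t : ℝ) (z : Cy5) : ℤ × ℤ × ℤ :=
  (⌊(z.X - Q0.x) / Q0.r⌋, ⌊cyVel (hzFr Q0 t) z / Q0.f⌋, ⌊(cyPos (hzFr Q0 t) z - t * cyVel (hzFr Q0 t) z) / (l0 * Q0.f)⌋)

/-- the frame of a group -/
noncomputable def hzGf (Q0 : CyT) (l0 : ℝ) (g : ℤ × ℤ × ℤ) : CyT :=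
  { Q0 with x := Q0.x + (g.1 + 1 / 2) * Q0.r, c := Q0.c + (g.2.1 + 1 / 2) * Q0.f, d := Q0.d + (g.2.2 + 1 / 2) * (l0 * Q0.f) }

/-- the enlarged root cell of a group frame -/
def hzGp (Q : CyT) (l0 N1 : ℝ) : Set Cy5 := {z | |z.X - Q.x| ≤ Q.r / 2 ∧ |cyVel Q z| ≤ N1 * Q.f ∧ |cyPos Q z| ≤ N1 * (l0 * Q.f)}

/-- lattice cell in a frame: base square of sides `l r`, `l r²`, position bin of length `a` -/
noncomputable def hzCell (Q : CyT) (l a : ℝ) (z : Cy5) : ℤ × ℤ × ℤ := (⌊(cyBase Q l z).2.1⌋, ⌊(cyBase Q l z).2.2⌋, ⌊cyPos Q z / a⌋)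

theorem hz_geo_eqns_cite : True := by
  have := @hzFr.eq_1
  have := @ChyPar.vo.eq_1
  have := @ChyPar.po.eq_1
  have := @hzGi.eq_1
  have := @hzGf.eq_1
  have := @hzGp.eq_1
  have := @hzCell.eq_1
  trivial

theorem hz_vo (p : ChyPar) (Q : CyT) (T : ℝ) (x : p.Om × ℝ × ℝ) : cyVel Q (p.co T x) = x.2.2 - p.vo Q T x.1 := by
  simp only [ChyPar.vo, cyVel, ChyPar.co]; ring

theorem hz_po (p : ChyPar) (Q : CyT) (T : ℝ) (x : p.Om × ℝ × ℝ) : cyPos Q (p.co T x) = x.2.1 - p.po Q T x.1 := by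
  simp only [ChyPar.po, cyPos, ChyPar.co]; ring

theorem hz_vo_fr (p : ChyPar) (Q : CyT) (T t : ℝ) (ω : p.Om) : p.vo (hzFr Q t) (T + t) ω = p.vo Q T ω := by
  simp only [ChyPar.vo, cyVel, ChyPar.co, hzFr, cyBack]; ring

theorem hz_po_fr (p : ChyPar) (Q : CyT) (T t : ℝ) (ω : p.Om) : p.po (hzFr Q t) (T + t) ω = p.po Q T ω + t * p.vo Q T ω := by
  simp only [ChyPar.vo, ChyPar.po, cyVel, cyPos, ChyPar.co, hzFr, cyBack]; ring

theorem hz_fr_add (Q : CyT) (t t' : ℝ) : hzFr (hzFr Q t) t' = hzFr Q (t + t') := by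
  simp only [hzFr, cyBack, CyT.mk.injEq]
  refine ⟨trivial, ?_, ?_, trivial, trivial, trivial, ?_, trivial, ?_, trivial⟩ <;> ring

theorem hz_fr_zero (Q : CyT) : hzFr Q 0 = Q := by
  simp [hzFr, cyBack]

/-- **(K)** the normalised base coordinates of the transported frame: `X' , (l0/l)(B' + (t/l0) X'), (l0/l)(Y' + (t/l0) X'²)` -/
theorem hz_base_fr (p : ChyPar) (Q : CyT) (hr : 0 < Q.r) (T t l0 l : ℝ) (hl0 : 0 < l0) (hl : 0 < l) (x : p.Om × ℝ × ℝ) :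
    cyBase (hzFr Q t) l (p.co (T + t) x) =
      ((cyBase Q l0 (p.co T x)).1, ((cyBase Q l0 (p.co T x)).2.1 + t / l0 * (cyBase Q l0 (p.co T x)).1) / (l / l0),
        ((cyBase Q l0 (p.co T x)).2.2 + t / l0 * (cyBase Q l0 (p.co T x)).1 ^ 2) / (l / l0)) := by
  simp only [cyBase, cyTilt, hzFr, cyBack, ChyPar.co]
  refine Prod.ext rfl (Prod.ext ?_ ?_)
  · simp only
    field_simp
    ring
  · simp only
    field_simp
    ring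

/-- coordinates in the frame of a group -/
theorem hz_gf_vel (Q0 : CyT) (l0 t : ℝ) (g : ℤ × ℤ × ℤ) (z : Cy5) :
    cyVel (hzFr (hzGf Q0 l0 g) t) z = cyVel (hzFr Q0 t) z - (g.2.1 + 1 / 2) * Q0.f ∧
      cyPos (hzFr (hzGf Q0 l0 g) t) z = cyPos (hzFr Q0 t) z - (g.2.2 + 1 / 2) * (l0 * Q0.f) - t * ((g.2.1 + 1 / 2) * Q0.f) := by
  constructor
  · simp only [cyVel, hzFr, cyBack, hzGf]; ring
  · simp only [cyPos, hzFr, cyBack, hzGf]; ring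

theorem hz_GEO_half {u w : ℝ} (hw : 0 < w) {j : ℤ} (hj : ⌊u / w⌋ = j) : |u - ((j : ℝ) + 1 / 2) * w| ≤ w / 2 := by
  have h1 := Int.floor_le (u / w)
  have h2 := Int.lt_floor_add_one (u / w)
  rw [hj] at h1 h2
  rw [le_div_iff₀ hw] at h1
  rw [div_lt_iff₀ hw] at h2
  rw [abs_le]; constructor <;> nlinarith

/-- a row of the group `g` at the time `T0 + t`, `0 ≤ t ≤ l0`, in the frame of `g`.   `Int.floor_eq_iff`; `hz_gf_vel`.  ~80 l. -/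
theorem hz_gi_mem (Q0 : CyT) (hr : 0 < Q0.r) (hf : 0 < Q0.f) (l0 t : ℝ) (hl0 : 0 < l0) (ht0 : 0 ≤ t) (ht : t ≤ l0) (g : ℤ × ℤ × ℤ) (z : Cy5)
    (hz : hzGi Q0 l0 t z = g) :
    |z.X - (hzGf Q0 l0 g).x| ≤ Q0.r / 2 ∧ |cyVel (hzFr (hzGf Q0 l0 g) t) z| ≤ Q0.f / 2 ∧ |cyPos (hzFr (hzGf Q0 l0 g) t) z| ≤ l0 * Q0.f := by
  have g1 : ⌊(z.X - Q0.x) / Q0.r⌋ = g.1 := by rw [← hz]; rfl
  have g2 : ⌊cyVel (hzFr Q0 t) z / Q0.f⌋ = g.2.1 := by rw [← hz]; rfl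
  have g3 : ⌊(cyPos (hzFr Q0 t) z - t * cyVel (hzFr Q0 t) z) / (l0 * Q0.f)⌋ = g.2.2 := by rw [← hz]; rfl
  have a1 := hz_GEO_half hr g1
  have a2 := hz_GEO_half hf g2
  have a3 := hz_GEO_half (mul_pos hl0 hf) g3
  obtain ⟨e1, e2⟩ := hz_gf_vel Q0 l0 t g z
  refine ⟨?_, ?_, ?_⟩
  · show |z.X - (Q0.x + ((g.1 : ℝ) + 1 / 2) * Q0.r)| ≤ Q0.r / 2
    rwa [← sub_sub]
  · rw [e1]; exact a2
  · rw [e2]
    have e3 : cyPos (hzFr Q0 t) z - ((g.2.2 : ℝ) + 1 / 2) * (l0 * Q0.f) - t * (((g.2.1 : ℝ) + 1 / 2) * Q0.f)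
        = (cyPos (hzFr Q0 t) z - t * cyVel (hzFr Q0 t) z - ((g.2.2 : ℝ) + 1 / 2) * (l0 * Q0.f))
          + t * (cyVel (hzFr Q0 t) z - ((g.2.1 : ℝ) + 1 / 2) * Q0.f) := by ring
    rw [e3]
    refine (abs_add_le _ _).trans ?_
    rw [abs_mul, abs_of_nonneg ht0]
    have h4 : t * |cyVel (hzFr Q0 t) z - ((g.2.1 : ℝ) + 1 / 2) * Q0.f| ≤ l0 * (Q0.f / 2) := mul_le_mul ht a2 (abs_nonneg _) hl0.le
    linarith

/-- **(T) TAYLOR** (03 l.605-615).   `Q` = the test of a label, `Q0` = the frame AT THE TIME OF THE LABEL, `zc = (x, b, y)` the base centre of `Q`.   With `α' = Q.al - Q0.al` etc., `ΔX = X - x`, `ΔB = B - b`, `τ = cyTilt Q z`: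
`(cyVel Q0 z - cyVel Q z) - (same at zc) = P' ΔX + β' ΔX² + K' (τ - 2 ΔX ΔB)`,     `(cyPos Q0 z - cyPos Q z) - (same at zc) = P' ΔB + β' τ - K' ΔB²`      (`ring`),   `P' = cyPat Q x b - cyPat Q0 x b`.
`|P'| r ≤ σ f`, `|β'| r² + l |K'| r² ≤ σ f`.   ~150 l. -/
theorem hz_taylor (Q Q0 : CyT) (l σ : ℝ) (hl : 0 ≤ l) (hr : 0 < Q.r) (hf : 0 < Q.f)
    (h2 : Q.r ^ 2 / Q.f * (|Q.be - Q0.be| + l * |Q.K - Q0.K|) ≤ σ) (h1 : Q.r / Q.f * |cyPat Q Q.x Q.b - cyPat Q0 Q.x Q.b| ≤ σ)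
    (z : Cy5) (hz : cyIn Q l z) :
    |cyVel Q0 z - (cyVel Q0 ⟨Q.x, Q.b, Q.y, 0, 0⟩ - cyVel Q ⟨Q.x, Q.b, Q.y, 0, 0⟩)| ≤ (1 + 4 * σ) * Q.f ∧
      |cyPos Q0 z - (cyPos Q0 ⟨Q.x, Q.b, Q.y, 0, 0⟩ - cyPos Q ⟨Q.x, Q.b, Q.y, 0, 0⟩)| ≤ (1 + 2 * σ) * (l * Q.f) := by
  obtain ⟨z1, z2, z3, z4, z5⟩ := hz
  set P' : ℝ := cyPat Q Q.x Q.b - cyPat Q0 Q.x Q.b with hP'
  set β' : ℝ := Q.be - Q0.be with hβ'
  set K' : ℝ := Q.K - Q0.K with hK'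
  set ΔX : ℝ := z.X - Q.x with hΔX
  set ΔB : ℝ := z.B - Q.b with hΔB
  set τ : ℝ := cyTilt Q z with hτ
  have k2 : Q.r ^ 2 * (|β'| + l * |K'|) ≤ σ * Q.f := by
    rw [div_mul_eq_mul_div, div_le_iff₀ hf] at h2
    exact h2
  have k1 : Q.r * |P'| ≤ σ * Q.f := by
    rw [div_mul_eq_mul_div, div_le_iff₀ hf] at h1
    exact h1
  have nb : 0 ≤ Q.r ^ 2 * |β'| := by positivity
  have nk : 0 ≤ Q.r ^ 2 * (l * |K'|) := by positivity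
  have eV : cyVel Q0 z - (cyVel Q0 ⟨Q.x, Q.b, Q.y, 0, 0⟩ - cyVel Q ⟨Q.x, Q.b, Q.y, 0, 0⟩)
      = cyVel Q z + (P' * ΔX + β' * ΔX ^ 2 + K' * (τ - 2 * ΔX * ΔB)) := by
    rw [hP', hβ', hK', hΔX, hΔB, hτ]
    simp only [cyVel, cyPat, cyTilt]
    ring
  have eP : cyPos Q0 z - (cyPos Q0 ⟨Q.x, Q.b, Q.y, 0, 0⟩ - cyPos Q ⟨Q.x, Q.b, Q.y, 0, 0⟩)
      = cyPos Q z + (P' * ΔB + β' * τ + (-K') * ΔB ^ 2) := by
    rw [hP', hβ', hK', hΔB, hτ]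
    simp only [cyPos, cyPat, cyTilt]
    ring
  constructor
  · rw [eV]
    refine (abs_add_le _ _).trans ?_
    have a0 := abs_add_three (P' * ΔX) (β' * ΔX ^ 2) (K' * (τ - 2 * ΔX * ΔB))
    have a1 : |P' * ΔX| ≤ |P'| * Q.r := by
      rw [abs_mul]; exact mul_le_mul_of_nonneg_left z1 (abs_nonneg _)
    have a2 : |β' * ΔX ^ 2| ≤ |β'| * Q.r ^ 2 := by
      rw [abs_mul, abs_pow]
      exact mul_le_mul_of_nonneg_left (pow_le_pow_left₀ (abs_nonneg _) z1 2) (abs_nonneg _)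
    have a3 : |K' * (τ - 2 * ΔX * ΔB)| ≤ |K'| * (3 * (l * Q.r ^ 2)) := by
      rw [abs_mul]
      refine mul_le_mul_of_nonneg_left ?_ (abs_nonneg _)
      refine (abs_sub _ _).trans ?_
      rw [abs_mul, abs_mul, abs_two]
      have : |ΔX| * |ΔB| ≤ Q.r * (l * Q.r) := mul_le_mul z1 z2 (abs_nonneg _) hr.le
      linarith
    linarith
  · rw [eP]
    refine (abs_add_le _ _).trans ?_
    have a0 := abs_add_three (P' * ΔB) (β' * τ) ((-K') * ΔB ^ 2)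
    have a1 : |P' * ΔB| ≤ |P'| * (l * Q.r) := by
      rw [abs_mul]; exact mul_le_mul_of_nonneg_left z2 (abs_nonneg _)
    have a2 : |β' * τ| ≤ |β'| * (l * Q.r ^ 2) := by
      rw [abs_mul]; exact mul_le_mul_of_nonneg_left z3 (abs_nonneg _)
    have a3 : |(-K') * ΔB ^ 2| ≤ |K'| * (l * Q.r) ^ 2 := by
      rw [abs_mul, abs_neg, abs_pow]
      exact mul_le_mul_of_nonneg_left (pow_le_pow_left₀ (abs_nonneg _) z2 2) (abs_nonneg _)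
    have b1 := mul_le_mul_of_nonneg_left k1 hl
    have b2 := mul_le_mul_of_nonneg_left k2 hl
    linarith

/-- the costs of `Soft/Doc.lean` in the notation of (T) -/
theorem hz_cost_unfold (Q Q0 : CyT) (T T0 l : ℝ) :
    sfR2 (sfTestAt T Q) (sfTestAt T0 Q0) l = Q.r ^ 2 / Q.f * (|Q.be - (hzFr Q0 (T - T0)).be| + l * |Q.K - (hzFr Q0 (T - T0)).K|) ∧
      sfR1 (sfTestAt T Q) (sfTestAt T0 Q0) = Q.r / Q.f * |cyPat Q Q.x Q.b - cyPat (hzFr Q0 (T - T0)) Q.x Q.b| := by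
  constructor
  · simp only [sfR2, sfTestAt, SfTest.beAt, hzFr, cyBack]
    congr 3
    ring_nf
  · simp only [sfR1, sfTestAt, SfTest.Pc, SfTest.PdAt, SfTest.beAt, hzFr, cyBack, cyPat]
    congr 2
    ring_nf

/-- floors of a quantity in an interval: at most `2R/w + 2` values -/
theorem hz_floor_fin (c R w : ℝ) (hw : 0 < w) (hR : 0 ≤ R) :
    ∃ S : Finset ℤ, (S.card : ℝ) ≤ 2 * R / w + 2 ∧ ∀ u : ℝ, |u - c| ≤ R → ⌊u / w⌋ ∈ S := by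
  refine ⟨Finset.Icc ⌊(c - R) / w⌋ ⌊(c + R) / w⌋, ?_, ?_⟩
  · rw [Int.card_Icc]
    have hle : ⌊(c - R) / w⌋ ≤ ⌊(c + R) / w⌋ := Int.floor_le_floor (div_le_div_of_nonneg_right (by linarith) hw.le)
    have h3 : (((⌊(c + R) / w⌋ + 1 - ⌊(c - R) / w⌋).toNat : ℤ) : ℝ) = ((⌊(c + R) / w⌋ + 1 - ⌊(c - R) / w⌋ : ℤ) : ℝ) := by
      rw [Int.toNat_of_nonneg (by linarith)]
    have h4 : (((⌊(c + R) / w⌋ + 1 - ⌊(c - R) / w⌋).toNat : ℕ) : ℝ) = (((⌊(c + R) / w⌋ + 1 - ⌊(c - R) / w⌋).toNat : ℤ) : ℝ) := by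
      rw [Int.cast_natCast]
    rw [h4, h3]
    push_cast
    have h5 := Int.floor_le ((c + R) / w)
    have h6 := Int.lt_floor_add_one ((c - R) / w)
    have h7 : (c + R) / w - (c - R) / w = 2 * R / w := by field_simp; ring
    linarith
  · intro u hu
    have hu' := abs_le.mp hu
    rw [Finset.mem_Icc]
    exact ⟨Int.floor_le_floor (div_le_div_of_nonneg_right (by linarith) hw.le),
      Int.floor_le_floor (div_le_div_of_nonneg_right (by linarith) hw.le)⟩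

/-- one more integer index (sharp form): fibres of diameter `≤ L` have at most `L + 1` values -/
theorem hz_CNT_cnt {P α : Type*} (T : Set P) (g : P → α) (f : P → ℤ) (n L : ℝ) (hL : 0 ≤ L)
    (hfin : (g '' T).Finite) (hn : ((g '' T).ncard : ℝ) ≤ n)
    (hf : ∀ p ∈ T, ∀ q ∈ T, g p = g q → (f p : ℝ) - f q ≤ L) :
    ((fun p => (g p, f p)) '' T).Finite ∧ (((fun p => (g p, f p)) '' T).ncard : ℝ) ≤ n * (L + 1) := by
  classical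
  have hfi : ∀ p ∈ T, ∀ q ∈ T, g p = g q → f p - f q ≤ ⌊L⌋ := by
    intro p hp q hq hpq
    exact Int.le_floor.mpr (by push_cast; exact hf p hp q hq hpq)
  have hch : ∀ x : α, ∃ z : ℤ, ∀ p ∈ T, g p = x → z ≤ f p ∧ f p - z ≤ ⌊L⌋ := by
    intro x
    by_cases hx : ∃ q ∈ T, g q = x
    · obtain ⟨q, hq, hqx⟩ := hx
      obtain ⟨lb, ⟨p0, hp0, hp0x, hp0f⟩, hlb⟩ := Int.exists_least_of_bdd (P := fun z => ∃ p ∈ T, g p = x ∧ f p = z)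
        ⟨f q - ⌊L⌋, by
          rintro z ⟨p, hp, hpx, rfl⟩
          have := hfi q hq p hp (hqx.trans hpx.symm)
          linarith⟩ ⟨f q, q, hq, hqx, rfl⟩
      refine ⟨lb, fun p hp hpx => ⟨hlb _ ⟨p, hp, hpx, rfl⟩, ?_⟩⟩
      rw [← hp0f]
      exact hfi p hp p0 hp0 (hpx.trans hp0x.symm)
    · exact ⟨0, fun p hp hpx => absurd ⟨p, hp, hpx⟩ hx⟩
  choose z hz using hch
  set F : Finset (α × ℤ) := (hfin.toFinset ×ˢ Finset.Icc 0 ⌊L⌋).image (fun w => (w.1, z w.1 + w.2)) with hF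
  have hsub : ((fun p => (g p, f p)) '' T) ⊆ (F : Set (α × ℤ)) := by
    rintro _ ⟨p, hp, rfl⟩
    simp only [hF, Finset.coe_image, Set.mem_image, Finset.mem_coe, Finset.mem_product, Set.Finite.mem_toFinset,
      Finset.mem_Icc]
    have h1 := hz (g p) p hp rfl
    refine ⟨(g p, f p - z (g p)), ⟨⟨p, hp, rfl⟩, by linarith [h1.1], h1.2⟩, ?_⟩
    simp
  have hfl : 0 ≤ ⌊L⌋ := Int.floor_nonneg.mpr hL
  have hcard : (F.card : ℝ) ≤ n * (L + 1) := by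
    have h1 : F.card ≤ hfin.toFinset.card * (Finset.Icc 0 ⌊L⌋).card := by
      rw [← Finset.card_product]
      exact Finset.card_image_le
    have h2 : ((Finset.Icc 0 ⌊L⌋).card : ℝ) ≤ L + 1 := by
      rw [Int.card_Icc]
      have h3 : (((⌊L⌋ + 1 - 0).toNat : ℤ) : ℝ) = ((⌊L⌋ + 1 - 0 : ℤ) : ℝ) := by
        rw [Int.toNat_of_nonneg (by linarith)]
      have h4 : (((⌊L⌋ + 1 - 0).toNat : ℕ) : ℝ) = (((⌊L⌋ + 1 - 0).toNat : ℤ) : ℝ) := by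
        rw [Int.cast_natCast]
      rw [h4, h3]
      push_cast
      linarith [Int.floor_le L]
    have h5 : (hfin.toFinset.card : ℝ) ≤ n := by
      rw [← Set.ncard_eq_toFinset_card _ hfin]; exact hn
    calc (F.card : ℝ) ≤ (hfin.toFinset.card : ℝ) * ((Finset.Icc 0 ⌊L⌋).card : ℝ) := by exact_mod_cast h1
      _ ≤ n * (L + 1) := mul_le_mul h5 h2 (Nat.cast_nonneg _) ((Nat.cast_nonneg _).trans h5)
  refine ⟨F.finite_toSet.subset hsub, le_trans ?_ hcard⟩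
  have := Set.ncard_le_ncard hsub F.finite_toSet
  rw [Set.ncard_coe_finset] at this
  exact_mod_cast this

theorem hz_CNT_fl {u u' : ℝ} (D : ℕ) (h : u - u' ≤ D) : ((⌊u⌋ : ℤ) : ℝ) - ((⌊u'⌋ : ℤ) : ℝ) ≤ D := by
  have h1 := Int.floor_le u
  have h2 := Int.lt_floor_add_one u'
  have h3 : ((⌊u⌋ : ℤ) : ℝ) < ((⌊u'⌋ + (D : ℤ) + 1 : ℤ) : ℝ) := by
    push_cast
    linarith
  have h4 : ⌊u⌋ < ⌊u'⌋ + (D : ℤ) + 1 := by exact_mod_cast h3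
  have h5 : ⌊u⌋ ≤ ⌊u'⌋ + (D : ℤ) := Int.lt_add_one_iff.mp h4
  have h6 : ((⌊u⌋ : ℤ) : ℝ) ≤ ((⌊u'⌋ + (D : ℤ) : ℤ) : ℝ) := by exact_mod_cast h5
  push_cast at h6
  linarith

theorem hz_CNT_fr {u u' D : ℝ} (h : u - u' ≤ D) : ((⌊u⌋ : ℤ) : ℝ) - ((⌊u'⌋ : ℤ) : ℝ) ≤ D + 1 := by
  have h1 := Int.floor_le u
  have h2 := Int.lt_floor_add_one u'
  linarith

theorem hz_CNT_sub {u u' c R : ℝ} (h : |u - c| ≤ R) (h' : |u' - c| ≤ R) : u - u' ≤ 2 * R := by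
  have := abs_le.mp h
  have := abs_le.mp h'
  linarith

theorem hz_CNT_tilt (Q F : CyT) (l r : ℝ) (hr : 0 < r) (hQr : Q.r = r) (p q : Cy5) (hp : cyIn Q l p) (hq : cyIn Q l q)
    (hx : |p.X - F.x| ≤ r / 2) : cyTilt F p - cyTilt F q ≤ 8 * (l * r ^ 2) := by
  have e1 : cyTilt F p - cyTilt F q = (cyTilt Q p - cyTilt Q q) + 2 * ((Q.x - F.x) * (p.B - q.B)) := by
    simp only [cyTilt]
    ring
  have h1 : cyTilt Q p - cyTilt Q q ≤ 2 * (l * r ^ 2) := hz_CNT_sub (c := 0) (by rw [sub_zero, ← hQr]; exact hp.2.2.1) (by rw [sub_zero, ← hQr]; exact hq.2.2.1)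
  have h2 : |Q.x - F.x| ≤ 3 / 2 * r := by
    have e2 : Q.x - F.x = (p.X - F.x) - (p.X - Q.x) := by ring
    rw [e2]
    refine (abs_sub _ _).trans ?_
    have := hp.1
    rw [hQr] at this
    linarith
  have h3 : |p.B - q.B| ≤ 2 * (l * r) := by
    have e2 : p.B - q.B = (p.B - Q.b) - (q.B - Q.b) := by ring
    rw [e2]
    refine (abs_sub _ _).trans ?_
    have a1 := hp.2.1
    have a2 := hq.2.1
    rw [hQr] at a1 a2
    linarith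
  have h4 : (Q.x - F.x) * (p.B - q.B) ≤ 3 / 2 * r * (2 * (l * r)) := by
    refine (le_abs_self _).trans ?_
    rw [abs_mul]
    exact mul_le_mul h2 h3 (abs_nonneg _) (by positivity)
  rw [e1]
  linarith

theorem hz_CNT_arith {σ x : ℝ} (hσ : 1 ≤ σ) (hx : 1 ≤ x) :
    1 * (2 + 1) * (2 * (1 + 4 * σ) + 1 + 1) * (4 + 12 * σ + 1 + 1) * (2 + 1) * (8 + 1) * (2 * (1 + 2 * σ) * x + 1 + 1) ≤ 2 * 10 ^ 5 * σ ^ 3 * x := by
  have q2 : 2 * (1 + 4 * σ) + 1 + 1 ≤ 12 * σ := by linarith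
  have q3 : 4 + 12 * σ + 1 + 1 ≤ 18 * σ := by linarith
  have q6 : 2 * (1 + 2 * σ) * x + 1 + 1 ≤ 8 * (σ * x) := by nlinarith
  have hσx : 0 ≤ σ * x := by positivity
  calc 1 * (2 + 1) * (2 * (1 + 4 * σ) + 1 + 1) * (4 + 12 * σ + 1 + 1) * (2 + 1) * (8 + 1) * (2 * (1 + 2 * σ) * x + 1 + 1)
      ≤ 1 * (2 + 1) * (12 * σ) * (18 * σ) * (2 + 1) * (8 + 1) * (8 * (σ * x)) := by gcongr
    _ = 139968 * (σ ^ 3 * x) := by ring
    _ ≤ 2 * 10 ^ 5 * σ ^ 3 * x := by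
        have : 0 ≤ σ ^ 3 * x := by positivity
        nlinarith

/-- **(N) COUNTING.**   `Q` = test of a label with the widths of the frame, at the time `T0 + t`, `0 ≤ t ≤ l0`, length `l ≤ l0`, boxes of (T) with `σ ≥ 1`; bins of length `a ≤ l f`.
`jX`: `≤ 3` values;  `jN`: `≤ 11σ`;  `jD`: `|cyPos - t cyVel - const| ≤ (2 + 6σ) l0 f`: `≤ 17σ`;  for FIXED `g`:  `⌊B'⌋`: `≤ 3`;  `⌊Y'⌋`: `cyTilt (frame of g) z = cyTilt Q z + 2 (Q.x - x_g)(B - Q.b) + const`, `|Q.x - x_g| ≤ 3r/2`: `≤ 9`;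
`⌊D'/a⌋`: `≤ 7σ (l f/a)`.   `S` = `biUnion` over `g` of products (`hz_floor_fin`).   ~400 l. -/
theorem hz_count (Q Q0 : CyT) (l0 l t a σ vc pc : ℝ) (hr : 0 < Q0.r) (hf : 0 < Q0.f) (hQr : Q.r = Q0.r) (hQf : Q.f = Q0.f) (hl : 0 < l) (hll : l ≤ l0)
    (ht0 : 0 ≤ t) (ht : t ≤ l0) (ha : 0 < a) (hal : a ≤ l * Q0.f) (hσ : 1 ≤ σ)
    (hbox : ∀ z, cyIn Q l z → |cyVel (hzFr Q0 t) z - vc| ≤ (1 + 4 * σ) * Q0.f ∧ |cyPos (hzFr Q0 t) z - pc| ≤ (1 + 2 * σ) * (l * Q0.f)) :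
    ∃ S : Finset ((ℤ × ℤ × ℤ) × (ℤ × ℤ × ℤ)), (S.card : ℝ) ≤ 2 * 10 ^ 5 * σ ^ 3 * (l * Q0.f / a) ∧
      ∀ z, cyIn Q l z → (hzGi Q0 l0 t z, hzCell (hzFr (hzGf Q0 l0 (hzGi Q0 l0 t z)) t) l a z) ∈ S := by
  classical
  have hl0 : 0 < l0 := lt_of_lt_of_le hl hll
  have hlf : 0 < l * Q0.f := mul_pos hl hf
  have hl0f : 0 < l0 * Q0.f := mul_pos hl0 hf
  have hlr : 0 < l * Q0.r := mul_pos hl hr
  have hlr2 : 0 < l * Q0.r ^ 2 := by positivity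
  have hσ0 : 0 < σ := by linarith
  set T : Set Cy5 := {z | cyIn Q l z} with hT
  have dX : ∀ p ∈ T, ∀ q ∈ T, p.X - q.X ≤ 2 * Q0.r := fun p hp q hq =>
    hz_CNT_sub (c := Q.x) (by rw [← hQr]; exact hp.1) (by rw [← hQr]; exact hq.1)
  have dB : ∀ p ∈ T, ∀ q ∈ T, p.B - q.B ≤ 2 * (l * Q0.r) := fun p hp q hq =>
    hz_CNT_sub (c := Q.b) (by rw [← hQr]; exact hp.2.1) (by rw [← hQr]; exact hq.2.1)
  have dV : ∀ p ∈ T, ∀ q ∈ T, cyVel (hzFr Q0 t) p - cyVel (hzFr Q0 t) q ≤ 2 * ((1 + 4 * σ) * Q0.f) := fun p hp q hq =>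
    hz_CNT_sub (hbox p hp).1 (hbox q hq).1
  have dP : ∀ p ∈ T, ∀ q ∈ T, cyPos (hzFr Q0 t) p - cyPos (hzFr Q0 t) q ≤ 2 * ((1 + 2 * σ) * (l * Q0.f)) := fun p hp q hq =>
    hz_CNT_sub (hbox p hp).2 (hbox q hq).2
  obtain ⟨F1, N1⟩ := hz_CNT_cnt T (fun _ => ()) (fun z => ⌊(z.X - Q0.x) / Q0.r⌋) 1 2 (by norm_num) (Set.toFinite _)
    (by exact_mod_cast Set.ncard_le_one_of_subsingleton _) (by
      intro p hp q hq _
      have := hz_CNT_fl (u := (p.X - Q0.x) / Q0.r) (u' := (q.X - Q0.x) / Q0.r) 2 (by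
        rw [← sub_div, div_le_iff₀ hr]
        push_cast
        linarith [dX p hp q hq])
      exact_mod_cast this)
  obtain ⟨F2, N2⟩ := hz_CNT_cnt T (fun z => ((), ⌊(z.X - Q0.x) / Q0.r⌋)) (fun z => ⌊cyVel (hzFr Q0 t) z / Q0.f⌋) _ (2 * (1 + 4 * σ) + 1)
    (by positivity) F1 N1 (by
      intro p hp q hq _
      refine hz_CNT_fr ?_
      rw [← sub_div, div_le_iff₀ hf]
      linarith [dV p hp q hq])
  obtain ⟨F3, N3⟩ := hz_CNT_cnt T (fun z => (((), ⌊(z.X - Q0.x) / Q0.r⌋), ⌊cyVel (hzFr Q0 t) z / Q0.f⌋))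
    (fun z => ⌊(cyPos (hzFr Q0 t) z - t * cyVel (hzFr Q0 t) z) / (l0 * Q0.f)⌋) _ (4 + 12 * σ + 1) (by positivity) F2 N2 (by
      intro p hp q hq _
      refine hz_CNT_fr ?_
      rw [← sub_div, div_le_iff₀ hl0f]
      have h1 := dP p hp q hq
      have h2 := dV q hq p hp
      have h3 : t * (cyVel (hzFr Q0 t) q - cyVel (hzFr Q0 t) p) ≤ l0 * (2 * ((1 + 4 * σ) * Q0.f)) := by
        rcases le_total 0 (cyVel (hzFr Q0 t) q - cyVel (hzFr Q0 t) p) with h0 | h0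
        · exact mul_le_mul ht h2 h0 hl0.le
        · exact (mul_nonpos_of_nonneg_of_nonpos ht0 h0).trans (by positivity)
      have h4 : (1 + 2 * σ) * (l * Q0.f) ≤ (1 + 2 * σ) * (l0 * Q0.f) :=
        mul_le_mul_of_nonneg_left (mul_le_mul_of_nonneg_right hll hf.le) (by positivity)
      linarith)
  have hFr : ∀ γ : ℤ × ℤ × ℤ, (hzFr (hzGf Q0 l0 γ) t).r = Q0.r := fun _ => rfl
  have hG : ∀ p q : Cy5, ((((), ⌊(p.X - Q0.x) / Q0.r⌋), ⌊cyVel (hzFr Q0 t) p / Q0.f⌋),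
        ⌊(cyPos (hzFr Q0 t) p - t * cyVel (hzFr Q0 t) p) / (l0 * Q0.f)⌋)
      = ((((), ⌊(q.X - Q0.x) / Q0.r⌋), ⌊cyVel (hzFr Q0 t) q / Q0.f⌋), ⌊(cyPos (hzFr Q0 t) q - t * cyVel (hzFr Q0 t) q) / (l0 * Q0.f)⌋) →
      hzGi Q0 l0 t p = hzGi Q0 l0 t q := by
    intro p q h
    simp only [Prod.mk.injEq, true_and] at h
    exact Prod.ext h.1.1 (Prod.ext h.1.2 h.2)
  obtain ⟨F4, N4⟩ := hz_CNT_cnt T (fun z => ((((), ⌊(z.X - Q0.x) / Q0.r⌋), ⌊cyVel (hzFr Q0 t) z / Q0.f⌋),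
      ⌊(cyPos (hzFr Q0 t) z - t * cyVel (hzFr Q0 t) z) / (l0 * Q0.f)⌋))
    (fun z => ⌊(cyBase (hzFr (hzGf Q0 l0 (hzGi Q0 l0 t z)) t) l z).2.1⌋) _ 2 (by norm_num) F3 N3 (by
      intro p hp q hq hpq
      simp only [hG p q hpq]
      have := hz_CNT_fl (u := (cyBase (hzFr (hzGf Q0 l0 (hzGi Q0 l0 t q)) t) l p).2.1)
        (u' := (cyBase (hzFr (hzGf Q0 l0 (hzGi Q0 l0 t q)) t) l q).2.1) 2 (by
          simp only [cyBase]
          rw [hFr, ← sub_div, div_le_iff₀ hlr]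
          push_cast
          linarith [dB p hp q hq])
      exact_mod_cast this)
  obtain ⟨F5, N5⟩ := hz_CNT_cnt T (fun z => (((((), ⌊(z.X - Q0.x) / Q0.r⌋), ⌊cyVel (hzFr Q0 t) z / Q0.f⌋),
      ⌊(cyPos (hzFr Q0 t) z - t * cyVel (hzFr Q0 t) z) / (l0 * Q0.f)⌋), ⌊(cyBase (hzFr (hzGf Q0 l0 (hzGi Q0 l0 t z)) t) l z).2.1⌋))
    (fun z => ⌊(cyBase (hzFr (hzGf Q0 l0 (hzGi Q0 l0 t z)) t) l z).2.2⌋) _ 8 (by norm_num) F4 N4 (by
      intro p hp q hq hpq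
      have hpq' := (Prod.mk.injEq _ _ _ _ ▸ hpq).1
      have hg := hG p q hpq'
      have hx := (hz_gi_mem Q0 hr hf l0 t hl0 ht0 ht _ p hg).1
      simp only [hg]
      have := hz_CNT_fl (u := (cyBase (hzFr (hzGf Q0 l0 (hzGi Q0 l0 t q)) t) l p).2.2)
        (u' := (cyBase (hzFr (hzGf Q0 l0 (hzGi Q0 l0 t q)) t) l q).2.2) 8 (by
          simp only [cyBase]
          rw [hFr, ← sub_div, div_le_iff₀ hlr2]
          push_cast
          exact hz_CNT_tilt Q (hzFr (hzGf Q0 l0 (hzGi Q0 l0 t q)) t) l Q0.r hr hQr p q hp hq hx)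
      exact_mod_cast this)
  obtain ⟨F6, N6⟩ := hz_CNT_cnt T (fun z => ((((((), ⌊(z.X - Q0.x) / Q0.r⌋), ⌊cyVel (hzFr Q0 t) z / Q0.f⌋),
      ⌊(cyPos (hzFr Q0 t) z - t * cyVel (hzFr Q0 t) z) / (l0 * Q0.f)⌋), ⌊(cyBase (hzFr (hzGf Q0 l0 (hzGi Q0 l0 t z)) t) l z).2.1⌋),
      ⌊(cyBase (hzFr (hzGf Q0 l0 (hzGi Q0 l0 t z)) t) l z).2.2⌋))
    (fun z => ⌊cyPos (hzFr (hzGf Q0 l0 (hzGi Q0 l0 t z)) t) z / a⌋) _ (2 * (1 + 2 * σ) * (l * Q0.f / a) + 1) (by positivity) F5 N5 (by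
      intro p hp q hq hpq
      have hpq' := (Prod.mk.injEq _ _ _ _ ▸ (Prod.mk.injEq _ _ _ _ ▸ hpq).1).1
      have hg := hG p q hpq'
      simp only [hg]
      refine hz_CNT_fr ?_
      rw [← sub_div, div_le_iff₀ ha, (hz_gf_vel Q0 l0 t _ p).2, (hz_gf_vel Q0 l0 t _ q).2]
      have h1 := dP p hp q hq
      have e1 : 2 * (1 + 2 * σ) * (l * Q0.f / a) * a = 2 * ((1 + 2 * σ) * (l * Q0.f)) := by
        field_simp
      rw [e1]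
      linarith)
  refine ⟨F6.toFinset.image (fun w => ((w.1.1.1.1.1.2, w.1.1.1.1.2, w.1.1.1.2), (w.1.1.2, w.1.2, w.2))), ?_, ?_⟩
  · have h1 : ((F6.toFinset.image (fun w : (((((Unit × ℤ) × ℤ) × ℤ) × ℤ) × ℤ) × ℤ =>
        ((w.1.1.1.1.1.2, w.1.1.1.1.2, w.1.1.1.2), (w.1.1.2, w.1.2, w.2)))).card : ℝ) ≤ (F6.toFinset.card : ℝ) := by
      exact_mod_cast Finset.card_image_le
    rw [← Set.ncard_eq_toFinset_card _ F6] at h1
    refine h1.trans (N6.trans ?_)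
    exact hz_CNT_arith hσ (by rw [le_div_iff₀ ha, one_mul]; exact hal)
  · intro z hz
    refine Finset.mem_image.mpr ⟨_, (Set.Finite.mem_toFinset F6).mpr ⟨z, hz, rfl⟩, rfl⟩

end Claimed.Agent.R256
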