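import Claimed.Agent.R256.Hz.Cross

/-!
# Row 256, unit HZ, file 4: FIBRE THEORY III = locality through a stack, multiplicity, THE TWO ASSEMBLED FIBRE THEOREMS      (chief helper82; prefix `hz_`)      Base-free.

* `hzBx θ W x R = {|N - θ| ≤ W, |D - x| ≤ R}`
* (L0) `hz_loc_step`    one transfer off the correspondence `|N'-N| ≤ Λ d', |D'-D-tN| ≤ Λ q`
* (L1v) `hz_vel_fwd`   the same for the velocities only
* (L1) `hz_loc_fwd`     sources in a box: the rows of the branch outside the flowed, enlarged box are negligible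
* (L2) `hz_loc_bwd`     sources outside the enlarged box: the rows of the branch in the flowed box are negligible
* (P)  `hz_br_map`, `hz_br_pi`      a branch commutes with bounded linear maps of the multiplicity space; direct sums
* (C)  `hz_br_insert`, `hz_br_back`, `hz_winL_append`     the trivial stage, the rows at a coarser frame from the rows at a finer frame, windowing of a concatenation
* **(FX)** `hz_cross_all`   crossing estimate for the ACTUAL masks, from the root to the terminal bins      (= (cross) of the paper)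
* **(FL)** `hz_low_fib`     terminal bin `≤ Λ^K (R/q_s)` × mass of the rows read at `(T_{J*}, k*)` after the stages of depth `≤ ks`, in a phase space box      (= (env) + window transfer)
In (FX), (FL) the constants are `Λ^K`, `K = K(m)`, `Λ ≥ 2` (absorbs all numerical constants).
-/

set_option autoImplicit false

namespace Claimed.Agent.R256

open MeasureTheory
open scoped ENNReal

/-- phase space box -/
def hzBx (θ W x R : ℝ) : Set (ℝ × ℝ) := {ρ | |ρ.2 - θ| ≤ W ∧ |ρ.1 - x| ≤ R}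

/-- the trivial stage at the depth `k` -/
def hzOne (k : ℕ) : HyStg := ⟨k, fun _ _ => 1⟩

theorem hz_loc_eqns_cite : True := by
  have := @hzBx.eq_1
  have := @hzOne.eq_1
  trivial

variable {E : Type} [NormedAddCommGroup E] [InnerProductSpace ℂ E] [CompleteSpace E]

/-- **(L0)** one transfer off the correspondence.   `hy_schur` with the kernel `1_{S'}(ρ') 1_S(ρ) kr`;  `{(ρ',ρ) not corresponding} ⊆ farN ∪ farD`: row and column sums `≤ (26 e^{-Λ²/16} + 26 e^{-Λ²/40}) sqrt(q/q')`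
(`hy_kr_le`, `hy_kb_src_farN`, `hy_kb_src_farD`, `hy_kb_tgt_farN`, `hy_kb_tgt_farD`).   ~200 l. -/
theorem hz_loc_step (φ : HyF) (h : φ.Ok) (T : ℝ) (k : ℕ) (T' : ℝ) (k' : ℕ) (hk : k ≤ k') (ht : |T' - T| ≤ (2 : ℝ)⁻¹ ^ k) (Λ : ℝ) (hΛ : 0 ≤ Λ)
    (S S' : Set (ℝ × ℝ)) (hS : MeasurableSet S) (hS' : MeasurableSet S')
    (hn : ∀ ρ ∈ S, ∀ ρ' ∈ S', Λ * φ.d k' ≤ |ρ.2 - ρ'.2| ∨ Λ * φ.q k ≤ |ρ'.1 - ρ.1 - (T' - T) * ρ.2|)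
    (f : ℝ × ℝ → E) (hf : MemLp f 2 φ.nu) (hs : ∀ ρ, f ρ ≠ 0 → ρ ∈ S) :
    ∫⁻ ρ' in S', ‖φ.tr T k T' k' f ρ'‖ₑ ^ 2 ∂φ.nu
      ≤ ENNReal.ofReal ((52 * Real.exp (-(Λ ^ 2 / 40))) ^ 2 * (φ.q k / φ.q k')) * ∫⁻ ρ, ‖f ρ‖ₑ ^ 2 ∂φ.nu := by
  have := hy_nu_sfinite φ
  have hq := (hy_qd φ h k).1
  have hq' := (hy_qd φ h k').1
  obtain ⟨Far, hFar⟩ : ∃ Far : Set ((ℝ × ℝ) × (ℝ × ℝ)),
    Far = {z | Λ * φ.d k' ≤ |z.2.2 - z.1.2|} ∪ {z | Λ * φ.q k ≤ |z.1.1 - z.2.1 - (T' - T) * z.2.2|} := ⟨_, rfl⟩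
  have hFm : MeasurableSet Far := by
    rw [hFar]
    exact (measurableSet_le measurable_const (by fun_prop)).union (measurableSet_le measurable_const (by fun_prop))
  obtain ⟨K, hKd⟩ : ∃ K : ℝ × ℝ → ℝ × ℝ → ℂ, K = fun ρ' ρ => Far.indicator (Function.uncurry (φ.kr T k T' k')) (ρ', ρ) := ⟨_, rfl⟩
  have hK : Measurable (Function.uncurry K) := by
    have : Function.uncurry K = Far.indicator (Function.uncurry (φ.kr T k T' k')) := by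
      rw [hKd]
      rfl
    rw [this]
    exact (hy_kr_meas φ h T k T' k').indicator hFm
  have hKe : ∀ ρ' ρ, ‖K ρ' ρ‖ₑ = Far.indicator (fun z => ‖φ.kr T k T' k' z.1 z.2‖ₑ) (ρ', ρ) := by
    intro ρ' ρ
    rw [hKd]
    by_cases hz : (ρ', ρ) ∈ Far
    · simp only [Set.indicator_of_mem hz, Function.uncurry_apply_pair]
    · simp only [Set.indicator_of_notMem hz, enorm_zero]
  have hexp : Real.exp (-(Λ ^ 2 / 16)) ≤ Real.exp (-(Λ ^ 2 / 40)) := by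
    refine Real.exp_le_exp.2 ?_
    have : 0 ≤ Λ ^ 2 := by positivity
    linarith
  have hadd : ENNReal.ofReal (26 * Real.exp (-(Λ ^ 2 / 16)) * Real.sqrt (φ.q k / φ.q k'))
      + ENNReal.ofReal (26 * Real.exp (-(Λ ^ 2 / 40)) * Real.sqrt (φ.q k / φ.q k'))
      ≤ ENNReal.ofReal (52 * Real.exp (-(Λ ^ 2 / 40)) * Real.sqrt (φ.q k / φ.q k')) := by
    rw [← ENNReal.ofReal_add (by positivity) (by positivity)]
    refine ENNReal.ofReal_le_ofReal ?_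
    have hs0 : 0 ≤ Real.sqrt (φ.q k / φ.q k') := Real.sqrt_nonneg _
    nlinarith
  have b1 : ∀ ρ', ∫⁻ ρ, ‖K ρ' ρ‖ₑ ∂φ.nu ≤ ENNReal.ofReal (52 * Real.exp (-(Λ ^ 2 / 40)) * Real.sqrt (φ.q k / φ.q k')) := by
    intro ρ'
    have hmA : MeasurableSet {ρ : ℝ × ℝ | Λ * φ.d k' ≤ |ρ.2 - ρ'.2|} := measurableSet_le measurable_const (by fun_prop)
    have hmB : MeasurableSet {ρ : ℝ × ℝ | Λ * φ.q k ≤ |ρ'.1 - ρ.1 - (T' - T) * ρ.2|} := measurableSet_le measurable_const (by fun_prop)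
    have e1 : ∫⁻ ρ, ‖K ρ' ρ‖ₑ ∂φ.nu = ∫⁻ ρ in {ρ : ℝ × ℝ | Λ * φ.d k' ≤ |ρ.2 - ρ'.2|} ∪ {ρ : ℝ × ℝ | Λ * φ.q k ≤ |ρ'.1 - ρ.1 - (T' - T) * ρ.2|},
        ‖φ.kr T k T' k' ρ' ρ‖ₑ ∂φ.nu := by
      rw [← lintegral_indicator (hmA.union hmB)]
      refine lintegral_congr fun ρ => ?_
      rw [hKe, hFar]
      rfl
    rw [e1]
    refine (lintegral_union_le _ _ _).trans (le_trans (add_le_add ?_ ?_) hadd)
    · exact (lintegral_mono fun ρ => hz_kr_enorm_le φ h T k T' k' hk ht ρ' ρ).trans (hy_kb_src_farN φ h k k' (T' - T) Λ hΛ ρ')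
    · exact (lintegral_mono fun ρ => hz_kr_enorm_le φ h T k T' k' hk ht ρ' ρ).trans (hy_kb_src_farD φ h k k' (T' - T) Λ hΛ ρ')
  have b2 : ∀ ρ, ∫⁻ ρ', ‖K ρ' ρ‖ₑ ∂φ.nu ≤ ENNReal.ofReal (52 * Real.exp (-(Λ ^ 2 / 40)) * Real.sqrt (φ.q k / φ.q k')) := by
    intro ρ
    have hmA : MeasurableSet {ρ' : ℝ × ℝ | Λ * φ.d k' ≤ |ρ.2 - ρ'.2|} := measurableSet_le measurable_const (by fun_prop)
    have hmB : MeasurableSet {ρ' : ℝ × ℝ | Λ * φ.q k ≤ |ρ'.1 - ρ.1 - (T' - T) * ρ.2|} := measurableSet_le measurable_const (by fun_prop)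
    have e1 : ∫⁻ ρ', ‖K ρ' ρ‖ₑ ∂φ.nu = ∫⁻ ρ' in {ρ' : ℝ × ℝ | Λ * φ.d k' ≤ |ρ.2 - ρ'.2|} ∪ {ρ' : ℝ × ℝ | Λ * φ.q k ≤ |ρ'.1 - ρ.1 - (T' - T) * ρ.2|},
        ‖φ.kr T k T' k' ρ' ρ‖ₑ ∂φ.nu := by
      rw [← lintegral_indicator (hmA.union hmB)]
      refine lintegral_congr fun ρ' => ?_
      rw [hKe, hFar]
      rfl
    rw [e1]
    refine (lintegral_union_le _ _ _).trans (le_trans (add_le_add ?_ ?_) hadd)
    · exact (lintegral_mono fun ρ' => hz_kr_enorm_le φ h T k T' k' hk ht ρ' ρ).trans (hy_kb_tgt_farN φ h k k' (T' - T) Λ hΛ ρ)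
    · exact (lintegral_mono fun ρ' => hz_kr_enorm_le φ h T k T' k' hk ht ρ' ρ).trans (hy_kb_tgt_farD φ h k k' (T' - T) Λ hΛ ρ)
  have h1 := hy_schur φ.nu φ.nu K hK f hf.1 _ _ b1 b2
  have hc : ENNReal.ofReal (52 * Real.exp (-(Λ ^ 2 / 40)) * Real.sqrt (φ.q k / φ.q k')) *
      ENNReal.ofReal (52 * Real.exp (-(Λ ^ 2 / 40)) * Real.sqrt (φ.q k / φ.q k')) =
      ENNReal.ofReal ((52 * Real.exp (-(Λ ^ 2 / 40))) ^ 2 * (φ.q k / φ.q k')) := by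
    rw [← ENNReal.ofReal_mul (by positivity)]
    congr 1
    have := Real.mul_self_sqrt (show 0 ≤ φ.q k / φ.q k' by positivity)
    calc _ = (52 * Real.exp (-(Λ ^ 2 / 40))) ^ 2 * (Real.sqrt (φ.q k / φ.q k') * Real.sqrt (φ.q k / φ.q k')) := by ring
      _ = _ := by rw [this]
  rw [hc] at h1
  refine le_trans ?_ h1
  refine le_trans (le_of_eq ?_) (setLIntegral_le_lintegral S' _)
  refine setLIntegral_congr_fun hS' fun ρ' hρ' => ?_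
  congr 2
  unfold HyF.tr
  refine integral_congr_ae (Filter.Eventually.of_forall fun ρ => ?_)
  show φ.kr T k T' k' ρ' ρ • f ρ = K ρ' ρ • f ρ
  by_cases hfρ : f ρ = 0
  · rw [hfρ, smul_zero, smul_zero]
  · have h4 : (ρ', ρ) ∈ Far := by
      rw [hFar]
      exact hn ρ (hs ρ hfρ) ρ' hρ'
    rw [hKd]
    simp only [Set.indicator_of_mem h4, Function.uncurry_apply_pair]

/-- from squares to norms (two measures) -/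
theorem hz_L_to_norm {X : Type*} [MeasurableSpace X] (μ μ' : Measure X) {E' E'' : Type*} [NormedAddCommGroup E'] [NormedAddCommGroup E'']
    (f : X → E') (g : X → E'') (c : ℝ) (hc : 0 ≤ c) (h : ∫⁻ x, ‖f x‖ₑ ^ 2 ∂μ ≤ ENNReal.ofReal (c ^ 2) * ∫⁻ x, ‖g x‖ₑ ^ 2 ∂μ') :
    eLpNorm f 2 μ ≤ ENNReal.ofReal c * eLpNorm g 2 μ' := by
  rw [← hz_elp_sq, ← hz_elp_sq, ENNReal.ofReal_pow hc, ← mul_pow] at h
  exact (ENNReal.pow_le_pow_left_iff two_ne_zero).1 h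

/-- from norms to squares (two measures) -/
theorem hz_L_of_norm {X : Type*} [MeasurableSpace X] (μ μ' : Measure X) {E' E'' : Type*} [NormedAddCommGroup E'] [NormedAddCommGroup E'']
    (f : X → E') (g : X → E'') (c : ℝ) (hc : 0 ≤ c) (h : eLpNorm f 2 μ ≤ ENNReal.ofReal c * eLpNorm g 2 μ') :
    ∫⁻ x, ‖f x‖ₑ ^ 2 ∂μ ≤ ENNReal.ofReal (c ^ 2) * ∫⁻ x, ‖g x‖ₑ ^ 2 ∂μ' := by
  rw [← hz_elp_sq, ← hz_elp_sq, ENNReal.ofReal_pow hc, ← mul_pow]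
  exact pow_le_pow_left' h 2

omit [InnerProductSpace ℂ E] [CompleteSpace E] in
/-- the constant of one transfer in norm form -/
theorem hz_L_tr_norm (φ : HyF) (h : φ.Ok) (k k1 : ℕ) (c : ℝ) (hc : 0 ≤ c) (S' : Set (ℝ × ℝ)) (u f : ℝ × ℝ → E)
    (h1 : ∫⁻ ρ' in S', ‖u ρ'‖ₑ ^ 2 ∂φ.nu ≤ ENNReal.ofReal (c ^ 2 * (φ.q k / φ.q k1)) * ∫⁻ ρ, ‖f ρ‖ₑ ^ 2 ∂φ.nu) :
    eLpNorm u 2 (φ.nu.restrict S') ≤ ENNReal.ofReal (c * 2 ^ (((k1 : ℝ) - k) / 4)) * eLpNorm f 2 φ.nu := by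
  have hq := (hy_qd φ h k).1
  have hq1 := (hy_qd φ h k1).1
  refine hz_L_to_norm _ _ _ _ _ (by positivity) (h1.trans (le_of_eq ?_))
  rw [mul_pow, ← hz_q_ratio φ h k k1, Real.sq_sqrt (by positivity)]

omit [InnerProductSpace ℂ E] [CompleteSpace E] in
/-- the final constant in square form -/
theorem hz_L_sq (φ : HyF) (k k' : ℕ) (a : ℝ) (ha : 0 ≤ a) (S' : Set (ℝ × ℝ)) (u f : ℝ × ℝ → E)
    (h1 : eLpNorm u 2 (φ.nu.restrict S') ≤ ENNReal.ofReal (a * 2 ^ (((k' : ℝ) - k) / 4)) * eLpNorm f 2 φ.nu) :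
    ∫⁻ ρ' in S', ‖u ρ'‖ₑ ^ 2 ∂φ.nu ≤ ENNReal.ofReal (a ^ 2 * 2 ^ (((k' : ℝ) - k) / 2)) * ∫⁻ ρ, ‖f ρ‖ₑ ^ 2 ∂φ.nu := by
  refine (hz_L_of_norm _ _ _ _ _ (by positivity) h1).trans (le_of_eq ?_)
  rw [mul_pow, ← Real.rpow_natCast (2 ^ (((k' : ℝ) - k) / 4)), ← Real.rpow_mul (by norm_num)]
  congr 4
  push_cast
  ring

/-- **one step of the locality inductions**: `B₁` = intermediate set at the frame of the first stage -/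
theorem hz_L_step (φ : HyF) (h : φ.Ok) (k' i : ℕ) (σ : HyStg) (l : List HyStg) (k : ℕ) (hl : HzStk k k' (σ :: l)) (c : ℝ) (hc : 0 ≤ c)
    (B₁ S' : Set (ℝ × ℝ)) (hB₁ : MeasurableSet B₁) (f : ℝ × ℝ → E) (hf : MemLp f 2 φ.nu)
    (h1 : eLpNorm (φ.tr (tmL k (ancI k' k i)) k (tmL σ.k (ancI k' σ.k i)) σ.k f) 2 (φ.nu.restrict B₁ᶜ)
      ≤ ENNReal.ofReal (c * 2 ^ (((σ.k : ℝ) - k) / 4)) * eLpNorm f 2 φ.nu)
    (h2 : ∀ g : ℝ × ℝ → E, MemLp g 2 φ.nu → (∀ ρ, g ρ ≠ 0 → ρ ∈ B₁) →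
      eLpNorm (φ.br k' i l (tmL σ.k (ancI k' σ.k i)) σ.k g) 2 (φ.nu.restrict S')
        ≤ ENNReal.ofReal (((l.length : ℝ) + 1) * c * 2 ^ (((k' : ℝ) - σ.k) / 4)) * eLpNorm g 2 φ.nu) :
    eLpNorm (φ.br k' i (σ :: l) (tmL k (ancI k' k i)) k f) 2 (φ.nu.restrict S')
      ≤ ENNReal.ofReal ((((σ :: l).length : ℝ) + 1) * c * 2 ^ (((k' : ℝ) - k) / 4)) * eLpNorm f 2 φ.nu := by
  have hσk := hl.dep σ List.mem_cons_self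
  have hσ := hl.ok σ List.mem_cons_self
  have hl' := hz_stk_tail hl
  have hlok : ∀ τ ∈ l, τ.Ok := hl'.ok
  obtain ⟨a, ha⟩ : ∃ a : ℕ, a = ancI k' σ.k i := ⟨_, rfl⟩
  obtain ⟨Tk, hTk⟩ : ∃ Tk : ℝ, Tk = tmL k (ancI k' k i) := ⟨_, rfl⟩
  rw [← ha, ← hTk] at h1
  rw [← ha] at h2
  rw [← hTk]
  obtain ⟨g, hg⟩ : ∃ g : ℝ × ℝ → E, g = φ.tr Tk k (tmL σ.k a) σ.k f := ⟨_, rfl⟩
  rw [← hg] at h1
  have hgm : MemLp g 2 φ.nu := by rw [hg]; exact hy_tr_memLp φ h Tk k _ σ.k f hf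
  have hgc : eLpNorm g 2 φ.nu ≤ eLpNorm f 2 φ.nu := by
    rw [hg]
    exact hz_elp_le_one _ _ _ (hy_tr_contr φ h Tk k _ σ.k f hf)
  obtain ⟨fM, hfM⟩ : ∃ fM : ℝ × ℝ → E, fM = fun ρ => ((σ.M a ρ : ℝ) : ℂ) • g ρ := ⟨_, rfl⟩
  obtain ⟨mM, cM⟩ := hz_mask φ (σ.M a) (hσ a).1 (hσ a).2 g hgm
  rw [← hfM] at mM
  have cM' : ∀ ρ, ‖fM ρ‖ ≤ ‖g ρ‖ := by
    intro ρ
    have := cM ρ
    rw [← ofReal_norm, ← ofReal_norm, ENNReal.ofReal_le_ofReal_iff (norm_nonneg _)] at this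
    rw [hfM]
    exact this
  have mA : MemLp (B₁.indicator fM) 2 φ.nu := mM.indicator hB₁
  have mB : MemLp (B₁ᶜ.indicator fM) 2 φ.nu := mM.indicator hB₁.compl
  have e1 : φ.br k' i (σ :: l) Tk k f = fun ρ => φ.br k' i l (tmL σ.k a) σ.k (B₁.indicator fM) ρ
      + φ.br k' i l (tmL σ.k a) σ.k (B₁ᶜ.indicator fM) ρ := by
    funext ρ
    rw [← hz_br_add φ h k' i l hlok _ _ _ _ mA mB]
    have : (fun x => B₁.indicator fM x + B₁ᶜ.indicator fM x) = fM := by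
      funext x
      exact congrFun (Set.indicator_self_add_compl B₁ fM) x
    rw [this, hfM, hg, ha]
    rfl
  obtain ⟨P, hP⟩ : ∃ P : ℝ, P = 2 ^ (((k' : ℝ) - k) / 4) := ⟨_, rfl⟩
  have hPp : 0 ≤ P := by rw [hP]; positivity
  have hk1 : (k : ℝ) ≤ σ.k := by exact_mod_cast hσk.1
  have hk2 : (σ.k : ℝ) ≤ k' := by exact_mod_cast hσk.2
  have t1 : eLpNorm (φ.br k' i l (tmL σ.k a) σ.k (B₁.indicator fM)) 2 (φ.nu.restrict S')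
      ≤ ENNReal.ofReal (((l.length : ℝ) + 1) * c * P) * eLpNorm f 2 φ.nu := by
    refine (h2 _ mA fun ρ hρ => ?_).trans (mul_le_mul' (ENNReal.ofReal_le_ofReal ?_) ?_)
    · by_contra hc'
      exact hρ (Set.indicator_of_notMem hc' _)
    · refine mul_le_mul_of_nonneg_left ?_ (by positivity)
      rw [hP]
      exact Real.rpow_le_rpow_of_exponent_le (by norm_num) (by linarith)
    · refine le_trans (eLpNorm_mono fun ρ => ?_) hgc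
      refine le_trans ?_ (cM' ρ)
      exact norm_indicator_le_norm_self _ _
  have t2 : eLpNorm (φ.br k' i l (tmL σ.k a) σ.k (B₁ᶜ.indicator fM)) 2 (φ.nu.restrict S')
      ≤ ENNReal.ofReal (c * P) * eLpNorm f 2 φ.nu := by
    refine (eLpNorm_mono_measure _ Measure.restrict_le_self).trans ?_
    refine (hz_elp_le_one _ _ _ (hz_br_contr φ h k' i l hlok _ _ _ mB).2).trans ?_
    have h3 : eLpNorm (B₁ᶜ.indicator fM) 2 φ.nu ≤ eLpNorm g 2 (φ.nu.restrict B₁ᶜ) := by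
      rw [← eLpNorm_indicator_eq_eLpNorm_restrict hB₁.compl]
      refine eLpNorm_mono fun ρ => ?_
      by_cases hρ : ρ ∈ B₁ᶜ
      · rw [Set.indicator_of_mem hρ, Set.indicator_of_mem hρ]
        exact cM' ρ
      · rw [Set.indicator_of_notMem hρ, Set.indicator_of_notMem hρ]
    refine (h3.trans h1).trans (mul_le_mul' (ENNReal.ofReal_le_ofReal ?_) le_rfl)
    refine mul_le_mul_of_nonneg_left ?_ hc
    rw [hP]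
    exact Real.rpow_le_rpow_of_exponent_le (by norm_num) (by linarith)
  have s1 : AEStronglyMeasurable (φ.br k' i l (tmL σ.k a) σ.k (B₁.indicator fM)) (φ.nu.restrict S') :=
    (hz_br_contr φ h k' i l hlok _ _ _ mA).1.1.restrict
  have s2 : AEStronglyMeasurable (φ.br k' i l (tmL σ.k a) σ.k (B₁ᶜ.indicator fM)) (φ.nu.restrict S') :=
    (hz_br_contr φ h k' i l hlok _ _ _ mB).1.1.restrict
  rw [e1]
  refine (eLpNorm_add_le s1 s2 (by norm_num)).trans ((add_le_add t1 t2).trans (le_of_eq ?_))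
  rw [← add_mul, ← ENNReal.ofReal_add (by positivity) (by positivity), ← hP]
  congr 2
  simp only [List.length_cons]
  push_cast
  ring

theorem hz_L_vel_meas (θ W : ℝ) : MeasurableSet (hzVel θ W) := by
  unfold hzVel
  exact measurableSet_le (by fun_prop) measurable_const

/-- (L1v) in norm form -/
theorem hz_L_vel (φ : HyF) (h : φ.Ok) (k' i : ℕ) (l : List HyStg) (k : ℕ) (hk : k ≤ k') (hl : HzStk k k' l) (θ W Λ : ℝ)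
    (hΛ : 0 ≤ Λ) (f : ℝ × ℝ → E) (hf : MemLp f 2 φ.nu) (hs : ∀ ρ, f ρ ≠ 0 → |ρ.2 - θ| ≤ W) :
    eLpNorm (φ.br k' i l (tmL k (ancI k' k i)) k f) 2 (φ.nu.restrict (hzVel θ (W + (l.length + 1) * Λ * φ.d k'))ᶜ)
      ≤ ENNReal.ofReal (((l.length : ℝ) + 1) * (26 * Real.exp (-(Λ ^ 2 / 16))) * 2 ^ (((k' : ℝ) - k) / 4)) * eLpNorm f 2 φ.nu := by
  induction l generalizing k f W with
  | nil =>
    have ht : |tmL k' i - tmL k (ancI k' k i)| ≤ (2 : ℝ)⁻¹ ^ k := by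
      have := hz_time_le k k' k' i hk le_rfl
      rwa [(hz_anc_time k k' k' i hk le_rfl).2.2.2] at this
    have v := hz_vel_step φ h (tmL k (ancI k' k i)) k (tmL k' i) k' hk ht θ W Λ hΛ f hf hs
    have v' := hz_L_tr_norm φ h k k' _ (by positivity) _ _ _ v
    simp only [List.length_nil, Nat.cast_zero, zero_add, one_mul]
    exact v'
  | cons σ l ih =>
    have hσk := hl.dep σ List.mem_cons_self
    have hl' := hz_stk_tail hl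
    have hd := (hy_qd_mono φ h hσk.2).2
    have hd0 := (hy_qd φ h k').2.1
    refine hz_L_step φ h k' i σ l k hl _ (by positivity) (hzVel θ (W + Λ * φ.d σ.k)) _ (hz_L_vel_meas _ _) f hf ?_ ?_
    · exact hz_L_tr_norm φ h k σ.k _ (by positivity) _ _ _
        (hz_vel_step φ h _ k _ σ.k hσk.1 (hz_time_le k σ.k k' i hσk.1 hσk.2) θ W Λ hΛ f hf hs)
    · intro g hg hgs
      refine le_trans (eLpNorm_mono_measure _ (Measure.restrict_mono ?_ le_rfl)) (ih σ.k hσk.2 hl' (W + Λ * φ.d σ.k) g hg hgs)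
      refine Set.compl_subset_compl.2 fun ρ hρ => ?_
      have hρ' : |ρ.2 - θ| ≤ W + Λ * φ.d σ.k + (l.length + 1) * Λ * φ.d k' := hρ
      show |ρ.2 - θ| ≤ W + (((σ :: l).length : ℝ) + 1) * Λ * φ.d k'
      refine hρ'.trans ?_
      simp only [List.length_cons]
      push_cast
      have : Λ * φ.d σ.k ≤ Λ * φ.d k' := mul_le_mul_of_nonneg_left hd hΛ
      linarith

/-- **(L1v)** velocities only.   Same induction as (L1) with `hz_vel_step`.  ~250 l. -/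
theorem hz_vel_fwd (φ : HyF) (h : φ.Ok) (k' i : ℕ) (l : List HyStg) (k : ℕ) (hk : k ≤ k') (hl : HzStk k k' l) (θ W Λ : ℝ) (hW : 0 ≤ W)
    (hΛ : 0 ≤ Λ) (f : ℝ × ℝ → E) (hf : MemLp f 2 φ.nu) (hs : ∀ ρ, f ρ ≠ 0 → |ρ.2 - θ| ≤ W) :
    ∫⁻ ρ' in (hzVel θ (W + (l.length + 1) * Λ * φ.d k'))ᶜ, ‖φ.br k' i l (tmL k (ancI k' k i)) k f ρ'‖ₑ ^ 2 ∂φ.nu
      ≤ ENNReal.ofReal (((l.length + 1) * 26 * Real.exp (-(Λ ^ 2 / 16))) ^ 2 * 2 ^ (((k' : ℝ) - k) / 2)) * ∫⁻ ρ, ‖f ρ‖ₑ ^ 2 ∂φ.nu := by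
  have h1 := hz_L_sq φ k k' _ (by positivity) _ _ _ (hz_L_vel φ h k' i l k hk hl θ W Λ hΛ f hf hs)
  rw [← mul_assoc] at h1
  exact h1

theorem hz_L_bx_meas (θ W x R : ℝ) : MeasurableSet (hzBx θ W x R) := by
  have h1 : MeasurableSet {ρ : ℝ × ℝ | |ρ.2 - θ| ≤ W} := measurableSet_le (by fun_prop) measurable_const
  have h2 : MeasurableSet {ρ : ℝ × ℝ | |ρ.1 - x| ≤ R} := measurableSet_le (by fun_prop) measurable_const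
  exact h1.inter h2

theorem hz_L_corr_fwd {θ W x R t a b N D N' D' : ℝ} (ht : 0 ≤ t) (h1 : |N - θ| ≤ W) (h2 : |D - x| ≤ R)
    (h3 : |N - N'| < a) (h4 : |D' - D - t * N| < b) : |N' - θ| ≤ W + a ∧ |D' - (x + t * θ)| ≤ R + t * W + b := by
  rw [abs_le] at h1 h2
  rw [abs_lt] at h3 h4
  have p1 : t * (N - θ) ≤ t * W := mul_le_mul_of_nonneg_left h1.2 ht
  have p2 : t * (-W) ≤ t * (N - θ) := mul_le_mul_of_nonneg_left h1.1 ht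
  constructor
  · rw [abs_le]
    constructor <;> linarith [h1.1, h1.2, h3.1, h3.2]
  · rw [abs_le]
    constructor <;> linarith [h2.1, h2.2, h4.1, h4.2]

theorem hz_L_corr_bwd {θ W x R t a b N D N' D' : ℝ} (ht : 0 ≤ t) (h1 : |N' - θ| ≤ W) (h2 : |D' - (x + t * θ)| ≤ R)
    (h3 : |N - N'| < a) (h4 : |D' - D - t * N| < b) : |N - θ| ≤ W + a ∧ |D - x| ≤ R + t * (W + a) + b := by
  rw [abs_le] at h1 h2
  rw [abs_lt] at h3 h4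
  have q1 : N - θ ≤ W + a := by linarith [h1.2, h3.2]
  have q2 : -(W + a) ≤ N - θ := by linarith [h1.1, h3.1]
  have p1 : t * (N - θ) ≤ t * (W + a) := mul_le_mul_of_nonneg_left q1 ht
  have p2 : t * (-(W + a)) ≤ t * (N - θ) := mul_le_mul_of_nonneg_left q2 ht
  constructor
  · rw [abs_le]
    exact ⟨q2, q1⟩
  · rw [abs_le]
    constructor <;> linarith [h2.1, h2.2, h4.1, h4.2]

/-- one transfer, forward -/
theorem hz_L_fwd_one (φ : HyF) (h : φ.Ok) (T : ℝ) (k : ℕ) (T' : ℝ) (k' : ℕ) (hk : k ≤ k') (ht0 : 0 ≤ T' - T) (ht : T' - T ≤ (2 : ℝ)⁻¹ ^ k)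
    (θ W x R Λ W₁ R₁ : ℝ) (hΛ : 0 ≤ Λ) (hW₁ : W + Λ * φ.d k' ≤ W₁) (hR₁ : R + (T' - T) * W + Λ * φ.q k ≤ R₁)
    (f : ℝ × ℝ → E) (hf : MemLp f 2 φ.nu) (hs : ∀ ρ, f ρ ≠ 0 → ρ ∈ hzBx θ W x R) :
    eLpNorm (φ.tr T k T' k' f) 2 (φ.nu.restrict (hzBx θ W₁ (x + (T' - T) * θ) R₁)ᶜ)
      ≤ ENNReal.ofReal (52 * Real.exp (-(Λ ^ 2 / 40)) * 2 ^ (((k' : ℝ) - k) / 4)) * eLpNorm f 2 φ.nu := by
  refine hz_L_tr_norm φ h k k' _ (by positivity) _ _ _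
    (hz_loc_step φ h T k T' k' hk (by rw [abs_of_nonneg ht0]; exact ht) Λ hΛ (hzBx θ W x R) _ (hz_L_bx_meas _ _ _ _)
      (hz_L_bx_meas _ _ _ _).compl ?_ f hf hs)
  intro ρ hρ ρ' hρ'
  by_contra hcon
  rw [not_or, not_le, not_le] at hcon
  obtain ⟨c1, c2⟩ := hz_L_corr_fwd ht0 hρ.1 hρ.2 hcon.1 hcon.2
  exact hρ' ⟨c1.trans hW₁, c2.trans hR₁⟩

/-- one transfer, backward -/
theorem hz_L_bwd_one (φ : HyF) (h : φ.Ok) (T : ℝ) (k : ℕ) (T' : ℝ) (k' : ℕ) (hk : k ≤ k') (ht0 : 0 ≤ T' - T) (ht : T' - T ≤ (2 : ℝ)⁻¹ ^ k)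
    (θ W x R Λ W₀ R₀ : ℝ) (hΛ : 0 ≤ Λ) (hW₀ : W + Λ * φ.d k' ≤ W₀) (hR₀ : R + (T' - T) * (W + Λ * φ.d k') + Λ * φ.q k ≤ R₀)
    (f : ℝ × ℝ → E) (hf : MemLp f 2 φ.nu) (hs : ∀ ρ ∈ hzBx θ W₀ x R₀, f ρ = 0) :
    eLpNorm (φ.tr T k T' k' f) 2 (φ.nu.restrict (hzBx θ W (x + (T' - T) * θ) R))
      ≤ ENNReal.ofReal (52 * Real.exp (-(Λ ^ 2 / 40)) * 2 ^ (((k' : ℝ) - k) / 4)) * eLpNorm f 2 φ.nu := by
  refine hz_L_tr_norm φ h k k' _ (by positivity) _ _ _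
    (hz_loc_step φ h T k T' k' hk (by rw [abs_of_nonneg ht0]; exact ht) Λ hΛ (hzBx θ W₀ x R₀)ᶜ _ (hz_L_bx_meas _ _ _ _).compl
      (hz_L_bx_meas _ _ _ _) ?_ f hf fun ρ hρ hc => hρ (hs ρ hc))
  intro ρ hρ ρ' hρ'
  by_contra hcon
  rw [not_or, not_le, not_le] at hcon
  obtain ⟨c1, c2⟩ := hz_L_corr_bwd ht0 hρ'.1 hρ'.2 hcon.1 hcon.2
  exact hρ ⟨c1.trans hW₀, c2.trans hR₀⟩

/-- (L1) in norm form -/
theorem hz_L_fwd (φ : HyF) (h : φ.Ok) (k' i : ℕ) (l : List HyStg) (k : ℕ) (hk : k ≤ k') (hl : HzStk k k' l) (θ W x R Λ : ℝ) (hW : 0 ≤ W)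
    (hΛ : 0 ≤ Λ) (f : ℝ × ℝ → E) (hf : MemLp f 2 φ.nu) (hs : ∀ ρ, f ρ ≠ 0 → ρ ∈ hzBx θ W x R) :
    eLpNorm (φ.br k' i l (tmL k (ancI k' k i)) k f) 2 (φ.nu.restrict
        (hzBx θ (W + (l.length + 1) * Λ * φ.d k') (x + (tmL k' i - tmL k (ancI k' k i)) * θ)
          (R + (2 : ℝ)⁻¹ ^ k * (W + (l.length + 1) * Λ * φ.d k') + (l.length + 1) * Λ * φ.q k))ᶜ)
      ≤ ENNReal.ofReal (((l.length : ℝ) + 1) * (52 * Real.exp (-(Λ ^ 2 / 40))) * 2 ^ (((k' : ℝ) - k) / 4)) * eLpNorm f 2 φ.nu := by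
  have hd0 := (hy_qd φ h k').2.1
  induction l generalizing k f W x R with
  | nil =>
    obtain ⟨a1, a2, -, a4⟩ := hz_anc_time k k' k' i hk le_rfl
    rw [a4] at a1 a2
    have hp : (0 : ℝ) < (2 : ℝ)⁻¹ ^ k' := by positivity
    have ht0 : 0 ≤ tmL k' i - tmL k (ancI k' k i) := by linarith
    have ht : tmL k' i - tmL k (ancI k' k i) ≤ (2 : ℝ)⁻¹ ^ k := by linarith
    simp only [List.length_nil, Nat.cast_zero, zero_add, one_mul]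
    refine hz_L_fwd_one φ h _ k _ k' hk ht0 ht θ W x R Λ _ _ hΛ le_rfl ?_ f hf hs
    have p1 : (tmL k' i - tmL k (ancI k' k i)) * W ≤ (2 : ℝ)⁻¹ ^ k * W := mul_le_mul_of_nonneg_right ht hW
    have p2 : 0 ≤ (2 : ℝ)⁻¹ ^ k * (Λ * φ.d k') := by positivity
    linarith
  | cons σ l ih =>
    have hσk := hl.dep σ List.mem_cons_self
    have hl' := hz_stk_tail hl
    have hd := (hy_qd_mono φ h hσk.2).2
    have hq := (hy_qd_mono φ h hσk.1).1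
    have hdσ := (hy_qd φ h σ.k).2.1
    have hqk := (hy_qd φ h k).1
    obtain ⟨a1, a2, -, -⟩ := hz_anc_time k σ.k k' i hσk.1 hσk.2
    obtain ⟨t₁, ht₁⟩ : ∃ t₁ : ℝ, t₁ = tmL σ.k (ancI k' σ.k i) - tmL k (ancI k' k i) := ⟨_, rfl⟩
    have hp : (0 : ℝ) < (2 : ℝ)⁻¹ ^ σ.k := by positivity
    have ht0 : 0 ≤ t₁ := by rw [ht₁]; linarith
    have hts : t₁ + (2 : ℝ)⁻¹ ^ σ.k ≤ (2 : ℝ)⁻¹ ^ k := by rw [ht₁]; linarith
    refine hz_L_step φ h k' i σ l k hl _ (by positivity) (hzBx θ (W + Λ * φ.d σ.k) (x + t₁ * θ) (R + t₁ * W + Λ * φ.q k)) _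
      (hz_L_bx_meas _ _ _ _) f hf ?_ ?_
    · rw [ht₁]
      exact hz_L_fwd_one φ h _ k _ σ.k hσk.1 (by rw [← ht₁]; exact ht0) (by rw [← ht₁]; linarith) θ W x R Λ _ _ hΛ le_rfl le_rfl f hf hs
    · intro g hg hgs
      refine le_trans (eLpNorm_mono_measure _ (Measure.restrict_mono ?_ le_rfl))
        (ih σ.k hσk.2 hl' (W + Λ * φ.d σ.k) (x + t₁ * θ) (R + t₁ * W + Λ * φ.q k) (by positivity) g hg hgs)
      refine Set.compl_subset_compl.2 fun ρ hρ => ?_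
      obtain ⟨r1, r2⟩ := hρ
      have ex : x + t₁ * θ + (tmL k' i - tmL σ.k (ancI k' σ.k i)) * θ = x + (tmL k' i - tmL k (ancI k' k i)) * θ := by
        rw [ht₁]; ring
      rw [ex] at r2
      obtain ⟨m, hm⟩ : ∃ m : ℝ, m = (l.length : ℝ) := ⟨_, rfl⟩
      have hm0 : 0 ≤ m := by rw [hm]; positivity
      have hlen : (((σ :: l).length : ℕ) : ℝ) = m + 1 := by rw [hm]; simp
      rw [← hm] at r1 r2
      have b1 : Λ * φ.d σ.k ≤ Λ * φ.d k' := mul_le_mul_of_nonneg_left hd hΛ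
      refine ⟨?_, ?_⟩
      · rw [hlen]
        refine r1.trans ?_
        linarith
      · rw [hlen]
        refine r2.trans ?_
        obtain ⟨X, hX⟩ : ∃ X : ℝ, X = W + (m + 1 + 1) * Λ * φ.d k' := ⟨_, rfl⟩
        have hX0 : 0 ≤ X := by rw [hX]; positivity
        have hWX : W ≤ X := by
          rw [hX]
          have : 0 ≤ (m + 1 + 1) * Λ * φ.d k' := by positivity
          linarith
        have p1 : t₁ * W ≤ t₁ * X := mul_le_mul_of_nonneg_left hWX ht0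
        have p2 : (2 : ℝ)⁻¹ ^ σ.k * (W + Λ * φ.d σ.k + (m + 1) * Λ * φ.d k') ≤ (2 : ℝ)⁻¹ ^ σ.k * X := by
          refine mul_le_mul_of_nonneg_left ?_ hp.le
          rw [hX]
          linarith
        have p3 : (t₁ + (2 : ℝ)⁻¹ ^ σ.k) * X ≤ (2 : ℝ)⁻¹ ^ k * X := mul_le_mul_of_nonneg_right hts hX0
        have p4 : (m + 1) * Λ * φ.q σ.k ≤ (m + 1) * Λ * φ.q k := mul_le_mul_of_nonneg_left hq (by positivity)
        rw [← hX]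
        linarith

/-- **(L1) FORWARD LOCALITY.**   Induction on the stack (generalise `k, f, W, x, R`).   Step `σ :: l'`, `t = T_σ - T ∈ [0, 2^-k]`: `f₁ = M tr f = 1_{Bx₁} f₁ + 1_{Bx₁ᶜ} f₁`, `Bx₁ = hzBx θ (W + Λ d σ.k) (x + tθ) (R + tW + Λ q k)`;
second part: `‖·‖ ≤ 52 e^{-Λ²/40} (q k/q σ.k)^(1/2) ‖f‖` by (L0) (a corresponding pair has `|N'-θ| ≤ W + Λd'`, `|D' - x - tθ| ≤ R + t|N-θ| + Λq`), then `hz_br_contr`;  first part: induction hypothesis.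
`‖a + b‖² `: work with `eLpNorm` (Minkowski) and square at the end.   `d σ.k ≤ d k'`, `q σ.k ≤ q k`, `Σ t_j = T' - T ≤ 2^-k` (`hz_anc_time`).   ~400 l. -/
theorem hz_loc_fwd (φ : HyF) (h : φ.Ok) (k' i : ℕ) (l : List HyStg) (k : ℕ) (hk : k ≤ k') (hl : HzStk k k' l) (θ W x R Λ : ℝ) (hW : 0 ≤ W) (hR : 0 ≤ R)
    (hΛ : 0 ≤ Λ) (f : ℝ × ℝ → E) (hf : MemLp f 2 φ.nu) (hs : ∀ ρ, f ρ ≠ 0 → ρ ∈ hzBx θ W x R) :
    ∫⁻ ρ' in (hzBx θ (W + (l.length + 1) * Λ * φ.d k') (x + (tmL k' i - tmL k (ancI k' k i)) * θ)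
        (R + (2 : ℝ)⁻¹ ^ k * (W + (l.length + 1) * Λ * φ.d k') + (l.length + 1) * Λ * φ.q k))ᶜ, ‖φ.br k' i l (tmL k (ancI k' k i)) k f ρ'‖ₑ ^ 2 ∂φ.nu
      ≤ ENNReal.ofReal (((l.length + 1) * 52 * Real.exp (-(Λ ^ 2 / 40))) ^ 2 * 2 ^ (((k' : ℝ) - k) / 2)) * ∫⁻ ρ, ‖f ρ‖ₑ ^ 2 ∂φ.nu := by
  have h1 := hz_L_sq φ k k' _ (by positivity) _ _ _ (hz_L_fwd φ h k' i l k hk hl θ W x R Λ hW hΛ f hf hs)
  rw [← mul_assoc] at h1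
  exact h1


/-- (L2) in norm form -/
theorem hz_L_bwd (φ : HyF) (h : φ.Ok) (k' i : ℕ) (l : List HyStg) (k : ℕ) (hk : k ≤ k') (hl : HzStk k k' l) (θ W x R Λ : ℝ) (hW : 0 ≤ W)
    (hΛ : 0 ≤ Λ) (f : ℝ × ℝ → E) (hf : MemLp f 2 φ.nu)
    (hs : ∀ ρ ∈ hzBx θ (W + (l.length + 1) * Λ * φ.d k') x (R + (2 : ℝ)⁻¹ ^ k * (W + (l.length + 1) * Λ * φ.d k') + (l.length + 1) * Λ * φ.q k), f ρ = 0) :
    eLpNorm (φ.br k' i l (tmL k (ancI k' k i)) k f) 2 (φ.nu.restrict (hzBx θ W (x + (tmL k' i - tmL k (ancI k' k i)) * θ) R))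
      ≤ ENNReal.ofReal (((l.length : ℝ) + 1) * (52 * Real.exp (-(Λ ^ 2 / 40))) * 2 ^ (((k' : ℝ) - k) / 4)) * eLpNorm f 2 φ.nu := by
  have hd0 := (hy_qd φ h k').2.1
  induction l generalizing k f x with
  | nil =>
    obtain ⟨a1, a2, -, a4⟩ := hz_anc_time k k' k' i hk le_rfl
    rw [a4] at a1 a2
    have hp : (0 : ℝ) < (2 : ℝ)⁻¹ ^ k' := by positivity
    have ht0 : 0 ≤ tmL k' i - tmL k (ancI k' k i) := by linarith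
    have ht : tmL k' i - tmL k (ancI k' k i) ≤ (2 : ℝ)⁻¹ ^ k := by linarith
    simp only [List.length_nil, Nat.cast_zero, zero_add, one_mul] at hs ⊢
    refine hz_L_bwd_one φ h _ k _ k' hk ht0 ht θ W x R Λ _ _ hΛ le_rfl ?_ f hf hs
    have p1 : (tmL k' i - tmL k (ancI k' k i)) * (W + Λ * φ.d k') ≤ (2 : ℝ)⁻¹ ^ k * (W + Λ * φ.d k') :=
      mul_le_mul_of_nonneg_right ht (by positivity)
    linarith
  | cons σ l ih =>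
    have hσk := hl.dep σ List.mem_cons_self
    have hl' := hz_stk_tail hl
    have hd := (hy_qd_mono φ h hσk.2).2
    have hq := (hy_qd_mono φ h hσk.1).1
    have hdσ := (hy_qd φ h σ.k).2.1
    have hqk := (hy_qd φ h k).1
    obtain ⟨a1, a2, -, -⟩ := hz_anc_time k σ.k k' i hσk.1 hσk.2
    obtain ⟨t₁, ht₁⟩ : ∃ t₁ : ℝ, t₁ = tmL σ.k (ancI k' σ.k i) - tmL k (ancI k' k i) := ⟨_, rfl⟩
    have hp : (0 : ℝ) < (2 : ℝ)⁻¹ ^ σ.k := by positivity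
    have ht0 : 0 ≤ t₁ := by rw [ht₁]; linarith
    have hts : t₁ + (2 : ℝ)⁻¹ ^ σ.k ≤ (2 : ℝ)⁻¹ ^ k := by rw [ht₁]; linarith
    obtain ⟨m, hm⟩ : ∃ m : ℝ, m = (l.length : ℝ) := ⟨_, rfl⟩
    have hm0 : 0 ≤ m := by rw [hm]; positivity
    have hlen : (((σ :: l).length : ℕ) : ℝ) = m + 1 := by rw [hm]; simp
    rw [hlen] at hs
    have b1 : Λ * φ.d σ.k ≤ Λ * φ.d k' := mul_le_mul_of_nonneg_left hd hΛ
    refine hz_L_step φ h k' i σ l k hl _ (by positivity)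
      (hzBx θ (W + (m + 1) * Λ * φ.d k') (x + t₁ * θ) (R + (2 : ℝ)⁻¹ ^ σ.k * (W + (m + 1) * Λ * φ.d k') + (m + 1) * Λ * φ.q σ.k))ᶜ _
      (hz_L_bx_meas _ _ _ _).compl f hf ?_ ?_
    · rw [compl_compl, ht₁]
      refine hz_L_bwd_one φ h _ k _ σ.k hσk.1 (by rw [← ht₁]; exact ht0) (by rw [← ht₁]; linarith) θ _ x _ Λ _ _ hΛ ?_ ?_ f hf hs
      · linarith
      · rw [← ht₁]
        obtain ⟨X, hX⟩ : ∃ X : ℝ, X = W + (m + 1 + 1) * Λ * φ.d k' := ⟨_, rfl⟩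
        have hX0 : 0 ≤ X := by rw [hX]; positivity
        have p1 : t₁ * (W + (m + 1) * Λ * φ.d k' + Λ * φ.d σ.k) ≤ t₁ * X := by
          refine mul_le_mul_of_nonneg_left ?_ ht0
          rw [hX]
          linarith
        have p2 : (2 : ℝ)⁻¹ ^ σ.k * (W + (m + 1) * Λ * φ.d k') ≤ (2 : ℝ)⁻¹ ^ σ.k * X := by
          refine mul_le_mul_of_nonneg_left ?_ hp.le
          rw [hX]
          have : 0 ≤ Λ * φ.d k' := by positivity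
          linarith
        have p3 : (t₁ + (2 : ℝ)⁻¹ ^ σ.k) * X ≤ (2 : ℝ)⁻¹ ^ k * X := mul_le_mul_of_nonneg_right hts hX0
        have p4 : (m + 1) * Λ * φ.q σ.k ≤ (m + 1) * Λ * φ.q k := mul_le_mul_of_nonneg_left hq (by positivity)
        rw [← hX]
        linarith
    · intro g hg hgs
      have ex : x + t₁ * θ + (tmL k' i - tmL σ.k (ancI k' σ.k i)) * θ = x + (tmL k' i - tmL k (ancI k' k i)) * θ := by
        rw [ht₁]; ring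
      have hi := ih σ.k hσk.2 hl' (x + t₁ * θ) g hg (by
        intro ρ hρ
        by_contra hc
        rw [← hm] at hρ
        exact hgs ρ hc hρ)
      rw [ex] at hi
      exact hi

/-- **(L2) BACKWARD LOCALITY.**   Same induction with the complements: if `ρ' ∈ hzBx θ W₁ (x + tθ) R₁` corresponds to `ρ` then `|N - θ| ≤ W₁ + Λ d'`, `|D - x| ≤ R₁ + t (W₁ + Λ d') + Λ q`.
Here the boxes SHRINK along the stack: `W_j = W + (m+1-j) Λ d k'`, `R_j = R + (T' - T_j)(W + (m+1)Λ d k') + (m+1-j) Λ q k`.   ~400 l. -/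
theorem hz_loc_bwd (φ : HyF) (h : φ.Ok) (k' i : ℕ) (l : List HyStg) (k : ℕ) (hk : k ≤ k') (hl : HzStk k k' l) (θ W x R Λ : ℝ) (hW : 0 ≤ W) (hR : 0 ≤ R)
    (hΛ : 0 ≤ Λ) (f : ℝ × ℝ → E) (hf : MemLp f 2 φ.nu)
    (hs : ∀ ρ ∈ hzBx θ (W + (l.length + 1) * Λ * φ.d k') x (R + (2 : ℝ)⁻¹ ^ k * (W + (l.length + 1) * Λ * φ.d k') + (l.length + 1) * Λ * φ.q k), f ρ = 0) :
    ∫⁻ ρ' in hzBx θ W (x + (tmL k' i - tmL k (ancI k' k i)) * θ) R, ‖φ.br k' i l (tmL k (ancI k' k i)) k f ρ'‖ₑ ^ 2 ∂φ.nu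
      ≤ ENNReal.ofReal (((l.length + 1) * 52 * Real.exp (-(Λ ^ 2 / 40))) ^ 2 * 2 ^ (((k' : ℝ) - k) / 2)) * ∫⁻ ρ, ‖f ρ‖ₑ ^ 2 ∂φ.nu := by
  have h1 := hz_L_sq φ k k' _ (by positivity) _ _ _ (hz_L_bwd φ h k' i l k hk hl θ W x R Λ hW hΛ f hf hs)
  rw [← mul_assoc] at h1
  exact h1


/-- one transfer commutes with bounded linear maps -/
theorem hz_P_tr_map {E' : Type} [NormedAddCommGroup E'] [InnerProductSpace ℂ E'] [CompleteSpace E'] (A : E →L[ℂ] E')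
    (φ : HyF) (h : φ.Ok) (T : ℝ) (k : ℕ) (T' : ℝ) (k' : ℕ) (f : ℝ × ℝ → E) (hf : MemLp f 2 φ.nu) (ρ : ℝ × ℝ) :
    A (φ.tr T k T' k' f ρ) = φ.tr T k T' k' (fun x => A (f x)) ρ := by
  unfold HyF.tr
  rw [← ContinuousLinearMap.integral_comp_comm A (hy_tr_int φ h T k T' k' f hf ρ)]
  refine integral_congr_ae (Filter.Eventually.of_forall fun x => ?_)
  exact A.map_smul _ _

/-- **(P)** a branch commutes with bounded linear maps of the multiplicity space.   `ContinuousLinearMap.integral_comp_comm` (integrability: `kr ρ' · ∈ L²`, `f ∈ L²`: `hy_tr_int` of `Hyb/Iso`), induction on the stack.  ~150 l. -/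
theorem hz_br_map {E' : Type} [NormedAddCommGroup E'] [InnerProductSpace ℂ E'] [CompleteSpace E'] (A : E →L[ℂ] E')
    (φ : HyF) (h : φ.Ok) (k' i : ℕ) (l : List HyStg) (hl : ∀ σ ∈ l, σ.Ok) (T : ℝ) (k : ℕ) (f : ℝ × ℝ → E) (hf : MemLp f 2 φ.nu) (ρ : ℝ × ℝ) :
    A (φ.br k' i l T k f ρ) = φ.br k' i l T k (fun x => A (f x)) ρ := by
  induction l generalizing T k f with
  | nil => exact hz_P_tr_map A φ h T k _ k' f hf ρ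
  | cons σ l ih =>
    have hσ := hl σ (List.mem_cons_self)
    have m1 := (hz_mask φ (σ.M (ancI k' σ.k i)) (hσ _).1 (hσ _).2 _ (hy_tr_memLp φ h T k (tmL σ.k (ancI k' σ.k i)) σ.k f hf)).1
    have h1 := ih (fun σ' h' => hl σ' (List.mem_cons_of_mem _ h')) (tmL σ.k (ancI k' σ.k i)) σ.k _ m1
    show A (φ.br k' i l _ σ.k (fun ρ => ((σ.M (ancI k' σ.k i) ρ : ℝ) : ℂ) • φ.tr T k (tmL σ.k (ancI k' σ.k i)) σ.k f ρ) ρ)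
      = φ.br k' i l _ σ.k (fun ρ => ((σ.M (ancI k' σ.k i) ρ : ℝ) : ℂ) • φ.tr T k (tmL σ.k (ancI k' σ.k i)) σ.k (fun x => A (f x)) ρ) ρ
    rw [h1]
    congr 1
    funext x
    rw [A.map_smul, hz_P_tr_map A φ h T k _ σ.k f hf x]

/-- **(P)** direct sums: the energy density of a branch of a vector is the sum of the energy densities of the branches of its components.   `hz_br_map` with the coordinate projections; `PiLp.norm_sq_eq_of_L2`.  ~100 l. -/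
theorem hz_br_pi (K : ℕ) (φ : HyF) (h : φ.Ok) (k' i : ℕ) (l : List HyStg) (hl : ∀ σ ∈ l, σ.Ok) (T : ℝ) (k : ℕ)
    (f : ℝ × ℝ → PiLp 2 (fun _ : Fin K => E)) (hf : MemLp f 2 φ.nu) (ρ : ℝ × ℝ) :
    ‖φ.br k' i l T k f ρ‖ₑ ^ 2 = ∑ a : Fin K, ‖φ.br k' i l T k (fun x => f x a) ρ‖ₑ ^ 2 := by
  have h1 : ∀ a : Fin K, φ.br k' i l T k (fun x => f x a) ρ = (φ.br k' i l T k f ρ) a := by
    intro a
    exact (hz_br_map (PiLp.proj 2 (fun _ : Fin K => E) a) φ h k' i l hl T k f hf ρ).symm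
  simp only [h1]
  have h2 := PiLp.norm_sq_eq_of_L2 (fun _ : Fin K => E) (φ.br k' i l T k f ρ)
  simp only [← ofReal_norm]
  rw [← ENNReal.ofReal_pow (norm_nonneg _), h2, ENNReal.ofReal_sum_of_nonneg fun a _ => by positivity]
  refine Finset.sum_congr rfl fun a _ => ?_
  rw [ENNReal.ofReal_pow (norm_nonneg _)]

/-- a transfer in front of a branch is absorbed -/
theorem hz_P_br_tr (φ : HyF) (h : φ.Ok) (k' i : ℕ) (l : List HyStg) (T : ℝ) (k : ℕ) (T1 : ℝ) (k1 : ℕ)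
    (f : ℝ × ℝ → E) (hf : MemLp f 2 φ.nu) (ρ : ℝ × ℝ) :
    φ.br k' i l T1 k1 (φ.tr T k T1 k1 f) ρ = φ.br k' i l T k f ρ := by
  cases l with
  | nil => exact hy_tr_comp φ h T k T1 k1 _ k' f hf ρ
  | cons τ l =>
    show φ.br k' i l _ τ.k (fun ρ => ((τ.M (ancI k' τ.k i) ρ : ℝ) : ℂ) • φ.tr T1 k1 (tmL τ.k (ancI k' τ.k i)) τ.k (φ.tr T k T1 k1 f) ρ) ρ
      = φ.br k' i l _ τ.k (fun ρ => ((τ.M (ancI k' τ.k i) ρ : ℝ) : ℂ) • φ.tr T k (tmL τ.k (ancI k' τ.k i)) τ.k f ρ) ρ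
    congr 1
    funext x
    rw [hy_tr_comp φ h T k T1 k1 _ τ.k f hf x]

/-- **(C)** a trivial stage may be inserted (`hz_br_append`, `hy_tr_comp`; the last frame before the insertion is `(T,k)` or that of the last stage of `l`).  ~150 l. -/
theorem hz_br_insert (φ : HyF) (h : φ.Ok) (k' i : ℕ) (l l' : List HyStg) (ks : ℕ) (hl : ∀ σ ∈ l, σ.Ok ∧ σ.k ≤ ks) (hks : ks ≤ k') (T : ℝ) (k : ℕ)
    (f : ℝ × ℝ → E) (hf : MemLp f 2 φ.nu) (ρ : ℝ × ℝ) :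
    φ.br k' i (l ++ hzOne ks :: l') T k f ρ = φ.br k' i (l ++ l') T k f ρ := by
  induction l generalizing T k f with
  | nil =>
    show φ.br k' i l' _ ks (fun ρ => (((1 : ℝ) : ℝ) : ℂ) • φ.tr T k (tmL ks (ancI k' ks i)) ks f ρ) ρ = φ.br k' i l' T k f ρ
    simp only [Complex.ofReal_one, one_smul]
    exact hz_P_br_tr φ h k' i l' T k _ ks f hf ρ
  | cons σ l ih =>
    have hσ := (hl σ (List.mem_cons_self)).1
    have m1 := (hz_mask φ (σ.M (ancI k' σ.k i)) (hσ _).1 (hσ _).2 _ (hy_tr_memLp φ h T k (tmL σ.k (ancI k' σ.k i)) σ.k f hf)).1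
    exact ih (fun σ' h' => hl σ' (List.mem_cons_of_mem _ h')) (tmL σ.k (ancI k' σ.k i)) σ.k _ m1

/-- **(C)** the rows of the same stack read at another frame: transfer of the rows read at `(tmL k2 i2, k2)`.   Both are `tr` of the last masked rows; `hy_tr_comp`.   The stages see the same ancestors.  ~150 l. -/
theorem hz_br_back (φ : HyF) (h : φ.Ok) (k1 i1 k2 i2 : ℕ) (l : List HyStg) (hl : ∀ σ ∈ l, σ.Ok) (ha : ∀ σ ∈ l, ancI k1 σ.k i1 = ancI k2 σ.k i2) (T : ℝ) (k : ℕ)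
    (f : ℝ × ℝ → E) (hf : MemLp f 2 φ.nu) (ρ : ℝ × ℝ) :
    φ.tr (tmL k2 i2) k2 (tmL k1 i1) k1 (φ.br k2 i2 l T k f) ρ = φ.br k1 i1 l T k f ρ := by
  induction l generalizing T k f with
  | nil => exact hy_tr_comp φ h T k _ k2 _ k1 f hf ρ
  | cons σ l ih =>
    have hσ := hl σ (List.mem_cons_self)
    have hσa := ha σ (List.mem_cons_self)
    have m1 := (hz_mask φ (σ.M (ancI k2 σ.k i2)) (hσ _).1 (hσ _).2 _ (hy_tr_memLp φ h T k (tmL σ.k (ancI k2 σ.k i2)) σ.k f hf)).1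
    have h1 := ih (fun σ' h' => hl σ' (List.mem_cons_of_mem _ h')) (fun σ' h' => ha σ' (List.mem_cons_of_mem _ h'))
      (tmL σ.k (ancI k2 σ.k i2)) σ.k _ m1
    show φ.tr (tmL k2 i2) k2 (tmL k1 i1) k1 (φ.br k2 i2 l _ σ.k
        (fun ρ => ((σ.M (ancI k2 σ.k i2) ρ : ℝ) : ℂ) • φ.tr T k (tmL σ.k (ancI k2 σ.k i2)) σ.k f ρ)) ρ
      = φ.br k1 i1 l _ σ.k (fun ρ => ((σ.M (ancI k1 σ.k i1) ρ : ℝ) : ℂ) • φ.tr T k (tmL σ.k (ancI k1 σ.k i1)) σ.k f ρ) ρ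
    rw [hσa]
    exact h1

/-- **(C)** windowing of a concatenation -/
theorem hz_winL_append (φ : HyF) (θ W0 Λ : ℝ) (j : ℕ) (l l' : List HyStg) :
    hzWinL φ θ W0 Λ j (l ++ l') = hzWinL φ θ W0 Λ j l ++ hzWinL φ θ W0 Λ (j + l.length) l' := by
  induction l generalizing j with
  | nil => rfl
  | cons σ l ih =>
    show σ.win θ (W0 + (j + 1) * Λ * φ.d σ.k) :: hzWinL φ θ W0 Λ (j + 1) (l ++ l')
      = σ.win θ (W0 + (j + 1) * Λ * φ.d σ.k) :: hzWinL φ θ W0 Λ (j + 1) l ++ hzWinL φ θ W0 Λ (j + (σ :: l).length) l'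
    rw [ih (j + 1), List.length_cons, show j + (l.length + 1) = j + 1 + l.length by omega]
    rfl

/-! ### (FX), (FL): common tools (helper24) -/

theorem hz_one_ok (k : ℕ) : (hzOne k).Ok := fun _ => ⟨measurable_const, fun _ => ⟨zero_le_one, le_rfl⟩⟩

/-- the stack with the trivial stage inserted at the stop -/
theorem hz_stk_insert {k0 ks kf : ℕ} (h0 : k0 ≤ ks) (h1 : ks ≤ kf) {l1 l2 : List HyStg} (hl1 : HzStk k0 ks l1) (hl2 : HzStk ks kf l2) :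
    HzStk k0 kf (l1 ++ hzOne ks :: l2) := by
  refine ⟨?_, ?_, ?_⟩
  · intro σ hσ
    rcases List.mem_append.1 hσ with h | h
    · exact hl1.ok σ h
    · rcases List.mem_cons.1 h with h | h
      · rw [h]
        exact hz_one_ok ks
      · exact hl2.ok σ h
  · intro σ hσ
    rcases List.mem_append.1 hσ with h | h
    · exact ⟨(hl1.dep σ h).1, (hl1.dep σ h).2.trans h1⟩
    · rcases List.mem_cons.1 h with h | h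
      · rw [h]
        exact ⟨h0, h1⟩
      · exact ⟨h0.trans (hl2.dep σ h).1, (hl2.dep σ h).2⟩
  · refine List.pairwise_append.2 ⟨hl1.mono, List.pairwise_cons.2 ⟨fun σ hσ => (hl2.dep σ hσ).1, hl2.mono⟩, fun a ha b hb => ?_⟩
    rcases List.mem_cons.1 hb with h | h
    · rw [h]
      exact (hl1.dep a ha).2
    · exact (hl1.dep a ha).2.trans (hl2.dep b h).1

theorem hz_stk_mono {k k' k'' : ℕ} (hk : k' ≤ k'') {l : List HyStg} (hl : HzStk k k' l) : HzStk k k'' l :=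
  ⟨hl.ok, fun σ hσ => ⟨(hl.dep σ hσ).1, (hl.dep σ hσ).2.trans hk⟩, hl.mono⟩

theorem hz_enorm_add_sq {E' : Type*} [NormedAddCommGroup E'] (a b : E') : ‖a + b‖ₑ ^ 2 ≤ 2 * ‖a‖ₑ ^ 2 + 2 * ‖b‖ₑ ^ 2 := by
  have h1 : ‖a + b‖ ^ 2 ≤ 2 * ‖a‖ ^ 2 + 2 * ‖b‖ ^ 2 := by
    have := norm_add_le a b
    have h0 := norm_nonneg (a + b)
    nlinarith [sq_nonneg (‖a‖ - ‖b‖)]
  have h2 := ENNReal.ofReal_le_ofReal h1
  rw [ENNReal.ofReal_add (by positivity) (by positivity), ENNReal.ofReal_mul (by norm_num), ENNReal.ofReal_mul (by norm_num),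
    ENNReal.ofReal_pow (norm_nonneg _), ENNReal.ofReal_pow (norm_nonneg _), ENNReal.ofReal_pow (norm_nonneg _), ofReal_norm, ofReal_norm,
    ofReal_norm] at h2
  simpa using h2

/-- local energy of `u` from the local energy of `w` and the `L²` distance -/
theorem hz_split_elp {X : Type*} [MeasurableSpace X] (μ : Measure X) {E' E'' : Type*} [NormedAddCommGroup E'] [NormedAddCommGroup E'']
    (S : Set X) (u w : X → E') (hw : AEStronglyMeasurable w μ) (c : ℝ) (hc : 0 ≤ c) (g : X → E'')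
    (hd : eLpNorm (fun x => u x - w x) 2 μ ≤ ENNReal.ofReal c * eLpNorm g 2 μ) :
    ∫⁻ x in S, ‖u x‖ₑ ^ 2 ∂μ ≤ 2 * ∫⁻ x in S, ‖w x‖ₑ ^ 2 ∂μ + 2 * (ENNReal.ofReal (c ^ 2) * ∫⁻ x, ‖g x‖ₑ ^ 2 ∂μ) := by
  have h1 : ∫⁻ x, ‖u x - w x‖ₑ ^ 2 ∂μ ≤ ENNReal.ofReal (c ^ 2) * ∫⁻ x, ‖g x‖ₑ ^ 2 ∂μ := by
    rw [← hz_elp_sq, ← hz_elp_sq, ENNReal.ofReal_pow hc, ← mul_pow]
    exact pow_le_pow_left₀ bot_le hd 2
  have hm : AEMeasurable (fun x => 2 * ‖w x‖ₑ ^ 2) (μ.restrict S) := ((hw.enorm.pow_const 2).const_mul 2).restrict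
  calc ∫⁻ x in S, ‖u x‖ₑ ^ 2 ∂μ ≤ ∫⁻ x in S, (2 * ‖w x‖ₑ ^ 2 + 2 * ‖u x - w x‖ₑ ^ 2) ∂μ := by
        refine lintegral_mono fun x => ?_
        have := hz_enorm_add_sq (w x) (u x - w x)
        rwa [add_sub_cancel] at this
    _ = 2 * ∫⁻ x in S, ‖w x‖ₑ ^ 2 ∂μ + 2 * ∫⁻ x in S, ‖u x - w x‖ₑ ^ 2 ∂μ := by
        rw [lintegral_add_left' hm, lintegral_const_mul' _ _ (by norm_num), lintegral_const_mul' _ _ (by norm_num)]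
    _ ≤ _ := by
        gcongr
        exact (setLIntegral_le_lintegral _ _).trans h1

/-- **the stop**: the branch through `l1 ++ l2` is, up to the window error, the branch through the windowed `l2` of the windowed stop rows -/
theorem hz_stop_win (φ : HyF) (h : φ.Ok) (k0 ks kf i : ℕ) (h0 : k0 ≤ ks) (h1 : ks ≤ kf) (l1 l2 : List HyStg) (hl1 : HzStk k0 ks l1)
    (hl2 : HzStk ks kf l2) (θ Λ : ℝ) (hΛ : 0 ≤ Λ) (f : ℝ × ℝ → E) (hf : MemLp f 2 φ.nu) (hs : ∀ ρ, f ρ ≠ 0 → |ρ.2 - θ| ≤ φ.d ks) :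
    eLpNorm (fun ρ => φ.br kf i (l1 ++ l2) (tmL k0 (ancI kf k0 i)) k0 f ρ
        - φ.br kf i (hzWinL φ θ (φ.d ks) Λ (l1.length + 1) l2) (tmL ks (ancI kf ks i)) ks
            (fun ρ => (((if |ρ.2 - θ| ≤ φ.d ks + ((l1.length : ℝ) + 1) * Λ * φ.d ks then 1 else 0 : ℝ)) : ℂ) •
              φ.br ks (ancI kf ks i) (hzWinL φ θ (φ.d ks) Λ 0 l1) (tmL k0 (ancI kf k0 i)) k0 f ρ) ρ) 2 φ.nu
      ≤ ENNReal.ofReal (((l1.length : ℝ) + l2.length + 1) * 26 * Real.exp (-(Λ ^ 2 / 16)) * 2 ^ (((kf : ℝ) - k0) / 4)) * eLpNorm f 2 φ.nu := by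
  have hw := hz_win φ h kf i (l1 ++ hzOne ks :: l2) k0 (hz_stk_insert h0 h1 hl1 hl2) θ (φ.d ks) Λ hΛ 0 f hf (by simpa using hs)
  have e1 : ∀ ρ, φ.br kf i (l1 ++ hzOne ks :: l2) (tmL k0 (ancI kf k0 i)) k0 f ρ = φ.br kf i (l1 ++ l2) (tmL k0 (ancI kf k0 i)) k0 f ρ :=
    fun ρ => hz_br_insert φ h kf i l1 l2 ks (fun σ hσ => ⟨hl1.ok σ hσ, (hl1.dep σ hσ).2⟩) h1 _ k0 f hf ρ
  have e2 : φ.br kf i (hzWinL φ θ (φ.d ks) Λ 0 (l1 ++ hzOne ks :: l2)) (tmL k0 (ancI kf k0 i)) k0 f =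
      φ.br kf i (hzWinL φ θ (φ.d ks) Λ (l1.length + 1) l2) (tmL ks (ancI kf ks i)) ks
            (fun ρ => (((if |ρ.2 - θ| ≤ φ.d ks + ((l1.length : ℝ) + 1) * Λ * φ.d ks then 1 else 0 : ℝ)) : ℂ) •
              φ.br ks (ancI kf ks i) (hzWinL φ θ (φ.d ks) Λ 0 l1) (tmL k0 (ancI kf k0 i)) k0 f ρ) := by
    rw [hz_winL_append, Nat.zero_add]
    exact hz_br_append φ kf i (hzWinL φ θ (φ.d ks) Λ 0 l1) ((hzOne ks).win θ (φ.d ks + ((l1.length : ℝ) + 1) * Λ * φ.d ks))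
      (hzWinL φ θ (φ.d ks) Λ (l1.length + 1) l2) (fun τ hτ => ((hz_winL_ok φ h k0 ks l1 hl1 θ (φ.d ks) Λ hΛ 0).1.dep τ hτ).2) h1 _ k0 f
  simp only [e1, e2] at hw
  refine hw.trans (le_of_eq ?_)
  congr 3
  simp only [List.length_append, List.length_cons]
  push_cast
  ring

/-- numerical constants are absorbed in powers of `Λ ≥ 2` -/
theorem hz_pow_absorb (a b : ℕ) (Λ : ℝ) (hΛ : 2 ≤ Λ) : (a : ℝ) * Λ ^ b ≤ Λ ^ (a + b) := by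
  have h1 : (a : ℝ) ≤ 2 ^ a := by exact_mod_cast (Nat.lt_two_pow_self (n := a)).le
  have h2 : (2 : ℝ) ^ a ≤ Λ ^ a := pow_le_pow_left₀ (by norm_num) hΛ a
  rw [pow_add]
  exact mul_le_mul_of_nonneg_right (h1.trans h2) (by positivity)

theorem hz_ce_mono {n m : ℕ} (hn : n ≤ m) (Λ : ℝ) (hΛ : 1 ≤ Λ) : hzCe n Λ ≤ hzCe m Λ ∧ 1 ≤ hzCe n Λ := by
  unfold hzCe
  have hnm : (n : ℝ) ≤ m := by exact_mod_cast hn
  have h1 : (1 : ℝ) ≤ 34 * (2 * n + 1) * Λ ^ 2 := by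
    have : (1 : ℝ) ≤ Λ ^ 2 := one_le_pow₀ hΛ
    have h0 : (0 : ℝ) ≤ n := Nat.cast_nonneg n
    nlinarith
  have h2 : 34 * (2 * (n : ℝ) + 1) * Λ ^ 2 ≤ 34 * (2 * m + 1) * Λ ^ 2 := by
    have : (0 : ℝ) ≤ Λ ^ 2 := by positivity
    nlinarith
  refine ⟨?_, one_le_pow₀ h1⟩
  calc (34 * (2 * (n : ℝ) + 1) * Λ ^ 2) ^ (n + 1) ≤ (34 * (2 * m + 1) * Λ ^ 2) ^ (n + 1) := pow_le_pow_left₀ (by positivity) h2 _
    _ ≤ (34 * (2 * m + 1) * Λ ^ 2) ^ (m + 1) := pow_le_pow_right₀ (h1.trans h2) (by omega)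

/-- the constant of (FL) -/
theorem hz_fl_const (m : ℕ) : ∃ K : ℕ, ∀ Λ : ℝ, 2 ≤ Λ → 20000 * ((m : ℝ) + 1) ^ 2 * hzCe m ((m + 2) * Λ) ≤ Λ ^ K := by
  refine ⟨20000 * (m + 1) ^ 2 * (34 * (2 * m + 1) * (m + 2) ^ 2) ^ (m + 1) + 2 * (m + 1), fun Λ hΛ => ?_⟩
  refine le_trans (le_of_eq ?_) (hz_pow_absorb _ _ Λ hΛ)
  unfold hzCe
  push_cast
  rw [pow_mul Λ 2 (m + 1), mul_assoc (20000 * ((m : ℝ) + 1) ^ 2) _ ((Λ ^ 2) ^ (m + 1)), ← mul_pow]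
  congr 2
  ring

theorem hz_fl_chain (U Uw A1 A2 A3 A4 F c1 c2 c3 c4 e1 e2 : ℝ≥0∞)
    (i1 : U ≤ 2 * Uw + 2 * (e1 * F)) (i2 : Uw ≤ c1 * A1 + c2 * F) (i3 : A1 ≤ 2 * A2 + 2 * (e2 * F)) (i4 : A2 ≤ 2 * A3 + c3 * F)
    (i5 : A3 ≤ A4 + c4 * F) :
    U ≤ 8 * c1 * A4 + (c1 * (8 * c4 + 4 * c3 + 4 * e2) + 2 * c2 + 2 * e1) * F := by
  calc U ≤ 2 * (c1 * (2 * (2 * (A4 + c4 * F) + c3 * F) + 2 * (e2 * F)) + c2 * F) + 2 * (e1 * F) := by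
        refine i1.trans ?_
        gcongr
        refine i2.trans ?_
        gcongr
        refine i3.trans ?_
        gcongr
        refine i4.trans ?_
        gcongr
    _ = _ := by ring

/-- powers of two: real exponents against natural exponents -/
theorem hz_two_rpow_le {a b c d : ℕ} (hab : a ≤ b) (hc : c ≤ a) (hd : b ≤ d) : (2 : ℝ) ^ (((b : ℝ) - a) / 2) ≤ 2 ^ (d - c) := by
  rw [← Real.rpow_natCast]
  refine Real.rpow_le_rpow_of_exponent_le (by norm_num) ?_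
  rw [Nat.cast_sub (by omega)]
  have h1 : (a : ℝ) ≤ b := by exact_mod_cast hab
  have h2 : (c : ℝ) ≤ a := by exact_mod_cast hc
  have h3 : (b : ℝ) ≤ d := by exact_mod_cast hd
  linarith

theorem hz_q_ratio_le (φ : HyF) (h : φ.Ok) {a b c d : ℕ} (hab : a ≤ b) (hc : c ≤ a) (hd : b ≤ d) : φ.q a / φ.q b ≤ 2 ^ (d - c) := by
  have hq := (hy_qd φ h a).1
  have hq' := (hy_qd φ h b).1
  have h1 := hz_q_ratio φ h a b
  have h2 : φ.q a / φ.q b = (2 : ℝ) ^ (((b : ℝ) - a) / 2) := by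
    rw [← Real.sq_sqrt (show 0 ≤ φ.q a / φ.q b by positivity), h1, ← Real.rpow_natCast, ← Real.rpow_mul (by norm_num)]
    congr 1
    push_cast
    ring
  rw [h2]
  exact hz_two_rpow_le hab hc hd

/-! ### (FX): abstract tools -/

theorem hzx_add_sq (x y : ℝ≥0∞) : (x + y) ^ 2 ≤ 2 * x ^ 2 + 2 * y ^ 2 := by
  have h := ENNReal.rpow_add_le_mul_rpow_add_rpow x y (p := 2) (by norm_num)
  have e : ((2 : ℝ) - 1) = 1 := by norm_num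
  rw [e, ENNReal.rpow_one, ENNReal.rpow_two, ENNReal.rpow_two, ENNReal.rpow_two, mul_add] at h
  exact h

theorem hzx_sq_sub {E' : Type*} [NormedAddCommGroup E'] (a b : E') : ‖a‖ₑ ^ 2 ≤ 2 * ‖b‖ₑ ^ 2 + 2 * ‖a - b‖ₑ ^ 2 := by
  have h1 : ‖a‖ₑ ≤ ‖b‖ₑ + ‖a - b‖ₑ := by
    have := enorm_add_le b (a - b)
    rwa [add_sub_cancel] at this
  exact (pow_le_pow_left' h1 2).trans (hzx_add_sq _ _)

theorem hzx_repl {ι : Type*} (G1 G2 W1 W2 D1 D2 : ι → ℝ≥0∞) (N1 N2 e : ℝ≥0∞)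
    (h1 : ∀ b, G1 b ≤ 2 * W1 b + 2 * D1 b) (h2 : ∀ b, G2 b ≤ 2 * W2 b + 2 * D2 b)
    (hW1 : ∀ b, W1 b ≤ N1) (hW2 : ∀ b, W2 b ≤ N2) (hD1 : ∑' b, D1 b ≤ e * N1) (hD2 : ∑' b, D2 b ≤ e * N2) :
    ∑' b, G1 b * G2 b ≤ 4 * ∑' b, W1 b * W2 b + 4 * (2 * e + e ^ 2) * (N1 * N2) := by
  have hb : ∀ b, G1 b * G2 b ≤ 4 * (W1 b * W2 b) + 4 * (N1 * D2 b) + 4 * (D1 b * N2) + 4 * ((e * N1) * D2 b) := by
    intro b
    calc G1 b * G2 b ≤ (2 * W1 b + 2 * D1 b) * (2 * W2 b + 2 * D2 b) := mul_le_mul' (h1 b) (h2 b)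
      _ = 4 * (W1 b * W2 b) + 4 * (W1 b * D2 b) + 4 * (D1 b * W2 b) + 4 * (D1 b * D2 b) := by ring
      _ ≤ _ := by
          gcongr
          · exact hW1 b
          · exact hW2 b
          · exact (ENNReal.le_tsum b).trans hD1
  calc ∑' b, G1 b * G2 b
      ≤ ∑' b, (4 * (W1 b * W2 b) + 4 * (N1 * D2 b) + 4 * (D1 b * N2) + 4 * ((e * N1) * D2 b)) := ENNReal.tsum_le_tsum hb
    _ = 4 * ∑' b, W1 b * W2 b + 4 * (N1 * ∑' b, D2 b) + 4 * ((∑' b, D1 b) * N2) + 4 * ((e * N1) * ∑' b, D2 b) := by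
        simp only [ENNReal.tsum_add, ENNReal.tsum_mul_left, ENNReal.tsum_mul_right]
    _ ≤ 4 * ∑' b, W1 b * W2 b + 4 * (N1 * (e * N2)) + 4 * ((e * N1) * N2) + 4 * ((e * N1) * (e * N2)) := by gcongr
    _ = _ := by ring

theorem hzx_bin_meas (o a : ℝ) (b : ℤ) : MeasurableSet (hzBinI o a b) := by
  unfold hzBinI
  exact (measurableSet_le measurable_const measurable_fst).inter (measurableSet_lt measurable_fst measurable_const)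

theorem hzx_bin_disj (o a : ℝ) (ha : 0 < a) : Pairwise (Function.onFun Disjoint (hzBinI o a)) := by
  have key : ∀ b b' : ℤ, b < b' → Disjoint (hzBinI o a b) (hzBinI o a b') := by
    intro b b' hbb
    rw [Set.disjoint_left]
    rintro ρ ⟨-, h2⟩ ⟨h3, -⟩
    have h4 : ((b : ℝ) + 1) ≤ b' := by exact_mod_cast hbb
    have h5 : ((b : ℝ) + 1) * a ≤ b' * a := mul_le_mul_of_nonneg_right h4 ha.le
    linarith
  intro b b' hne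
  rcases lt_or_gt_of_ne hne with h | h
  · exact key b b' h
  · exact (key b' b h).symm

theorem hzx_bin_sum (ν : Measure (ℝ × ℝ)) (o a : ℝ) (ha : 0 < a) (F : ℝ × ℝ → ℝ≥0∞) :
    ∑' b : ℤ, ∫⁻ ρ in hzBinI o a b, F ρ ∂ν ≤ ∫⁻ ρ, F ρ ∂ν := by
  rw [← lintegral_iUnion (hzx_bin_meas o a) (hzx_bin_disj o a ha)]
  exact setLIntegral_le_lintegral _ _

/-- functions of `Λ ≥ 2` bounded by a power of `Λ` -/
def hzxPB (F : ℝ → ℝ) : Prop := ∃ K : ℕ, ∀ Λ : ℝ, 2 ≤ Λ → |F Λ| ≤ Λ ^ K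

theorem hzx_pb_const (c : ℝ) : hzxPB fun _ => c := by
  obtain ⟨n, hn⟩ := pow_unbounded_of_one_lt |c| (one_lt_two : (1 : ℝ) < 2)
  exact ⟨n, fun Λ hΛ => hn.le.trans (pow_le_pow_left₀ (by norm_num) hΛ n)⟩

theorem hzx_pb_id : hzxPB fun Λ => Λ :=
  ⟨1, fun Λ hΛ => by rw [pow_one, abs_of_nonneg (by linarith)]⟩

theorem hzxPB.mul {F G : ℝ → ℝ} (hF : hzxPB F) (hG : hzxPB G) : hzxPB fun Λ => F Λ * G Λ := by
  obtain ⟨K1, h1⟩ := hF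
  obtain ⟨K2, h2⟩ := hG
  refine ⟨K1 + K2, fun Λ hΛ => ?_⟩
  rw [abs_mul, pow_add]
  exact mul_le_mul (h1 Λ hΛ) (h2 Λ hΛ) (abs_nonneg _) (by positivity)

theorem hzxPB.add {F G : ℝ → ℝ} (hF : hzxPB F) (hG : hzxPB G) : hzxPB fun Λ => F Λ + G Λ := by
  obtain ⟨K1, h1⟩ := hF
  obtain ⟨K2, h2⟩ := hG
  refine ⟨max K1 K2 + 1, fun Λ hΛ => ?_⟩
  have hΛ1 : (1 : ℝ) ≤ Λ := by linarith
  have a1 : Λ ^ K1 ≤ Λ ^ max K1 K2 := pow_le_pow_right₀ hΛ1 (le_max_left _ _)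
  have a2 : Λ ^ K2 ≤ Λ ^ max K1 K2 := pow_le_pow_right₀ hΛ1 (le_max_right _ _)
  have a3 : 0 ≤ Λ ^ max K1 K2 := by positivity
  calc |F Λ + G Λ| ≤ |F Λ| + |G Λ| := abs_add_le _ _
    _ ≤ Λ ^ max K1 K2 + Λ ^ max K1 K2 := add_le_add ((h1 Λ hΛ).trans a1) ((h2 Λ hΛ).trans a2)
    _ = Λ ^ max K1 K2 * 2 := by ring
    _ ≤ Λ ^ max K1 K2 * Λ := mul_le_mul_of_nonneg_left hΛ a3
    _ = Λ ^ (max K1 K2 + 1) := (pow_succ _ _).symm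

theorem hzxPB.pow {F : ℝ → ℝ} (hF : hzxPB F) (n : ℕ) : hzxPB fun Λ => F Λ ^ n := by
  obtain ⟨K1, h1⟩ := hF
  refine ⟨K1 * n, fun Λ hΛ => ?_⟩
  rw [abs_pow, pow_mul]
  exact pow_le_pow_left₀ (abs_nonneg _) (h1 Λ hΛ) n

/-! ### (FX): the stacks -/

theorem hzx_one_ok (k : ℕ) : (hzOne k).Ok := fun _ => ⟨measurable_const, fun _ => ⟨zero_le_one, le_rfl⟩⟩

theorem hzx_stk_ins {k0 ks kf : ℕ} (h0 : k0 ≤ ks) (h1 : ks ≤ kf) {l1 l2 : List HyStg} (hl1 : HzStk k0 ks l1) (hl2 : HzStk ks kf l2) :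
    HzStk k0 kf (l1 ++ hzOne ks :: l2) where
  ok := by
    intro σ hσ
    rw [List.mem_append, List.mem_cons] at hσ
    rcases hσ with h | rfl | h
    · exact hl1.ok σ h
    · exact hzx_one_ok ks
    · exact hl2.ok σ h
  dep := by
    intro σ hσ
    rw [List.mem_append, List.mem_cons] at hσ
    rcases hσ with h | rfl | h
    · exact ⟨(hl1.dep σ h).1, (hl1.dep σ h).2.trans h1⟩
    · exact ⟨h0, h1⟩
    · exact ⟨h0.trans (hl2.dep σ h).1, (hl2.dep σ h).2⟩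
  mono := by
    rw [List.pairwise_append, List.pairwise_cons]
    refine ⟨hl1.mono, ⟨fun σ hσ => (hl2.dep σ hσ).1, hl2.mono⟩, ?_⟩
    intro σ hσ τ hτ
    rw [List.mem_cons] at hτ
    rcases hτ with rfl | hτ
    · exact (hl1.dep σ hσ).2
    · exact (hl1.dep σ hσ).2.trans (hl2.dep τ hτ).1

theorem hzx_sup_mono {θ : ℝ} {W W' : ℕ → ℝ} {l : List HyStg} (h : HzSup θ W l) (hW : ∀ σ ∈ l, W σ.k ≤ W' σ.k) : HzSup θ W' l :=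
  fun σ hσ i ρ hne => (h σ hσ i ρ hne).trans (hW σ hσ)

/-- insertion of the trivial stage, windowing, splitting at the stop -/
theorem hzx_prep (φ : HyF) (h : φ.Ok) (k0 i0 ks kf : ℕ) (h0 : k0 ≤ ks) (h1 : ks ≤ kf) (l1 l2 : List HyStg) (hl1 : HzStk k0 ks l1)
    (hl2 : HzStk ks kf l2) (m : ℕ) (hm : l1.length + l2.length ≤ m) (θ Λ : ℝ) (hΛ : 1 ≤ Λ) (f : ℝ × ℝ → E) (hf : MemLp f 2 φ.nu)
    (hs : ∀ ρ, f ρ ≠ 0 → |ρ.2 - θ| ≤ φ.d ks) :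
    ∃ (l1w l2w : List HyStg) (Wσ : ℝ), HzStk k0 ks l1w ∧ HzStk ks kf l2w ∧ l1w.map HyStg.k = l1.map HyStg.k ∧ l2w.length ≤ m ∧
      HzSup θ (fun _ => (m + 1) * Λ * φ.d ks) l1w ∧ HzSup θ (fun κ => (m + 2) * Λ * φ.d κ) l2w ∧ Wσ ≤ (m + 2) * Λ * φ.d ks ∧
      ∀ i ∈ ivs k0 i0 kf, eLpNorm (fun ρ => φ.br kf i (l1 ++ l2) (tmL k0 i0) k0 f ρ -
          φ.br kf i l2w (tmL ks (ancI kf ks i)) ks ((hzVel θ Wσ).indicator (φ.br ks (ancI kf ks i) l1w (tmL k0 i0) k0 f)) ρ) 2 φ.nu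
        ≤ ENNReal.ofReal ((m + 1) * 26 * Real.exp (-(Λ ^ 2 / 16)) * 2 ^ (((kf : ℝ) - k0) / 4)) * eLpNorm f 2 φ.nu := by
  have hΛ0 : 0 ≤ Λ := by linarith
  have hD : 0 < φ.d ks := (hy_qd φ h ks).2.1
  have hn1 : (l1.length : ℝ) + l2.length ≤ m := by exact_mod_cast hm
  have hn1' : (0 : ℝ) ≤ l1.length := Nat.cast_nonneg _
  have hn2' : (0 : ℝ) ≤ l2.length := Nat.cast_nonneg _
  obtain ⟨a1, a2, a3⟩ := hz_winL_ok φ h k0 ks l1 hl1 θ (φ.d ks) Λ hΛ0 0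
  obtain ⟨b1, b2, b3⟩ := hz_winL_ok φ h ks kf l2 hl2 θ (φ.d ks) Λ hΛ0 (0 + l1.length + 1)
  refine ⟨hzWinL φ θ (φ.d ks) Λ 0 l1, hzWinL φ θ (φ.d ks) Λ (0 + l1.length + 1) l2,
    φ.d ks + (((0 + l1.length : ℕ) : ℝ) + 1) * Λ * φ.d ks, a1, b1, a2, ?_, ?_, ?_, ?_, ?_⟩
  · have := congrArg List.length b2
    rw [List.length_map, List.length_map] at this
    omega
  · refine hzx_sup_mono a3 fun σ hσ => ?_
    have hk : φ.d σ.k ≤ φ.d ks := (hy_qd_mono φ h (a1.dep σ hσ).2).2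
    have hk0 : 0 < φ.d σ.k := (hy_qd φ h σ.k).2.1
    push_cast
    have e1 : (0 + (l1.length : ℝ)) * Λ * φ.d σ.k ≤ m * Λ * φ.d ks :=
      mul_le_mul (mul_le_mul_of_nonneg_right (by linarith) hΛ0) hk hk0.le (by positivity)
    have e2 : φ.d ks ≤ Λ * φ.d ks := le_mul_of_one_le_left hD.le hΛ
    linarith
  · refine hzx_sup_mono b3 fun σ hσ => ?_
    have hk : φ.d ks ≤ φ.d σ.k := (hy_qd_mono φ h (b1.dep σ hσ).1).2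
    have hk0 : 0 < φ.d σ.k := (hy_qd φ h σ.k).2.1
    push_cast
    have e1 : (0 + (l1.length : ℝ) + 1 + l2.length) * Λ * φ.d σ.k ≤ (m + 1) * Λ * φ.d σ.k :=
      mul_le_mul_of_nonneg_right (mul_le_mul_of_nonneg_right (by linarith) hΛ0) hk0.le
    have e2 : φ.d σ.k ≤ Λ * φ.d σ.k := le_mul_of_one_le_left hk0.le hΛ
    linarith
  · push_cast
    have e1 : (0 + (l1.length : ℝ) + 1) * Λ * φ.d ks ≤ (m + 1) * Λ * φ.d ks :=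
      mul_le_mul_of_nonneg_right (mul_le_mul_of_nonneg_right (by linarith) hΛ0) hD.le
    have e2 : φ.d ks ≤ Λ * φ.d ks := le_mul_of_one_le_left hD.le hΛ
    linarith
  · intro i hi
    have hi0 : ancI kf k0 i = i0 := (gn_mem_ivs k0 i0 kf i).1 hi
    have hw := hz_win φ h kf i (l1 ++ hzOne ks :: l2) k0 (hzx_stk_ins h0 h1 hl1 hl2) θ (φ.d ks) Λ hΛ0 0 f hf
      (by intro ρ hρ; simpa using hs ρ hρ)
    rw [hi0] at hw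
    have e1 : ∀ ρ, φ.br kf i (l1 ++ hzOne ks :: l2) (tmL k0 i0) k0 f ρ = φ.br kf i (l1 ++ l2) (tmL k0 i0) k0 f ρ := fun ρ =>
      hz_br_insert φ h kf i l1 l2 ks (fun σ hσ => ⟨hl1.ok σ hσ, (hl1.dep σ hσ).2⟩) h1 _ _ f hf ρ
    have e2 : hzWinL φ θ (φ.d ks) Λ 0 (l1 ++ hzOne ks :: l2) = hzWinL φ θ (φ.d ks) Λ 0 l1 ++
        (hzOne ks).win θ (φ.d ks + (((0 + l1.length : ℕ) : ℝ) + 1) * Λ * φ.d ks) :: hzWinL φ θ (φ.d ks) Λ (0 + l1.length + 1) l2 := by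
      rw [hz_winL_append]
      rfl
    have e3 := hz_br_append φ kf i (hzWinL φ θ (φ.d ks) Λ 0 l1) ((hzOne ks).win θ (φ.d ks + (((0 + l1.length : ℕ) : ℝ) + 1) * Λ * φ.d ks))
      (hzWinL φ θ (φ.d ks) Λ (0 + l1.length + 1) l2) (fun τ hτ => (a1.dep τ hτ).2) h1 (tmL k0 i0) k0 f
    have e4 : (fun ρ => (((((hzOne ks).win θ (φ.d ks + (((0 + l1.length : ℕ) : ℝ) + 1) * Λ * φ.d ks)).M (ancI kf ks i) ρ : ℝ) : ℂ)) •
          φ.br ks (ancI kf ks i) (hzWinL φ θ (φ.d ks) Λ 0 l1) (tmL k0 i0) k0 f ρ) =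
        (hzVel θ (φ.d ks + (((0 + l1.length : ℕ) : ℝ) + 1) * Λ * φ.d ks)).indicator
          (φ.br ks (ancI kf ks i) (hzWinL φ θ (φ.d ks) Λ 0 l1) (tmL k0 i0) k0 f) := by
      funext ρ
      by_cases hρ : |ρ.2 - θ| ≤ φ.d ks + (((0 + l1.length : ℕ) : ℝ) + 1) * Λ * φ.d ks
      · have hmem : ρ ∈ hzVel θ (φ.d ks + (((0 + l1.length : ℕ) : ℝ) + 1) * Λ * φ.d ks) := hρ
        rw [Set.indicator_of_mem hmem]
        simp only [HyStg.win, hzOne, if_pos hρ]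
        simp
      · have hmem : ρ ∉ hzVel θ (φ.d ks + (((0 + l1.length : ℕ) : ℝ) + 1) * Λ * φ.d ks) := hρ
        rw [Set.indicator_of_notMem hmem]
        simp only [HyStg.win, hzOne, if_neg hρ]
        simp
    have e5 : φ.br kf i (hzWinL φ θ (φ.d ks) Λ 0 (l1 ++ hzOne ks :: l2)) (tmL k0 i0) k0 f =
        φ.br kf i (hzWinL φ θ (φ.d ks) Λ (0 + l1.length + 1) l2) (tmL ks (ancI kf ks i)) ks
          ((hzVel θ (φ.d ks + (((0 + l1.length : ℕ) : ℝ) + 1) * Λ * φ.d ks)).indicator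
            (φ.br ks (ancI kf ks i) (hzWinL φ θ (φ.d ks) Λ 0 l1) (tmL k0 i0) k0 f)) := by
      rw [e2, e3, ← e4]
      rfl
    rw [e5] at hw
    simp only [e1] at hw
    refine hw.trans (mul_le_mul_left (ENNReal.ofReal_le_ofReal ?_) _)
    have hlen : (((l1 ++ hzOne ks :: l2).length : ℕ) : ℝ) ≤ m + 1 := by
      rw [List.length_append, List.length_cons]
      push_cast
      linarith
    gcongr

omit [InnerProductSpace ℂ E] [CompleteSpace E] in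
theorem hzx_ind_le (θ W W' : ℝ) (hW : W ≤ W') (u : ℝ × ℝ → E) (ρ : ℝ × ℝ) :
    ‖(hzVel θ W).indicator u ρ‖ ≤ ‖(hzVel θ W').indicator u ρ‖ := by
  by_cases hρ : ρ ∈ hzVel θ W
  · have hρ' : ρ ∈ hzVel θ W' := le_trans hρ hW
    rw [Set.indicator_of_mem hρ, Set.indicator_of_mem hρ']
  · rw [Set.indicator_of_notMem hρ, norm_zero]
    exact norm_nonneg _

omit [InnerProductSpace ℂ E] [CompleteSpace E] in
theorem hzx_ind_lint (ν : Measure (ℝ × ℝ)) (θ W : ℝ) (u : ℝ × ℝ → E) :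
    ∫⁻ ρ, ‖(hzVel θ W).indicator u ρ‖ₑ ^ 2 ∂ν ≤ ∫⁻ ρ, ‖u ρ‖ₑ ^ 2 ∂ν := by
  refine lintegral_mono fun ρ => ?_
  by_cases hρ : ρ ∈ hzVel θ W
  · rw [Set.indicator_of_mem hρ]
  · rw [Set.indicator_of_notMem hρ]
    simp

/-- the main term: windowed masks -/
theorem hzx_main (φ : HyF) (h : φ.Ok) (k0 i0 ks kf : ℕ) (h0 : k0 ≤ ks) (h1 : ks ≤ kf) (m : ℕ) (l1a l1b l2a l2b : List HyStg) (Wa Wb : ℝ)
    (s1a : HzStk k0 ks l1a) (s1b : HzStk k0 ks l1b) (s2a : HzStk ks kf l2a) (s2b : HzStk ks kf l2b)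
    (hd : l1a.map HyStg.k = l1b.map HyStg.k) (hma : l2a.length ≤ m) (hmb : l2b.length ≤ m)
    (θ1 θ2 V Λ : ℝ) (hV : V = |θ1 - θ2|) (hΛ : 1 ≤ Λ) (hsep : 16 * ((m + 3) * Λ) * φ.d ks ≤ V)
    (hT : 8 * 4 ^ (ks - k0) * Real.exp (-Λ ^ 2) ≤ 1)
    (u1a : HzSup θ1 (fun _ => (m + 1) * Λ * φ.d ks) l1a) (u1b : HzSup θ2 (fun _ => (m + 1) * Λ * φ.d ks) l1b)
    (u2a : HzSup θ1 (fun κ => (m + 2) * Λ * φ.d κ) l2a) (u2b : HzSup θ2 (fun κ => (m + 2) * Λ * φ.d κ) l2b)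
    (hWa : Wa ≤ (m + 2) * Λ * φ.d ks) (hWb : Wb ≤ (m + 2) * Λ * φ.d ks)
    (f1 f2 : ℝ × ℝ → E) (hf1 : MemLp f1 2 φ.nu) (hf2 : MemLp f2 2 φ.nu)
    (hs1 : ∀ ρ, f1 ρ ≠ 0 → |ρ.2 - θ1| ≤ φ.d ks) (hs2 : ∀ ρ, f2 ρ ≠ 0 → |ρ.2 - θ2| ≤ φ.d ks)
    (a : ℝ) (ha : 0 < a) (ha' : a ≤ φ.q kf) (o : ℕ → ℝ) :
    ∑ i ∈ ivs k0 i0 kf, ∑' b : ℤ,
        (∫⁻ ρ in hzBinI (o i) a b, ‖φ.br kf i l2a (tmL ks (ancI kf ks i)) ks
          ((hzVel θ1 Wa).indicator (φ.br ks (ancI kf ks i) l1a (tmL k0 i0) k0 f1)) ρ‖ₑ ^ 2 ∂φ.nu) *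
        (∫⁻ ρ in hzBinI (o i) a b, ‖φ.br kf i l2b (tmL ks (ancI kf ks i)) ks
          ((hzVel θ2 Wb).indicator (φ.br ks (ancI kf ks i) l1b (tmL k0 i0) k0 f2)) ρ‖ₑ ^ 2 ∂φ.nu)
      ≤ (ENNReal.ofReal (hzCe m ((m + 2) * Λ) ^ 2 * ((2 * m + 4) * ((m + 2) * Λ)) *
            (2 * (2 * m + 3) * ((m + 2) * Λ) * (a * 2 ^ kf / V) + a / (2 * φ.q ks))) *
          (ENNReal.ofReal (hzCx l1a.length (m + 2)) +
            ENNReal.ofReal ((l1a.length + 1) * hzCx l1a.length (m + 2) * (2 * 10 ^ 6) * 4 ^ (ks - k0) * Real.exp (-(Λ ^ 2 / 20)))) +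
        ENNReal.ofReal ((m + 1) * hzCe m ((m + 2) * Λ) * (1 + hzCe m ((m + 2) * Λ) * ((2 * m + 4) * ((m + 2) * Λ))) * 2 ^ (kf - ks) *
            Real.exp (-(((m + 2) * Λ) ^ 2 / 20))) * 2 ^ (ks - k0)) *
          ((∫⁻ ρ, ‖f1 ρ‖ₑ ^ 2 ∂φ.nu) * ∫⁻ ρ, ‖f2 ρ‖ₑ ^ 2 ∂φ.nu) := by
  have hD : 0 < φ.d ks := (hy_qd φ h ks).2.1
  have hΛ0 : 0 < Λ := by linarith
  have hm0 : (0 : ℝ) ≤ m := Nat.cast_nonneg _
  have hΛD : 0 < Λ * φ.d ks := mul_pos hΛ0 hD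
  have hV0 : 0 ≤ V := by rw [hV]; exact abs_nonneg _
  have hq1 : (m + 2) * Λ * φ.d ks ≤ V / 4 := by nlinarith
  have hq2 : (m + 1) * Λ * φ.d ks ≤ V / 4 := by nlinarith
  have hq3 : φ.d ks ≤ V / 4 := by nlinarith
  have hsep' : 16 * ((m + 2) * Λ) * φ.d ks ≤ V := by nlinarith
  have hsep'' : 16 * Λ * φ.d ks ≤ V := by nlinarith
  have hΛ' : 1 ≤ ((m : ℝ) + 2) * Λ := by nlinarith
  have hb1 : ∀ I, MemLp (φ.br ks I l1a (tmL k0 i0) k0 f1) 2 φ.nu ∧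
      ∫⁻ ρ, ‖φ.br ks I l1a (tmL k0 i0) k0 f1 ρ‖ₑ ^ 2 ∂φ.nu ≤ ∫⁻ ρ, ‖f1 ρ‖ₑ ^ 2 ∂φ.nu := fun I => hz_br_contr φ h ks I l1a s1a.ok _ _ f1 hf1
  have hb2 : ∀ I, MemLp (φ.br ks I l1b (tmL k0 i0) k0 f2) 2 φ.nu ∧
      ∫⁻ ρ, ‖φ.br ks I l1b (tmL k0 i0) k0 f2 ρ‖ₑ ^ 2 ∂φ.nu ≤ ∫⁻ ρ, ‖f2 ρ‖ₑ ^ 2 ∂φ.nu := fun I => hz_br_contr φ h ks I l1b s1b.ok _ _ f2 hf2
  have c1 := hz_cross_fin φ h k0 i0 ks kf h0 h1 m l2a l2b s2a s2b hma hmb θ1 θ2 V ((m + 2) * Λ) hV hsep' hΛ' u2a u2b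
    (fun I => (hzVel θ1 Wa).indicator (φ.br ks I l1a (tmL k0 i0) k0 f1))
    (fun I => (hzVel θ2 Wb).indicator (φ.br ks I l1b (tmL k0 i0) k0 f2))
    (fun I => (hb1 I).1.indicator (hz_vel_meas θ1 Wa)) (fun I => (hb2 I).1.indicator (hz_vel_meas θ2 Wb))
    (fun I ρ hne => le_trans (Set.mem_of_indicator_ne_zero hne : ρ ∈ hzVel θ1 Wa) hWa)
    (fun I ρ hne => le_trans (Set.mem_of_indicator_ne_zero hne : ρ ∈ hzVel θ2 Wb) hWb) a ha ha' o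
  refine c1.trans ?_
  have sum1 : ∑ I ∈ ivs k0 i0 ks, φ.cr ((m + 2) * (2 : ℝ)⁻¹ ^ ks * V) ((hzVel θ1 Wa).indicator (φ.br ks I l1a (tmL k0 i0) k0 f1))
        ((hzVel θ2 Wb).indicator (φ.br ks I l1b (tmL k0 i0) k0 f2))
      ≤ (ENNReal.ofReal (hzCx l1a.length (m + 2)) +
            ENNReal.ofReal ((l1a.length + 1) * hzCx l1a.length (m + 2) * (2 * 10 ^ 6) * 4 ^ (ks - k0) * Real.exp (-(Λ ^ 2 / 20)))) *
          ((∫⁻ ρ, ‖f1 ρ‖ₑ ^ 2 ∂φ.nu) * ∫⁻ ρ, ‖f2 ρ‖ₑ ^ 2 ∂φ.nu) := by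
    have c2 := hz_cross_stop φ h ks l1a l1b k0 i0 h0 s1a s1b hd θ1 θ2 V Λ (m + 2) hV hsep'' hΛ (by linarith) hT
      (hzx_sup_mono u1a fun _ _ => hq2) (hzx_sup_mono u1b fun _ _ => hq2) f1 f2 hf1 hf2
      (fun ρ hρ => (hs1 ρ hρ).trans hq3) (fun ρ hρ => (hs2 ρ hρ).trans hq3)
    have fin2 : ∫⁻ ρ, ‖f2 ρ‖ₑ ^ 2 ∂φ.nu ≠ ⊤ := by
      rw [← hz_elp_sq]
      exact ENNReal.pow_ne_top hf2.eLpNorm_ne_top
    refine (Finset.sum_le_sum fun I _ => (hz_cr_mono φ _ _ le_rfl _ _ _ _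
      (hzx_ind_le θ1 Wa (V / 4) (hWa.trans hq1) _) (hzx_ind_le θ2 Wb (V / 4) (hWb.trans hq1) _)
      (ne_top_of_le_ne_top fin2 ((hzx_ind_lint _ _ _ _).trans (hb2 I).2))).1).trans (c2.trans ?_)
    refine le_trans ?_ (add_mul _ _ _).ge
    exact add_le_add (mul_le_mul_right (hz_cr_mono φ _ _ le_rfl f1 f2 f1 f2 (fun _ => le_rfl) (fun _ => le_rfl) fin2).2 _) le_rfl
  have sum2 : ∑ I ∈ ivs k0 i0 ks, (∫⁻ ρ, ‖(hzVel θ1 Wa).indicator (φ.br ks I l1a (tmL k0 i0) k0 f1) ρ‖ₑ ^ 2 ∂φ.nu) *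
        ∫⁻ ρ, ‖(hzVel θ2 Wb).indicator (φ.br ks I l1b (tmL k0 i0) k0 f2) ρ‖ₑ ^ 2 ∂φ.nu
      ≤ 2 ^ (ks - k0) * ((∫⁻ ρ, ‖f1 ρ‖ₑ ^ 2 ∂φ.nu) * ∫⁻ ρ, ‖f2 ρ‖ₑ ^ 2 ∂φ.nu) := by
    refine (Finset.sum_le_card_nsmul _ _ ((∫⁻ ρ, ‖f1 ρ‖ₑ ^ 2 ∂φ.nu) * ∫⁻ ρ, ‖f2 ρ‖ₑ ^ 2 ∂φ.nu) fun I _ => ?_).trans (le_of_eq ?_)
    · exact mul_le_mul' ((hzx_ind_lint _ _ _ _).trans (hb1 I).2) ((hzx_ind_lint _ _ _ _).trans (hb2 I).2)
    · rw [gn_ivs_card, nsmul_eq_mul]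
      push_cast
      rfl
  calc _ ≤ _ * _ + _ * _ := add_le_add (mul_le_mul_right sum1 _) (mul_le_mul_right sum2 _)
    _ = _ := by ring


omit [InnerProductSpace ℂ E] [CompleteSpace E] in
/-- replacement on one time `i` -/
theorem hzx_step (ν : Measure (ℝ × ℝ)) (o a : ℝ) (ha : 0 < a) (u1 u2 w1 w2 : ℝ × ℝ → E) (N1 N2 c : ℝ≥0∞)
    (m1 : AEStronglyMeasurable w1 ν) (m2 : AEStronglyMeasurable w2 ν)
    (hw1 : ∫⁻ ρ, ‖w1 ρ‖ₑ ^ 2 ∂ν ≤ N1) (hw2 : ∫⁻ ρ, ‖w2 ρ‖ₑ ^ 2 ∂ν ≤ N2)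
    (hd1 : ∫⁻ ρ, ‖u1 ρ - w1 ρ‖ₑ ^ 2 ∂ν ≤ c * N1) (hd2 : ∫⁻ ρ, ‖u2 ρ - w2 ρ‖ₑ ^ 2 ∂ν ≤ c * N2) :
    ∑' b : ℤ, (∫⁻ ρ in hzBinI o a b, ‖u1 ρ‖ₑ ^ 2 ∂ν) * (∫⁻ ρ in hzBinI o a b, ‖u2 ρ‖ₑ ^ 2 ∂ν)
      ≤ 4 * ∑' b : ℤ, (∫⁻ ρ in hzBinI o a b, ‖w1 ρ‖ₑ ^ 2 ∂ν) * (∫⁻ ρ in hzBinI o a b, ‖w2 ρ‖ₑ ^ 2 ∂ν)
        + 4 * (2 * c + c ^ 2) * (N1 * N2) := by
  have key : ∀ (u w : ℝ × ℝ → E), AEStronglyMeasurable w ν → ∀ b : ℤ, ∫⁻ ρ in hzBinI o a b, ‖u ρ‖ₑ ^ 2 ∂ν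
      ≤ 2 * (∫⁻ ρ in hzBinI o a b, ‖w ρ‖ₑ ^ 2 ∂ν) + 2 * ∫⁻ ρ in hzBinI o a b, ‖u ρ - w ρ‖ₑ ^ 2 ∂ν := by
    intro u w hw b
    have hm : AEMeasurable (fun ρ => 2 * ‖w ρ‖ₑ ^ 2) (ν.restrict (hzBinI o a b)) :=
      ((hw.enorm.pow_const 2).const_mul 2).restrict
    calc ∫⁻ ρ in hzBinI o a b, ‖u ρ‖ₑ ^ 2 ∂ν
        ≤ ∫⁻ ρ in hzBinI o a b, (2 * ‖w ρ‖ₑ ^ 2 + 2 * ‖u ρ - w ρ‖ₑ ^ 2) ∂ν := lintegral_mono fun ρ => hzx_sq_sub _ _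
      _ = _ := by
          rw [lintegral_add_left' hm, lintegral_const_mul' _ _ (by norm_num), lintegral_const_mul' _ _ (by norm_num)]
  exact hzx_repl _ _ _ _ (fun b => ∫⁻ ρ in hzBinI o a b, ‖u1 ρ - w1 ρ‖ₑ ^ 2 ∂ν) (fun b => ∫⁻ ρ in hzBinI o a b, ‖u2 ρ - w2 ρ‖ₑ ^ 2 ∂ν)
    N1 N2 c (key u1 w1 m1) (key u2 w2 m2) (fun b => (setLIntegral_le_lintegral _ _).trans hw1)
    (fun b => (setLIntegral_le_lintegral _ _).trans hw2) ((hzx_bin_sum ν o a ha _).trans hd1) ((hzx_bin_sum ν o a ha _).trans hd2)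

/-! ### (FX): the constants -/

theorem hzx_merge (A1 C1 C2 A2 ε : ℝ) (hA1 : 0 ≤ A1) (hC1 : 0 ≤ C1) (hC2 : 0 ≤ C2) (hA2 : 0 ≤ A2) (hε : 0 ≤ ε) (n1 n2 : ℕ) :
    4 * (ENNReal.ofReal A1 * (ENNReal.ofReal C1 + ENNReal.ofReal C2) + ENNReal.ofReal A2 * 2 ^ n1)
        + 2 ^ n2 * (4 * (2 * ENNReal.ofReal ε ^ 2 + (ENNReal.ofReal ε ^ 2) ^ 2))
      = ENNReal.ofReal (4 * (A1 * (C1 + C2) + A2 * 2 ^ n1) + 2 ^ n2 * (4 * (2 * ε ^ 2 + (ε ^ 2) ^ 2))) := by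
  lift A1 to NNReal using hA1
  lift C1 to NNReal using hC1
  lift C2 to NNReal using hC2
  lift A2 to NNReal using hA2
  lift ε to NNReal using hε
  have e : (4 * ((A1 : ℝ) * (C1 + C2) + A2 * 2 ^ n1) + 2 ^ n2 * (4 * (2 * (ε : ℝ) ^ 2 + ((ε : ℝ) ^ 2) ^ 2)))
      = ((4 * (A1 * (C1 + C2) + A2 * 2 ^ n1) + 2 ^ n2 * (4 * (2 * ε ^ 2 + (ε ^ 2) ^ 2)) : NNReal) : ℝ) := by
    push_cast
    ring
  rw [e]
  simp only [ENNReal.ofReal_coe_nnreal]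
  push_cast
  ring

theorem hzx_num0 (B0 c1 Cn Cx nn mm X Y p1 P Ee B2 p2 p3 E' p4 cε E8 t2 : ℝ)
    (hB0 : 0 ≤ B0) (hc1 : 1 / 2 ≤ c1) (hCn : 0 ≤ Cn) (hCx : Cn ≤ Cx) (hnn : 0 ≤ nn) (hmm : nn ≤ mm) (hX : 0 ≤ X) (hY : 0 ≤ Y)
    (hp1 : 0 ≤ p1) (hXY : (X + Y) * p1 ≤ 2 * P) (hE : 0 ≤ Ee) (hB2 : 0 ≤ B2) (hp2 : 0 ≤ p2) (hp3 : 0 ≤ p3) (hE' : 0 ≤ E') (hEE : E' ≤ Ee)
    (h23 : p2 * p3 ≤ P) (hp4 : 0 ≤ p4) (h44 : p4 * p4 ≤ P) (hcε : 0 ≤ cε) (hE8 : 0 ≤ E8) (hE8' : E8 ≤ Ee) (hE81 : E8 ≤ 1)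
    (ht2 : 0 ≤ t2) (ht2' : t2 ≤ p4) (ht22 : t2 ^ 2 ≤ p4) :
    4 * (B0 * (c1 * X + Y / 2) * (Cn + nn * Cn * (2 * 10 ^ 6) * p1 * Ee) + B2 * p2 * E' * p3)
        + p4 * (4 * (2 * (cε * E8 * t2) + (cε * E8 * t2) ^ 2))
      ≤ (4 * (B0 * c1) * Cx + 16 * 10 ^ 6 * (B0 * c1) * mm * Cx + 4 * B2 + 4 * (2 * cε + cε ^ 2)) * (X + Y + P * Ee) := by
  have hc0 : 0 ≤ c1 := by linarith
  have hCx0 : 0 ≤ Cx := hCn.trans hCx
  have hmm0 : 0 ≤ mm := hnn.trans hmm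
  have hP : 0 ≤ P := (mul_nonneg hp4 hp4).trans h44
  have hPE : 0 ≤ P * Ee := mul_nonneg hP hE
  have hB1 : 0 ≤ B0 * c1 := mul_nonneg hB0 hc0
  have t1a : B0 * (c1 * X + Y / 2) ≤ B0 * c1 * (X + Y) := by
    have : c1 * X + Y / 2 ≤ c1 * (X + Y) := by nlinarith
    calc B0 * (c1 * X + Y / 2) ≤ B0 * (c1 * (X + Y)) := mul_le_mul_of_nonneg_left this hB0
      _ = _ := by ring
  have t1b : Cn + nn * Cn * (2 * 10 ^ 6) * p1 * Ee ≤ Cx + mm * Cx * (2 * 10 ^ 6) * p1 * Ee := by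
    have : nn * Cn ≤ mm * Cx := mul_le_mul hmm hCx hCn hmm0
    have h2 : nn * Cn * (2 * 10 ^ 6) * p1 * Ee ≤ mm * Cx * (2 * 10 ^ 6) * p1 * Ee := by gcongr
    linarith
  have t1 : B0 * (c1 * X + Y / 2) * (Cn + nn * Cn * (2 * 10 ^ 6) * p1 * Ee)
      ≤ B0 * c1 * Cx * (X + Y) + B0 * c1 * mm * Cx * (2 * 10 ^ 6) * (2 * P) * Ee := by
    calc B0 * (c1 * X + Y / 2) * (Cn + nn * Cn * (2 * 10 ^ 6) * p1 * Ee)
        ≤ B0 * c1 * (X + Y) * (Cx + mm * Cx * (2 * 10 ^ 6) * p1 * Ee) :=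
          mul_le_mul t1a t1b (by positivity) (by positivity)
      _ = B0 * c1 * Cx * (X + Y) + B0 * c1 * mm * Cx * (2 * 10 ^ 6) * ((X + Y) * p1) * Ee := by ring
      _ ≤ _ := by gcongr
  have t2' : B2 * p2 * E' * p3 ≤ B2 * (P * Ee) := by
    calc B2 * p2 * E' * p3 = B2 * ((p2 * p3) * E') := by ring
      _ ≤ B2 * (P * Ee) := by gcongr
  have t3a : p4 * (cε * E8 * t2) ≤ cε * (P * Ee) := by
    calc p4 * (cε * E8 * t2) = cε * ((p4 * t2) * E8) := by ring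
      _ ≤ cε * ((p4 * p4) * Ee) := by gcongr
      _ ≤ cε * (P * Ee) := by gcongr
  have t3b : p4 * (cε * E8 * t2) ^ 2 ≤ cε ^ 2 * (P * Ee) := by
    have : E8 ^ 2 ≤ Ee := by nlinarith
    calc p4 * (cε * E8 * t2) ^ 2 = cε ^ 2 * ((p4 * t2 ^ 2) * E8 ^ 2) := by ring
      _ ≤ cε ^ 2 * ((p4 * p4) * Ee) := by gcongr
      _ ≤ cε ^ 2 * (P * Ee) := by gcongr
  have hXY0 : 0 ≤ X + Y := by linarith
  have z1 : 0 ≤ (16 * 10 ^ 6 * (B0 * c1) * mm * Cx + 4 * B2 + 4 * (2 * cε + cε ^ 2)) * (X + Y) := by positivity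
  have z2 : 0 ≤ 4 * (B0 * c1) * Cx * (P * Ee) := by positivity
  nlinarith [t1, t2', t3a, t3b, z1, z2]


/-- the polynomial constant of (FX) -/
noncomputable def hzxM (m : ℕ) (Λ : ℝ) : ℝ :=
  4 * (hzCe m ((m + 2) * Λ) ^ 2 * ((2 * m + 4) * ((m + 2) * Λ)) * (2 * (2 * m + 3) * ((m + 2) * Λ))) * hzCx m (m + 2)
    + 16 * 10 ^ 6 * (hzCe m ((m + 2) * Λ) ^ 2 * ((2 * m + 4) * ((m + 2) * Λ)) * (2 * (2 * m + 3) * ((m + 2) * Λ))) * (m + 1) * hzCx m (m + 2)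
    + 4 * ((m + 1) * hzCe m ((m + 2) * Λ) * (1 + hzCe m ((m + 2) * Λ) * ((2 * m + 4) * ((m + 2) * Λ))))
    + 4 * (2 * ((m + 1) * 26) ^ 2 + (((m + 1) * 26) ^ 2) ^ 2)

theorem hzx_M_pb (m : ℕ) : hzxPB (hzxM m) := by
  have hL : hzxPB fun Λ => ((m : ℝ) + 2) * Λ := (hzx_pb_const _).mul hzx_pb_id
  have hCe : hzxPB fun Λ => hzCe m ((m + 2) * Λ) := by
    unfold hzCe
    exact ((hzx_pb_const _).mul (hL.pow 2)).pow (m + 1)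
  have hB0 : hzxPB fun Λ => hzCe m ((m + 2) * Λ) ^ 2 * ((2 * m + 4) * ((m + 2) * Λ)) * (2 * (2 * m + 3) * ((m + 2) * Λ)) :=
    ((hCe.pow 2).mul ((hzx_pb_const _).mul hL)).mul ((hzx_pb_const _).mul hL)
  unfold hzxM
  exact (((((hzx_pb_const _).mul hB0).mul (hzx_pb_const _)).add
    ((((hzx_pb_const _).mul hB0).mul (hzx_pb_const _)).mul (hzx_pb_const _))).add
    ((hzx_pb_const _).mul (((hzx_pb_const _).mul hCe).mul ((hzx_pb_const _).add (hCe.mul ((hzx_pb_const _).mul hL)))))).add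
    (hzx_pb_const _)

theorem hzx_Cx_mono {n m : ℕ} (hn : n ≤ m) (S : ℝ) (hS : 0 ≤ S) : 0 ≤ hzCx n S ∧ hzCx n S ≤ hzCx m S := by
  have hn' : (n : ℝ) ≤ m := by exact_mod_cast hn
  have hn0 : (0 : ℝ) ≤ n := Nat.cast_nonneg _
  unfold hzCx
  refine ⟨by positivity, ?_⟩
  have h1 : (1 : ℝ) ≤ 2 * (340 * (S + 3 * m) ^ 2 + 1) := by nlinarith [sq_nonneg (S + 3 * (m : ℝ))]
  calc (2 * (340 * (S + 3 * n) ^ 2 + 1)) ^ (n + 1) ≤ (2 * (340 * (S + 3 * m) ^ 2 + 1)) ^ (n + 1) := by gcongr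
    _ ≤ _ := pow_le_pow_right₀ h1 (by omega)

theorem hzx_num (m n : ℕ) (hn : n ≤ m) (Λ X Y : ℝ) (hΛ : 2 ≤ Λ) (k0 ks kf : ℕ) (h0 : k0 ≤ ks) (h1 : ks ≤ kf)
    (hX0 : 0 ≤ X) (hX : X ≤ 2 ^ (kf - ks)) (hY0 : 0 ≤ Y) (hY : Y ≤ 1) :
    4 * (hzCe m ((m + 2) * Λ) ^ 2 * ((2 * m + 4) * ((m + 2) * Λ)) * (2 * (2 * m + 3) * ((m + 2) * Λ) * X + Y / 2) *
          (hzCx n (m + 2) + (n + 1) * hzCx n (m + 2) * (2 * 10 ^ 6) * 4 ^ (ks - k0) * Real.exp (-(Λ ^ 2 / 20)))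
        + (m + 1) * hzCe m ((m + 2) * Λ) * (1 + hzCe m ((m + 2) * Λ) * ((2 * m + 4) * ((m + 2) * Λ))) * 2 ^ (kf - ks) *
            Real.exp (-(((m + 2) * Λ) ^ 2 / 20)) * 2 ^ (ks - k0))
      + 2 ^ (kf - k0) * (4 * (2 * ((m + 1) * 26 * Real.exp (-(Λ ^ 2 / 16)) * 2 ^ (((kf : ℝ) - k0) / 4)) ^ 2
          + (((m + 1) * 26 * Real.exp (-(Λ ^ 2 / 16)) * 2 ^ (((kf : ℝ) - k0) / 4)) ^ 2) ^ 2))
      ≤ hzxM m Λ * (X + Y + 4 ^ (kf - k0) * Real.exp (-(Λ ^ 2 / 20))) := by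
  have hm0 : (0 : ℝ) ≤ m := Nat.cast_nonneg _
  have hn0 : (0 : ℝ) ≤ n := Nat.cast_nonneg _
  have hn' : (n : ℝ) ≤ m := by exact_mod_cast hn
  have hΛ0 : 0 ≤ Λ := by linarith
  have hCe : 0 ≤ hzCe m ((m + 2) * Λ) := by unfold hzCe; positivity
  obtain ⟨hCn, hCx⟩ := hzx_Cx_mono hn ((m : ℝ) + 2) (by linarith)
  have hL : 4 ≤ ((m : ℝ) + 2) * Λ := by nlinarith
  have hLΛ : Λ ≤ ((m : ℝ) + 2) * Λ := by nlinarith
  -- powers of two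
  have e1 : kf - k0 = (kf - ks) + (ks - k0) := by omega
  have q2 : (1 : ℝ) ≤ 2 ^ (kf - ks) := one_le_pow₀ (by norm_num)
  have q24 : (2 : ℝ) ^ (kf - ks) ≤ 4 ^ (kf - ks) := pow_le_pow_left₀ (by norm_num) (by norm_num) _
  have q44 : (2 : ℝ) ^ (kf - k0) * 2 ^ (kf - k0) = 4 ^ (kf - k0) := by rw [← mul_pow]; norm_num
  have q1 : (1 : ℝ) ≤ 2 ^ (kf - k0) := one_le_pow₀ (by norm_num)
  have q23 : (2 : ℝ) ^ (kf - ks) * 2 ^ (ks - k0) ≤ 4 ^ (kf - k0) := by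
    rw [← pow_add, ← e1, ← q44]
    nlinarith
  have qXY : (X + Y) * 4 ^ (ks - k0) ≤ 2 * 4 ^ (kf - k0) := by
    have : X + Y ≤ 2 * 4 ^ (kf - ks) := by linarith
    calc (X + Y) * 4 ^ (ks - k0) ≤ (2 * 4 ^ (kf - ks)) * 4 ^ (ks - k0) := by gcongr
      _ = 2 * 4 ^ (kf - k0) := by rw [e1, pow_add]; ring
  -- the rpow
  have hx : ((kf : ℝ) - k0) = ((kf - k0 : ℕ) : ℝ) := by rw [Nat.cast_sub (h0.trans h1)]
  have hx0 : 0 ≤ ((kf : ℝ) - k0) := by rw [hx]; exact Nat.cast_nonneg _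
  have ht1 : (1 : ℝ) ≤ 2 ^ (((kf : ℝ) - k0) / 4) := Real.one_le_rpow (by norm_num) (by linarith)
  have ht4 : (((2 : ℝ) ^ (((kf : ℝ) - k0) / 4)) ^ 2) ^ 2 = 2 ^ (kf - k0) := by
    rw [← pow_mul, ← Real.rpow_natCast, ← Real.rpow_mul (by norm_num), ← Real.rpow_natCast, ← hx]
    congr 1
    push_cast
    ring
  have ht2 : (1 : ℝ) ≤ ((2 : ℝ) ^ (((kf : ℝ) - k0) / 4)) ^ 2 := one_le_pow₀ ht1
  have ht2' : ((2 : ℝ) ^ (((kf : ℝ) - k0) / 4)) ^ 2 ≤ 2 ^ (kf - k0) := by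
    rw [← ht4]
    nlinarith
  -- exponentials
  have x1 : Real.exp (-(((m + 2) * Λ) ^ 2 / 20)) ≤ Real.exp (-(Λ ^ 2 / 20)) := by
    apply Real.exp_le_exp.2
    have : Λ ^ 2 ≤ (((m : ℝ) + 2) * Λ) ^ 2 := pow_le_pow_left₀ hΛ0 hLΛ 2
    linarith
  have x2 : Real.exp (-(Λ ^ 2 / 16)) ^ 2 ≤ Real.exp (-(Λ ^ 2 / 20)) := by
    rw [sq, ← Real.exp_add]
    apply Real.exp_le_exp.2
    nlinarith [sq_nonneg Λ]
  have x3 : Real.exp (-(Λ ^ 2 / 16)) ^ 2 ≤ 1 := by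
    rw [sq, ← Real.exp_add]
    apply Real.exp_le_one_iff.2
    nlinarith [sq_nonneg Λ]
  have key := hzx_num0 (hzCe m ((m + 2) * Λ) ^ 2 * ((2 * m + 4) * ((m + 2) * Λ))) (2 * (2 * m + 3) * ((m + 2) * Λ))
    (hzCx n (m + 2)) (hzCx m (m + 2)) (n + 1) (m + 1) X Y (4 ^ (ks - k0)) (4 ^ (kf - k0)) (Real.exp (-(Λ ^ 2 / 20)))
    ((m + 1) * hzCe m ((m + 2) * Λ) * (1 + hzCe m ((m + 2) * Λ) * ((2 * m + 4) * ((m + 2) * Λ)))) (2 ^ (kf - ks)) (2 ^ (ks - k0))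
    (Real.exp (-(((m + 2) * Λ) ^ 2 / 20))) (2 ^ (kf - k0)) (((m + 1) * 26) ^ 2) (Real.exp (-(Λ ^ 2 / 16)) ^ 2)
    (((2 : ℝ) ^ (((kf : ℝ) - k0) / 4)) ^ 2)
    (by positivity) (by nlinarith) hCn hCx (by linarith) (by linarith) hX0 hY0 (by positivity) qXY (Real.exp_pos _).le (by positivity)
    (by positivity) (by positivity) (Real.exp_pos _).le x1 q23 (by positivity) q44.le (by positivity) (by positivity) x2 x3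
    (by positivity) ht2' ht4.le
  unfold hzxM
  refine le_trans (le_of_eq ?_) key
  ring


/-- geometry of the scales: `a 2^kf / V ≤ 2^(kf-ks)`, `a / q ks ≤ 1` -/
theorem hzx_XY (φ : HyF) (h : φ.Ok) (ks kf : ℕ) (h1 : ks ≤ kf) (V a : ℝ) (hV : φ.d ks ≤ V) (ha : 0 < a) (ha' : a ≤ φ.q kf) :
    0 ≤ a * 2 ^ kf / V ∧ a * 2 ^ kf / V ≤ 2 ^ (kf - ks) ∧ 0 ≤ a / φ.q ks ∧ a / φ.q ks ≤ 1 := by
  obtain ⟨hq, hd, -, hqd, -, hd2⟩ := hy_qd φ h kf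
  obtain ⟨hq', hd', -, -, -, hd2'⟩ := hy_qd φ h ks
  have hV0 : 0 < V := lt_of_lt_of_le hd' hV
  have q2 : (1 : ℝ) ≤ 2 ^ (kf - ks) := one_le_pow₀ (by norm_num)
  have e1 : (2 : ℝ) ^ kf = 2 ^ (kf - ks) * 2 ^ ks := by rw [← pow_add]; congr 1; omega
  have hdd : φ.d kf ≤ 2 ^ (kf - ks) * φ.d ks := by
    refine abs_le_of_sq_le_sq' ?_ (by positivity) |>.2
    rw [hd2, mul_pow, hd2', e1]
    have hH : 0 ≤ φ.H * 2 ^ ks := by rw [← hd2']; positivity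
    calc φ.H * (2 ^ (kf - ks) * 2 ^ ks) = 2 ^ (kf - ks) * (φ.H * 2 ^ ks) := by ring
      _ ≤ (2 ^ (kf - ks)) ^ 2 * (φ.H * 2 ^ ks) := mul_le_mul_of_nonneg_right (by nlinarith) hH
  have ha2 : a * 2 ^ kf ≤ φ.d kf := by
    have : a * 2 ^ kf ≤ φ.q kf * 2 ^ kf := by gcongr
    refine this.trans (le_of_eq ?_)
    rw [hqd, inv_pow]
    field_simp
  refine ⟨by positivity, ?_, by positivity, ?_⟩
  · rw [div_le_iff₀ hV0]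
    calc a * 2 ^ kf ≤ 2 ^ (kf - ks) * φ.d ks := ha2.trans hdd
      _ ≤ 2 ^ (kf - ks) * V := by gcongr
  · rw [div_le_one hq']
    exact ha'.trans (hy_qd_mono φ h h1).1

/-- **(FX) = (cross)**, actual masks.
PLAN.  `l = l1 ++ l2`;  `l° = l1 ++ hzOne ks :: l2` (`hz_br_insert`);  `lʷ = hzWinL φ θ_α (d ks) Λ 0 l°` (`hz_winL_append`);  `δ_α = br l° f_α - br lʷ f_α`, `‖δ_α‖ ≤ ε ‖f_α‖`, `ε = (m+1) 26 e^{-Λ²/16} 2^((kf-k0)/4)` (`hz_win`, `j = 0`, `W0 = d ks`).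
`br kf i lʷ f = br kf i l2ʷ (T_I, ks) g_I`, `g_I = 1_{win} br ks I l1ʷ f` (`hz_br_append`).   Windows: before the stop `d ks + (j+1) Λ d σ.k ≤ (m+2) Λ d ks ≤ V/4`; after the stop `≤ Λ' d σ.k`, `Λ' = (m+2) Λ`.
`hz_cross_fin` (`Λ'`), then `hz_cr_mono` and `hz_cross_stop` (`S = m+2`, `Λ`), `cr ≤ ‖f₁‖²‖f₂‖²`, `Σ_I ‖g₁‖²‖g₂‖² ≤ 2^(ks-k0) ‖f₁‖²‖f₂‖²`.
Replacement: `G_α(b) ≤ 2 Gʷ_α(b) + 2 Δ_α(b)`, `Gʷ_α(b) ≤ ‖f_α‖²`, `Σ_b Δ_α(b) ≤ ε²‖f_α‖²`:  `Σ_b G₁G₂ ≤ 4 Σ_b Gʷ₁Gʷ₂ + 4 (2ε² + ε⁴) ‖f₁‖²‖f₂‖²`; `2^(kf-k0)` times `i`.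
All constants are polynomials in `m, Λ`: `≤ Λ^K` since `Λ ≥ 2`.   ~700 l. -/
theorem hz_cross_all (m : ℕ) : ∃ K : ℕ, ∀ (E : Type) [NormedAddCommGroup E] [InnerProductSpace ℂ E] [CompleteSpace E]
    (φ : HyF), φ.Ok → ∀ (k0 i0 ks kf : ℕ), k0 ≤ ks → ks ≤ kf → ∀ (l1 l2 : List HyStg), HzStk k0 ks l1 → HzStk ks kf l2 → l1.length + l2.length ≤ m →
    ∀ (θ1 θ2 V Λ : ℝ), V = |θ1 - θ2| → 2 ≤ Λ → 16 * ((m + 3) * Λ) * φ.d ks ≤ V → 8 * 4 ^ (ks - k0) * Real.exp (-Λ ^ 2) ≤ 1 →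
    ∀ (f1 f2 : ℝ × ℝ → E), MemLp f1 2 φ.nu → MemLp f2 2 φ.nu → (∀ ρ, f1 ρ ≠ 0 → |ρ.2 - θ1| ≤ φ.d ks) → (∀ ρ, f2 ρ ≠ 0 → |ρ.2 - θ2| ≤ φ.d ks) →
    ∀ (a : ℝ), 0 < a → a ≤ φ.q kf → ∀ o : ℕ → ℝ,
    ∑ i ∈ ivs k0 i0 kf, ∑' b : ℤ,
        (∫⁻ ρ in hzBinI (o i) a b, ‖φ.br kf i (l1 ++ l2) (tmL k0 i0) k0 f1 ρ‖ₑ ^ 2 ∂φ.nu) *
        (∫⁻ ρ in hzBinI (o i) a b, ‖φ.br kf i (l1 ++ l2) (tmL k0 i0) k0 f2 ρ‖ₑ ^ 2 ∂φ.nu)
      ≤ ENNReal.ofReal (Λ ^ K * (a * 2 ^ kf / V + a / φ.q ks + 4 ^ (kf - k0) * Real.exp (-(Λ ^ 2 / 20)))) *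
          ((∫⁻ ρ, ‖f1 ρ‖ₑ ^ 2 ∂φ.nu) * ∫⁻ ρ, ‖f2 ρ‖ₑ ^ 2 ∂φ.nu) := by
  obtain ⟨K, hK⟩ := hzx_M_pb m
  refine ⟨K, ?_⟩
  intro E _ _ _ φ h k0 i0 ks kf h0 h1 l1 l2 hl1 hl2 hm θ1 θ2 V Λ hV hΛ hsep hT f1 f2 hf1 hf2 hs1 hs2 a ha ha' o
  have hΛ1 : 1 ≤ Λ := by linarith
  have hm0 : (0 : ℝ) ≤ m := Nat.cast_nonneg _
  have hD : 0 < φ.d ks := (hy_qd φ h ks).2.1
  obtain ⟨l1a, l2a, Wa, s1a, s2a, ka, hma, u1a, u2a, hWa, da⟩ :=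
    hzx_prep φ h k0 i0 ks kf h0 h1 l1 l2 hl1 hl2 m hm θ1 Λ hΛ1 f1 hf1 hs1
  obtain ⟨l1b, l2b, Wb, s1b, s2b, kb, hmb, u1b, u2b, hWb, db⟩ :=
    hzx_prep φ h k0 i0 ks kf h0 h1 l1 l2 hl1 hl2 m hm θ2 Λ hΛ1 f2 hf2 hs2
  have main := hzx_main φ h k0 i0 ks kf h0 h1 m l1a l1b l2a l2b Wa Wb s1a s1b s2a s2b (ka.trans kb.symm) hma hmb θ1 θ2 V Λ hV hΛ1
    hsep hT u1a u1b u2a u2b hWa hWb f1 f2 hf1 hf2 hs1 hs2 a ha ha' o
  have hlen : l1a.length ≤ m := by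
    have := congrArg List.length ka
    rw [List.length_map, List.length_map] at this
    omega
  -- the windowed branches
  have wm : ∀ (θ W : ℝ) (la lb : List HyStg), HzStk k0 ks la → HzStk ks kf lb → ∀ (f : ℝ × ℝ → E), MemLp f 2 φ.nu → ∀ i : ℕ,
      MemLp (φ.br kf i lb (tmL ks (ancI kf ks i)) ks ((hzVel θ W).indicator (φ.br ks (ancI kf ks i) la (tmL k0 i0) k0 f))) 2 φ.nu ∧
      ∫⁻ ρ, ‖φ.br kf i lb (tmL ks (ancI kf ks i)) ks ((hzVel θ W).indicator (φ.br ks (ancI kf ks i) la (tmL k0 i0) k0 f)) ρ‖ₑ ^ 2 ∂φ.nu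
        ≤ ∫⁻ ρ, ‖f ρ‖ₑ ^ 2 ∂φ.nu := by
    intro θ W la lb sa sb f hf i
    have c1 := hz_br_contr φ h ks (ancI kf ks i) la sa.ok (tmL k0 i0) k0 f hf
    have c2 := hz_br_contr φ h kf i lb sb.ok (tmL ks (ancI kf ks i)) ks
      ((hzVel θ W).indicator (φ.br ks (ancI kf ks i) la (tmL k0 i0) k0 f)) (c1.1.indicator (hz_vel_meas θ W))
    exact ⟨c2.1, c2.2.trans ((hzx_ind_lint _ _ _ _).trans c1.2)⟩
  have sq : ∀ (u f : ℝ × ℝ → E) (c : ℝ≥0∞), eLpNorm u 2 φ.nu ≤ c * eLpNorm f 2 φ.nu →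
      ∫⁻ ρ, ‖u ρ‖ₑ ^ 2 ∂φ.nu ≤ c ^ 2 * ∫⁻ ρ, ‖f ρ‖ₑ ^ 2 ∂φ.nu := by
    intro u f c hc
    rw [← hz_elp_sq, ← hz_elp_sq, ← mul_pow]
    exact pow_le_pow_left' hc 2
  have step := fun i (hi : i ∈ ivs k0 i0 kf) => hzx_step φ.nu (o i) a ha
    (φ.br kf i (l1 ++ l2) (tmL k0 i0) k0 f1) (φ.br kf i (l1 ++ l2) (tmL k0 i0) k0 f2) _ _ _ _ _
    (wm θ1 Wa l1a l2a s1a s2a f1 hf1 i).1.aestronglyMeasurable (wm θ2 Wb l1b l2b s1b s2b f2 hf2 i).1.aestronglyMeasurable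
    (wm θ1 Wa l1a l2a s1a s2a f1 hf1 i).2 (wm θ2 Wb l1b l2b s1b s2b f2 hf2 i).2
    (sq _ _ _ (da i hi)) (sq _ _ _ (db i hi))
  have hVd : φ.d ks ≤ V := by
    have : 0 < Λ * φ.d ks := by positivity
    nlinarith
  obtain ⟨hX0, hX, hY0, hY⟩ := hzx_XY φ h ks kf h1 V a hVd ha ha'
  have num := hzx_num m l1a.length hlen Λ (a * 2 ^ kf / V) (a / φ.q ks) hΛ k0 ks kf h0 h1 hX0 hX hY0 hY
  have hY2 : a / (2 * φ.q ks) = a / φ.q ks / 2 := by rw [mul_comm, div_mul_eq_div_div]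
  have hCe : 0 ≤ hzCe m ((m + 2) * Λ) := by unfold hzCe; positivity
  have hCn : 0 ≤ hzCx l1a.length ((m : ℝ) + 2) := (hzx_Cx_mono hlen ((m : ℝ) + 2) (by linarith)).1
  have mrg := hzx_merge (hzCe m ((m + 2) * Λ) ^ 2 * ((2 * m + 4) * ((m + 2) * Λ)) *
            (2 * (2 * m + 3) * ((m + 2) * Λ) * (a * 2 ^ kf / V) + a / (2 * φ.q ks))) (hzCx l1a.length (m + 2))
    ((l1a.length + 1) * hzCx l1a.length (m + 2) * (2 * 10 ^ 6) * 4 ^ (ks - k0) * Real.exp (-(Λ ^ 2 / 20)))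
    ((m + 1) * hzCe m ((m + 2) * Λ) * (1 + hzCe m ((m + 2) * Λ) * ((2 * m + 4) * ((m + 2) * Λ))) * 2 ^ (kf - ks) *
            Real.exp (-(((m + 2) * Λ) ^ 2 / 20)))
    ((m + 1) * 26 * Real.exp (-(Λ ^ 2 / 16)) * 2 ^ (((kf : ℝ) - k0) / 4))
    (by rw [hY2]; positivity) hCn (by positivity) (by positivity) (by positivity) (ks - k0) (kf - k0)
  have hfin : 4 * (hzCe m ((m + 2) * Λ) ^ 2 * ((2 * m + 4) * ((m + 2) * Λ)) *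
            (2 * (2 * m + 3) * ((m + 2) * Λ) * (a * 2 ^ kf / V) + a / (2 * φ.q ks)) * (hzCx l1a.length (m + 2) +
    (l1a.length + 1) * hzCx l1a.length (m + 2) * (2 * 10 ^ 6) * 4 ^ (ks - k0) * Real.exp (-(Λ ^ 2 / 20))) +
    (m + 1) * hzCe m ((m + 2) * Λ) * (1 + hzCe m ((m + 2) * Λ) * ((2 * m + 4) * ((m + 2) * Λ))) * 2 ^ (kf - ks) *
            Real.exp (-(((m + 2) * Λ) ^ 2 / 20)) * 2 ^ (ks - k0)) + 2 ^ (kf - k0) * (4 * (2 *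
    ((m + 1) * 26 * Real.exp (-(Λ ^ 2 / 16)) * 2 ^ (((kf : ℝ) - k0) / 4)) ^ 2 +
    (((m + 1) * 26 * Real.exp (-(Λ ^ 2 / 16)) * 2 ^ (((kf : ℝ) - k0) / 4)) ^ 2) ^ 2))
      ≤ Λ ^ K * (a * 2 ^ kf / V + a / φ.q ks + 4 ^ (kf - k0) * Real.exp (-(Λ ^ 2 / 20))) := by
    rw [hY2]
    refine num.trans (mul_le_mul_of_nonneg_right ((le_abs_self _).trans (hK Λ hΛ)) (by positivity))
  refine (Finset.sum_le_sum step).trans ?_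
  rw [Finset.sum_add_distrib, ← Finset.mul_sum, Finset.sum_const, gn_ivs_card, nsmul_eq_mul]
  refine (add_le_add (mul_le_mul_right main 4) le_rfl).trans ?_
  refine le_trans (le_of_eq ?_) (mul_le_mul_left (ENNReal.ofReal_le_ofReal hfin) _)
  rw [← mrg]
  push_cast
  ring

/-! ### (FL): real inequalities (helper24) -/

/-- the squared window error -/
theorem hz_err_sq (n m Λ : ℝ) (hn0 : 0 ≤ n) (hn : n ≤ m + 1) {a b c d : ℕ} (hab : a ≤ b) (hc : c ≤ a) (hd : b ≤ d) :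
    (n * 26 * Real.exp (-(Λ ^ 2 / 16)) * 2 ^ (((b : ℝ) - a) / 4)) ^ 2 ≤ (26 * (m + 1)) ^ 2 * Real.exp (-(Λ ^ 2 / 40)) * 2 ^ (d - c) ∧
      (n * 26 * Real.exp (-(Λ ^ 2 / 16))) ^ 2 * 2 ^ (((b : ℝ) - a) / 2) ≤ (26 * (m + 1)) ^ 2 * Real.exp (-(Λ ^ 2 / 40)) * 2 ^ (d - c) := by
  have e1 : Real.exp (-(Λ ^ 2 / 16)) ^ 2 ≤ Real.exp (-(Λ ^ 2 / 40)) := by
    rw [← Real.exp_nat_mul]
    refine Real.exp_le_exp.2 ?_
    push_cast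
    nlinarith [sq_nonneg Λ]
  have e2 : ((2 : ℝ) ^ (((b : ℝ) - a) / 4)) ^ 2 = 2 ^ (((b : ℝ) - a) / 2) := by
    rw [← Real.rpow_natCast, ← Real.rpow_mul (by norm_num)]
    congr 1
    push_cast
    ring
  have e3 := hz_two_rpow_le hab hc hd
  have e4 : (n * 26) ^ 2 ≤ (26 * (m + 1)) ^ 2 := pow_le_pow_left₀ (by positivity) (by linarith) 2
  have key : (n * 26 * Real.exp (-(Λ ^ 2 / 16))) ^ 2 * 2 ^ (((b : ℝ) - a) / 2) ≤ (26 * (m + 1)) ^ 2 * Real.exp (-(Λ ^ 2 / 40)) * 2 ^ (d - c) := by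
    rw [mul_pow]
    exact mul_le_mul (mul_le_mul e4 e1 (by positivity) (by positivity)) e3 (by positivity) (by positivity)
  refine ⟨?_, key⟩
  rw [mul_pow, e2]
  exact key

theorem hz_fl_r1 (n1 n2 m Λ ds dσ : ℝ) (hnm : n1 + n2 ≤ m) (hΛ1 : 1 ≤ Λ) (hd : ds ≤ dσ) (hd0 : 0 < dσ) :
    ds + (n1 + 1 + n2) * Λ * dσ ≤ (m + 2) * Λ * dσ := by
  have h3 : 0 ≤ Λ * dσ := by positivity
  have h4 : ds ≤ Λ * dσ := hd.trans (le_mul_of_one_le_left hd0.le hΛ1)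
  have h5 : (n1 + 1 + n2) * (Λ * dσ) ≤ (m + 1) * (Λ * dσ) := mul_le_mul_of_nonneg_right (by linarith) h3
  calc ds + (n1 + 1 + n2) * Λ * dσ = ds + (n1 + 1 + n2) * (Λ * dσ) := by ring
    _ ≤ Λ * dσ + (m + 1) * (Λ * dσ) := add_le_add h4 h5
    _ = _ := by ring

theorem hz_fl_r2 (n2 m Λ' R q : ℝ) (hnm : n2 ≤ m) (hΛ1 : 1 ≤ Λ') (hR : R ≤ q) (hq : 0 < q) :
    R + 2 * (n2 + 1) * Λ' * q + 2 * Λ' * q ≤ (2 * m + 5) * Λ' * q := by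
  have h3 : 0 ≤ Λ' * q := by positivity
  have h4 : R ≤ Λ' * q := hR.trans (le_mul_of_one_le_left hq.le hΛ1)
  have h5 : (2 * (n2 + 1) + 2) * (Λ' * q) ≤ (2 * m + 4) * (Λ' * q) := mul_le_mul_of_nonneg_right (by linarith) h3
  calc R + 2 * (n2 + 1) * Λ' * q + 2 * Λ' * q = R + (2 * (n2 + 1) + 2) * (Λ' * q) := by ring
    _ ≤ Λ' * q + (2 * m + 4) * (Λ' * q) := add_le_add h4 h5
    _ = _ := by ring

theorem hz_fl_coef (c1 s c3 c2 : ℝ) (h1 : 0 ≤ c1) (hs : 0 ≤ s) (h3 : 0 ≤ c3) (h2 : 0 ≤ c2) :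
    ENNReal.ofReal c1 * (8 * ENNReal.ofReal s + 4 * ENNReal.ofReal c3 + 4 * ENNReal.ofReal s) + 2 * ENNReal.ofReal c2 + 2 * ENNReal.ofReal s
      = ENNReal.ofReal (c1 * (8 * s + 4 * c3 + 4 * s) + 2 * c2 + 2 * s) := by
  rw [ENNReal.ofReal_add (by positivity) (by positivity), ENNReal.ofReal_add (by positivity) (by positivity), ENNReal.ofReal_mul h1,
    ENNReal.ofReal_add (by positivity) (by positivity), ENNReal.ofReal_add (by positivity) (by positivity),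
    ENNReal.ofReal_mul (by norm_num : (0 : ℝ) ≤ 8), ENNReal.ofReal_mul (by norm_num : (0 : ℝ) ≤ 4), ENNReal.ofReal_mul (by norm_num : (0 : ℝ) ≤ 4),
    ENNReal.ofReal_mul (by norm_num : (0 : ℝ) ≤ 2), ENNReal.ofReal_mul (by norm_num : (0 : ℝ) ≤ 2)]
  simp only [ENNReal.ofReal_ofNat]

/-- the real inequality behind the error constant of (FL) -/
theorem hz_fl_err (m Cb r e D LK : ℝ) (hm : 0 ≤ m) (hCb : 1 ≤ Cb) (hr0 : 0 ≤ r) (hr : r ≤ 1) (he : 0 ≤ e) (hD : 1 ≤ D)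
    (hK : 20000 * (m + 1) ^ 2 * Cb ≤ LK) :
    Cb * r * (8 * ((26 * (m + 1)) ^ 2 * e * D) + 4 * (1352 * e * D) + 4 * ((26 * (m + 1)) ^ 2 * e * D)) + 2 * ((m + 1) * Cb * e)
      + 2 * ((26 * (m + 1)) ^ 2 * e * D) ≤ LK * D * e := by
  obtain ⟨t, ht⟩ : ∃ t : ℝ, t = (m + 1) ^ 2 := ⟨_, rfl⟩
  have ht1 : 1 ≤ t := by rw [ht]; exact one_le_pow₀ (by linarith)
  have htm : m + 1 ≤ t := by rw [ht]; nlinarith
  have heD : 0 ≤ e * D := by positivity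
  have a1 : Cb * r * (8 * ((26 * (m + 1)) ^ 2 * e * D) + 4 * (1352 * e * D) + 4 * ((26 * (m + 1)) ^ 2 * e * D))
      ≤ Cb * ((8112 * t + 5408) * (e * D)) := by
    have e1 : 8 * ((26 * (m + 1)) ^ 2 * e * D) + 4 * (1352 * e * D) + 4 * ((26 * (m + 1)) ^ 2 * e * D) = (8112 * t + 5408) * (e * D) := by
      rw [ht]; ring
    rw [e1, mul_assoc]
    refine mul_le_mul_of_nonneg_left ?_ (by linarith)
    exact mul_le_of_le_one_left (by positivity) hr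
  have a2 : 2 * ((m + 1) * Cb * e) ≤ Cb * ((2 * t) * (e * D)) := by
    have e2 : e ≤ e * D := le_mul_of_one_le_right he hD
    have e3 : (m + 1) * e ≤ t * (e * D) := mul_le_mul htm e2 he (by linarith)
    calc 2 * ((m + 1) * Cb * e) = Cb * (2 * ((m + 1) * e)) := by ring
      _ ≤ Cb * (2 * (t * (e * D))) := mul_le_mul_of_nonneg_left (by linarith) (by linarith)
      _ = _ := by ring
  have a3 : 2 * ((26 * (m + 1)) ^ 2 * e * D) ≤ Cb * ((1352 * t) * (e * D)) := by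
    have e4 : 2 * ((26 * (m + 1)) ^ 2 * e * D) = (1352 * t) * (e * D) := by rw [ht]; ring
    rw [e4]
    exact le_mul_of_one_le_left (by positivity) hCb
  have a4 : Cb * ((8112 * t + 5408) * (e * D)) + Cb * ((2 * t) * (e * D)) + Cb * ((1352 * t) * (e * D)) ≤ (20000 * t * Cb) * (e * D) := by
    have : Cb * ((8112 * t + 5408) * (e * D)) + Cb * ((2 * t) * (e * D)) + Cb * ((1352 * t) * (e * D)) = ((9466 * t + 5408) * Cb) * (e * D) := by ring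
    rw [this]
    refine mul_le_mul_of_nonneg_right (mul_le_mul_of_nonneg_right (by linarith) (by linarith)) heD
  rw [← ht] at hK
  calc _ ≤ Cb * ((8112 * t + 5408) * (e * D)) + Cb * ((2 * t) * (e * D)) + Cb * ((1352 * t) * (e * D)) := add_le_add (add_le_add a1 a2) a3
    _ ≤ (20000 * t * Cb) * (e * D) := a4
    _ ≤ LK * (e * D) := mul_le_mul_of_nonneg_right hK heD
    _ = _ := by ring

set_option maxHeartbeats 1600000 in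
/-- **(FL) = (env) + window transfer.**   `I = ancI kf ks i`, `J = ancI kf kr i` (`kr` = the read depth `k*`), `Λ' = (m+2) Λ`.
PLAN.  As in (FX): `u = br kf i (l1 ++ l2) f = uʷ + δ`, `uʷ = br kf i l2ʷ (T_I, ks) g_I`, `g_I = 1_{win} br ks I l1ʷ f`.   `∫_bin ‖u‖² ≤ 2 ∫_bin ‖uʷ‖² + 2 ε² ‖f‖²`.
`hz_env` (`Λ'`, `k = ks`): `∫_{hzBin x R} ‖uʷ‖² ≤ Ce (R/q ks) ∫_{hzBin (x - (T_i - T_I) θ) (R + 2(m+1) Λ' q ks)} ‖g_I‖² + err`.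
`‖g_I ρ‖ ≤ 1_{hzVel θ (Λ' d ks)} (‖gᵃ ρ‖ + ‖δ' ρ‖)`, `gᵃ = br ks I l1 f` (actual masks), `‖δ'‖ ≤ ε ‖f‖` (`hz_win`).   `gᵃ = tr (T_J, kr) → (T_I, ks) of h`, `h = br kr J l1 f` (`hz_br_back`).
`hz_tran` (`(T,k) = (T_I, ks)`, `(T',k') = (T_J, kr)`, `W = Λ' d ks`): local energy of `gᵃ` `≤ 2` × local energy of `h` in `hzBin (x - (T_i - T_J) θ) (R + 2(m+2) Λ' q ks)` + err.
Velocities of `h`: `hz_vel_fwd` (`W = d ks`): outside `|N - θ| ≤ d ks + (m+1) Λ d kr ≤ Λ' d kr` negligible (`d ks ≤ d kr`).   `R ≤ q kf ≤ q ks`.   ~700 l. -/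
theorem hz_low_fib (m : ℕ) : ∃ K : ℕ, ∀ (E : Type) [NormedAddCommGroup E] [InnerProductSpace ℂ E] [CompleteSpace E]
    (φ : HyF), φ.Ok → ∀ (k0 i0 ks kr kf : ℕ), k0 ≤ ks → ks ≤ kr → kr ≤ kf → ∀ (l1 l2 : List HyStg), HzStk k0 ks l1 → HzStk ks kf l2 → l1.length + l2.length ≤ m →
    ∀ (θ Λ : ℝ), 2 ≤ Λ → ∀ (f : ℝ × ℝ → E), MemLp f 2 φ.nu → (∀ ρ, f ρ ≠ 0 → |ρ.2 - θ| ≤ φ.d ks) →
    ∀ i ∈ ivs k0 i0 kf, ∀ (x R : ℝ), 0 ≤ R → R ≤ φ.q kf →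
    ∫⁻ ρ in hzBin x R, ‖φ.br kf i (l1 ++ l2) (tmL k0 i0) k0 f ρ‖ₑ ^ 2 ∂φ.nu
      ≤ ENNReal.ofReal (Λ ^ K * (R / φ.q ks)) *
          ∫⁻ ρ in hzBx θ ((m + 2) * Λ * φ.d kr) (x - (tmL kf i - tmL kr (ancI kf kr i)) * θ) ((2 * m + 5) * ((m + 2) * Λ) * φ.q ks),
            ‖φ.br kr (ancI kf kr i) l1 (tmL k0 i0) k0 f ρ‖ₑ ^ 2 ∂φ.nu
        + ENNReal.ofReal (Λ ^ K * 2 ^ (kf - k0) * Real.exp (-(Λ ^ 2 / 40))) * ∫⁻ ρ, ‖f ρ‖ₑ ^ 2 ∂φ.nu := by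
  obtain ⟨K, hK⟩ := hz_fl_const m
  refine ⟨K, ?_⟩
  intro E _ _ _ φ h k0 i0 ks kr kf h0 h1 h2 l1 l2 hl1 hl2 hm θ Λ hΛ f hf hs i hi x R hR hR'
  have hi0 : ancI kf k0 i = i0 := (gn_mem_ivs k0 i0 kf i).1 hi
  rw [← hi0]
  have hΛ0 : 0 ≤ Λ := by linarith
  have hΛ1 : 1 ≤ Λ := by linarith
  have hsf : ks ≤ kf := h1.trans h2
  obtain ⟨I, hI⟩ : ∃ I : ℕ, I = ancI kf ks i := ⟨_, rfl⟩
  obtain ⟨J, hJ⟩ : ∃ J : ℕ, J = ancI kf kr i := ⟨_, rfl⟩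
  obtain ⟨T0, hT0⟩ : ∃ T0 : ℝ, T0 = tmL k0 (ancI kf k0 i) := ⟨_, rfl⟩
  obtain ⟨Λ', hΛ'⟩ : ∃ Λ' : ℝ, Λ' = ((m : ℝ) + 2) * Λ := ⟨_, rfl⟩
  obtain ⟨n1, hn1⟩ : ∃ n1 : ℝ, n1 = (l1.length : ℝ) := ⟨_, rfl⟩
  obtain ⟨n2, hn2⟩ : ∃ n2 : ℝ, n2 = (l2.length : ℝ) := ⟨_, rfl⟩
  have hn10 : 0 ≤ n1 := by rw [hn1]; positivity
  have hn20 : 0 ≤ n2 := by rw [hn2]; positivity
  have hnm : n1 + n2 ≤ m := by rw [hn1, hn2]; exact_mod_cast hm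
  have hm0 : (0 : ℝ) ≤ m := Nat.cast_nonneg m
  have hΛΛ' : Λ ≤ Λ' := by
    rw [hΛ']
    exact le_mul_of_one_le_left hΛ0 (by linarith)
  have hΛ'1 : 1 ≤ Λ' := hΛ1.trans hΛΛ'
  obtain ⟨hqs, hds, -, -, -, -⟩ := hy_qd φ h ks
  obtain ⟨hqr, hdr, -, -, -, -⟩ := hy_qd φ h kr
  obtain ⟨hqf, hdf, -, -, -, -⟩ := hy_qd φ h kf
  have hqfs : φ.q kf ≤ φ.q ks := (hy_qd_mono φ h hsf).1
  have hdsr : φ.d ks ≤ φ.d kr := (hy_qd_mono φ h h1).2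
  obtain ⟨Ws, hWs⟩ : ∃ Ws : ℝ, Ws = φ.d ks + (n1 + 1) * Λ * φ.d ks := ⟨_, rfl⟩
  have hWs' : Ws ≤ Λ' * φ.d ks := by
    rw [hWs, hΛ']
    have := hz_fl_r1 n1 0 m Λ (φ.d ks) (φ.d ks) (by linarith) hΛ1 le_rfl hds
    rwa [add_zero] at this
  obtain ⟨l1w, hl1w⟩ : ∃ l1w, l1w = hzWinL φ θ (φ.d ks) Λ 0 l1 := ⟨_, rfl⟩
  obtain ⟨l2w, hl2w⟩ : ∃ l2w, l2w = hzWinL φ θ (φ.d ks) Λ (l1.length + 1) l2 := ⟨_, rfl⟩
  have ok1 := hz_winL_ok φ h k0 ks l1 hl1 θ (φ.d ks) Λ hΛ0 0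
  have ok2 := hz_winL_ok φ h ks kf l2 hl2 θ (φ.d ks) Λ hΛ0 (l1.length + 1)
  rw [← hl1w] at ok1
  rw [← hl2w] at ok2
  have hlen2 : (l2w.length : ℝ) = n2 := by
    have := congrArg List.length ok2.2.1
    simp only [List.length_map] at this
    rw [this, hn2]
  obtain ⟨F, hF⟩ : ∃ F : ℝ≥0∞, F = ∫⁻ ρ, ‖f ρ‖ₑ ^ 2 ∂φ.nu := ⟨_, rfl⟩
  obtain ⟨gw, hgw⟩ : ∃ gw : ℝ × ℝ → E, gw = φ.br ks I l1w T0 k0 f := ⟨_, rfl⟩
  obtain ⟨mgw, cgw⟩ : MemLp gw 2 φ.nu ∧ ∫⁻ ρ, ‖gw ρ‖ₑ ^ 2 ∂φ.nu ≤ F := by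
    rw [hgw, hF]
    exact hz_br_contr φ h ks I l1w ok1.1.ok T0 k0 f hf
  obtain ⟨Mk, hMk⟩ : ∃ Mk : ℝ × ℝ → ℝ, Mk = fun ρ => if |ρ.2 - θ| ≤ Ws then 1 else 0 := ⟨_, rfl⟩
  have hMkm : Measurable Mk := by
    rw [hMk]
    exact Measurable.ite (measurableSet_le (by fun_prop) measurable_const) measurable_const measurable_const
  have hMk01 : ∀ ρ, 0 ≤ Mk ρ ∧ Mk ρ ≤ 1 := by
    intro ρ
    rw [hMk]
    show 0 ≤ (if |ρ.2 - θ| ≤ Ws then (1 : ℝ) else 0) ∧ (if |ρ.2 - θ| ≤ Ws then (1 : ℝ) else 0) ≤ 1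
    split_ifs
    · exact ⟨zero_le_one, le_rfl⟩
    · exact ⟨le_rfl, zero_le_one⟩
  obtain ⟨gI, hgI⟩ : ∃ gI : ℝ × ℝ → E, gI = fun ρ => ((Mk ρ : ℝ) : ℂ) • gw ρ := ⟨_, rfl⟩
  obtain ⟨mgI, cgI⟩ : MemLp gI 2 φ.nu ∧ ∀ ρ, ‖gI ρ‖ₑ ≤ ‖gw ρ‖ₑ := by
    rw [hgI]
    exact hz_mask φ Mk hMkm hMk01 gw mgw
  have hgI0 : ∀ ρ, gI ρ ≠ 0 → |ρ.2 - θ| ≤ Ws := by
    intro ρ hρ
    by_contra hc
    apply hρ
    rw [hgI, hMk]
    show (((if |ρ.2 - θ| ≤ Ws then (1 : ℝ) else 0 : ℝ)) : ℂ) • gw ρ = 0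
    rw [if_neg hc]
    simp
  have FgI : ∫⁻ ρ, ‖gI ρ‖ₑ ^ 2 ∂φ.nu ≤ F :=
    (lintegral_mono fun ρ => pow_le_pow_left₀ bot_le (cgI ρ) 2).trans cgw
  obtain ⟨uw, huw⟩ : ∃ uw : ℝ × ℝ → E, uw = φ.br kf i l2w (tmL ks I) ks gI := ⟨_, rfl⟩
  have muw : MemLp uw 2 φ.nu := by
    rw [huw]
    exact (hz_br_contr φ h kf i l2w ok2.1.ok _ ks gI mgI).1
  obtain ⟨ga, hga⟩ : ∃ ga : ℝ × ℝ → E, ga = φ.br ks I l1 T0 k0 f := ⟨_, rfl⟩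
  have mga : MemLp ga 2 φ.nu := by
    rw [hga]
    exact (hz_br_contr φ h ks I l1 hl1.ok T0 k0 f hf).1
  obtain ⟨hh, hhh⟩ : ∃ hh : ℝ × ℝ → E, hh = φ.br kr J l1 T0 k0 f := ⟨_, rfl⟩
  obtain ⟨mhh, chh⟩ : MemLp hh 2 φ.nu ∧ ∫⁻ ρ, ‖hh ρ‖ₑ ^ 2 ∂φ.nu ≤ F := by
    rw [hhh, hF]
    exact hz_br_contr φ h kr J l1 hl1.ok T0 k0 f hf
  -- real constants
  obtain ⟨e, he⟩ : ∃ e : ℝ, e = Real.exp (-(Λ ^ 2 / 40)) := ⟨_, rfl⟩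
  have he0 : 0 < e := by rw [he]; positivity
  obtain ⟨D, hD⟩ : ∃ D : ℝ, D = 2 ^ (kf - k0) := ⟨_, rfl⟩
  have hD1 : 1 ≤ D := by rw [hD]; exact one_le_pow₀ (by norm_num)
  obtain ⟨Cb, hCb⟩ : ∃ Cb : ℝ, Cb = hzCe m Λ' := ⟨_, rfl⟩
  have hCb1 : 1 ≤ Cb := by rw [hCb]; exact (hz_ce_mono le_rfl Λ' hΛ'1).2
  have hCe2 : hzCe l2w.length Λ' ≤ Cb := by
    rw [hCb]
    refine (hz_ce_mono ?_ Λ' hΛ'1).1
    have := congrArg List.length ok2.2.1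
    simp only [List.length_map] at this
    omega
  have hCe20 : 0 ≤ hzCe l2w.length Λ' := by
    have := (hz_ce_mono (le_refl l2w.length) Λ' hΛ'1).2
    linarith
  obtain ⟨s, hs'⟩ : ∃ s : ℝ, s = (26 * ((m : ℝ) + 1)) ^ 2 * e * D := ⟨_, rfl⟩
  have hs0 : 0 ≤ s := by rw [hs']; positivity
  have hRq : R / φ.q ks ≤ 1 := (div_le_one hqs).2 (hR'.trans hqfs)
  have hRq0 : 0 ≤ R / φ.q ks := by positivity
  have hee' : Real.exp (-(Λ' ^ 2 / 20)) ≤ e := by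
    rw [he]
    refine Real.exp_le_exp.2 ?_
    have := pow_le_pow_left₀ hΛ0 hΛΛ' 2
    have h9 := sq_nonneg Λ
    linarith
  -- positions
  obtain ⟨x1, hx1⟩ : ∃ x1 : ℝ, x1 = x - (tmL kf i - tmL ks I) * θ := ⟨_, rfl⟩
  obtain ⟨R1, hR1⟩ : ∃ R1 : ℝ, R1 = R + 2 * (n2 + 1) * Λ' * φ.q ks := ⟨_, rfl⟩
  have hR10 : 0 ≤ R1 := by rw [hR1]; positivity
  -- (i1)
  have i1 : ∫⁻ ρ in hzBin x R, ‖φ.br kf i (l1 ++ l2) T0 k0 f ρ‖ₑ ^ 2 ∂φ.nu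
      ≤ 2 * ∫⁻ ρ in hzBin x R, ‖uw ρ‖ₑ ^ 2 ∂φ.nu + 2 * (ENNReal.ofReal s * F) := by
    have hw := hz_stop_win φ h k0 ks kf i h0 hsf l1 l2 hl1 hl2 θ Λ hΛ0 f hf hs
    rw [← hn1, ← hn2, ← hWs, ← hl1w, ← hl2w, ← hI, ← hT0, ← hgw] at hw
    have hw' : eLpNorm (fun ρ => φ.br kf i (l1 ++ l2) T0 k0 f ρ - uw ρ) 2 φ.nu
        ≤ ENNReal.ofReal ((n1 + n2 + 1) * 26 * Real.exp (-(Λ ^ 2 / 16)) * 2 ^ (((kf : ℝ) - k0) / 4)) * eLpNorm f 2 φ.nu := by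
      rw [huw, hgI, hMk]
      exact hw
    refine (hz_split_elp φ.nu (hzBin x R) _ uw muw.1 _ (by positivity) f hw').trans ?_
    rw [← hF]
    gcongr
    rw [hs', he, hD]
    exact (hz_err_sq (n1 + n2 + 1) m Λ (by positivity) (by linarith) (h0.trans hsf) le_rfl le_rfl).1
  -- (i2)
  have i2 : ∫⁻ ρ in hzBin x R, ‖uw ρ‖ₑ ^ 2 ∂φ.nu
      ≤ ENNReal.ofReal (Cb * (R / φ.q ks)) * ∫⁻ ρ in hzBin x1 R1, ‖gI ρ‖ₑ ^ 2 ∂φ.nu + ENNReal.ofReal (((m : ℝ) + 1) * Cb * e) * F := by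
    have hsup : HzSup θ (fun κ => Λ' * φ.d κ) l2w := by
      intro σ hσ a ρ hρ
      refine (ok2.2.2 σ hσ a ρ hρ).trans ?_
      have hd1 : φ.d ks ≤ φ.d σ.k := (hy_qd_mono φ h (ok2.1.dep σ hσ).1).2
      have hd0 := (hy_qd φ h σ.k).2.1
      show φ.d ks + (((l1.length + 1 : ℕ) : ℝ) + (l2.length : ℝ)) * Λ * φ.d σ.k ≤ Λ' * φ.d σ.k
      push_cast
      rw [← hn1, ← hn2, hΛ']
      exact hz_fl_r1 n1 n2 m Λ (φ.d ks) (φ.d σ.k) hnm hΛ1 hd1 hd0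
    have hv := hz_env φ h kf i l2w ks hsf ok2.1 θ Λ' hΛ'1 hsup gI mgI (fun ρ hρ => (hgI0 ρ hρ).trans hWs') x R hR
      (hR'.trans (le_mul_of_one_le_left hqf.le hΛ'1))
    rw [← hI, ← huw, hlen2, ← hx1, ← hR1] at hv
    refine hv.trans (add_le_add (mul_le_mul' (ENNReal.ofReal_le_ofReal ?_) le_rfl) (mul_le_mul' (ENNReal.ofReal_le_ofReal ?_) FgI))
    · exact mul_le_mul_of_nonneg_right hCe2 hRq0
    · have hRf : R / φ.q kf ≤ 1 := (div_le_one hqf).2 hR'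
      have hRf0 : 0 ≤ R / φ.q kf := by positivity
      have a1 : (n2 + 1) * hzCe l2w.length Λ' ≤ ((m : ℝ) + 1) * Cb := mul_le_mul (by linarith) hCe2 hCe20 (by positivity)
      calc (n2 + 1) * hzCe l2w.length Λ' * (R / φ.q kf) * Real.exp (-(Λ' ^ 2 / 20))
          ≤ (((m : ℝ) + 1) * Cb) * 1 * e := by
            refine mul_le_mul (mul_le_mul a1 hRf hRf0 (by positivity)) hee' (by positivity) (by positivity)
        _ = _ := by ring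
  -- (i3)
  have hanc0 : ancI ks k0 I = ancI kf k0 i := by rw [hI]; exact (hz_anc_time k0 ks kf i h0 hsf).2.2.1
  have i3 : ∫⁻ ρ in hzBin x1 R1, ‖gI ρ‖ₑ ^ 2 ∂φ.nu
      ≤ 2 * ∫⁻ ρ in hzBin x1 R1 ∩ hzVel θ Ws, ‖ga ρ‖ₑ ^ 2 ∂φ.nu + 2 * (ENNReal.ofReal s * F) := by
    have hVm : MeasurableSet (hzVel θ Ws) := by
      unfold hzVel
      exact measurableSet_le (by fun_prop) measurable_const
    have a1 : ∫⁻ ρ in hzBin x1 R1, ‖gI ρ‖ₑ ^ 2 ∂φ.nu ≤ ∫⁻ ρ in hzBin x1 R1 ∩ hzVel θ Ws, ‖gw ρ‖ₑ ^ 2 ∂φ.nu := by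
      rw [← lintegral_indicator (hz_bin_meas _ _), ← lintegral_indicator ((hz_bin_meas _ _).inter hVm)]
      refine lintegral_mono fun ρ => ?_
      by_cases hb : ρ ∈ hzBin x1 R1
      · rw [Set.indicator_of_mem hb]
        by_cases hv : ρ ∈ hzVel θ Ws
        · rw [Set.indicator_of_mem (Set.mem_inter hb hv)]
          exact pow_le_pow_left₀ bot_le (cgI ρ) 2
        · have : gI ρ = 0 := by
            by_contra hc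
            exact hv (hgI0 ρ hc)
          rw [this]
          simp
      · rw [Set.indicator_of_notMem hb]
        exact bot_le
    have hw := hz_win φ h ks I l1 k0 hl1 θ (φ.d ks) Λ hΛ0 0 f hf (by simpa using hs)
    rw [hanc0, ← hT0, ← hl1w, ← hga, ← hgw, ← hn1] at hw
    have hw' : eLpNorm (fun ρ => gw ρ - ga ρ) 2 φ.nu
        ≤ ENNReal.ofReal (n1 * 26 * Real.exp (-(Λ ^ 2 / 16)) * 2 ^ (((ks : ℝ) - k0) / 4)) * eLpNorm f 2 φ.nu := by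
      refine le_trans (le_of_eq ?_) hw
      exact eLpNorm_sub_comm gw ga 2 φ.nu
    refine a1.trans ((hz_split_elp φ.nu _ gw ga mga.1 _ (by positivity) f hw').trans ?_)
    rw [← hF]
    gcongr
    rw [hs', he, hD]
    exact (hz_err_sq n1 m Λ hn10 (by linarith) h0 le_rfl hsf).1
  -- (i4)
  obtain ⟨R2, hR2⟩ : ∃ R2 : ℝ, R2 = R1 + 2 * Λ' * φ.q ks := ⟨_, rfl⟩
  obtain ⟨x2, hx2⟩ : ∃ x2 : ℝ, x2 = x - (tmL kf i - tmL kr J) * θ := ⟨_, rfl⟩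
  have i4 : ∫⁻ ρ in hzBin x1 R1 ∩ hzVel θ Ws, ‖ga ρ‖ₑ ^ 2 ∂φ.nu
      ≤ 2 * ∫⁻ ρ in hzBin x2 R2, ‖hh ρ‖ₑ ^ 2 ∂φ.nu + ENNReal.ofReal (1352 * e * D) * F := by
    have ht : |tmL kr J - tmL ks I| ≤ (2 : ℝ)⁻¹ ^ ks := by
      rw [hI, hJ]
      exact hz_time_le ks kr kf i h1 h2
    have hb : ∀ ρ, φ.tr (tmL kr J) kr (tmL ks I) ks hh ρ = ga ρ := by
      intro ρ
      rw [hhh, hga]
      refine hz_br_back φ h ks I kr J l1 hl1.ok (fun σ hσ => ?_) T0 k0 f hf ρ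
      have hσ1 := (hl1.dep σ hσ).2
      rw [hI, hJ, (hz_anc_time σ.k ks kf i hσ1 hsf).2.2.1, (hz_anc_time σ.k kr kf i (hσ1.trans h1) h2).2.2.1]
    have hv := hz_tran φ h (tmL ks I) ks (tmL kr J) kr h1 ht θ Λ' Ws hΛ'1 hWs' hh mhh x1 R1 hR10
    simp only [hb] at hv
    have ex : x1 + (tmL kr J - tmL ks I) * θ = x2 := by rw [hx1, hx2]; ring
    rw [ex, ← hR2] at hv
    refine hv.trans (add_le_add le_rfl (mul_le_mul' (ENNReal.ofReal_le_ofReal ?_) chh))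
    have hq := hz_q_ratio_le φ h h1 h0 h2
    rw [← hD] at hq
    have hq0 : 0 ≤ φ.q ks / φ.q kr := by positivity
    have e2 : Real.exp (-(Λ' ^ 2 / 40)) ^ 2 ≤ e := by
      rw [← Real.exp_nat_mul]
      refine le_trans (le_of_eq ?_) hee'
      congr 1
      push_cast
      ring
    calc 2 * (26 * Real.exp (-(Λ' ^ 2 / 40))) ^ 2 * (φ.q ks / φ.q kr) = 1352 * Real.exp (-(Λ' ^ 2 / 40)) ^ 2 * (φ.q ks / φ.q kr) := by ring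
      _ ≤ 1352 * e * D := mul_le_mul (mul_le_mul_of_nonneg_left e2 (by norm_num)) hq hq0 (by positivity)
  -- (i5)
  have hancJ : ancI kr k0 J = ancI kf k0 i := by rw [hJ]; exact (hz_anc_time k0 kr kf i (h0.trans h1) h2).2.2.1
  have i5 : ∫⁻ ρ in hzBin x2 R2, ‖hh ρ‖ₑ ^ 2 ∂φ.nu
      ≤ ∫⁻ ρ in hzBx θ (((m : ℝ) + 2) * Λ * φ.d kr) x2 ((2 * (m : ℝ) + 5) * (((m : ℝ) + 2) * Λ) * φ.q ks), ‖hh ρ‖ₑ ^ 2 ∂φ.nu
        + ENNReal.ofReal s * F := by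
    have hv := hz_vel_fwd φ h kr J l1 k0 (h0.trans h1) (hz_stk_mono h1 hl1) θ (φ.d ks) Λ hds.le hΛ0 f hf hs
    rw [hancJ, ← hT0, ← hhh, ← hn1, ← hF] at hv
    have hsub : hzBin x2 R2 ⊆ hzBx θ (((m : ℝ) + 2) * Λ * φ.d kr) x2 ((2 * (m : ℝ) + 5) * (((m : ℝ) + 2) * Λ) * φ.q ks)
        ∪ (hzVel θ (φ.d ks + (n1 + 1) * Λ * φ.d kr))ᶜ := by
      intro ρ hρ
      by_cases hv : ρ ∈ hzVel θ (φ.d ks + (n1 + 1) * Λ * φ.d kr)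
      · left
        have hv' : |ρ.2 - θ| ≤ φ.d ks + (n1 + 1) * Λ * φ.d kr := hv
        have hρ' : |ρ.1 - x2| ≤ R2 := hρ
        refine ⟨hv'.trans ?_, hρ'.trans ?_⟩
        · have := hz_fl_r1 n1 0 m Λ (φ.d ks) (φ.d kr) (by linarith) hΛ1 hdsr hdr
          rwa [add_zero] at this
        · rw [hR2, hR1, ← hΛ']
          exact hz_fl_r2 n2 m Λ' R (φ.q ks) (by linarith) hΛ'1 (hR'.trans hqfs) hqs
      · right
        exact hv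
    refine (lintegral_mono_set hsub).trans ((lintegral_union_le _ _ _).trans (add_le_add le_rfl (hv.trans ?_)))
    gcongr
    rw [hs', he, hD]
    exact (hz_err_sq (n1 + 1) m Λ (by positivity) (by linarith) (h0.trans h1) le_rfl h2).2
  -- conclusion
  have hfin := hz_fl_chain _ _ _ _ _ _ F _ _ _ _ _ _ i1 i2 i3 i4 i5
  rw [← hT0, ← hJ, ← hhh, ← hx2, ← hF]
  refine hfin.trans (add_le_add (mul_le_mul' ?_ le_rfl) (mul_le_mul' ?_ le_rfl))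
  · have hK' := hK Λ hΛ
    rw [← hΛ', ← hCb] at hK'
    rw [show (8 : ℝ≥0∞) = ENNReal.ofReal 8 by simp, ← ENNReal.ofReal_mul (by norm_num)]
    refine ENNReal.ofReal_le_ofReal ?_
    rw [← mul_assoc]
    refine mul_le_mul_of_nonneg_right (le_trans ?_ hK') hRq0
    have ht1 : (1 : ℝ) ≤ ((m : ℝ) + 1) ^ 2 := one_le_pow₀ (by linarith)
    have : 8 * Cb ≤ 20000 * 1 * Cb := by linarith
    exact this.trans (mul_le_mul_of_nonneg_right (mul_le_mul_of_nonneg_left ht1 (by norm_num)) (by linarith))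
  · have hK' := hK Λ hΛ
    rw [← hΛ', ← hCb] at hK'
    rw [hz_fl_coef _ _ _ _ (by positivity) hs0 (by positivity) (by positivity)]
    refine ENNReal.ofReal_le_ofReal ?_
    rw [hs', ← hD, ← he]
    exact hz_fl_err m Cb (R / φ.q ks) e D (Λ ^ K) hm0 hCb1 hRq0 hRq he0.le hD1 hK'

end Claimed.Agent.R256
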