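import Claimed.Agent.R256.Hz.Geo
import Claimed.Agent.R256.Hz.Loc
import Claimed.Agent.R256.Hyb.Contract
import Claimed.Agent.R256.Kin.Meas

/-!
# Row 256, unit HZ, file 6: GROUPS = the global block, definitions and the five block statements      (chief helper82; prefix `hz_`)

A GROUP `G : HzGr η p` = root interval, stack, frame `Q`, RAW root rows `F` (a restriction of the root rows of the experiment), budget `e`, regularity `ka`.      `G.v = An† F`.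
`G.Ok C τ`: `F` lives in ONE `X`-bin and in a normal box of size `s^-τ` of the frame, is RAW `ka`-regular, polynomial package `C` (base support, base density, `e/κw`), Planck floor up to `s^τ`.
* `G.cl i c`     lattice cell `c = (d₁, d₂, b)` at the final interval `i`, in the transported frame: base square of sides `ℓf r`, `ℓf r²`, position bin of length `q(kf)`
* `G.HL D`       `Σ_i Σ_{c ∈ D i} (mass of the cell)^(3/2)`      = (HL) of the paper on packet coefficients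
* caps `G.cap ks a` of width `d(ks)` in the frame velocity at the root;  `G.LL` the low functional (sum over caps INSIDE the power), `G.HH` the functional of a pair of caps
BLOCKS:   (SP) `hz_split` | (HI) `hz_high` | (LO) `hz_low` | (GR) `hz_group` = numerology of the three.      Slack: `Λ = n` everywhere (`exp(-n²/40)` beats every power of `s`, `n^K ≤ 2^(νn)`).
-/

set_option autoImplicit false

namespace Claimed.Agent.R256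

open MeasureTheory
open scoped ENNReal

/-- a group -/
structure HzGr (η : ℝ) (p : ChyPar) where
  k0 : ℕ
  i0 : ℕ
  n : ℕ
  st : List (Stg (p.sys η))
  Q : CyT
  F : Lp p.Fb 2 p.rw
  e : ℝ
  ka : ℝ

namespace HzGr

variable {η : ℝ} {p : ChyPar} (G : HzGr η p)

/-- final depth -/
def kf : ℕ := G.k0 + G.n
/-- root time -/
noncomputable def T0 : ℝ := tmL G.k0 G.i0
/-- scale -/
noncomputable def s : ℝ := (2 : ℝ)⁻¹ ^ G.n
/-- root length -/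
noncomputable def l0 : ℝ := (2 : ℝ)⁻¹ ^ G.k0
/-- final length -/
noncomputable def lf : ℝ := (2 : ℝ)⁻¹ ^ G.kf
/-- synthesis of root rows -/
noncomputable def syn (F : Lp p.Fb 2 p.rw) : (p.sys η).Kc := ContinuousLinearMap.adjoint ((p.sys η).An G.T0 G.k0 0) F
/-- the root state -/
noncomputable def v : (p.sys η).Kc := G.syn G.F
/-- the frame at the interval `i` of depth `k` -/
noncomputable def Qi (k i : ℕ) : CyT := hzFr G.Q (tmL k i - G.T0)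
/-- lattice cell at the final interval `i` -/
def cl (i : ℕ) (c : ℤ × ℤ × ℤ) : Set (p.Om × ℝ × ℝ) := {x | hzCell (G.Qi G.kf i) G.lf (p.ql G.kf) (p.co (tmL G.kf i) x) = c}
/-- base square at the final interval `i` -/
def sq (i : ℕ) (d : ℤ × ℤ) : Set (p.Om × ℝ × ℝ) :=
  {x | (⌊(cyBase (G.Qi G.kf i) G.lf (p.co (tmL G.kf i) x)).2.1⌋, ⌊(cyBase (G.Qi G.kf i) G.lf (p.co (tmL G.kf i) x)).2.2⌋) = d}
/-- mass of a set of rows at the final interval `i` of the branch started from the state `w` -/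
noncomputable def mf (w : (p.sys η).Kc) (i : ℕ) (S : Set (p.Om × ℝ × ℝ)) : ℝ := (p.sys η).ms (tmL G.kf i) G.kf 0 S (Xp.run G.kf i G.st w)
/-- **(HL)** -/
noncomputable def HL (D : ℕ → Finset (ℤ × ℤ × ℤ)) : ℝ := ∑ i ∈ ivs G.k0 G.i0 G.kf, ∑ c ∈ D i, G.mf G.v i (G.cl i c) ^ (3 / 2 : ℝ)
/-- velocity cap number `a` of width `d(ks)` at the root -/
def cap (ks : ℕ) (a : ℤ) : Set (p.Om × ℝ × ℝ) := {x | ⌊cyVel G.Q (p.co G.T0 x) / p.dl ks⌋ = a}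
/-- the rows of a cap -/
noncomputable def Fc (ks : ℕ) (a : ℤ) : Lp p.Fb 2 p.rw := (p.sys η).mulR G.k0 ((G.cap ks a).indicator fun _ => 1) G.F
/-- the state of a cap -/
noncomputable def vc (ks : ℕ) (a : ℤ) : (p.sys η).Kc := G.syn (G.Fc ks a)
/-- the final rows of a state -/
noncomputable def uf (w : (p.sys η).Kc) (i : ℕ) : Lp p.Fb 2 p.rw := (p.sys η).An (tmL G.kf i) G.kf 0 (Xp.run G.kf i G.st w)
/-- the low functional -/
noncomputable def LL (ks Kc : ℕ) (D : ℕ → Finset (ℤ × ℤ × ℤ)) : ℝ :=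
  ∑ i ∈ ivs G.k0 G.i0 G.kf, ∑ c ∈ D i, (∑ a ∈ Finset.Icc (-(Kc : ℤ)) Kc, G.mf (G.vc ks a) i (G.cl i c)) ^ (3 / 2 : ℝ)
/-- the functional of a pair of caps -/
noncomputable def HH (ks : ℕ) (a a' : ℤ) (D : ℕ → Finset (ℤ × ℤ × ℤ)) : ℝ :=
  ∑ i ∈ ivs G.k0 G.i0 G.kf, ∑ c ∈ D i,
    (∫ x in G.cl i c, ‖(G.uf (G.vc ks a) i : p.Om × ℝ × ℝ → p.Fb) x‖ * ‖(G.uf (G.vc ks a') i : p.Om × ℝ × ℝ → p.Fb) x‖ ∂p.rw) ^ (3 / 2 : ℝ)

/-- the hypotheses on a group -/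
structure Ok (C : ℕ) (τ : ℝ) : Prop where
  par : p.Ok
  len : G.st.length ≤ C
  msk : StM G.st
  dep : ∀ σ ∈ G.st, G.k0 ≤ σ.k ∧ σ.k ≤ G.kf
  mono : G.st.Pairwise fun σ σ' => σ.k ≤ σ'.k
  r_pos : 0 < G.Q.r
  f_pos : 0 < G.Q.f
  e_pos : 0 < G.e
  ka_pos : 0 < G.ka
  en : ‖G.F‖ ^ 2 ≤ G.e
  /-- raw regularity -/
  reg : ∀ Q' : CyT, (p.sys η).ok Q' G.k0 →
    ∫ x in (p.sys η).cell Q' G.T0 G.k0, ‖(G.F : p.Om × ℝ × ℝ → p.Fb) x‖ ^ 2 ∂p.rw ≤ G.ka * cyWt η Q'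
  /-- one `X`-bin, normal box of size `s^-τ` -/
  sup : ∀ᵐ x ∂p.rw, (G.F : p.Om × ℝ × ℝ → p.Fb) x ≠ 0 → p.co G.T0 x ∈ hzGp G.Q G.l0 (G.s ^ (-τ))
  /-- polynomial base support -/
  supB : ∀ᵐ x ∂p.rw, (G.F : p.Om × ℝ × ℝ → p.Fb) x ≠ 0 → cyBaseSz G.Q G.l0 (p.co G.T0 x) ≤ G.s ^ (-(C : ℝ))
  /-- polynomial base density -/
  dens : ∀ S : Set (ℝ × ℝ × ℝ), MeasurableSet S →
    ∫⁻ x in {x | cyBase G.Q G.l0 (p.co G.T0 x) ∈ S}, ‖(G.F : p.Om × ℝ × ℝ → p.Fb) x‖ₑ ^ 2 ∂p.rw ≤ ENNReal.ofReal (G.s ^ (-(C : ℝ)) * G.e) * volume S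
  ek_lo : G.s ^ (C : ℝ) * (G.ka * cyWt η G.Q) ≤ G.e
  ek_hi : G.e ≤ G.s ^ (-(C : ℝ)) * (G.ka * cyWt η G.Q)
  /-- Planck floor -/
  pl_lo : G.s ^ (1 + τ) ≤ p.H * 2 ^ G.k0 / G.Q.f ^ 2
  pl_hi : p.dl G.kf ≤ G.Q.f

/-- the natural unit `s^(1/2) e (κ w)^(1/2)` of the functionals -/
noncomputable def unit : ℝ := Real.sqrt G.s * (G.e * Real.sqrt (G.ka * cyWt η G.Q))

end HzGr

/-- the position indices of the cells are polynomially bounded -/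
def HzDb (C n : ℕ) (D : ℕ → Finset (ℤ × ℤ × ℤ)) : Prop := ∀ i, ∀ c ∈ D i, |c.2.2| ≤ 2 ^ (C * n)

/-- KIN-M, lattice squares, `|X| ≤ 1` almost everywhere -/
def HzKinC : Prop :=
  ∃ C : ℝ, 0 < C ∧ ∀ (Ω : Type) [MeasurableSpace Ω] (μ : Measure Ω) [IsFiniteMeasure μ] (X B Y : Ω → ℝ),
    Measurable X → Measurable B → Measurable Y → (∀ᵐ ω ∂μ, |X ω| ≤ 1) → ∀ (κ : ℝ) (k : ℕ), 0 ≤ κ →
    (∀ j ≤ k, KinMReg μ X B Y κ ((1 / 2 : ℝ) ^ j)) →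
    ∀ D : ℕ → Finset (ℤ × ℤ), ∑ n ∈ Finset.range (2 ^ k + 1), ∑ d ∈ D n,
        (μ {ω | kinMGrid X B Y ((1 / 2 : ℝ) ^ k) (n * (1 / 2 : ℝ) ^ k) ω = d}).toReal ^ 2 ≤
      C * (k + 1) * (1 / 2 : ℝ) ^ k * κ * (μ Set.univ).toReal

theorem hz_grp_eqns_cite : True := by
  have := @HzGr.kf.eq_1
  have := @HzGr.T0.eq_1
  have := @HzGr.s.eq_1
  have := @HzGr.l0.eq_1
  have := @HzGr.lf.eq_1
  have := @HzGr.syn.eq_1
  have := @HzGr.v.eq_1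
  have := @HzGr.Qi.eq_1
  have := @HzGr.cl.eq_1
  have := @HzGr.sq.eq_1
  have := @HzGr.mf.eq_1
  have := @HzGr.HL.eq_1
  have := @HzGr.cap.eq_1
  have := @HzGr.Fc.eq_1
  have := @HzGr.vc.eq_1
  have := @HzGr.uf.eq_1
  have := @HzGr.LL.eq_1
  have := @HzGr.HH.eq_1
  have := @HzGr.unit.eq_1
  have := @HzDb.eq_1
  have := @HzKinC.eq_1
  trivial

/-- `hzFr` is `cyMv` of `Hyb/TailGeo.lean` (all lemmas `hy_tl_*` on transported frames, normal boxes `hyBx`, measurability apply) -/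
theorem hz_fr_mv (Q : CyT) (t : ℝ) : hzFr Q t = cyMv Q t := by
  simp only [hzFr, cyBack, cyMv, CyT.mk.injEq]
  refine ⟨trivial, ?_, ?_, trivial, trivial, trivial, ?_, trivial, ?_, trivial⟩ <;> ring

/-- the package may be enlarged (`s ≤ 1`).  ~80 l. -/
theorem hz_ok_mono {η : ℝ} {p : ChyPar} (G : HzGr η p) {C C' : ℕ} (hC : C ≤ C') (τ : ℝ) (h : G.Ok C τ) : G.Ok C' τ := by
  have hs0 : 0 < G.s := by unfold HzGr.s; positivity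
  have hs1 : G.s ≤ 1 := by
    unfold HzGr.s
    exact pow_le_one₀ (by norm_num) (by norm_num)
  have hCr : (C : ℝ) ≤ C' := by exact_mod_cast hC
  have hneg : G.s ^ (-(C : ℝ)) ≤ G.s ^ (-(C' : ℝ)) := Real.rpow_le_rpow_of_exponent_ge hs0 hs1 (by linarith)
  have hpos : G.s ^ (C' : ℝ) ≤ G.s ^ (C : ℝ) := Real.rpow_le_rpow_of_exponent_ge hs0 hs1 hCr
  have hkw : 0 ≤ G.ka * cyWt η G.Q := by
    by_contra hlt
    push Not at hlt
    have h1 := h.ek_hi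
    have h2 : 0 < G.s ^ (-(C : ℝ)) := Real.rpow_pos_of_pos hs0 _
    have h3 := h.e_pos
    nlinarith
  exact
    { par := h.par
      len := h.len.trans hC
      msk := h.msk
      dep := h.dep
      mono := h.mono
      r_pos := h.r_pos
      f_pos := h.f_pos
      e_pos := h.e_pos
      ka_pos := h.ka_pos
      en := h.en
      reg := h.reg
      sup := h.sup
      supB := by
        filter_upwards [h.supB] with x hx hne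
        exact (hx hne).trans hneg
      dens := fun S hS => (h.dens S hS).trans (by
        gcongr
        exact h.e_pos.le)
      ek_lo := (mul_le_mul_of_nonneg_right hpos hkw).trans h.ek_lo
      ek_hi := h.ek_hi.trans (mul_le_mul_of_nonneg_right hneg hkw)
      pl_lo := h.pl_lo
      pl_hi := h.pl_hi }

/-- near / far splitting of the square of a finite sum indexed by integers -/
theorem hz_split_sq (J : Finset ℤ) (x : ℤ → ℝ) (Kh : ℕ) :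
    (∑ a ∈ J, x a) ^ 2 ≤ (2 * (Kh : ℝ) + 1) * ∑ a ∈ J, x a ^ 2
      + ∑ a ∈ J, ∑ a' ∈ J, (if (Kh : ℤ) < |a - a'| then x a * x a' else 0) := by
  classical
  have hcount : ∀ a : ℤ, ((J.filter fun a' => ¬ (Kh : ℤ) < |a - a'|).card : ℝ) ≤ 2 * (Kh : ℝ) + 1 := by
    intro a
    have hsub : (J.filter fun a' => ¬ (Kh : ℤ) < |a - a'|) ⊆ Finset.Icc (a - Kh) (a + Kh) := by
      intro a' ha'
      have h1 := (Finset.mem_filter.1 ha').2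
      rw [not_lt, abs_le] at h1
      exact Finset.mem_Icc.2 ⟨by linarith [h1.2], by linarith [h1.1]⟩
    have h2 := Finset.card_le_card hsub
    rw [Int.card_Icc] at h2
    have h3 : (a + Kh + 1 - (a - Kh)).toNat = 2 * Kh + 1 := by
      have : a + Kh + 1 - (a - Kh) = ((2 * Kh + 1 : ℕ) : ℤ) := by push_cast; ring
      rw [this, Int.toNat_natCast]
    rw [h3] at h2
    exact_mod_cast h2
  have hnear : ∀ a ∈ J, ∑ a' ∈ J, (if (Kh : ℤ) < |a - a'| then 0 else x a ^ 2) ≤ (2 * (Kh : ℝ) + 1) * x a ^ 2 := by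
    intro a _
    have e : ∑ a' ∈ J, (if (Kh : ℤ) < |a - a'| then 0 else x a ^ 2) = ((J.filter fun a' => ¬ (Kh : ℤ) < |a - a'|).card : ℝ) * x a ^ 2 := by
      rw [Finset.card_filter]
      push_cast
      rw [Finset.sum_mul]
      refine Finset.sum_congr rfl fun a' _ => ?_
      by_cases h : (Kh : ℤ) < |a - a'| <;> simp [h]
    rw [e]
    exact mul_le_mul_of_nonneg_right (hcount a) (sq_nonneg _)
  have hsym : ∑ a ∈ J, ∑ a' ∈ J, (if (Kh : ℤ) < |a - a'| then 0 else x a' ^ 2) = ∑ a ∈ J, ∑ a' ∈ J, (if (Kh : ℤ) < |a - a'| then 0 else x a ^ 2) := by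
    rw [Finset.sum_comm]
    refine Finset.sum_congr rfl fun a _ => Finset.sum_congr rfl fun a' _ => ?_
    rw [abs_sub_comm]
  calc (∑ a ∈ J, x a) ^ 2 = ∑ a ∈ J, ∑ a' ∈ J, x a * x a' := by rw [sq, Finset.sum_mul_sum]
    _ ≤ ∑ a ∈ J, ∑ a' ∈ J, (((if (Kh : ℤ) < |a - a'| then 0 else x a ^ 2) + (if (Kh : ℤ) < |a - a'| then 0 else x a' ^ 2)) / 2
          + (if (Kh : ℤ) < |a - a'| then x a * x a' else 0)) := by
        refine Finset.sum_le_sum fun a _ => Finset.sum_le_sum fun a' _ => ?_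
        by_cases h : (Kh : ℤ) < |a - a'|
        · simp [h]
        · simp only [h, if_false, add_zero]
          nlinarith [sq_nonneg (x a - x a')]
    _ = ∑ a ∈ J, ∑ a' ∈ J, (if (Kh : ℤ) < |a - a'| then 0 else x a ^ 2)
          + ∑ a ∈ J, ∑ a' ∈ J, (if (Kh : ℤ) < |a - a'| then x a * x a' else 0) := by
        simp only [Finset.sum_add_distrib, add_div, ← Finset.sum_div]
        rw [hsym]
        ring
    _ ≤ _ := by
        refine add_le_add ?_ le_rfl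
        rw [Finset.mul_sum]
        exact Finset.sum_le_sum hnear

/-- `(x + y)^(3/2) ≤ 2 (x^(3/2) + y^(3/2))` -/
theorem hz_split_pow2 {x y : ℝ} (hx : 0 ≤ x) (hy : 0 ≤ y) : (x + y) ^ (3 / 2 : ℝ) ≤ 2 * (x ^ (3 / 2 : ℝ) + y ^ (3 / 2 : ℝ)) := by
  have h := Real.rpow_sum_le_const_mul_sum_rpow_of_nonneg (s := (Finset.univ : Finset (Fin 2))) (f := ![x, y]) (p := 3 / 2) (by norm_num)
    (fun i _ => by fin_cases i <;> simp [hx, hy])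
  simp only [Fin.sum_univ_two, Matrix.cons_val_zero, Matrix.cons_val_one, Finset.card_univ, Fintype.card_fin] at h
  refine h.trans (mul_le_mul_of_nonneg_right ?_ (by positivity))
  calc (((2 : ℕ) : ℝ)) ^ ((3 / 2 : ℝ) - 1) ≤ ((2 : ℕ) : ℝ) ^ (1 : ℝ) := Real.rpow_le_rpow_of_exponent_le (by norm_num) (by norm_num)
    _ = 2 := by norm_num

/-- power mean over the pairs of a square -/
theorem hz_split_powN (J : Finset ℤ) (y : ℤ → ℤ → ℝ) (hy : ∀ a a', 0 ≤ y a a') :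
    (∑ a ∈ J, ∑ a' ∈ J, y a a') ^ (3 / 2 : ℝ) ≤ (J.card : ℝ) * ∑ a ∈ J, ∑ a' ∈ J, y a a' ^ (3 / 2 : ℝ) := by
  have h := Real.rpow_sum_le_const_mul_sum_rpow_of_nonneg (s := J ×ˢ J) (f := fun z : ℤ × ℤ => y z.1 z.2) (p := 3 / 2) (by norm_num)
    (fun z _ => hy z.1 z.2)
  rw [Finset.sum_product, Finset.sum_product, Finset.card_product] at h
  refine h.trans (le_of_eq ?_)
  congr 1
  push_cast
  rw [← sq, ← Real.rpow_natCast, ← Real.rpow_mul (Nat.cast_nonneg _)]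
  norm_num

/-- the product of the norms of two square integrable functions is integrable -/
theorem hz_split_prod_int {X F : Type} [MeasurableSpace X] [NormedAddCommGroup F] {μ : Measure X} (u w : Lp F 2 μ) :
    Integrable (fun x => ‖(u : X → F) x‖ * ‖(w : X → F) x‖) μ := by
  refine Integrable.mono' ((gn_sq_integrable u).add (gn_sq_integrable w))
    ((Lp.aestronglyMeasurable u).norm.mul (Lp.aestronglyMeasurable w).norm) (Filter.Eventually.of_forall fun x => ?_)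
  rw [Real.norm_eq_abs, abs_of_nonneg (by positivity)]
  simp only [Pi.add_apply]
  nlinarith [sq_nonneg (‖(u : X → F) x‖ - ‖(w : X → F) x‖), sq_nonneg (‖(u : X → F) x‖ + ‖(w : X → F) x‖)]

/-- near / far splitting of the energy of a finite sum on a set -/
theorem hz_split_int {X F : Type} [MeasurableSpace X] [NormedAddCommGroup F] {μ : Measure X} (J : Finset ℤ) (u : ℤ → Lp F 2 μ) (S : Set X) (Kh : ℕ) :
    ∫ x in S, ‖((∑ a ∈ J, u a : Lp F 2 μ) : X → F) x‖ ^ 2 ∂μ ≤ (2 * (Kh : ℝ) + 1) * ∑ a ∈ J, ∫ x in S, ‖(u a : X → F) x‖ ^ 2 ∂μ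
      + ∑ a ∈ J, ∑ a' ∈ J, (if (Kh : ℤ) < |a - a'| then ∫ x in S, ‖(u a : X → F) x‖ * ‖(u a' : X → F) x‖ ∂μ else 0) := by
  have i1 : ∀ a, Integrable (fun x => ‖(u a : X → F) x‖ ^ 2) (μ.restrict S) := fun a => (gn_sq_integrable (u a)).restrict
  have i2 : ∀ a a', Integrable (fun x => if (Kh : ℤ) < |a - a'| then ‖(u a : X → F) x‖ * ‖(u a' : X → F) x‖ else 0) (μ.restrict S) := by
    intro a a'
    by_cases h : (Kh : ℤ) < |a - a'|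
    · simp only [h, if_true]
      exact (hz_split_prod_int (u a) (u a')).restrict
    · simp only [h, if_false]
      exact integrable_zero _ _ _
  have e1 : (2 * (Kh : ℝ) + 1) * ∑ a ∈ J, ∫ x in S, ‖(u a : X → F) x‖ ^ 2 ∂μ
      + ∑ a ∈ J, ∑ a' ∈ J, (if (Kh : ℤ) < |a - a'| then ∫ x in S, ‖(u a : X → F) x‖ * ‖(u a' : X → F) x‖ ∂μ else 0)
      = ∫ x in S, ((2 * (Kh : ℝ) + 1) * ∑ a ∈ J, ‖(u a : X → F) x‖ ^ 2
        + ∑ a ∈ J, ∑ a' ∈ J, (if (Kh : ℤ) < |a - a'| then ‖(u a : X → F) x‖ * ‖(u a' : X → F) x‖ else 0)) ∂μ := by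
    rw [integral_add ((integrable_finsetSum J fun a _ => i1 a).const_mul _)
      (integrable_finsetSum J fun a _ => integrable_finsetSum J fun a' _ => i2 a a'), integral_const_mul,
      integral_finsetSum J fun a _ => i1 a, integral_finsetSum J fun a _ => integrable_finsetSum J fun a' _ => i2 a a']
    congr 1
    refine Finset.sum_congr rfl fun a _ => ?_
    rw [integral_finsetSum J fun a' _ => i2 a a']
    refine Finset.sum_congr rfl fun a' _ => ?_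
    by_cases h : (Kh : ℤ) < |a - a'| <;> simp [h]
  rw [e1]
  refine integral_mono_ae (gn_sq_integrable _).restrict
    (((integrable_finsetSum J fun a _ => i1 a).const_mul _).add (integrable_finsetSum J fun a _ => integrable_finsetSum J fun a' _ => i2 a a'))
    (ae_restrict_of_ae ?_)
  filter_upwards [Lp.coeFn_finsetSum J u] with x hx
  rw [hx, Finset.sum_apply]
  refine le_trans ?_ (hz_split_sq J (fun a => ‖(u a : X → F) x‖) Kh)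
  exact pow_le_pow_left₀ (norm_nonneg _) (norm_sum_le _ _) 2

theorem hz_split_cap_meas {η : ℝ} {p : ChyPar} (G : HzGr η p) (h : p.Ok) (ks : ℕ) (T : Set ℤ) :
    MeasurableSet {x : p.Om × ℝ × ℝ | ⌊cyVel G.Q (p.co G.T0 x) / p.dl ks⌋ ∈ T} := by
  have h1 : Measurable fun x : p.Om × ℝ × ℝ => ⌊cyVel G.Q (p.co G.T0 x) / p.dl ks⌋ :=
    Int.measurable_floor.comp ((hy_tl_mVel p h G.Q G.T0).div_const _)
  exact h1 (MeasurableSet.of_discrete (s := T))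

theorem hz_split_cl_meas {η : ℝ} {p : ChyPar} (G : HzGr η p) (h : p.Ok) (i : ℕ) (c : ℤ × ℤ × ℤ) : MeasurableSet (G.cl i c) := by
  have hb := hy_tl_mBase p h (G.Qi G.kf i) (tmL G.kf i) G.lf
  have hp := hy_tl_mPos p h (G.Qi G.kf i) (tmL G.kf i)
  have h1 : Measurable fun x : p.Om × ℝ × ℝ => hzCell (G.Qi G.kf i) G.lf (p.ql G.kf) (p.co (tmL G.kf i) x) := by
    unfold hzCell
    exact (Int.measurable_floor.comp (measurable_fst.comp (measurable_snd.comp hb))).prodMk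
      ((Int.measurable_floor.comp (measurable_snd.comp (measurable_snd.comp hb))).prodMk (Int.measurable_floor.comp (hp.div_const _)))
  exact h1 (measurableSet_singleton c)

/-- the rows of the group are the sum of the rows of the caps -/
theorem hz_split_F {η : ℝ} {p : ChyPar} (G : HzGr η p) (C : ℕ) (τ : ℝ) (hG : G.Ok C τ) (ks Kc : ℕ) (hK : G.s ^ (-τ) * G.Q.f ≤ Kc * p.dl ks) :
    ∑ a ∈ Finset.Icc (-(Kc : ℤ)) Kc, G.Fc ks a = G.F := by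
  classical
  have hd : 0 < p.dl ks := by
    unfold ChyPar.dl
    have := hG.par.H_pos
    positivity
  obtain ⟨U, hUdef⟩ : ∃ U : Set (p.Om × ℝ × ℝ), U = {x | ⌊cyVel G.Q (p.co G.T0 x) / p.dl ks⌋ ∈ (Finset.Icc (-(Kc : ℤ)) Kc : Set ℤ)} := ⟨_, rfl⟩
  have hU : MeasurableSet U := hUdef ▸ hz_split_cap_meas G hG.par ks _
  have hcap : ∀ a : ℤ, MeasurableSet (G.cap ks a) := fun a => by
    have := hz_split_cap_meas G hG.par ks {a}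
    exact this
  have hs : ∀ x : p.Om × ℝ × ℝ, ∑ a ∈ Finset.Icc (-(Kc : ℤ)) Kc, (G.cap ks a).indicator (fun _ => (1 : ℝ)) x = U.indicator (fun _ => 1) x := by
    intro x
    have e : ∀ a : ℤ, (G.cap ks a).indicator (fun _ => (1 : ℝ)) x = if ⌊cyVel G.Q (p.co G.T0 x) / p.dl ks⌋ = a then 1 else 0 := by
      intro a
      by_cases h : ⌊cyVel G.Q (p.co G.T0 x) / p.dl ks⌋ = a
      · rw [if_pos h, Set.indicator_of_mem (show x ∈ G.cap ks a from h)]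
      · rw [if_neg h, Set.indicator_of_notMem (show x ∉ G.cap ks a from h)]
    simp only [e]
    rw [Finset.sum_ite_eq]
    by_cases h : ⌊cyVel G.Q (p.co G.T0 x) / p.dl ks⌋ ∈ Finset.Icc (-(Kc : ℤ)) Kc
    · rw [if_pos h, Set.indicator_of_mem (by rw [hUdef]; exact h)]
    · rw [if_neg h, Set.indicator_of_notMem (by rw [hUdef]; exact h)]
  have e1 : ∑ a ∈ Finset.Icc (-(Kc : ℤ)) Kc, G.Fc ks a = (p.sys η).mulR G.k0 (U.indicator fun _ => (1 : ℝ)) G.F :=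
    gn_mulR_sum (P := p.sys η) G.k0 (Finset.Icc (-(Kc : ℤ)) Kc) (fun a => (G.cap ks a).indicator fun _ => (1 : ℝ))
      (fun a _ => gn_mask_ind (hcap a)) (gn_mask_ind hU) hs G.F
  have key : ∀ x : p.Om × ℝ × ℝ, ((G.F : p.Om × ℝ × ℝ → p.Fb) x ≠ 0 → p.co G.T0 x ∈ hzGp G.Q G.l0 (G.s ^ (-τ))) →
      ((U.indicator (fun _ => (1 : ℝ)) x : ℝ) : ℂ) • (G.F : p.Om × ℝ × ℝ → p.Fb) x = (G.F : p.Om × ℝ × ℝ → p.Fb) x := by
    intro x h2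
    by_cases hx : x ∈ U
    · rw [Set.indicator_of_mem hx]
      simp
    · have h0 : (G.F : p.Om × ℝ × ℝ → p.Fb) x = 0 := by
        by_contra hne
        refine hx ?_
        obtain ⟨-, hv, -⟩ := h2 hne
        have hv' : |cyVel G.Q (p.co G.T0 x)| ≤ Kc * p.dl ks := hv.trans hK
        rw [abs_le] at hv'
        rw [hUdef]
        show ⌊cyVel G.Q (p.co G.T0 x) / p.dl ks⌋ ∈ (Finset.Icc (-(Kc : ℤ)) Kc : Set ℤ)
        rw [Finset.coe_Icc, Set.mem_Icc]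
        constructor
        · rw [Int.le_floor, le_div_iff₀ hd]
          push_cast
          linarith [hv'.1]
        · have h3 : cyVel G.Q (p.co G.T0 x) / p.dl ks ≤ ((Kc : ℤ) : ℝ) := by
            rw [div_le_iff₀ hd]
            push_cast
            exact hv'.2
          have h4 := Int.floor_le_floor h3
          rwa [Int.floor_intCast] at h4
      rw [h0]
      simp
  rw [e1]
  apply Lp.ext
  filter_upwards [gn_mulR_coe (P := p.sys η) G.k0 (gn_mask_ind hU) G.F, hG.sup] with x h1 h2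
  exact h1.trans (key x h2)

/-- the final rows of the group are the sum of the final rows of the caps -/
theorem hz_split_uf {η : ℝ} {p : ChyPar} (G : HzGr η p) (C : ℕ) (τ : ℝ) (hG : G.Ok C τ) (ks Kc : ℕ) (hK : G.s ^ (-τ) * G.Q.f ≤ Kc * p.dl ks) (i : ℕ) :
    G.uf G.v i = ∑ a ∈ Finset.Icc (-(Kc : ℤ)) Kc, G.uf (G.vc ks a) i := by
  have h0 := hz_split_F G C τ hG ks Kc hK
  have h1 : G.v = G.syn (∑ a ∈ Finset.Icc (-(Kc : ℤ)) Kc, G.Fc ks a) := by rw [h0]; rfl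
  have h2 : G.syn (∑ a ∈ Finset.Icc (-(Kc : ℤ)) Kc, G.Fc ks a) = ∑ a ∈ Finset.Icc (-(Kc : ℤ)) Kc, G.vc ks a :=
    map_sum (ContinuousLinearMap.adjoint ((p.sys η).An G.T0 G.k0 0)) _ _
  unfold HzGr.uf
  rw [h1, h2, gn_run_sum G.kf i G.st hG.msk, map_sum]
  rfl

theorem hz_split_mf {η : ℝ} {p : ChyPar} (G : HzGr η p) (h : p.Ok) (w : (p.sys η).Kc) (i : ℕ) (c : ℤ × ℤ × ℤ) :
    G.mf w i (G.cl i c) = ∫ x in G.cl i c, ‖(G.uf w i : p.Om × ℝ × ℝ → p.Fb) x‖ ^ 2 ∂p.rw :=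
  gn_ms_eq (P := p.sys η) (tmL G.kf i) G.kf 0 (hz_split_cl_meas G h i c) _

/-- one cell -/
theorem hz_split_cell {η : ℝ} {p : ChyPar} (G : HzGr η p) (C : ℕ) (τ : ℝ) (hG : G.Ok C τ) (ks Kc Kh : ℕ) (hK : G.s ^ (-τ) * G.Q.f ≤ Kc * p.dl ks)
    (i : ℕ) (c : ℤ × ℤ × ℤ) :
    G.mf G.v i (G.cl i c) ^ (3 / 2 : ℝ) ≤ 2 * (2 * (Kh : ℝ) + 1) ^ (3 / 2 : ℝ) * (∑ a ∈ Finset.Icc (-(Kc : ℤ)) Kc, G.mf (G.vc ks a) i (G.cl i c)) ^ (3 / 2 : ℝ)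
      + 2 * (2 * (Kc : ℝ) + 1) * ∑ a ∈ Finset.Icc (-(Kc : ℤ)) Kc, ∑ a' ∈ Finset.Icc (-(Kc : ℤ)) Kc,
        (if (Kh : ℤ) < |a - a'| then
          (∫ x in G.cl i c, ‖(G.uf (G.vc ks a) i : p.Om × ℝ × ℝ → p.Fb) x‖ * ‖(G.uf (G.vc ks a') i : p.Om × ℝ × ℝ → p.Fb) x‖ ∂p.rw) ^ (3 / 2 : ℝ) else 0) := by
  have hI : ∀ a a' : ℤ, 0 ≤ ∫ x in G.cl i c, ‖(G.uf (G.vc ks a) i : p.Om × ℝ × ℝ → p.Fb) x‖ * ‖(G.uf (G.vc ks a') i : p.Om × ℝ × ℝ → p.Fb) x‖ ∂p.rw :=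
    fun a a' => integral_nonneg fun x => by positivity
  have hM : ∀ a : ℤ, 0 ≤ G.mf (G.vc ks a) i (G.cl i c) := by
    intro a
    rw [hz_split_mf G hG.par]
    exact integral_nonneg fun x => by positivity
  have h0 : 0 ≤ G.mf G.v i (G.cl i c) := by
    rw [hz_split_mf G hG.par]
    exact integral_nonneg fun x => by positivity
  have h1 : G.mf G.v i (G.cl i c) ≤ (2 * (Kh : ℝ) + 1) * ∑ a ∈ Finset.Icc (-(Kc : ℤ)) Kc, G.mf (G.vc ks a) i (G.cl i c)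
      + ∑ a ∈ Finset.Icc (-(Kc : ℤ)) Kc, ∑ a' ∈ Finset.Icc (-(Kc : ℤ)) Kc, (if (Kh : ℤ) < |a - a'| then
          ∫ x in G.cl i c, ‖(G.uf (G.vc ks a) i : p.Om × ℝ × ℝ → p.Fb) x‖ * ‖(G.uf (G.vc ks a') i : p.Om × ℝ × ℝ → p.Fb) x‖ ∂p.rw else 0) := by
    rw [hz_split_mf G hG.par, hz_split_uf G C τ hG ks Kc hK i]
    simp only [hz_split_mf G hG.par]
    exact hz_split_int (Finset.Icc (-(Kc : ℤ)) Kc) (fun a => G.uf (G.vc ks a) i) (G.cl i c) Kh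
  have hS : 0 ≤ ∑ a ∈ Finset.Icc (-(Kc : ℤ)) Kc, G.mf (G.vc ks a) i (G.cl i c) := Finset.sum_nonneg fun a _ => hM a
  have hy : ∀ a a' : ℤ, 0 ≤ (if (Kh : ℤ) < |a - a'| then
          ∫ x in G.cl i c, ‖(G.uf (G.vc ks a) i : p.Om × ℝ × ℝ → p.Fb) x‖ * ‖(G.uf (G.vc ks a') i : p.Om × ℝ × ℝ → p.Fb) x‖ ∂p.rw else 0) := by
    intro a a'
    split_ifs
    · exact hI a a'
    · exact le_rfl
  have hcard : ((Finset.Icc (-(Kc : ℤ)) Kc).card : ℝ) = 2 * (Kc : ℝ) + 1 := by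
    rw [Int.card_Icc]
    have : (Kc : ℤ) + 1 - -(Kc : ℤ) = ((2 * Kc + 1 : ℕ) : ℤ) := by push_cast; ring
    rw [this, Int.toNat_natCast]
    push_cast
    ring
  have h2 := hz_split_powN (Finset.Icc (-(Kc : ℤ)) Kc) (fun a a' => if (Kh : ℤ) < |a - a'| then
          ∫ x in G.cl i c, ‖(G.uf (G.vc ks a) i : p.Om × ℝ × ℝ → p.Fb) x‖ * ‖(G.uf (G.vc ks a') i : p.Om × ℝ × ℝ → p.Fb) x‖ ∂p.rw else 0) hy
  rw [hcard] at h2
  have e3 : ∀ a a' : ℤ, (if (Kh : ℤ) < |a - a'| then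
          ∫ x in G.cl i c, ‖(G.uf (G.vc ks a) i : p.Om × ℝ × ℝ → p.Fb) x‖ * ‖(G.uf (G.vc ks a') i : p.Om × ℝ × ℝ → p.Fb) x‖ ∂p.rw else 0) ^ (3 / 2 : ℝ)
      = (if (Kh : ℤ) < |a - a'| then
          (∫ x in G.cl i c, ‖(G.uf (G.vc ks a) i : p.Om × ℝ × ℝ → p.Fb) x‖ * ‖(G.uf (G.vc ks a') i : p.Om × ℝ × ℝ → p.Fb) x‖ ∂p.rw) ^ (3 / 2 : ℝ) else 0) := by
    intro a a'
    split_ifs
    · rfl
    · exact Real.zero_rpow (by norm_num)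
  simp only [e3] at h2
  have hKh : (0 : ℝ) ≤ 2 * (Kh : ℝ) + 1 := by positivity
  calc G.mf G.v i (G.cl i c) ^ (3 / 2 : ℝ) ≤ _ := Real.rpow_le_rpow h0 h1 (by norm_num)
    _ ≤ _ := hz_split_pow2 (mul_nonneg hKh hS) (Finset.sum_nonneg fun a _ => Finset.sum_nonneg fun a' _ => hy a a')
    _ ≤ _ := by
        rw [Real.mul_rpow hKh hS, mul_add, mul_assoc, mul_assoc]
        exact add_le_add le_rfl (mul_le_mul_of_nonneg_left h2 (by norm_num))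

/-- exchange of the four sums -/
theorem hz_split_comm {A ι γ : Type} (J : Finset A) (I : Finset ι) (D : ι → Finset γ) (f : A → A → ι → γ → ℝ) :
    ∑ a ∈ J, ∑ a' ∈ J, ∑ i ∈ I, ∑ c ∈ D i, f a a' i c = ∑ i ∈ I, ∑ c ∈ D i, ∑ a ∈ J, ∑ a' ∈ J, f a a' i c := by
  calc ∑ a ∈ J, ∑ a' ∈ J, ∑ i ∈ I, ∑ c ∈ D i, f a a' i c
      = ∑ a ∈ J, ∑ i ∈ I, ∑ a' ∈ J, ∑ c ∈ D i, f a a' i c := Finset.sum_congr rfl fun a _ => Finset.sum_comm
    _ = ∑ i ∈ I, ∑ a ∈ J, ∑ a' ∈ J, ∑ c ∈ D i, f a a' i c := Finset.sum_comm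
    _ = ∑ i ∈ I, ∑ a ∈ J, ∑ c ∈ D i, ∑ a' ∈ J, f a a' i c :=
        Finset.sum_congr rfl fun i _ => Finset.sum_congr rfl fun a _ => Finset.sum_comm
    _ = ∑ i ∈ I, ∑ c ∈ D i, ∑ a ∈ J, ∑ a' ∈ J, f a a' i c := Finset.sum_congr rfl fun i _ => Finset.sum_comm

/-- **(SP) SPLIT INTO CAPS.**   `F = Σ_{|a| ≤ Kc} Fc a` (support, `gn_mulR_sum`), so `uf v i = Σ_a uf (vc a) i` (`gn_run_sum`, linearity of `An`, `An†`).   Pointwise
`‖Σ_a u_a‖² ≤ Σ_{a,a'} ‖u_a‖‖u_a'‖ ≤ (2Kh+1) Σ_a ‖u_a‖² + Σ_{|a-a'| > Kh} ‖u_a‖‖u_a'‖`  (`2xy ≤ x² + y²`);  integrate over the cell;  `(x+y)^(3/2) ≤ 2 (x^(3/2) + y^(3/2))`,  `(Σ_{j ≤ N} x_j)^(3/2) ≤ N^(1/2) Σ x_j^(3/2)`, `N ≤ (2Kc+1)²`.   ~500 l. -/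
theorem hz_split {η : ℝ} {p : ChyPar} (G : HzGr η p) (C : ℕ) (τ : ℝ) (hG : G.Ok C τ) (ks Kc Kh : ℕ) (hK : G.s ^ (-τ) * G.Q.f ≤ Kc * p.dl ks)
    (D : ℕ → Finset (ℤ × ℤ × ℤ)) :
    G.HL D ≤ 2 * (2 * (Kh : ℝ) + 1) ^ (3 / 2 : ℝ) * G.LL ks Kc D
      + 2 * (2 * (Kc : ℝ) + 1) * ∑ a ∈ Finset.Icc (-(Kc : ℤ)) Kc, ∑ a' ∈ Finset.Icc (-(Kc : ℤ)) Kc, (if (Kh : ℤ) < |a - a'| then G.HH ks a a' D else 0) := by
  have e : ∑ a ∈ Finset.Icc (-(Kc : ℤ)) Kc, ∑ a' ∈ Finset.Icc (-(Kc : ℤ)) Kc, (if (Kh : ℤ) < |a - a'| then G.HH ks a a' D else 0)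
      = ∑ i ∈ ivs G.k0 G.i0 G.kf, ∑ c ∈ D i, ∑ a ∈ Finset.Icc (-(Kc : ℤ)) Kc, ∑ a' ∈ Finset.Icc (-(Kc : ℤ)) Kc,
        (if (Kh : ℤ) < |a - a'| then
          (∫ x in G.cl i c, ‖(G.uf (G.vc ks a) i : p.Om × ℝ × ℝ → p.Fb) x‖ * ‖(G.uf (G.vc ks a') i : p.Om × ℝ × ℝ → p.Fb) x‖ ∂p.rw) ^ (3 / 2 : ℝ) else 0) := by
    have e1 : ∀ a a' : ℤ, (if (Kh : ℤ) < |a - a'| then G.HH ks a a' D else 0) = ∑ i ∈ ivs G.k0 G.i0 G.kf, ∑ c ∈ D i,
        (if (Kh : ℤ) < |a - a'| then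
          (∫ x in G.cl i c, ‖(G.uf (G.vc ks a) i : p.Om × ℝ × ℝ → p.Fb) x‖ * ‖(G.uf (G.vc ks a') i : p.Om × ℝ × ℝ → p.Fb) x‖ ∂p.rw) ^ (3 / 2 : ℝ) else 0) := by
      intro a a'
      split_ifs
      · rfl
      · simp
    simp only [e1]
    exact hz_split_comm (Finset.Icc (-(Kc : ℤ)) Kc) (ivs G.k0 G.i0 G.kf) D (fun a a' i c => if (Kh : ℤ) < |a - a'| then
          (∫ x in G.cl i c, ‖(G.uf (G.vc ks a) i : p.Om × ℝ × ℝ → p.Fb) x‖ * ‖(G.uf (G.vc ks a') i : p.Om × ℝ × ℝ → p.Fb) x‖ ∂p.rw) ^ (3 / 2 : ℝ) else 0)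
  rw [e]
  unfold HzGr.HL HzGr.LL
  rw [Finset.mul_sum, Finset.mul_sum, ← Finset.sum_add_distrib]
  refine Finset.sum_le_sum fun i _ => ?_
  rw [Finset.mul_sum, Finset.mul_sum, ← Finset.sum_add_distrib]
  exact Finset.sum_le_sum fun c _ => hz_split_cell G C τ hG ks Kc Kh hK i c

/-- **(HI) ONE HIGH PAIR** (03 l.966-990).   `ks = kf - 2z`, `d(ks) = 2^-z d(kf)`, `V = |a - a'| d(ks)`, bins of length `q(kf)`: `q(kf) 2^kf / V = 2^z/|a-a'|`, `q(kf)/q(ks) = 2^-z`.      Cut in `Hz/High.lean`. -/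
def HzHighC (η : ℝ) : Prop :=
  ∀ m : ℕ, ∃ (K : ℕ) (CK : ℝ), ∀ (p : ChyPar) (G : HzGr η p) (C : ℕ) (τ : ℝ) (z : ℕ) (Λ : ℝ) (a a' : ℤ) (D : ℕ → Finset (ℤ × ℤ × ℤ)),
    G.Ok C τ → 0 ≤ τ → G.st.length ≤ m → 2 * z ≤ G.n → 2 ≤ Λ → 16 * ((m + 3) * Λ) ≤ |((a - a' : ℤ) : ℝ)| → 8 * 4 ^ (G.n - 2 * z) * Real.exp (-Λ ^ 2) ≤ 1 →
    G.HH (G.kf - 2 * z) a a' D ≤ CK * (G.n + 1) * G.s ^ (-τ) * Λ ^ K * Real.sqrt (2 ^ z + 4 ^ G.n * Real.exp (-(Λ ^ 2 / 20))) * G.unit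

/-- **(LO) THE LOW PART** (03 l.991-1070).   `z = ⌊ζ n⌋`, `ks = kf - 2z`, read depth `kf - z`.      Cut in `Hz/Low.lean`. -/
def HzLowC (η γ ζ : ℝ) : Prop :=
  ∃ C0 : ℝ, ∀ τ ν : ℝ, 0 < τ → τ ≤ 1 → 0 < ν → ∀ C : ℕ, ∃ n0 : ℕ, ∀ (p : ChyPar) (G : HzGr η p) (Kc : ℕ) (D : ℕ → Finset (ℤ × ℤ × ℤ)),
    n0 ≤ G.n → G.Ok C τ → HzDb C G.n D → (Kc : ℝ) ≤ 2 ^ (C * G.n) →
    G.LL (G.kf - 2 * ⌊ζ * G.n⌋₊) Kc D ≤ 2 ^ (((1 - ζ) * γ + C0 * τ + ν) * G.n) * G.unit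

/-- **(GR) THE GROUP ESTIMATE** -/
def HzGroupC (η γ ζ : ℝ) : Prop :=
  ∃ C0 : ℝ, ∀ τ ν : ℝ, 0 < τ → τ ≤ 1 → 0 < ν → ∀ C : ℕ, ∃ n0 : ℕ, ∀ (p : ChyPar) (G : HzGr η p) (D : ℕ → Finset (ℤ × ℤ × ℤ)),
    n0 ≤ G.n → G.Ok C τ → HzDb C G.n D →
    G.HL D ≤ 2 ^ ((max (7 * ζ / 2) ((1 - ζ) * γ) + C0 * τ + ν) * G.n) * G.unit

theorem hz_grp2_eqns_cite : True := by
  have := @HzHighC.eq_1
  have := @HzLowC.eq_1
  have := @HzGroupC.eq_1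
  trivial

open Filter in
/-- polynomials are absorbed by a power -/
theorem hz_gr_poly (K : ℕ) (c δ : ℝ) (hδ : 0 < δ) : ∃ n0 : ℕ, ∀ n : ℕ, n0 ≤ n → c * ((n : ℝ) + 1) ^ K ≤ 2 ^ (δ * n) := by
  have hr : (1 : ℝ) < 2 ^ δ := Real.one_lt_rpow (by norm_num) hδ
  have ht := tendsto_pow_const_div_const_pow_of_one_lt K hr
  have hc : (0 : ℝ) < 1 / (|c| * 2 ^ K + 1) := by positivity
  have hev := ht.eventually (gt_mem_nhds hc)
  obtain ⟨n0, hn0⟩ := eventually_atTop.1 hev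
  refine ⟨max n0 1, fun n hn => ?_⟩
  have h1 := hn0 n ((le_max_left _ _).trans hn)
  have hn1 : (1 : ℝ) ≤ n := by exact_mod_cast (le_max_right _ _).trans hn
  have hrn : (0 : ℝ) < (2 ^ δ) ^ n := by positivity
  have e : (2 : ℝ) ^ (δ * n) = (2 ^ δ) ^ n := by rw [Real.rpow_mul (by norm_num), Real.rpow_natCast]
  rw [e]
  rw [div_lt_iff₀ hrn, div_mul_eq_mul_div, one_mul, lt_div_iff₀ (by positivity)] at h1
  have h2 : ((n : ℝ) + 1) ^ K ≤ 2 ^ K * (n : ℝ) ^ K := by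
    rw [← mul_pow]
    exact pow_le_pow_left₀ (by positivity) (by linarith) K
  have hnK : (0 : ℝ) ≤ (n : ℝ) ^ K := by positivity
  calc c * ((n : ℝ) + 1) ^ K ≤ |c| * ((n : ℝ) + 1) ^ K := mul_le_mul_of_nonneg_right (le_abs_self c) (by positivity)
    _ ≤ |c| * (2 ^ K * (n : ℝ) ^ K) := mul_le_mul_of_nonneg_left h2 (abs_nonneg c)
    _ ≤ (n : ℝ) ^ K * (|c| * 2 ^ K + 1) := by nlinarith
    _ ≤ (2 ^ δ) ^ n := h1.le

theorem hz_gr_exp1 {n : ℕ} (hn : 28 ≤ n) : (4 : ℝ) ^ n * Real.exp (-((n : ℝ) ^ 2 / 20)) ≤ 1 := by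
  have hl : Real.log 4 ≤ 1.4 := by
    have : Real.log 4 = 2 * Real.log 2 := by
      rw [show (4 : ℝ) = 2 ^ 2 by norm_num, Real.log_pow]
      norm_num
    rw [this]
    have := Real.log_two_lt_d9
    linarith
  have hn' : (28 : ℝ) ≤ n := by exact_mod_cast hn
  have e : (4 : ℝ) ^ n = Real.exp (n * Real.log 4) := by
    rw [← Real.rpow_natCast, Real.rpow_def_of_pos (by norm_num), mul_comm]
  rw [e, ← Real.exp_add, ← Real.exp_zero]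
  refine Real.exp_le_exp.2 ?_
  nlinarith

theorem hz_gr_exp2 {n j : ℕ} (hn : 3 ≤ n) (hj : j ≤ n) : 8 * (4 : ℝ) ^ j * Real.exp (-(n : ℝ) ^ 2) ≤ 1 := by
  have hl : Real.log 4 ≤ 1.4 := by
    have : Real.log 4 = 2 * Real.log 2 := by
      rw [show (4 : ℝ) = 2 ^ 2 by norm_num, Real.log_pow]
      norm_num
    rw [this]
    have := Real.log_two_lt_d9
    linarith
  have hn' : (3 : ℝ) ≤ n := by exact_mod_cast hn
  have h1 : 8 * (4 : ℝ) ^ j ≤ 4 ^ (n + 2) := by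
    have : (4 : ℝ) ^ j ≤ 4 ^ n := pow_le_pow_right₀ (by norm_num) hj
    have h0 : (0 : ℝ) < 4 ^ n := by positivity
    rw [pow_add]
    norm_num
    linarith
  have e : (4 : ℝ) ^ (n + 2) = Real.exp (((n : ℝ) + 2) * Real.log 4) := by
    rw [← Real.rpow_natCast, Real.rpow_def_of_pos (by norm_num), mul_comm]
    push_cast
    ring_nf
  calc 8 * (4 : ℝ) ^ j * Real.exp (-(n : ℝ) ^ 2) ≤ 4 ^ (n + 2) * Real.exp (-(n : ℝ) ^ 2) := mul_le_mul_of_nonneg_right h1 (Real.exp_pos _).le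
    _ = Real.exp (((n : ℝ) + 2) * Real.log 4 + -(n : ℝ) ^ 2) := by rw [e, ← Real.exp_add]
    _ ≤ Real.exp 0 := Real.exp_le_exp.2 (by nlinarith)
    _ = 1 := Real.exp_zero

theorem hz_gr_num {n z Kh Kc K : ℕ} {τ ν ζ γ C0L C0 CK HL LL HS U : ℝ} (hτ : 0 < τ) (hν : 0 < ν) (hU : 0 ≤ U) (hCK : 0 ≤ CK)
    (hC0a : C0L ≤ C0) (hC0b : 6 ≤ C0) (hz : (z : ℝ) ≤ ζ * n)
    (hsplit : HL ≤ 2 * (2 * (Kh : ℝ) + 1) ^ (3 / 2 : ℝ) * LL + 2 * (2 * (Kc : ℝ) + 1) * HS)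
    (hlow : LL ≤ 2 ^ (((1 - ζ) * γ + C0L * τ + ν / 4) * n) * U)
    (hHS : HS ≤ (2 * (Kc : ℝ) + 1) ^ 2 * (CK * ((n : ℝ) + 1) * 2 ^ (τ * n) * (n : ℝ) ^ K * Real.sqrt (2 ^ z + 1) * U))
    (hKc : (Kc : ℝ) ≤ 2 ^ z * 2 ^ (3 / 2 * τ * n) + 1)
    (pre1 : 4 * (2 * (Kh : ℝ) + 1) ^ (3 / 2 : ℝ) ≤ 2 ^ (ν / 4 * n))
    (pre2 : 1000 * CK * ((n : ℝ) + 1) ^ (K + 1) ≤ 2 ^ (ν / 4 * n)) :
    HL ≤ 2 ^ ((max (7 * ζ / 2) ((1 - ζ) * γ) + C0 * τ + ν) * n) * U := by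
  have hn0 : (0 : ℝ) ≤ n := Nat.cast_nonneg n
  have two_pos : ∀ x : ℝ, (0 : ℝ) < 2 ^ x := fun x => Real.rpow_pos_of_pos (by norm_num) x
  have two_mono : ∀ {x y : ℝ}, x ≤ y → (2 : ℝ) ^ x ≤ 2 ^ y := fun h => Real.rpow_le_rpow_of_exponent_le (by norm_num) h
  obtain ⟨Y, hY⟩ : ∃ Y : ℝ, Y = (max (7 * ζ / 2) ((1 - ζ) * γ) + C0 * τ + ν) * n := ⟨_, rfl⟩
  rw [← hY]
  have hm1 : (1 - ζ) * γ ≤ max (7 * ζ / 2) ((1 - ζ) * γ) := le_max_right _ _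
  have hm2 : 7 * ζ / 2 ≤ max (7 * ζ / 2) ((1 - ζ) * γ) := le_max_left _ _
  -- the low term
  have t1 : 2 * (2 * (Kh : ℝ) + 1) ^ (3 / 2 : ℝ) * LL ≤ 1 / 2 * (2 ^ Y * U) := by
    have hpre : 0 ≤ (2 * (Kh : ℝ) + 1) ^ (3 / 2 : ℝ) := by positivity
    calc 2 * (2 * (Kh : ℝ) + 1) ^ (3 / 2 : ℝ) * LL ≤ 2 * (2 * (Kh : ℝ) + 1) ^ (3 / 2 : ℝ) * (2 ^ (((1 - ζ) * γ + C0L * τ + ν / 4) * n) * U) :=
          mul_le_mul_of_nonneg_left hlow (by positivity)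
      _ = 1 / 2 * ((4 * (2 * (Kh : ℝ) + 1) ^ (3 / 2 : ℝ)) * 2 ^ (((1 - ζ) * γ + C0L * τ + ν / 4) * n) * U) := by ring
      _ ≤ 1 / 2 * (2 ^ (ν / 4 * n) * 2 ^ (((1 - ζ) * γ + C0L * τ + ν / 4) * n) * U) := by gcongr
      _ = 1 / 2 * (2 ^ (ν / 4 * n + ((1 - ζ) * γ + C0L * τ + ν / 4) * n) * U) := by rw [Real.rpow_add (by norm_num)]
      _ ≤ 1 / 2 * (2 ^ Y * U) := by
          refine mul_le_mul_of_nonneg_left (mul_le_mul_of_nonneg_right (two_mono ?_) hU) (by norm_num)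
          rw [hY, ← add_mul]
          refine mul_le_mul_of_nonneg_right ?_ hn0
          have : C0L * τ ≤ C0 * τ := mul_le_mul_of_nonneg_right hC0a hτ.le
          linarith
  -- the high term
  obtain ⟨A, hA⟩ : ∃ A : ℝ, A = 2 ^ (z : ℝ) := ⟨_, rfl⟩
  have hAz : (2 : ℝ) ^ z = A := by rw [hA, Real.rpow_natCast]
  have hA1 : 1 ≤ A := by rw [hA]; exact Real.one_le_rpow (by norm_num) (Nat.cast_nonneg z)
  obtain ⟨w, hw⟩ : ∃ w : ℝ, w = 2 ^ (3 / 2 * τ * n) := ⟨_, rfl⟩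
  have hw1 : 1 ≤ w := by rw [hw]; exact Real.one_le_rpow (by norm_num) (by positivity)
  rw [hAz] at hKc hHS
  rw [← hw] at hKc
  have hAw : 1 ≤ A * w := one_le_mul_of_one_le_of_one_le hA1 hw1
  have hKc5 : 2 * (Kc : ℝ) + 1 ≤ 5 * (A * w) := by linarith
  have hKc0 : (0 : ℝ) ≤ 2 * (Kc : ℝ) + 1 := by positivity
  have hcube : (2 * (Kc : ℝ) + 1) ^ 3 ≤ 125 * (A ^ 3 * w ^ 3) := by
    calc (2 * (Kc : ℝ) + 1) ^ 3 ≤ (5 * (A * w)) ^ 3 := pow_le_pow_left₀ hKc0 hKc5 3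
      _ = 125 * (A ^ 3 * w ^ 3) := by ring
  have hsq : Real.sqrt (A + 1) ≤ 2 * 2 ^ ((z : ℝ) / 2) := by
    have h1 : Real.sqrt (A + 1) ≤ Real.sqrt (4 * A) := Real.sqrt_le_sqrt (by linarith)
    have h2 : Real.sqrt (4 * A) = 2 * 2 ^ ((z : ℝ) / 2) := by
      rw [Real.sqrt_mul (by norm_num), show (4 : ℝ) = 2 ^ 2 by norm_num, Real.sqrt_sq (by norm_num), hA, Real.sqrt_eq_rpow, ← Real.rpow_mul (by norm_num)]
      congr 2
      ring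
    rw [← h2]
    exact h1
  have hpoly : ((n : ℝ) + 1) * (n : ℝ) ^ K ≤ ((n : ℝ) + 1) ^ (K + 1) := by
    rw [pow_succ, mul_comm]
    exact mul_le_mul_of_nonneg_right (pow_le_pow_left₀ hn0 (by linarith) K) (by positivity)
  have hpw : A ^ 3 * w ^ 3 * 2 ^ (τ * n) * 2 ^ ((z : ℝ) / 2) = 2 ^ (7 / 2 * (z : ℝ) + 11 / 2 * τ * n) := by
    rw [hA, hw, ← Real.rpow_natCast (2 ^ (z : ℝ)), ← Real.rpow_natCast (2 ^ (3 / 2 * τ * n)), ← Real.rpow_mul (by norm_num), ← Real.rpow_mul (by norm_num),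
      ← Real.rpow_add (by norm_num), ← Real.rpow_add (by norm_num), ← Real.rpow_add (by norm_num)]
    congr 1
    push_cast
    ring
  have t2 : 2 * (2 * (Kc : ℝ) + 1) * HS ≤ 1 / 2 * (2 ^ Y * U) := by
    have hnK : (0 : ℝ) ≤ (n : ℝ) ^ K := by positivity
    calc 2 * (2 * (Kc : ℝ) + 1) * HS
        ≤ 2 * (2 * (Kc : ℝ) + 1) * ((2 * (Kc : ℝ) + 1) ^ 2 * (CK * ((n : ℝ) + 1) * 2 ^ (τ * n) * (n : ℝ) ^ K * Real.sqrt (A + 1) * U)) :=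
          mul_le_mul_of_nonneg_left hHS (by positivity)
      _ = (2 * (Kc : ℝ) + 1) ^ 3 * (2 * CK * (((n : ℝ) + 1) * (n : ℝ) ^ K) * 2 ^ (τ * n) * U) * Real.sqrt (A + 1) := by ring
      _ ≤ (125 * (A ^ 3 * w ^ 3)) * (2 * CK * (((n : ℝ) + 1) ^ (K + 1)) * 2 ^ (τ * n) * U) * (2 * 2 ^ ((z : ℝ) / 2)) := by
          have := two_pos (τ * n)
          gcongr
      _ = 1 / 2 * ((1000 * CK * ((n : ℝ) + 1) ^ (K + 1)) * (A ^ 3 * w ^ 3 * 2 ^ (τ * n) * 2 ^ ((z : ℝ) / 2)) * U) := by ring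
      _ ≤ 1 / 2 * (2 ^ (ν / 4 * n) * (A ^ 3 * w ^ 3 * 2 ^ (τ * n) * 2 ^ ((z : ℝ) / 2)) * U) := by
          have := two_pos (τ * n)
          have := two_pos ((z : ℝ) / 2)
          gcongr
      _ = 1 / 2 * (2 ^ (ν / 4 * n + (7 / 2 * (z : ℝ) + 11 / 2 * τ * n)) * U) := by rw [hpw, ← Real.rpow_add (by norm_num)]
      _ ≤ 1 / 2 * (2 ^ Y * U) := by
          refine mul_le_mul_of_nonneg_left (mul_le_mul_of_nonneg_right (two_mono ?_) hU) (by norm_num)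
          rw [hY]
          have h1 : 7 / 2 * (z : ℝ) ≤ 7 * ζ / 2 * n := by linarith
          have h2 : 7 * ζ / 2 * n ≤ max (7 * ζ / 2) ((1 - ζ) * γ) * n := mul_le_mul_of_nonneg_right hm2 hn0
          have h3 : 11 / 2 * τ * n ≤ C0 * τ * n := by
            refine mul_le_mul_of_nonneg_right (mul_le_mul_of_nonneg_right (by linarith) hτ.le) hn0
          have h4 : ν / 4 * n ≤ ν * n := mul_le_mul_of_nonneg_right (by linarith) hn0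
          calc ν / 4 * n + (7 / 2 * (z : ℝ) + 11 / 2 * τ * n) ≤ ν * n + (max (7 * ζ / 2) ((1 - ζ) * γ) * n + C0 * τ * n) := by linarith
            _ = _ := by ring
  calc HL ≤ _ := hsplit
    _ ≤ 1 / 2 * (2 ^ Y * U) + 1 / 2 * (2 ^ Y * U) := add_le_add t1 t2
    _ = 2 ^ Y * U := by ring

theorem hz_gr_spow (n : ℕ) (t : ℝ) : ((2 : ℝ)⁻¹ ^ n) ^ (-t) = 2 ^ (t * n) := by
  rw [← Real.rpow_natCast, Real.inv_rpow (by norm_num), ← Real.rpow_neg (by norm_num), ← Real.rpow_mul (by norm_num)]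
  congr 1
  ring

/-- the number of caps -/
theorem hz_gr_Kc {η : ℝ} {p : ChyPar} (G : HzGr η p) {C : ℕ} {τ : ℝ} (hG : G.Ok C τ) {z : ℕ} (hz : 2 * z ≤ G.n) :
    0 < p.dl (G.kf - 2 * z) ∧ G.s ^ (-τ) * G.Q.f / p.dl (G.kf - 2 * z) ≤ 2 ^ z * 2 ^ (3 / 2 * τ * G.n) := by
  have hH := hG.par.H_pos
  have hf := hG.f_pos
  have hs0 : 0 < G.s := by unfold HzGr.s; positivity
  have hdl : 0 < p.dl (G.kf - 2 * z) := by
    unfold ChyPar.dl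
    exact Real.sqrt_pos.2 (by positivity)
  have hkf : G.kf = (G.kf - 2 * z) + 2 * z := by
    unfold HzGr.kf
    omega
  have hdd : p.dl G.kf = 2 ^ z * p.dl (G.kf - 2 * z) := by
    have e : p.H * 2 ^ G.kf = (2 ^ z) ^ 2 * (p.H * 2 ^ (G.kf - 2 * z)) := by
      nth_rewrite 1 [hkf]
      rw [pow_add, pow_mul' 2 2 z]
      ring
    unfold ChyPar.dl
    rw [e, Real.sqrt_mul (by positivity), Real.sqrt_sq (by positivity)]
  have hs2 : G.s * 2 ^ G.n = 1 := by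
    unfold HzGr.s
    rw [← mul_pow]
    norm_num
  have hlo : G.s ^ (τ / 2) * G.Q.f ≤ p.dl G.kf := by
    unfold ChyPar.dl
    refine Real.le_sqrt_of_sq_le ?_
    have h1 := hG.pl_lo
    rw [le_div_iff₀ (by positivity), Real.rpow_add hs0, Real.rpow_one] at h1
    have e1 : (G.s ^ (τ / 2) * G.Q.f) ^ 2 = G.s ^ τ * G.Q.f ^ 2 := by
      rw [mul_pow, ← Real.rpow_natCast (G.s ^ (τ / 2)), ← Real.rpow_mul hs0.le]
      congr 2
      push_cast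
      ring
    have e2 : p.H * 2 ^ G.kf = (p.H * 2 ^ G.k0) * 2 ^ G.n := by
      unfold HzGr.kf
      rw [pow_add]
      ring
    rw [e1, e2]
    calc G.s ^ τ * G.Q.f ^ 2 = (G.s * G.s ^ τ * G.Q.f ^ 2) * 2 ^ G.n := by
          have : (G.s * G.s ^ τ * G.Q.f ^ 2) * 2 ^ G.n = (G.s * 2 ^ G.n) * (G.s ^ τ * G.Q.f ^ 2) := by ring
          rw [this, hs2, one_mul]
      _ ≤ (p.H * 2 ^ G.k0) * 2 ^ G.n := mul_le_mul_of_nonneg_right h1 (by positivity)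
  refine ⟨hdl, ?_⟩
  rw [div_le_iff₀ hdl]
  have hp1 : 0 < G.s ^ (-τ) := Real.rpow_pos_of_pos hs0 _
  have hp2 : 0 < G.s ^ (-(τ / 2)) := Real.rpow_pos_of_pos hs0 _
  have e3 : G.s ^ (-(τ / 2)) * G.s ^ (τ / 2) = 1 := by rw [← Real.rpow_add hs0, neg_add_cancel, Real.rpow_zero]
  have e4 : G.s ^ (-τ) * G.s ^ (-(τ / 2)) = 2 ^ (3 / 2 * τ * G.n) := by
    rw [← Real.rpow_add hs0]
    unfold HzGr.s
    rw [show -τ + -(τ / 2) = -(3 / 2 * τ) by ring, hz_gr_spow]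
  calc G.s ^ (-τ) * G.Q.f = G.s ^ (-τ) * (G.s ^ (-(τ / 2)) * (G.s ^ (τ / 2) * G.Q.f)) := by rw [← mul_assoc (G.s ^ (-(τ / 2))), e3, one_mul]
    _ ≤ G.s ^ (-τ) * (G.s ^ (-(τ / 2)) * p.dl G.kf) := by gcongr
    _ = 2 ^ z * 2 ^ (3 / 2 * τ * G.n) * p.dl (G.kf - 2 * z) := by
        rw [hdd, ← e4]
        ring

/-- **(GR)** numerology.   `n = G.n`, `z = ⌊ζ n⌋`, `Λ = n`, `m = C`, `Kh = ⌈16 (C+3) n⌉`, `Kc = ⌈s^-τ f / d(ks)⌉ ≤ s^(-3τ/2) 2^z + 1`  (`d(ks) = 2^-z d(kf)`, `d(kf) ≥ s^(τ/2) f` by `pl_lo`).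
`hz_split`;  low: `2 (2Kh+1)^(3/2) ≤ 2^(νn/4)`;  high: `(2Kc+1)³` pairs-with-prefactor `≤ 27·8 s^(-9τ/2) 2^(3z)`, each `≤ CK (n+1) s^-τ n^K (2^z + 1)^(1/2) unit`: total exponent `7ζ/2 + 6τ + ν/2`.
`4^n exp(-n²/20) ≤ 1`, `8·4^n exp(-n²) ≤ 1`, polynomials in `n` `≤ 2^(νn/8)` for `n ≥ n0` (`gn_absorb`).   ~500 l. -/
theorem hz_group (η γ ζ : ℝ) (hγ : 0 < γ) (hζ0 : 0 < ζ) (hζ1 : ζ ≤ 1 / 4) (hH : HzHighC η) (hL : HzLowC η γ ζ) : HzGroupC η γ ζ := by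
  obtain ⟨C0L, hLow⟩ := hL
  refine ⟨max C0L 6, fun τ ν hτ0 hτ1 hν C => ?_⟩
  obtain ⟨K, CK, hHigh⟩ := hH C
  obtain ⟨nL, hLow'⟩ := hLow τ (ν / 4) hτ0 hτ1 (by positivity) (C + 3)
  obtain ⟨n1, hp1⟩ := hz_gr_poly 2 (4 * (32 * ((C : ℝ) + 3) + 3) ^ 2) (ν / 4) (by positivity)
  obtain ⟨n2, hp2⟩ := hz_gr_poly (K + 1) (1000 * |CK|) (ν / 4) (by positivity)
  refine ⟨max (max nL 28) (max n1 n2), fun p G D hn hG hD => ?_⟩
  have hnL : nL ≤ G.n := ((le_max_left _ _).trans (le_max_left _ _)).trans hn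
  have hn28 : 28 ≤ G.n := ((le_max_right _ _).trans (le_max_left _ _)).trans hn
  have hn1 : n1 ≤ G.n := ((le_max_left _ _).trans (le_max_right _ _)).trans hn
  have hn2 : n2 ≤ G.n := ((le_max_right _ _).trans (le_max_right _ _)).trans hn
  have hnR : (28 : ℝ) ≤ G.n := by exact_mod_cast hn28
  obtain ⟨z, hzdef⟩ : ∃ z : ℕ, z = ⌊ζ * G.n⌋₊ := ⟨_, rfl⟩
  have hz : (z : ℝ) ≤ ζ * G.n := by
    rw [hzdef]
    exact Nat.floor_le (by positivity)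
  have h2z : 2 * z ≤ G.n := by
    have : (2 : ℝ) * z ≤ G.n := by nlinarith
    exact_mod_cast this
  obtain ⟨hdl, hKcb⟩ := hz_gr_Kc G hG h2z
  obtain ⟨Kh, hKh⟩ : ∃ k : ℕ, k = ⌈16 * ((C : ℝ) + 3) * G.n⌉₊ := ⟨_, rfl⟩
  obtain ⟨Kc, hKc⟩ : ∃ k : ℕ, k = ⌈G.s ^ (-τ) * G.Q.f / p.dl (G.kf - 2 * z)⌉₊ := ⟨_, rfl⟩
  have hs0 : 0 < G.s := by unfold HzGr.s; positivity
  have hquot : 0 ≤ G.s ^ (-τ) * G.Q.f / p.dl (G.kf - 2 * z) := by
    have := Real.rpow_pos_of_pos hs0 (-τ)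
    have := hG.f_pos
    positivity
  have hK : G.s ^ (-τ) * G.Q.f ≤ Kc * p.dl (G.kf - 2 * z) := by
    rw [← div_le_iff₀ hdl, hKc]
    exact Nat.le_ceil _
  have hsplit := hz_split G C τ hG (G.kf - 2 * z) Kc Kh hK D
  have hKc1 : (Kc : ℝ) ≤ 2 ^ z * 2 ^ (3 / 2 * τ * G.n) + 1 := by
    rw [hKc]
    exact (Nat.ceil_lt_add_one hquot).le.trans (by linarith)
  have hU : 0 ≤ G.unit := by
    unfold HzGr.unit
    have := hG.e_pos
    positivity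
  -- the low part
  have hKc2 : (Kc : ℝ) ≤ 2 ^ ((C + 3) * G.n) := by
    refine hKc1.trans ?_
    have a1 : (2 : ℝ) ^ z = 2 ^ (z : ℝ) := (Real.rpow_natCast 2 z).symm
    have a2 : (2 : ℝ) ^ ((C + 3) * G.n) = 2 ^ ((((C + 3) * G.n : ℕ)) : ℝ) := (Real.rpow_natCast 2 _).symm
    rw [a1, a2, ← Real.rpow_add (by norm_num)]
    have a3 : (1 : ℝ) ≤ 2 ^ ((z : ℝ) + 3 / 2 * τ * G.n) := Real.one_le_rpow (by norm_num) (by positivity)
    calc (2 : ℝ) ^ ((z : ℝ) + 3 / 2 * τ * G.n) + 1 ≤ 2 * 2 ^ ((z : ℝ) + 3 / 2 * τ * G.n) := by linarith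
      _ = 2 ^ (1 + ((z : ℝ) + 3 / 2 * τ * G.n)) := by rw [Real.rpow_add (by norm_num) 1, Real.rpow_one]
      _ ≤ _ := by
          refine Real.rpow_le_rpow_of_exponent_le (by norm_num) ?_
          push_cast
          have b1 : 3 / 2 * τ * G.n ≤ 3 / 2 * G.n := by nlinarith
          have b2 : (z : ℝ) ≤ G.n / 4 := by nlinarith
          have b3 : (0 : ℝ) ≤ (C : ℝ) * G.n := by positivity
          nlinarith
  have hD' : HzDb (C + 3) G.n D := fun i c hc => (hD i c hc).trans (pow_le_pow_right₀ (by norm_num) (Nat.mul_le_mul_right _ (by omega)))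
  have hlow := hLow' p G Kc D hnL (hz_ok_mono G (by omega) τ hG) hD' hKc2
  rw [← hzdef] at hlow
  -- the high part
  obtain ⟨Bd, hBd⟩ : ∃ B : ℝ, B = |CK| * ((G.n : ℝ) + 1) * 2 ^ (τ * G.n) * (G.n : ℝ) ^ K * Real.sqrt (2 ^ z + 1) * G.unit := ⟨_, rfl⟩
  have hBd0 : 0 ≤ Bd := by
    rw [hBd]
    have := Real.rpow_pos_of_pos (by norm_num : (0 : ℝ) < 2) (τ * G.n)
    positivity
  have hpair : ∀ a a' : ℤ, (if (Kh : ℤ) < |a - a'| then G.HH (G.kf - 2 * z) a a' D else 0) ≤ Bd := by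
    intro a a'
    split_ifs with hc
    · have hc' : (Kh : ℝ) < |((a - a' : ℤ) : ℝ)| := by
        rw [← Int.cast_abs]
        exact_mod_cast hc
      have hsep : 16 * (((C : ℝ) + 3) * (G.n : ℝ)) ≤ |((a - a' : ℤ) : ℝ)| := by
        have : 16 * ((C : ℝ) + 3) * G.n ≤ Kh := by
          rw [hKh]
          exact Nat.le_ceil _
        linarith
      have h := hHigh p G C τ z (G.n : ℝ) a a' D hG hτ0.le hG.len h2z (by linarith) hsep (hz_gr_exp2 (by omega) (Nat.sub_le _ _))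
      refine h.trans ?_
      rw [hBd]
      have e1 : G.s ^ (-τ) = 2 ^ (τ * G.n) := by
        unfold HzGr.s
        exact hz_gr_spow _ _
      rw [e1]
      have e2 : Real.sqrt (2 ^ z + 4 ^ G.n * Real.exp (-((G.n : ℝ) ^ 2 / 20))) ≤ Real.sqrt (2 ^ z + 1) :=
        Real.sqrt_le_sqrt (by linarith [hz_gr_exp1 hn28])
      have := Real.rpow_pos_of_pos (by norm_num : (0 : ℝ) < 2) (τ * G.n)
      have := le_abs_self CK
      gcongr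
    · exact hBd0
  have hcard : ((Finset.Icc (-(Kc : ℤ)) Kc).card : ℝ) = 2 * (Kc : ℝ) + 1 := by
    rw [Int.card_Icc]
    have : ((Kc : ℤ) + 1 - -(Kc : ℤ)).toNat = 2 * Kc + 1 := by omega
    rw [this]
    push_cast
    ring
  have hHS : ∑ a ∈ Finset.Icc (-(Kc : ℤ)) Kc, ∑ a' ∈ Finset.Icc (-(Kc : ℤ)) Kc, (if (Kh : ℤ) < |a - a'| then G.HH (G.kf - 2 * z) a a' D else 0)
      ≤ (2 * (Kc : ℝ) + 1) ^ 2 * Bd := by
    calc _ ≤ ∑ _a ∈ Finset.Icc (-(Kc : ℤ)) Kc, ∑ _a' ∈ Finset.Icc (-(Kc : ℤ)) Kc, Bd := Finset.sum_le_sum fun a _ => Finset.sum_le_sum fun a' _ => hpair a a'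
      _ = (2 * (Kc : ℝ) + 1) ^ 2 * Bd := by
          simp only [Finset.sum_const, nsmul_eq_mul, hcard]
          ring
  rw [hBd] at hHS
  -- the prefactors
  have pre1 : 4 * (2 * (Kh : ℝ) + 1) ^ (3 / 2 : ℝ) ≤ 2 ^ (ν / 4 * G.n) := by
    refine le_trans ?_ (hp1 G.n hn1)
    have b1 : (Kh : ℝ) ≤ 16 * ((C : ℝ) + 3) * G.n + 1 := by
      rw [hKh]
      exact (Nat.ceil_lt_add_one (by positivity)).le
    have b2 : 2 * (Kh : ℝ) + 1 ≤ (32 * ((C : ℝ) + 3) + 3) * ((G.n : ℝ) + 1) := by nlinarith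
    have b3 : (1 : ℝ) ≤ 2 * (Kh : ℝ) + 1 := by
      have : (0 : ℝ) ≤ Kh := Nat.cast_nonneg _
      linarith
    calc 4 * (2 * (Kh : ℝ) + 1) ^ (3 / 2 : ℝ) ≤ 4 * (2 * (Kh : ℝ) + 1) ^ (2 : ℝ) := by
          refine mul_le_mul_of_nonneg_left (Real.rpow_le_rpow_of_exponent_le b3 (by norm_num)) (by norm_num)
      _ = 4 * (2 * (Kh : ℝ) + 1) ^ 2 := by rw [Real.rpow_two]
      _ ≤ 4 * ((32 * ((C : ℝ) + 3) + 3) * ((G.n : ℝ) + 1)) ^ 2 := by gcongr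
      _ = _ := by ring
  exact hz_gr_num hτ0 hν hU (abs_nonneg CK) (le_max_left _ _) (le_max_right _ _) hz hsplit hlow hHS hKc1 pre1 (hp2 G.n hn2)

/-! ### definitions of the low part (`Hz/Low.lean`): here, so that the files `Hz/Pk*`, `Hz/Cl*`, `Hz/Li*` can be imported BY `Hz/Low.lean` -/

/-- the same hybrid system with multiplicity `K` -/
@[reducible] noncomputable def ChyPar.mlt (p : ChyPar) (K : ℕ) : ChyPar where
  Om := p.Om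
  m := p.m
  Fb := PiLp 2 (fun _ : Fin K => p.Fb)
  X := p.X
  B := p.B
  Y := p.Y
  sg := p.sg
  H := p.H

/-- a stage of the system with multiplicity -/
noncomputable def ChyPar.stM (p : ChyPar) (η : ℝ) (K : ℕ) (σ : Stg (p.sys η)) : Stg ((p.mlt K).sys η) := ⟨σ.k, 0, σ.M⟩

/-- the vector of the cap rows -/
noncomputable def HzGr.vec {η : ℝ} {p : ChyPar} (G : HzGr η p) (ks Kc : ℕ) : Lp (PiLp 2 (fun _ : Fin (2 * Kc + 1) => p.Fb)) 2 p.rw :=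
  open Classical in
  if h : MemLp (fun x => (WithLp.toLp 2 (fun a : Fin (2 * Kc + 1) => (G.Fc ks ((a : ℤ) - Kc) : p.Om × ℝ × ℝ → p.Fb) x) : PiLp 2 (fun _ : Fin (2 * Kc + 1) => p.Fb))) 2 p.rw
  then h.toLp _ else 0

/-- **the experiment `E'`** (no labels) -/
noncomputable def HzGr.xq {η : ℝ} {p : ChyPar} (G : HzGr η p) (ks kr Kc : ℕ) (κ' : ℝ) : Xp ((p.mlt (2 * Kc + 1)).sys η) where
  k0 := G.k0
  i0 := G.i0
  n := kr - G.k0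
  v := ContinuousLinearMap.adjoint (((p.mlt (2 * Kc + 1)).sys η).An G.T0 G.k0 0) (G.vec ks Kc)
  e := G.e
  ka := κ'
  b0 := 0
  st := (G.st.filter fun σ => decide (σ.k ≤ ks)).map (p.stM η (2 * Kc + 1))
  bT := 0
  L := 0
  iv := Fin.elim0
  ts := Fin.elim0
  th := Fin.elim0

/-- window of rows at the interval `J = ancI (kr+z) kr i` of depth `kr` -/
def hzWn (p : ChyPar) (Q : CyT) (T0 : ℝ) (kr z : ℕ) (W q : ℝ) (i : ℕ) (d : ℤ × ℤ) (β : ℤ) : Set (p.Om × ℝ × ℝ) :=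
  {x | |p.X x.1 - Q.x| ≤ Q.r ∧
    (⌊(cyBase (hzFr Q (tmL (kr + z) i - T0)) ((2 : ℝ)⁻¹ ^ (kr + z)) (p.co (tmL (kr + z) i) x)).2.1⌋,
      ⌊(cyBase (hzFr Q (tmL (kr + z) i - T0)) ((2 : ℝ)⁻¹ ^ (kr + z)) (p.co (tmL (kr + z) i) x)).2.2⌋) = d ∧
    |cyVel (hzFr Q (tmL kr (ancI (kr + z) kr i) - T0)) (p.co (tmL kr (ancI (kr + z) kr i)) x)| ≤ W * Q.f ∧
    |cyPos (hzFr Q (tmL kr (ancI (kr + z) kr i) - T0)) (p.co (tmL kr (ancI (kr + z) kr i)) x) - β * q| ≤ W * ((2 : ℝ)⁻¹ ^ kr * Q.f)}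

theorem hz_low_eqns_cite : True := by
  have := @ChyPar.mlt.eq_1
  have := @ChyPar.stM.eq_1
  have := @HzGr.vec.eq_1
  have := @HzGr.xq.eq_1
  have := @hzWn.eq_1
  trivial

end Claimed.Agent.R256
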