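import Claimed.Agent.R256.Hz.Grp

/-!
# Row 256, unit HZ, block (PK), file KIN: KIN-M on one interval `J`, one normal window, one regular measure      (helper234, deputy chief; prefix `hz_pkk_`)

Measure level: `lam` = ANY finite measure on the rows (in (PK): the energy measure of `E.fin J` restricted to a peel level).   `QJ` = the frame AT THE TIME `TJ`, `ℓ = 2^-kr`, `ℓf = 2^-(kr+z)`.
* `hzPkT QJ x b y ρ W c0`   the tests of the family of (PK): shear of the frame, base centre `(x,b,y)`, widths `(ρ r, W f)`, position centre shifted by `c0`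
* `hzPkN`                   `X`-bin × normal window;      `hzPkS` base square at the later time `TJ + t`
* `hz_pkk_main`             if all tests of the family with `ρ = 2^-j`, `j ≤ z`, have `lam`-mass `≤ bb · weight`, then
                            `Σ_{n < 2^z} Σ_{d ∈ D n} lam (window ∩ square_n d)^(3/2) ≤ (CK (z+1) bb W w)^(1/2) lam (window)`
* `hz_pkk_wn`               `hzWn` of `Hz/Low.lean`-format = window ∩ square (stated for the set builder; `Hz/Low.lean` is not imported)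
-/

set_option autoImplicit false

namespace Claimed.Agent.R256

open MeasureTheory
open scoped ENNReal

/-- the tests of the family of (PK) -/
def hzPkT (QJ : CyT) (x b y ρ W c0 : ℝ) : CyT :=
  { QJ with x := x, b := b, y := y, r := ρ * QJ.r, f := W * QJ.f, d := QJ.d + c0 }

/-- `X`-bin × normal window -/
def hzPkN (p : ChyPar) (QJ : CyT) (TJ l W c0 : ℝ) : Set (p.Om × ℝ × ℝ) :=
  {u | |p.X u.1 - QJ.x| ≤ QJ.r ∧ |cyVel QJ (p.co TJ u)| ≤ W * QJ.f ∧ |cyPos QJ (p.co TJ u) - c0| ≤ W * (l * QJ.f)}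

/-- base square at the time `TJ + t` -/
def hzPkS (p : ChyPar) (QJ : CyT) (TJ t l : ℝ) (d : ℤ × ℤ) : Set (p.Om × ℝ × ℝ) :=
  {u | (⌊(cyBase (hzFr QJ t) l (p.co (TJ + t) u)).2.1⌋, ⌊(cyBase (hzFr QJ t) l (p.co (TJ + t) u)).2.2⌋) = d}

/-- the window `hzWn` of `Hz/Low.lean` (same body; `Hz/Low.lean` imports the files `Hz/Pk*.lean`) -/
def hzPkW (p : ChyPar) (Q : CyT) (T0 : ℝ) (kr z : ℕ) (W q : ℝ) (i : ℕ) (d : ℤ × ℤ) (β : ℤ) : Set (p.Om × ℝ × ℝ) :=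
  {x | |p.X x.1 - Q.x| ≤ Q.r ∧
    (⌊(cyBase (hzFr Q (tmL (kr + z) i - T0)) ((2 : ℝ)⁻¹ ^ (kr + z)) (p.co (tmL (kr + z) i) x)).2.1⌋,
      ⌊(cyBase (hzFr Q (tmL (kr + z) i - T0)) ((2 : ℝ)⁻¹ ^ (kr + z)) (p.co (tmL (kr + z) i) x)).2.2⌋) = d ∧
    |cyVel (hzFr Q (tmL kr (ancI (kr + z) kr i) - T0)) (p.co (tmL kr (ancI (kr + z) kr i)) x)| ≤ W * Q.f ∧
    |cyPos (hzFr Q (tmL kr (ancI (kr + z) kr i) - T0)) (p.co (tmL kr (ancI (kr + z) kr i)) x) - β * q| ≤ W * ((2 : ℝ)⁻¹ ^ kr * Q.f)}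

theorem hz_pkk_eqns_cite : True := by
  have := @hzPkT.eq_1
  have := @hzPkN.eq_1
  have := @hzPkS.eq_1
  have := @hzPkW.eq_1
  trivial

theorem hz_pkk_N_meas (p : ChyPar) (h : p.Ok) (QJ : CyT) (TJ l W c0 : ℝ) : MeasurableSet (hzPkN p QJ TJ l W c0) := by
  have m1 : Measurable fun u : p.Om × ℝ × ℝ => p.X u.1 := h.mX.comp measurable_fst
  have m2 := hy_tl_mVel p h QJ TJ
  have m3 := hy_tl_mPos p h QJ TJ
  exact (measurableSet_le (m1.sub_const _).abs measurable_const).inter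
    ((measurableSet_le m2.abs measurable_const).inter (measurableSet_le (m3.sub_const _).abs measurable_const))

theorem hz_pkk_S_meas (p : ChyPar) (h : p.Ok) (QJ : CyT) (TJ t l : ℝ) (d : ℤ × ℤ) : MeasurableSet (hzPkS p QJ TJ t l d) := by
  have m := hy_tl_mBase p h (hzFr QJ t) (TJ + t) l
  have m' : Measurable fun u : p.Om × ℝ × ℝ =>
      ((⌊(cyBase (hzFr QJ t) l (p.co (TJ + t) u)).2.1⌋, ⌊(cyBase (hzFr QJ t) l (p.co (TJ + t) u)).2.2⌋) : ℤ × ℤ) :=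
    (Int.measurable_floor.comp m.snd.fst).prodMk (Int.measurable_floor.comp m.snd.snd)
  exact m' (measurableSet_singleton d)

theorem hz_pkk_S_disj (p : ChyPar) (QJ : CyT) (TJ t l : ℝ) {d d' : ℤ × ℤ} (hd : d ≠ d') : Disjoint (hzPkS p QJ TJ t l d) (hzPkS p QJ TJ t l d') :=
  Set.disjoint_left.2 fun _ h1 h2 => hd (h1.symm.trans h2)

/-- `a^(3/2) = a √a` -/
theorem hz_pkk_rpow {a : ℝ} (ha : 0 ≤ a) : a ^ (3 / 2 : ℝ) = a * Real.sqrt a := by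
  rw [Real.sqrt_eq_rpow, ← Real.rpow_one_add' ha (by norm_num)]
  norm_num

/-- the weight of a test of the family -/
theorem hz_pkk_wt (η : ℝ) (h0 : 0 < η) (h1 : η < 1) (QJ : CyT) (hr : 0 < QJ.r) (hf : 0 < QJ.f) (x b y ρ W c0 : ℝ) (hρ : 0 < ρ) (hρ1 : ρ ≤ 1) (hW : 1 ≤ W) :
    cyWt η (hzPkT QJ x b y ρ W c0) ≤ W * cyWt η QJ * ρ ^ 3 := by
  unfold cyWt hzPkT
  simp only
  have hW0 : 0 < W := by linarith
  rw [Real.mul_rpow hρ.le hr.le, Real.mul_rpow hW0.le hf.le]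
  have e1 : ρ ^ (3 + η) ≤ ρ ^ 3 := by
    have := Real.rpow_le_rpow_of_exponent_ge hρ hρ1 (show (3 : ℝ) ≤ 3 + η by linarith)
    simpa using this
  have e2 : W ^ (1 - η) ≤ W := by
    have := Real.rpow_le_rpow_of_exponent_le hW (show 1 - η ≤ (1 : ℝ) by linarith)
    simpa using this
  have p1 : 0 < QJ.r ^ (3 + η) := Real.rpow_pos_of_pos hr _
  have p2 : 0 < QJ.f ^ (1 - η) := Real.rpow_pos_of_pos hf _
  have p3 : 0 ≤ ρ ^ (3 + η) := (Real.rpow_pos_of_pos hρ _).le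
  have p4 : 0 ≤ W ^ (1 - η) := (Real.rpow_pos_of_pos hW0 _).le
  calc ρ ^ (3 + η) * QJ.r ^ (3 + η) * (W ^ (1 - η) * QJ.f ^ (1 - η))
      = (ρ ^ (3 + η) * W ^ (1 - η)) * (QJ.r ^ (3 + η) * QJ.f ^ (1 - η)) := by ring
    _ ≤ (ρ ^ 3 * W) * (QJ.r ^ (3 + η) * QJ.f ^ (1 - η)) :=
        mul_le_mul_of_nonneg_right (mul_le_mul e1 e2 p4 (by positivity)) (by positivity)
    _ = _ := by ring

/-- a tilted box of the normalised base coordinates inside the window is a test of the family -/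
theorem hz_pkk_box (p : ChyPar) (QJ : CyT) (hr : 0 < QJ.r) (TJ l W c0 : ℝ) (hl : 0 < l) (x' b' y' R : ℝ) (u : p.Om × ℝ × ℝ)
    (hN : u ∈ hzPkN p QJ TJ l W c0)
    (hb : u ∈ kinMBox (fun u : p.Om × ℝ × ℝ => (cyBase QJ l (p.co TJ u)).1) (fun u => (cyBase QJ l (p.co TJ u)).2.1)
      (fun u => (cyBase QJ l (p.co TJ u)).2.2) x' b' y' R R (R ^ 2)) :
    cyIn (hzPkT QJ (QJ.x + x' * QJ.r) (QJ.b + b' * (l * QJ.r)) (QJ.y + 2 * QJ.x * (b' * (l * QJ.r)) + y' * (l * QJ.r ^ 2)) R W c0) l (p.co TJ u) := by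
  obtain ⟨-, n2, n3⟩ := hN
  obtain ⟨a1, a2, a3⟩ := hb
  simp only [cyBase] at a1 a2 a3
  have hlr : 0 < l * QJ.r := mul_pos hl hr
  have hlr2 : 0 < l * QJ.r ^ 2 := by positivity
  refine ⟨?_, ?_, ?_, ?_, ?_⟩
  · show |(p.co TJ u).X - (QJ.x + x' * QJ.r)| ≤ R * QJ.r
    have e : (p.co TJ u).X - (QJ.x + x' * QJ.r) = (((p.co TJ u).X - QJ.x) / QJ.r - x') * QJ.r := by
      field_simp
      ring
    rw [e, abs_mul, abs_of_pos hr]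
    exact mul_le_mul_of_nonneg_right a1 hr.le
  · show |(p.co TJ u).B - (QJ.b + b' * (l * QJ.r))| ≤ l * (R * QJ.r)
    have e : (p.co TJ u).B - (QJ.b + b' * (l * QJ.r)) = (((p.co TJ u).B - QJ.b) / (l * QJ.r) - b') * (l * QJ.r) := by
      field_simp
      ring
    rw [e, abs_mul, abs_of_pos hlr]
    calc _ ≤ R * (l * QJ.r) := mul_le_mul_of_nonneg_right a2 hlr.le
      _ = _ := by ring
  · show |cyTilt (hzPkT QJ (QJ.x + x' * QJ.r) (QJ.b + b' * (l * QJ.r)) (QJ.y + 2 * QJ.x * (b' * (l * QJ.r)) + y' * (l * QJ.r ^ 2)) R W c0) (p.co TJ u)|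
      ≤ l * (R * QJ.r) ^ 2
    have e : cyTilt (hzPkT QJ (QJ.x + x' * QJ.r) (QJ.b + b' * (l * QJ.r)) (QJ.y + 2 * QJ.x * (b' * (l * QJ.r)) + y' * (l * QJ.r ^ 2)) R W c0) (p.co TJ u)
        = (cyTilt QJ (p.co TJ u) / (l * QJ.r ^ 2) - y' - 2 * x' * (((p.co TJ u).B - QJ.b) / (l * QJ.r) - b')) * (l * QJ.r ^ 2) := by
      simp only [cyTilt, hzPkT]
      field_simp
      ring
    rw [e, abs_mul, abs_of_pos hlr2]
    calc _ ≤ R ^ 2 * (l * QJ.r ^ 2) := mul_le_mul_of_nonneg_right a3 hlr2.le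
      _ = _ := by ring
  · show |cyVel (hzPkT QJ _ _ _ R W c0) (p.co TJ u)| ≤ W * QJ.f
    exact n2
  · show |cyPos (hzPkT QJ _ _ _ R W c0) (p.co TJ u)| ≤ l * (W * QJ.f)
    have e : cyPos (hzPkT QJ (QJ.x + x' * QJ.r) (QJ.b + b' * (l * QJ.r)) (QJ.y + 2 * QJ.x * (b' * (l * QJ.r)) + y' * (l * QJ.r ^ 2)) R W c0) (p.co TJ u)
        = cyPos QJ (p.co TJ u) - c0 := by
      simp only [cyPos, hzPkT]
      ring
    rw [e]
    calc _ ≤ W * (l * QJ.f) := n3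
      _ = _ := by ring

/-- the lattice squares of KIN-M are the base squares at the later times -/
theorem hz_pkk_grid (p : ChyPar) (QJ : CyT) (hr : 0 < QJ.r) (TJ : ℝ) (kr z n : ℕ) (d : ℤ × ℤ) :
    {u : p.Om × ℝ × ℝ | kinMGrid (fun u : p.Om × ℝ × ℝ => (cyBase QJ ((2 : ℝ)⁻¹ ^ kr) (p.co TJ u)).1) (fun u => (cyBase QJ ((2 : ℝ)⁻¹ ^ kr) (p.co TJ u)).2.1)
      (fun u => (cyBase QJ ((2 : ℝ)⁻¹ ^ kr) (p.co TJ u)).2.2) ((1 / 2 : ℝ) ^ z) (n * (1 / 2 : ℝ) ^ z) u = d}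
      = hzPkS p QJ TJ (n * (2 : ℝ)⁻¹ ^ (kr + z)) ((2 : ℝ)⁻¹ ^ (kr + z)) d := by
  have hl0 : (0 : ℝ) < (2 : ℝ)⁻¹ ^ kr := by positivity
  have hlf0 : (0 : ℝ) < (2 : ℝ)⁻¹ ^ (kr + z) := by positivity
  have e1 : (2 : ℝ)⁻¹ ^ (kr + z) / (2 : ℝ)⁻¹ ^ kr = (1 / 2 : ℝ) ^ z := by
    rw [pow_add, one_div]
    field_simp
  have e2 : (n : ℝ) * (2 : ℝ)⁻¹ ^ (kr + z) / (2 : ℝ)⁻¹ ^ kr = n * (1 / 2 : ℝ) ^ z := by
    rw [mul_div_assoc, e1]
  ext u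
  simp only [hzPkS, Set.mem_ofPred_eq, kinMGrid]
  rw [hz_base_fr p QJ hr TJ (n * (2 : ℝ)⁻¹ ^ (kr + z)) ((2 : ℝ)⁻¹ ^ kr) ((2 : ℝ)⁻¹ ^ (kr + z)) hl0 hlf0 u, e1, e2]

/-- **(K) KIN-M ON ONE INTERVAL, ONE WINDOW, ONE REGULAR MEASURE** -/
theorem hz_pkk_main (hK : HzKinC) (η : ℝ) (h0 : 0 < η) (h1 : η < 1) : ∃ CK : ℝ, 0 < CK ∧ ∀ (p : ChyPar), p.Ok →
    ∀ (lam : Measure (p.Om × ℝ × ℝ)) [IsFiniteMeasure lam] (QJ : CyT) (TJ : ℝ) (kr z : ℕ) (W c0 bb : ℝ), 0 < QJ.r → 0 < QJ.f → 1 ≤ W → 0 ≤ bb →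
    (∀ j ≤ z, ∀ x b y : ℝ, lam.real {u | cyIn (hzPkT QJ x b y ((1 / 2 : ℝ) ^ j) W c0) ((2 : ℝ)⁻¹ ^ kr) (p.co TJ u)}
      ≤ bb * cyWt η (hzPkT QJ x b y ((1 / 2 : ℝ) ^ j) W c0)) →
    ∀ D : ℕ → Finset (ℤ × ℤ),
      ∑ n ∈ Finset.range (2 ^ z), ∑ d ∈ D n,
          (lam.real (hzPkN p QJ TJ ((2 : ℝ)⁻¹ ^ kr) W c0 ∩ hzPkS p QJ TJ (n * (2 : ℝ)⁻¹ ^ (kr + z)) ((2 : ℝ)⁻¹ ^ (kr + z)) d)) ^ (3 / 2 : ℝ)
        ≤ Real.sqrt (CK * (z + 1) * (bb * W * cyWt η QJ)) * lam.real (hzPkN p QJ TJ ((2 : ℝ)⁻¹ ^ kr) W c0) := by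
  obtain ⟨C, hC, H⟩ := hK
  refine ⟨C, hC, ?_⟩
  intro p hp lam _ QJ TJ kr z W c0 bb hr hf hW hbb hreg D
  obtain ⟨l, hl⟩ : ∃ l : ℝ, l = (2 : ℝ)⁻¹ ^ kr := ⟨_, rfl⟩
  have hl0 : 0 < l := by rw [hl]; positivity
  obtain ⟨N, hN⟩ : ∃ N, N = hzPkN p QJ TJ l W c0 := ⟨_, rfl⟩
  have hNm : MeasurableSet N := by rw [hN]; exact hz_pkk_N_meas p hp QJ TJ l W c0
  have mBs := hy_tl_mBase p hp QJ TJ l
  have hw0 : 0 < cyWt η QJ := by unfold cyWt; positivity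
  have hW0 : 0 < W := by linarith
  obtain ⟨κ', hκ'⟩ : ∃ κ', κ' = bb * W * cyWt η QJ := ⟨_, rfl⟩
  have hκ0 : 0 ≤ κ' := by rw [hκ']; positivity
  have hX1 : ∀ᵐ u ∂(lam.restrict N), |(cyBase QJ l (p.co TJ u)).1| ≤ 1 := by
    refine ae_restrict_of_forall_mem hNm fun u hu => ?_
    rw [hN] at hu
    have h1 : |p.X u.1 - QJ.x| ≤ QJ.r := hu.1
    show |((p.co TJ u).X - QJ.x) / QJ.r| ≤ 1
    rw [abs_div, abs_of_pos hr, div_le_one hr]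
    exact h1
  have hKreg : ∀ j ≤ z, KinMReg (lam.restrict N) (fun u : p.Om × ℝ × ℝ => (cyBase QJ l (p.co TJ u)).1) (fun u => (cyBase QJ l (p.co TJ u)).2.1)
      (fun u => (cyBase QJ l (p.co TJ u)).2.2) κ' ((1 / 2 : ℝ) ^ j) := by
    intro j hj x' b' y'
    have hρ : (0 : ℝ) < (1 / 2 : ℝ) ^ j := by positivity
    have hρ1 : (1 / 2 : ℝ) ^ j ≤ 1 := pow_le_one₀ (by norm_num) (by norm_num)
    have a1 := hreg j hj (QJ.x + x' * QJ.r) (QJ.b + b' * (l * QJ.r)) (QJ.y + 2 * QJ.x * (b' * (l * QJ.r)) + y' * (l * QJ.r ^ 2))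
    have a2 := hz_pkk_wt η h0 h1 QJ hr hf (QJ.x + x' * QJ.r) (QJ.b + b' * (l * QJ.r)) (QJ.y + 2 * QJ.x * (b' * (l * QJ.r)) + y' * (l * QJ.r ^ 2))
      ((1 / 2 : ℝ) ^ j) W c0 hρ hρ1 hW
    have a3 : (lam.restrict N).real (kinMBox (fun u : p.Om × ℝ × ℝ => (cyBase QJ l (p.co TJ u)).1) (fun u => (cyBase QJ l (p.co TJ u)).2.1)
        (fun u => (cyBase QJ l (p.co TJ u)).2.2) x' b' y' ((1 / 2 : ℝ) ^ j) ((1 / 2 : ℝ) ^ j) (((1 / 2 : ℝ) ^ j) ^ 2))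
        ≤ lam.real {u | cyIn (hzPkT QJ (QJ.x + x' * QJ.r) (QJ.b + b' * (l * QJ.r)) (QJ.y + 2 * QJ.x * (b' * (l * QJ.r)) + y' * (l * QJ.r ^ 2))
          ((1 / 2 : ℝ) ^ j) W c0) l (p.co TJ u)} := by
      rw [measureReal_restrict_apply' hNm]
      refine measureReal_mono fun u hu => ?_
      exact hz_pkk_box p QJ hr TJ l W c0 hl0 x' b' y' _ u (hN ▸ hu.2) hu.1
    rw [← hl] at a1
    calc _ ≤ _ := a3
      _ ≤ _ := a1
      _ ≤ bb * (W * cyWt η QJ * ((1 / 2 : ℝ) ^ j) ^ 3) := mul_le_mul_of_nonneg_left a2 hbb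
      _ = κ' * ((1 / 2 : ℝ) ^ j) ^ 3 := by rw [hκ']; ring
  have key := H _ (lam.restrict N) (fun u : p.Om × ℝ × ℝ => (cyBase QJ l (p.co TJ u)).1) (fun u => (cyBase QJ l (p.co TJ u)).2.1)
      (fun u => (cyBase QJ l (p.co TJ u)).2.2) mBs.fst mBs.snd.fst mBs.snd.snd hX1 κ' z hκ0 hKreg D
  obtain ⟨a, ha⟩ : ∃ a : ℕ → ℤ × ℤ → ℝ, a = fun (n : ℕ) d => lam.real (N ∩ hzPkS p QJ TJ ((n : ℝ) * (2 : ℝ)⁻¹ ^ (kr + z)) ((2 : ℝ)⁻¹ ^ (kr + z)) d) := ⟨_, rfl⟩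
  have ha0 : ∀ n d, 0 ≤ a n d := fun n d => by rw [ha]; exact measureReal_nonneg
  obtain ⟨M, hM⟩ : ∃ M, M = lam.real N := ⟨_, rfl⟩
  have hM0 : 0 ≤ M := by rw [hM]; exact measureReal_nonneg
  have e1 : ∀ (n : ℕ) d, ((lam.restrict N) {u | kinMGrid (fun u : p.Om × ℝ × ℝ => (cyBase QJ l (p.co TJ u)).1) (fun u => (cyBase QJ l (p.co TJ u)).2.1)
      (fun u => (cyBase QJ l (p.co TJ u)).2.2) ((1 / 2 : ℝ) ^ z) (n * (1 / 2 : ℝ) ^ z) u = d}).toReal = a n d := by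
    intro n d
    rw [hl, hz_pkk_grid p QJ hr TJ kr z n d, ha]
    show (lam.restrict N).real _ = _
    rw [measureReal_restrict_apply' hNm, Set.inter_comm]
  have e2 : ((lam.restrict N) Set.univ).toReal = M := by
    show (lam.restrict N).real _ = _
    rw [measureReal_restrict_apply_univ, hM]
  simp only [e1, e2] at key
  -- sums of squares and of masses
  have hsq : ∑ n ∈ Finset.range (2 ^ z), ∑ d ∈ D n, a n d ^ 2 ≤ C * (z + 1) * (1 / 2 : ℝ) ^ z * κ' * M := by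
    refine le_trans ?_ key
    refine Finset.sum_le_sum_of_subset_of_nonneg (Finset.range_subset_range.2 (Nat.le_succ _)) fun n _ _ => ?_
    exact Finset.sum_nonneg fun d _ => by positivity
  have hone : ∀ n, ∑ d ∈ D n, a n d ≤ M := by
    intro n
    rw [ha, hM]
    simp only
    rw [← measureReal_biUnion_finset (fun d _ d' _ hdd => (hz_pkk_S_disj p QJ TJ _ _ hdd).mono Set.inter_subset_right Set.inter_subset_right)
      (fun d _ => hNm.inter (hz_pkk_S_meas p hp QJ TJ _ _ d))]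
    refine measureReal_mono fun u hu => ?_
    simp only [Set.mem_iUnion] at hu
    obtain ⟨d, _, hd⟩ := hu
    exact hd.1
  have hsum : ∑ n ∈ Finset.range (2 ^ z), ∑ d ∈ D n, a n d ≤ 2 ^ z * M := by
    calc _ ≤ ∑ n ∈ Finset.range (2 ^ z), M := Finset.sum_le_sum fun n _ => hone n
      _ = 2 ^ z * M := by rw [Finset.sum_const, Finset.card_range, nsmul_eq_mul]; push_cast; ring
  have hcs : ∑ x ∈ (Finset.range (2 ^ z)).sigma D, a x.1 x.2 * Real.sqrt (a x.1 x.2) ≤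
      Real.sqrt (∑ x ∈ (Finset.range (2 ^ z)).sigma D, a x.1 x.2 ^ 2) * Real.sqrt (∑ x ∈ (Finset.range (2 ^ z)).sigma D, Real.sqrt (a x.1 x.2) ^ 2) :=
    Real.sum_mul_le_sqrt_mul_sqrt _ _ _
  rw [Finset.sum_sigma, Finset.sum_sigma, Finset.sum_sigma] at hcs
  simp only [] at hcs
  have e3 : ∑ n ∈ Finset.range (2 ^ z), ∑ d ∈ D n, Real.sqrt (a n d) ^ 2 = ∑ n ∈ Finset.range (2 ^ z), ∑ d ∈ D n, a n d :=
    Finset.sum_congr rfl fun n _ => Finset.sum_congr rfl fun d _ => Real.sq_sqrt (ha0 n d)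
  rw [e3] at hcs
  have e4 : ∑ n ∈ Finset.range (2 ^ z), ∑ d ∈ D n,
      (lam.real (hzPkN p QJ TJ ((2 : ℝ)⁻¹ ^ kr) W c0 ∩ hzPkS p QJ TJ (n * (2 : ℝ)⁻¹ ^ (kr + z)) ((2 : ℝ)⁻¹ ^ (kr + z)) d)) ^ (3 / 2 : ℝ)
      = ∑ n ∈ Finset.range (2 ^ z), ∑ d ∈ D n, a n d * Real.sqrt (a n d) := by
    refine Finset.sum_congr rfl fun n _ => Finset.sum_congr rfl fun d _ => ?_
    rw [← hz_pkk_rpow (ha0 n d), ha, hN, hl]
  rw [e4, ← hl, ← hN, ← hM, ← hκ']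
  refine hcs.trans ?_
  have h2z : (1 / 2 : ℝ) ^ z * 2 ^ z = 1 := by rw [← mul_pow]; norm_num
  calc Real.sqrt (∑ n ∈ Finset.range (2 ^ z), ∑ d ∈ D n, a n d ^ 2) * Real.sqrt (∑ n ∈ Finset.range (2 ^ z), ∑ d ∈ D n, a n d)
      ≤ Real.sqrt (C * (z + 1) * (1 / 2 : ℝ) ^ z * κ' * M) * Real.sqrt (2 ^ z * M) :=
        mul_le_mul (Real.sqrt_le_sqrt hsq) (Real.sqrt_le_sqrt hsum) (Real.sqrt_nonneg _) (Real.sqrt_nonneg _)
    _ = Real.sqrt (C * (z + 1) * κ' * M ^ 2) := by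
        rw [← Real.sqrt_mul (by positivity)]
        congr 1
        calc C * (z + 1) * (1 / 2 : ℝ) ^ z * κ' * M * (2 ^ z * M) = C * (z + 1) * κ' * M ^ 2 * ((1 / 2 : ℝ) ^ z * 2 ^ z) := by ring
          _ = _ := by rw [h2z, mul_one]
    _ = Real.sqrt (C * (z + 1) * κ') * M := by
        rw [Real.sqrt_mul (by positivity), Real.sqrt_sq hM0]

theorem hz_pkk_anc (kr z J n : ℕ) (hn : n < 2 ^ z) : ancI (kr + z) kr (J * 2 ^ z + n) = J := by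
  unfold ancI
  rw [Nat.add_sub_cancel_left, mul_comm, Nat.mul_add_div (by positivity), Nat.div_eq_of_lt hn, add_zero]

theorem hz_pkk_tm (kr z J n : ℕ) : tmL (kr + z) (J * 2 ^ z + n) = tmL kr J + n * (2 : ℝ)⁻¹ ^ (kr + z) := by
  unfold tmL
  push_cast
  rw [inv_pow, pow_add]
  field_simp

/-- **(W)** the window of `Hz/Low.lean` at the interval `i = J 2^z + n` = (`X`-bin × normal window at `T_J`) ∩ (base square at `T_J + n ℓf`).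
`ancI (kr+z) kr (J 2^z + n) = J` (`Nat.div`), `tmL (kr+z) (J 2^z + n) = tmL kr J + n 2^-(kr+z)`, `hz_fr_add`; `(hzFr Q t).x = Q.x`, `.r`, `.f` by `rfl`. -/
theorem hz_pkk_wn (p : ChyPar) (Q : CyT) (T0 : ℝ) (kr z : ℕ) (W q : ℝ) (J n : ℕ) (hn : n < 2 ^ z) (d : ℤ × ℤ) (β : ℤ) :
    hzPkW p Q T0 kr z W q (J * 2 ^ z + n) d β
      = hzPkN p (hzFr Q (tmL kr J - T0)) (tmL kr J) ((2 : ℝ)⁻¹ ^ kr) W (β * q)
        ∩ hzPkS p (hzFr Q (tmL kr J - T0)) (tmL kr J) (n * (2 : ℝ)⁻¹ ^ (kr + z)) ((2 : ℝ)⁻¹ ^ (kr + z)) d := by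
  have e1 := hz_pkk_anc kr z J n hn
  have e2 := hz_pkk_tm kr z J n
  have e3 : tmL kr J - T0 + n * (2 : ℝ)⁻¹ ^ (kr + z) = tmL (kr + z) (J * 2 ^ z + n) - T0 := by rw [e2]; ring
  ext x
  simp only [hzPkW, hzPkN, hzPkS, Set.mem_inter_iff, Set.mem_ofPred_eq, e1, hz_fr_add, e3, ← e2]
  have r1 : (hzFr Q (tmL kr J - T0)).x = Q.x := rfl
  have r2 : (hzFr Q (tmL kr J - T0)).r = Q.r := rfl
  have r3 : (hzFr Q (tmL kr J - T0)).f = Q.f := rfl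
  rw [r1, r2, r3]
  tauto

/-- integers `β` with `|x - β q| ≤ R` -/
theorem hz_pkk_cnt (x q R : ℝ) (hq : 0 < q) (hR : 0 ≤ R) (Bc : Finset ℤ) :
    ((Bc.filter fun β : ℤ => |x - β * q| ≤ R).card : ℝ) ≤ 2 * R / q + 1 := by
  have hsub : (Bc.filter fun β : ℤ => |x - β * q| ≤ R) ⊆ Finset.Icc ⌈(x - R) / q⌉ ⌊(x + R) / q⌋ := by
    intro β hβ
    rw [Finset.mem_filter] at hβ
    obtain ⟨h1, h2⟩ := abs_le.1 hβ.2
    rw [Finset.mem_Icc]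
    constructor
    · rw [Int.ceil_le, div_le_iff₀ hq]
      linarith
    · rw [Int.le_floor, le_div_iff₀ hq]
      linarith
  have hc : ((Bc.filter fun β : ℤ => |x - β * q| ≤ R).card : ℝ) ≤ ((Finset.Icc ⌈(x - R) / q⌉ ⌊(x + R) / q⌋).card : ℝ) := by
    exact_mod_cast Finset.card_le_card hsub
  refine hc.trans ?_
  rw [Int.card_Icc]
  have h0 : 0 ≤ 2 * R / q + 1 := by positivity
  have e : (((⌊(x + R) / q⌋ + 1 - ⌈(x - R) / q⌉).toNat : ℤ) : ℝ) = ((max (⌊(x + R) / q⌋ + 1 - ⌈(x - R) / q⌉) 0 : ℤ) : ℝ) := by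
    rw [Int.toNat_eq_max]
  have e' : (((⌊(x + R) / q⌋ + 1 - ⌈(x - R) / q⌉).toNat : ℕ) : ℝ) = (((⌊(x + R) / q⌋ + 1 - ⌈(x - R) / q⌉).toNat : ℤ) : ℝ) := by
    push_cast
    rfl
  rw [e', e]
  push_cast
  refine max_le ?_ h0
  have a1 : ((⌊(x + R) / q⌋ : ℤ) : ℝ) ≤ (x + R) / q := Int.floor_le _
  have a2 : (x - R) / q ≤ ((⌈(x - R) / q⌉ : ℤ) : ℝ) := Int.le_ceil _
  have a3 : (x + R) / q - (x - R) / q = 2 * R / q := by field_simp; ring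
  linarith

/-- **(O) OVERLAP OF THE WINDOWS.**   A row lies in the windows `β` with `|pos - β q| ≤ R`, `R = W ℓ f`: at most `2R/q + 1` integers.
PLAN: `Σ_β lam.real (N_β) = ∫ Σ_β 1_{N_β} d lam` (`integral_finset_sum`, `integral_indicator_one`) `≤ ∫ (2R/q + 1) d lam`; pointwise: the set `{β ∈ Bc | u ∈ N_β}` is contained in `Finset.Icc ⌈(pos - R)/q⌉ ⌊(pos + R)/q⌋`,
`Int.card_Icc`, `Int.floor_le`, `Int.le_ceil`.   ~150 l. -/
theorem hz_pkk_ovl (p : ChyPar) (hp : p.Ok) (lam : Measure (p.Om × ℝ × ℝ)) [IsFiniteMeasure lam] (QJ : CyT) (TJ l W q : ℝ) (hq : 0 < q)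
    (hR : 0 ≤ W * (l * QJ.f)) (Bc : Finset ℤ) :
    ∑ β ∈ Bc, lam.real (hzPkN p QJ TJ l W (β * q)) ≤ (2 * (W * (l * QJ.f)) / q + 1) * lam.real Set.univ := by
  classical
  have hm : ∀ β : ℤ, MeasurableSet (hzPkN p QJ TJ l W (β * q)) := fun β => hz_pkk_N_meas p hp QJ TJ l W _
  have h1 : ∀ β : ℤ, lam.real (hzPkN p QJ TJ l W (β * q)) = ∫ u, (hzPkN p QJ TJ l W (β * q)).indicator (fun _ => (1 : ℝ)) u ∂lam := by
    intro β
    rw [integral_indicator (hm β), setIntegral_const, smul_eq_mul, mul_one]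
  have hi : ∀ β : ℤ, Integrable ((hzPkN p QJ TJ l W (β * q)).indicator (fun _ => (1 : ℝ))) lam := fun β =>
    (integrable_const (1 : ℝ)).indicator (hm β)
  rw [Finset.sum_congr rfl fun β _ => h1 β, ← integral_finsetSum _ fun β _ => hi β]
  have hpt : ∀ u : p.Om × ℝ × ℝ, ∑ β ∈ Bc, (hzPkN p QJ TJ l W (β * q)).indicator (fun _ => (1 : ℝ)) u ≤ 2 * (W * (l * QJ.f)) / q + 1 := by
    intro u
    refine le_trans ?_ (hz_pkk_cnt (cyPos QJ (p.co TJ u)) q (W * (l * QJ.f)) hq hR Bc)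
    rw [Finset.card_filter]
    push_cast
    refine Finset.sum_le_sum fun β _ => ?_
    by_cases hu : u ∈ hzPkN p QJ TJ l W (β * q)
    · rw [Set.indicator_of_mem hu, if_pos hu.2.2]
    · rw [Set.indicator_of_notMem hu]
      split_ifs <;> norm_num
  calc ∫ u, ∑ β ∈ Bc, (hzPkN p QJ TJ l W (β * q)).indicator (fun _ => (1 : ℝ)) u ∂lam
      ≤ ∫ _, (2 * (W * (l * QJ.f)) / q + 1) ∂lam :=
        integral_mono (integrable_finsetSum _ fun β _ => hi β) (integrable_const _) hpt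
    _ = _ := by rw [integral_const, smul_eq_mul, mul_comm]

end Claimed.Agent.R256
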