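import Claimed.Agent.R256.Hz.PkKin

/-!
# Row 256, unit HZ, block (PK), file SUM: levels × windows × KIN, non-asymptotic      (helper234, deputy chief; prefix `hz_pks_`)

Measure level.   `lam J` = ANY finite measures on the rows (`J ∈ ivs k0 i0 kr`), `S j J` (`j < m`) a measurable partition of the rows into levels of regularity `bb j` w.r.t. the family `hzPkT`.
-/

set_option autoImplicit false

namespace Claimed.Agent.R256

open MeasureTheory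

/-- `(Σ_{j<m} x_j)^(3/2) ≤ m^(1/2) Σ x_j^(3/2)`.   `Real.inner_le_Lp_mul_Lq` / `Real.rpow_sum_le_const_mul_sum_rpow` (`p = 3/2`: `(Σ x)^p ≤ m^(p-1) Σ x^p`), `Real.sqrt_eq_rpow`.   ~40 l. -/
theorem hz_pks_holder (m : ℕ) (x : ℕ → ℝ) (hx : ∀ j, 0 ≤ x j) :
    (∑ j ∈ Finset.range m, x j) ^ (3 / 2 : ℝ) ≤ Real.sqrt m * ∑ j ∈ Finset.range m, x j ^ (3 / 2 : ℝ) := by
  have h := Real.rpow_sum_le_const_mul_sum_rpow_of_nonneg (Finset.range m) (p := 3 / 2) (by norm_num) (fun j _ => hx j)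
  rw [Finset.card_range] at h
  rw [Real.sqrt_eq_rpow]
  have e : (3 / 2 : ℝ) - 1 = 1 / 2 := by norm_num
  rwa [e] at h

theorem hz_pks_reindex_aux (A Z d : ℕ) (F : ℕ → ℝ) :
    ∑ i ∈ Finset.Ico (A * Z) ((A + d) * Z), F i = ∑ J ∈ Finset.Ico A (A + d), ∑ n ∈ Finset.range Z, F (J * Z + n) := by
  induction d with
  | zero => simp
  | succ d ih =>
    have e0 : (A + d + 1) * Z - (A + d) * Z = Z := by
      rw [← Nat.sub_mul]
      simp
    have h2 : ∑ i ∈ Finset.Ico ((A + d) * Z) ((A + d + 1) * Z), F i = ∑ n ∈ Finset.range Z, F ((A + d) * Z + n) := by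
      rw [Finset.sum_Ico_eq_sum_range, e0]
    rw [← Finset.sum_Ico_consecutive F (Nat.mul_le_mul_right Z (Nat.le_add_right A d))
      (Nat.mul_le_mul_right Z (by omega : A + d ≤ A + (d + 1))), ih, ← add_assoc, Finset.sum_Ico_succ_top (by omega), h2]

/-- reindexing of the fine intervals: `ivs k0 i0 (kr+z) = {J 2^z + n | J ∈ ivs k0 i0 kr, n < 2^z}`.   `Finset.sum_bij'`/`Finset.sum_nbij'` with `i ↦ (i / 2^z, i % 2^z)`; `ivs` is an `Ico`; `kr + z - k0 = (kr - k0) + z`, `pow_add`;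
`Nat.div_add_mod`, `Nat.div_lt_iff_lt_mul`, `Nat.le_div_iff_mul_le`.   ~100 l. -/
theorem hz_pks_reindex (k0 i0 kr z : ℕ) (hk : k0 ≤ kr) (F : ℕ → ℝ) :
    ∑ i ∈ ivs k0 i0 (kr + z), F i = ∑ J ∈ ivs k0 i0 kr, ∑ n ∈ Finset.range (2 ^ z), F (J * 2 ^ z + n) := by
  unfold ivs
  have e : kr + z - k0 = (kr - k0) + z := by omega
  have h := hz_pks_reindex_aux (i0 * 2 ^ (kr - k0)) (2 ^ z) (2 ^ (kr - k0)) F
  have e1 : i0 * 2 ^ (kr - k0) + 2 ^ (kr - k0) = (i0 + 1) * 2 ^ (kr - k0) := by ring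
  rw [e1] at h
  rw [e, pow_add, ← mul_assoc, ← mul_assoc]
  exact h

/-- a finite measurable partition (sum of the indicators `= 1`) splits the mass of a measurable set -/
theorem hz_pks_part {α : Type*} [MeasurableSpace α] (μ : Measure α) [IsFiniteMeasure μ] (m : ℕ) (S : ℕ → Set α) (hS : ∀ j, MeasurableSet (S j))
    (h1 : ∀ x, ∑ j ∈ Finset.range m, (S j).indicator (fun _ => (1 : ℝ)) x = 1) (A : Set α) (hA : MeasurableSet A) :
    μ.real A = ∑ j ∈ Finset.range m, μ.real (A ∩ S j) := by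
  have e1 : ∀ B : Set α, MeasurableSet B → μ.real B = ∫ x, B.indicator (fun _ => (1 : ℝ)) x ∂μ := fun B hB => by
    rw [integral_indicator hB, integral_const, smul_eq_mul, mul_one, measureReal_restrict_apply_univ]
  rw [e1 A hA, Finset.sum_congr rfl fun j _ => e1 (A ∩ S j) (hA.inter (hS j)),
    ← integral_finsetSum _ fun j _ => (integrable_const (1 : ℝ)).indicator (hA.inter (hS j))]
  refine integral_congr_ae (Filter.Eventually.of_forall fun x => ?_)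
  simp only
  by_cases hx : x ∈ A
  · have : ∀ j, (A ∩ S j).indicator (fun _ => (1 : ℝ)) x = (S j).indicator (fun _ => (1 : ℝ)) x := fun j => by
      by_cases hj : x ∈ S j <;> simp [hx, hj]
    simp only [this, h1 x, Set.indicator_of_mem hx]
  · have : ∀ j, (A ∩ S j).indicator (fun _ => (1 : ℝ)) x = 0 := fun j => by simp [hx]
    simp only [this, Finset.sum_const_zero, Set.indicator_of_notMem hx]

/-- exchange of the four sums -/
theorem hz_pks_comm {β δ : Type*} (Z m : ℕ) (Bc : Finset β) (D : ℕ → Finset δ) (c : ℝ) (f : ℕ → β → δ → ℕ → ℝ) :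
    ∑ n ∈ Finset.range Z, ∑ b ∈ Bc, ∑ d ∈ D n, c * ∑ j ∈ Finset.range m, f n b d j
      = c * ∑ j ∈ Finset.range m, ∑ b ∈ Bc, ∑ n ∈ Finset.range Z, ∑ d ∈ D n, f n b d j := by
  simp only [← Finset.mul_sum]
  congr 1
  calc ∑ n ∈ Finset.range Z, ∑ b ∈ Bc, ∑ d ∈ D n, ∑ j ∈ Finset.range m, f n b d j
      = ∑ n ∈ Finset.range Z, ∑ b ∈ Bc, ∑ j ∈ Finset.range m, ∑ d ∈ D n, f n b d j :=
        Finset.sum_congr rfl fun n _ => Finset.sum_congr rfl fun b _ => Finset.sum_comm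
    _ = ∑ n ∈ Finset.range Z, ∑ j ∈ Finset.range m, ∑ b ∈ Bc, ∑ d ∈ D n, f n b d j :=
        Finset.sum_congr rfl fun n _ => Finset.sum_comm
    _ = ∑ j ∈ Finset.range m, ∑ n ∈ Finset.range Z, ∑ b ∈ Bc, ∑ d ∈ D n, f n b d j := Finset.sum_comm
    _ = _ := Finset.sum_congr rfl fun j _ => Finset.sum_comm

/-- **(S1) THE SUM.**
PLAN.  `CK` from `hz_pkk_main`.   `hz_pks_reindex`; `ancI (kr+z) kr (J 2^z + n) = J`; `hz_pkk_wn`: the window is `N_β ∩ Sq_{n,d}`, `QJ = hzFr Q (T_J - T0)` (`QJ.r = Q.r`, `QJ.f = Q.f`, `cyWt η QJ = cyWt η Q` by `rfl`).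
Partition: `(lam J).real A = Σ_{j<m} (lam J).real (A ∩ S j J)` for measurable `A` (the `S j J`, `j < m`, are pairwise disjoint and cover: from the sum of indicators `= 1`; `measureReal_biUnion_finset`);  `hz_pks_holder`.
Exchange the sums (`Finset.sum_comm`) to `Σ_J Σ_j Σ_β Σ_n Σ_d`;  for fixed `(J, j, β)`: `hz_pkk_main` with `lam := (lam J).restrict (S j J)` (`measureReal_restrict_apply`), `c0 = β q`, `bb = bb j`, `D := fun n => D (J 2^z + n)`;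
then `hz_pkk_ovl` for `(lam J).restrict (S j J)`;  `((lam J).restrict (S j J)).real univ = (lam J).real (S j J)`.      ~450 l. -/
theorem hz_pks_sum (hK : HzKinC) (η : ℝ) (h0 : 0 < η) (h1 : η < 1) : ∃ CK : ℝ, 0 < CK ∧ ∀ (p : ChyPar), p.Ok →
    ∀ (k0 i0 kr z : ℕ), k0 ≤ kr → ∀ (Q : CyT) (W q : ℝ), 0 < Q.r → 0 < Q.f → 1 ≤ W → 0 < q →
    ∀ (lam : ℕ → Measure (p.Om × ℝ × ℝ)), (∀ J, IsFiniteMeasure (lam J)) → ∀ (m : ℕ) (S : ℕ → ℕ → Set (p.Om × ℝ × ℝ)) (bb : ℕ → ℝ),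
    (∀ j J, MeasurableSet (S j J)) → (∀ J ∈ ivs k0 i0 kr, ∀ x, ∑ j ∈ Finset.range m, (S j J).indicator (fun _ => (1 : ℝ)) x = 1) → (∀ j, 0 ≤ bb j) →
    (∀ j < m, ∀ J ∈ ivs k0 i0 kr, ∀ j' ≤ z, ∀ x b y c0 : ℝ,
      (lam J).real ({u | cyIn (hzPkT (hzFr Q (tmL kr J - tmL k0 i0)) x b y ((1 / 2 : ℝ) ^ j') W c0) ((2 : ℝ)⁻¹ ^ kr) (p.co (tmL kr J) u)} ∩ S j J)
        ≤ bb j * cyWt η (hzPkT (hzFr Q (tmL kr J - tmL k0 i0)) x b y ((1 / 2 : ℝ) ^ j') W c0)) →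
    ∀ (Bc : Finset ℤ) (D : ℕ → Finset (ℤ × ℤ)),
      ∑ i ∈ ivs k0 i0 (kr + z), ∑ β ∈ Bc, ∑ d ∈ D i, ((lam (ancI (kr + z) kr i)).real (hzPkW p Q (tmL k0 i0) kr z W q i d β)) ^ (3 / 2 : ℝ)
        ≤ Real.sqrt m * (2 * (W * ((2 : ℝ)⁻¹ ^ kr * Q.f)) / q + 1) *
          ∑ j ∈ Finset.range m, Real.sqrt (CK * (z + 1) * (bb j * W * cyWt η Q)) * ∑ J ∈ ivs k0 i0 kr, (lam J).real (S j J) := by
  obtain ⟨CK, hCK, H⟩ := hz_pkk_main hK η h0 h1
  refine ⟨CK, hCK, ?_⟩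
  intro p hp k0 i0 kr z hk Q W q hr hf hW hq lam hlam m S bb hS hpart hbb hreg Bc D
  rw [hz_pks_reindex k0 i0 kr z hk]
  obtain ⟨R', hR'⟩ : ∃ R', R' = 2 * (W * ((2 : ℝ)⁻¹ ^ kr * Q.f)) / q + 1 := ⟨_, rfl⟩
  obtain ⟨c, hc⟩ : ∃ c : ℕ → ℝ, c = fun j => Real.sqrt (CK * (z + 1) * (bb j * W * cyWt η Q)) := ⟨_, rfl⟩
  have hc0 : ∀ j, 0 ≤ c j := fun j => by rw [hc]; exact Real.sqrt_nonneg _
  have hRW : 0 ≤ W * ((2 : ℝ)⁻¹ ^ kr * Q.f) := by positivity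
  have perJ : ∀ J ∈ ivs k0 i0 kr,
      ∑ n ∈ Finset.range (2 ^ z), ∑ β ∈ Bc, ∑ d ∈ D (J * 2 ^ z + n),
        ((lam (ancI (kr + z) kr (J * 2 ^ z + n))).real (hzPkW p Q (tmL k0 i0) kr z W q (J * 2 ^ z + n) d β)) ^ (3 / 2 : ℝ)
      ≤ Real.sqrt m * R' * ∑ j ∈ Finset.range m, c j * (lam J).real (S j J) := by
    intro J hJ
    have := hlam J
    obtain ⟨QJ, hQJ⟩ : ∃ QJ, QJ = hzFr Q (tmL kr J - tmL k0 i0) := ⟨_, rfl⟩
    have hQr : QJ.r = Q.r := by rw [hQJ]; rfl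
    have hQf : QJ.f = Q.f := by rw [hQJ]; rfl
    have hQw : cyWt η QJ = cyWt η Q := by rw [hQJ]; rfl
    obtain ⟨X, hX⟩ : ∃ X : ℕ → ℤ → ℤ × ℤ → ℕ → ℝ, X = fun (n : ℕ) (β : ℤ) d j => ((lam J).restrict (S j J)).real
        (hzPkN p QJ (tmL kr J) ((2 : ℝ)⁻¹ ^ kr) W ((β : ℝ) * q)
          ∩ hzPkS p QJ (tmL kr J) ((n : ℝ) * (2 : ℝ)⁻¹ ^ (kr + z)) ((2 : ℝ)⁻¹ ^ (kr + z)) d) :=
      ⟨_, rfl⟩
    have hX0 : ∀ n β d j, 0 ≤ X n β d j := fun n β d j => by rw [hX]; exact measureReal_nonneg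
    have e1 : ∀ n ∈ Finset.range (2 ^ z), ∀ β d,
        (lam (ancI (kr + z) kr (J * 2 ^ z + n))).real (hzPkW p Q (tmL k0 i0) kr z W q (J * 2 ^ z + n) d β)
          = ∑ j ∈ Finset.range m, X n β d j := by
      intro n hn β d
      have hn' := Finset.mem_range.1 hn
      rw [hz_pkk_anc kr z J n hn', hz_pkk_wn p Q (tmL k0 i0) kr z W q J n hn' d β, ← hQJ,
        hz_pks_part (lam J) m (fun j => S j J) (fun j => hS j J) (hpart J hJ) _
          ((hz_pkk_N_meas p hp QJ _ _ W _).inter (hz_pkk_S_meas p hp QJ _ _ _ d)), hX]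
      exact Finset.sum_congr rfl fun j _ => (measureReal_restrict_apply' (hS j J)).symm
    have s1 : ∑ n ∈ Finset.range (2 ^ z), ∑ β ∈ Bc, ∑ d ∈ D (J * 2 ^ z + n),
        ((lam (ancI (kr + z) kr (J * 2 ^ z + n))).real (hzPkW p Q (tmL k0 i0) kr z W q (J * 2 ^ z + n) d β)) ^ (3 / 2 : ℝ)
        ≤ ∑ n ∈ Finset.range (2 ^ z), ∑ β ∈ Bc, ∑ d ∈ D (J * 2 ^ z + n),
          Real.sqrt m * ∑ j ∈ Finset.range m, X n β d j ^ (3 / 2 : ℝ) := by
      refine Finset.sum_le_sum fun n hn => Finset.sum_le_sum fun β _ => Finset.sum_le_sum fun d _ => ?_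
      rw [e1 n hn β d]
      exact hz_pks_holder m _ (hX0 n β d)
    rw [hz_pks_comm (2 ^ z) m Bc (fun n => D (J * 2 ^ z + n)) (Real.sqrt m) (fun n β d j => X n β d j ^ (3 / 2 : ℝ))] at s1
    refine s1.trans ?_
    rw [mul_assoc]
    refine mul_le_mul_of_nonneg_left ?_ (Real.sqrt_nonneg _)
    rw [Finset.mul_sum]
    refine Finset.sum_le_sum fun j hj => ?_
    have hj' := Finset.mem_range.1 hj
    have s3 : ∀ β ∈ Bc, ∑ n ∈ Finset.range (2 ^ z), ∑ d ∈ D (J * 2 ^ z + n), X n β d j ^ (3 / 2 : ℝ)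
        ≤ c j * ((lam J).restrict (S j J)).real (hzPkN p QJ (tmL kr J) ((2 : ℝ)⁻¹ ^ kr) W (β * q)) := by
      intro β _
      have := H p hp ((lam J).restrict (S j J)) QJ (tmL kr J) kr z W (β * q) (bb j) (by rw [hQr]; exact hr) (by rw [hQf]; exact hf) hW
        (hbb j) (fun j' hj'' x b y => by
          rw [measureReal_restrict_apply' (hS j J), hQJ]
          exact hreg j hj' J hJ j' hj'' x b y (β * q)) (fun n => D (J * 2 ^ z + n))
      rw [hQw] at this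
      rw [hX, hc]
      exact this
    have s4 := hz_pkk_ovl p hp ((lam J).restrict (S j J)) QJ (tmL kr J) ((2 : ℝ)⁻¹ ^ kr) W q hq (by rw [hQf]; exact hRW) Bc
    rw [hQf, ← hR', measureReal_restrict_apply_univ] at s4
    calc ∑ β ∈ Bc, ∑ n ∈ Finset.range (2 ^ z), ∑ d ∈ D (J * 2 ^ z + n), X n β d j ^ (3 / 2 : ℝ)
        ≤ ∑ β ∈ Bc, c j * ((lam J).restrict (S j J)).real (hzPkN p QJ (tmL kr J) ((2 : ℝ)⁻¹ ^ kr) W (β * q)) := Finset.sum_le_sum s3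
      _ = c j * ∑ β ∈ Bc, ((lam J).restrict (S j J)).real (hzPkN p QJ (tmL kr J) ((2 : ℝ)⁻¹ ^ kr) W (β * q)) := by rw [Finset.mul_sum]
      _ ≤ c j * (R' * (lam J).real (S j J)) := mul_le_mul_of_nonneg_left s4 (hc0 j)
      _ = R' * (c j * (lam J).real (S j J)) := by ring
  refine (Finset.sum_le_sum perJ).trans (le_of_eq ?_)
  rw [← Finset.mul_sum, Finset.sum_comm, ← hR']
  congr 1
  refine Finset.sum_congr rfl fun j _ => ?_
  rw [← Finset.mul_sum, hc]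

end Claimed.Agent.R256
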