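import Claimed.Agent.R256.Hz.Grp
import Claimed.Agent.R256.Hz.Fg

/-!
# Row 256, unit HZ, file 7: REDUCTION OF AN EXPERIMENT TO GROUPS      (chief helper82; prefix `hz_`)      03 l.605-690 ("Initial localization", (HL))

`E` valid, in the frame `Q0`, zero costs (`HzFlat`).   `F0 = An v` root rows, `v = An† F0` (`gn_adj_an`, every state is in every plateau class: `hy_an_norm`).   `m ≤ C` stages.   `Λ = n`, `N1 = (2C+5) n`, `σ = s^-τ`.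
 1. (T) + (N): the cell of a label with `m l ≠ 0` meets `≤ N0 = 2·10^5 σ³ (ℓf f0/q(kf)) ≤ 2·10^5 s^(-7τ/2)` values of the index `x ↦ (g, c) = (hzGi .., hzCell (frame of g) ..)` at the time of the label  (`hz_cost_unfold`, `hz_taylor`, `hz_count`).
 2. (AL) `hz_lattice`: `Σ_{l : iv l = i} m_l^(3/2) ≤ N0^(1/2) Σ_{(g,c) ∈ 𝒞 i} M_i(g,c)^(3/2)`, `M_i(g,c)` = mass of `fin i` in the cell.
 3. NEAR groups `|g|_∞ ≤ P`, `P = ⌈3 s^-C + (3C+5) n⌉ + 1`:  `G_g` = frame `hzGf Q0 ℓ0 g`, rows `F_g = 1_{g+} F0`, `g+ = hzGp (frame) ℓ0 N1`, budget `e_g = max (‖F_g‖², s^A1 e)`.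
    `v = G_g.v + w_g`, `w_g = An† (1_{(g+)ᶜ} F0)`;  `M_i(g,c)^(1/2) ≤ mf (G_g.v)^(1/2) + mf (w_g)^(1/2)` (`gn_en_tri`),  `(x+y)³ ≤ 4 (x³ + y³)`;
    `Σ_c mf w_g (cell)^(3/2) ≤ (mf w_g (R_g i))^(3/2)`, `R_g i` = rows of group index `g` ⊆ `X`-bin × normal box `(f0/2, ℓ0 f0)` of the transported frame (`hz_gi_mem`);   (BL) `hz_red_bwd`: `mf w_g (R_g i) ≤ ε² e`.
 4. FAR groups: all their cells together lie outside the normal box `(P f0, P ℓ0 f0)`-ish of the transported `Q0` or outside the base support: (FW) `hy_tl_chain` + `CySet.tail`, `CySet.supp` + `hy_tl_run`: mass `≤ (2 s^A + 2 ε²) e`.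
 5. `G_g.Ok C' τ`: (OK) `hz_red_ok`.     6. `Σ_g e_g ≤ ((2N1+2)² + 1) e ≤ s^-τ e`: every root row lies in `≤ (2N1+2)²` sets `g+` and `#near · s^A1 ≤ 1`.
-/

set_option autoImplicit false

namespace Claimed.Agent.R256

open MeasureTheory
open scoped ENNReal

/-- superadditivity of the power `3/2` -/
theorem hz_al_super {ι : Type*} (s : Finset ι) (x : ι → ℝ) (hx : ∀ i ∈ s, 0 ≤ x i) : ∑ i ∈ s, x i ^ (3 / 2 : ℝ) ≤ (∑ i ∈ s, x i) ^ (3 / 2 : ℝ) := by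
  have hT : 0 ≤ ∑ i ∈ s, x i := Finset.sum_nonneg hx
  have e32 : ∀ y : ℝ, 0 ≤ y → y ^ (3 / 2 : ℝ) = y * y ^ (1 / 2 : ℝ) := by
    intro y hy
    rcases hy.eq_or_lt with rfl | hy
    · rw [Real.zero_rpow (by norm_num), zero_mul]
    · nth_rewrite 2 [← Real.rpow_one y]
      rw [← Real.rpow_add hy]
      norm_num
  calc ∑ i ∈ s, x i ^ (3 / 2 : ℝ) = ∑ i ∈ s, x i * x i ^ (1 / 2 : ℝ) := Finset.sum_congr rfl fun i hi => e32 _ (hx i hi)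
    _ ≤ ∑ i ∈ s, x i * (∑ i ∈ s, x i) ^ (1 / 2 : ℝ) := by
        refine Finset.sum_le_sum fun i hi => mul_le_mul_of_nonneg_left ?_ (hx i hi)
        exact Real.rpow_le_rpow (hx i hi) (Finset.single_le_sum hx hi) (by norm_num)
    _ = (∑ i ∈ s, x i) ^ (3 / 2 : ℝ) := by rw [← Finset.sum_mul, e32 _ hT]

/-- **(AL) ABSTRACT LATTICE LEMMA.**   `∫ θ_l dμ = Σ_{j ∈ S l} ∫_{c = j} θ_l dμ`;  Hölder `(Σ_{j ∈ S l} x_j)^(3/2) ≤ N0^(1/2) Σ x_j^(3/2)`;  for fixed `j`: `Σ_l x_{l,j}^(3/2) ≤ (Σ_l x_{l,j})^(3/2) ≤ μ(c = j)^(3/2)`.   ~250 l. -/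
theorem hz_lattice {X ι : Type} [MeasurableSpace X] [DecidableEq ι] (μ : Measure X) [IsFiniteMeasure μ] {L : ℕ} (θ : Fin L → X → ℝ) (hθ : ∀ l, Measurable (θ l))
    (h0 : ∀ l x, 0 ≤ θ l x) (h1 : ∀ x, ∑ l, θ l x ≤ 1) (c : X → ι) (hc : ∀ j, MeasurableSet (c ⁻¹' {j})) (S : Fin L → Finset ι) (N0 : ℝ)
    (hS : ∀ l, ((S l).card : ℝ) ≤ N0) (hsup : ∀ l x, θ l x ≠ 0 → c x ∈ S l) :
    ∑ l, (∫ x, θ l x ∂μ) ^ (3 / 2 : ℝ) ≤ Real.sqrt N0 * ∑ j ∈ Finset.univ.biUnion S, (μ.real (c ⁻¹' {j})) ^ (3 / 2 : ℝ) := by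
  have hle1 : ∀ l x, θ l x ≤ 1 := fun l x => (Finset.single_le_sum (fun i _ => h0 i x) (Finset.mem_univ l)).trans (h1 x)
  have hint : ∀ l, Integrable (θ l) μ := fun l =>
    Integrable.of_bound (hθ l).aestronglyMeasurable 1 (Filter.Eventually.of_forall fun x => by
      rw [Real.norm_of_nonneg (h0 l x)]
      exact hle1 l x)
  obtain ⟨xx, hxx⟩ : ∃ xx : Fin L → ι → ℝ, xx = fun l j => ∫ x in c ⁻¹' {j}, θ l x ∂μ := ⟨_, rfl⟩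
  have hx0 : ∀ l j, 0 ≤ xx l j := fun l j => by
    rw [hxx]
    exact integral_nonneg fun x => h0 l x
  -- (a)
  have ha : ∀ l, ∫ x, θ l x ∂μ = ∑ j ∈ S l, xx l j := by
    intro l
    rw [hxx]
    simp only
    have e : ∀ j, ∫ x in c ⁻¹' {j}, θ l x ∂μ = ∫ x, (c ⁻¹' {j}).indicator (θ l) x ∂μ := fun j => (integral_indicator (hc j)).symm
    simp only [e]
    rw [← integral_finsetSum _ (fun j _ => (hint l).indicator (hc j))]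
    refine integral_congr_ae (Filter.Eventually.of_forall fun x => ?_)
    show θ l x = ∑ j ∈ S l, (c ⁻¹' {j}).indicator (θ l) x
    by_cases hx : θ l x = 0
    · rw [hx]
      symm
      refine Finset.sum_eq_zero fun j _ => ?_
      by_cases hj : x ∈ c ⁻¹' {j}
      · rw [Set.indicator_of_mem hj, hx]
      · rw [Set.indicator_of_notMem hj]
    · rw [Finset.sum_eq_single (c x)]
      · rw [Set.indicator_of_mem (show x ∈ c ⁻¹' {c x} from rfl)]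
      · intro j _ hj
        exact Set.indicator_of_notMem (s := c ⁻¹' {j}) (fun h : c x = j => hj h.symm) (θ l)
      · intro h
        exact absurd (hsup l x hx) h
  -- (e)
  have he : ∀ j, ∑ l, xx l j ≤ μ.real (c ⁻¹' {j}) := by
    intro j
    rw [hxx]
    simp only
    rw [← integral_finsetSum _ (fun l _ => (hint l).integrableOn)]
    calc ∫ x in c ⁻¹' {j}, ∑ l, θ l x ∂μ ≤ ∫ _x in c ⁻¹' {j}, (1 : ℝ) ∂μ := by
          refine integral_mono ?_ (integrable_const _) fun x => h1 x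
          exact integrable_finsetSum _ fun l _ => (hint l).integrableOn
      _ = μ.real (c ⁻¹' {j}) := by simp
  have hb : ∀ l, (∑ j ∈ S l, xx l j) ^ (3 / 2 : ℝ) ≤ Real.sqrt N0 * ∑ j ∈ S l, xx l j ^ (3 / 2 : ℝ) := by
    intro l
    have h := Real.rpow_sum_le_const_mul_sum_rpow_of_nonneg (S l) (p := 3 / 2) (f := xx l) (by norm_num) (fun j _ => hx0 l j)
    refine h.trans ?_
    have hs : ((S l).card : ℝ) ^ ((3 / 2 : ℝ) - 1) ≤ Real.sqrt N0 := by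
      rw [Real.sqrt_eq_rpow]
      have : (3 / 2 : ℝ) - 1 = 1 / 2 := by norm_num
      rw [this]
      exact Real.rpow_le_rpow (Nat.cast_nonneg _) (hS l) (by norm_num)
    exact mul_le_mul_of_nonneg_right hs (Finset.sum_nonneg fun j _ => Real.rpow_nonneg (hx0 l j) _)
  calc ∑ l, (∫ x, θ l x ∂μ) ^ (3 / 2 : ℝ) = ∑ l, (∑ j ∈ S l, xx l j) ^ (3 / 2 : ℝ) := by simp only [ha]
    _ ≤ ∑ l, Real.sqrt N0 * ∑ j ∈ S l, xx l j ^ (3 / 2 : ℝ) := Finset.sum_le_sum fun l _ => hb l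
    _ ≤ ∑ l, Real.sqrt N0 * ∑ j ∈ Finset.univ.biUnion S, xx l j ^ (3 / 2 : ℝ) := by
        refine Finset.sum_le_sum fun l _ => mul_le_mul_of_nonneg_left ?_ (Real.sqrt_nonneg _)
        exact Finset.sum_le_sum_of_subset_of_nonneg (Finset.subset_biUnion_of_mem S (Finset.mem_univ l)) fun j _ _ => Real.rpow_nonneg (hx0 l j) _
    _ = Real.sqrt N0 * ∑ j ∈ Finset.univ.biUnion S, ∑ l, xx l j ^ (3 / 2 : ℝ) := by rw [← Finset.mul_sum, Finset.sum_comm]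
    _ ≤ Real.sqrt N0 * ∑ j ∈ Finset.univ.biUnion S, (μ.real (c ⁻¹' {j})) ^ (3 / 2 : ℝ) := by
        refine mul_le_mul_of_nonneg_left (Finset.sum_le_sum fun j _ => ?_) (Real.sqrt_nonneg _)
        refine (hz_al_super _ _ fun l _ => hx0 l j).trans ?_
        exact Real.rpow_le_rpow (Finset.sum_nonneg fun l _ => hx0 l j) (he j) (by norm_num)

/-- **(BL) BACKWARD LOCALITY, GLOBAL FORM.**   Rows `F` vanishing on the enlarged root cell of a frame `Q`: the branch has negligible mass in the `X`-bin × normal box `(f/2, ℓ0 f)` of the transported frame.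
PLAN: fibre by fibre (`hy_run_rows`, `hy_lk_ae`, `hy_lk_lint`, `hy_tl_ms_lint`) from `hz_loc_bwd` with `θ = vo`, `x = po`, `W = f/2`, `R = ℓ0 f` (`hz_vo`, `hz_po`, `hz_vo_fr`, `hz_po_fr`);  `d(kf) ≤ f`, `q(k0) = ℓ0 d(k0) ≤ ℓ0 f`:
the enlarged box is contained in `(N1 f, N1 ℓ0 f)` as soon as `(2m+5) Λ ≤ N1`.   Or at the operator level, as `hy_tl_chain`, with shrinking boxes.   ~450 l. -/
theorem hz_red_bwd (η : ℝ) (p : ChyPar) (h : p.Ok) (k0 i0 kf i : ℕ) (hi : i ∈ ivs k0 i0 kf) (hk : k0 ≤ kf) (st : List (Stg (p.sys η))) (hst : StM st)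
    (hdep : ∀ σ ∈ st, k0 ≤ σ.k ∧ σ.k ≤ kf) (hmono : st.Pairwise fun σ σ' => σ.k ≤ σ'.k) (Q : CyT) (hf : 0 < Q.f) (hpl : p.dl kf ≤ Q.f) (Λ N1 : ℝ) (hΛ : 1 ≤ Λ)
    (hN : (2 * st.length + 5) * Λ ≤ N1) (F : Lp p.Fb 2 p.rw)
    (hF : ∀ᵐ x ∂p.rw, p.co (tmL k0 i0) x ∈ hzGp Q ((2 : ℝ)⁻¹ ^ k0) N1 → (F : p.Om × ℝ × ℝ → p.Fb) x = 0) :
    (p.sys η).ms (tmL kf i) kf 0 ({x | |(p.co (tmL kf i) x).X - Q.x| ≤ Q.r / 2} ∩ hyBx p (hzFr Q (tmL kf i - tmL k0 i0)) (tmL kf i) (Q.f / 2) ((2 : ℝ)⁻¹ ^ k0 * Q.f))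
        (Xp.run kf i st (ContinuousLinearMap.adjoint ((p.sys η).An (tmL k0 i0) k0 0) F))
      ≤ ((st.length + 1) * 52 * Real.exp (-(Λ ^ 2 / 40))) ^ 2 * 2 ^ (((kf : ℝ) - k0) / 2) * ‖F‖ ^ 2 := by
  have hanc : ancI kf k0 i = i0 := (gn_mem_ivs k0 i0 kf i).1 hi
  have hl0 : (0 : ℝ) < (2 : ℝ)⁻¹ ^ k0 := by positivity
  have hSm : MeasurableSet ({x : p.Om × ℝ × ℝ | |(p.co (tmL kf i) x).X - Q.x| ≤ Q.r / 2} ∩
      hyBx p (hzFr Q (tmL kf i - tmL k0 i0)) (tmL kf i) (Q.f / 2) ((2 : ℝ)⁻¹ ^ k0 * Q.f)) :=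
    (measurableSet_le ((hy_tl_mX p h (tmL kf i)).sub_const _).abs measurable_const).inter (hy_tl_mBx p h _ _ _ _)
  refine hz_fg_le p h η kf i st hst (tmL k0 i0) k0 F 0 0 hSm _ (by positivity) ?_
  filter_upwards [hz_fg_memLp p h F, hy_lk_ae p h hF] with ω hmem hzero
  set φ := p.fib ω with hφ
  have hφok : φ.Ok := hy_fib_ok p h ω
  set l := st.map (p.fst η ω) with hl
  have hlen : l.length = st.length := by rw [hl, List.length_map]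
  have hstk : HzStk k0 kf l := hz_fg_stk p η k0 kf st hst hdep hmono ω
  by_cases hX : |p.X ω - Q.x| ≤ Q.r / 2
  swap
  · -- empty fibre
    have he : {ρ : ℝ × ℝ | (ω, ρ) ∈ ({x : p.Om × ℝ × ℝ | |(p.co (tmL kf i) x).X - Q.x| ≤ Q.r / 2} ∩
        hyBx p (hzFr Q (tmL kf i - tmL k0 i0)) (tmL kf i) (Q.f / 2) ((2 : ℝ)⁻¹ ^ k0 * Q.f))} = ∅ := by
      ext ρ
      simp only [Set.mem_ofPred_eq, Set.mem_inter_iff, Set.mem_empty_iff_false, iff_false, not_and]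
      intro h1
      exact absurd h1 hX
    rw [he, Measure.restrict_empty, lintegral_zero_measure]
    exact bot_le
  -- the data of the fibre
  set θ := p.vo Q (tmL k0 i0) ω with hθ
  set x0 := p.po Q (tmL k0 i0) ω with hx0
  set t := tmL kf i - tmL k0 i0 with ht
  have hTi : tmL kf i = tmL k0 i0 + t := by rw [ht]; ring
  obtain ⟨hq0, hd0, -, hql, -, -⟩ := hy_qd φ hφok k0
  obtain ⟨-, hdf, -, -, -, -⟩ := hy_qd φ hφok kf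
  have hdm := (hy_qd_mono φ hφok hk).2
  have hdfe : φ.d kf ≤ Q.f := hpl
  -- the big box
  set Wb := Q.f / 2 + (l.length + 1) * Λ * φ.d kf with hWb
  set Rb := (2 : ℝ)⁻¹ ^ k0 * Q.f + (2 : ℝ)⁻¹ ^ k0 * (Q.f / 2 + (l.length + 1) * Λ * φ.d kf) + (l.length + 1) * Λ * φ.q k0 with hRb
  have hm0 : (0 : ℝ) ≤ (l.length : ℝ) := Nat.cast_nonneg _
  have hN' : (2 * (l.length : ℝ) + 5) * Λ ≤ N1 := by rw [hlen]; exact hN
  have hWb_le : Wb ≤ N1 * Q.f := by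
    have h1 : (l.length + 1) * Λ * φ.d kf ≤ (l.length + 1) * Λ * Q.f := mul_le_mul_of_nonneg_left hdfe (by positivity)
    have h2 : Q.f / 2 + (l.length + 1) * Λ * Q.f ≤ (2 * (l.length : ℝ) + 5) * Λ * Q.f := by
      have e : Q.f / 2 + (l.length + 1) * Λ * Q.f = (1 / 2 + ((l.length : ℝ) + 1) * Λ) * Q.f := by ring
      rw [e]
      refine mul_le_mul_of_nonneg_right ?_ hf.le
      nlinarith [mul_nonneg hm0 (by linarith : (0 : ℝ) ≤ Λ)]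
    calc Wb ≤ Q.f / 2 + (l.length + 1) * Λ * Q.f := by rw [hWb]; linarith
      _ ≤ (2 * (l.length : ℝ) + 5) * Λ * Q.f := h2
      _ ≤ N1 * Q.f := mul_le_mul_of_nonneg_right hN' hf.le
  have hRb_le : Rb ≤ N1 * ((2 : ℝ)⁻¹ ^ k0 * Q.f) := by
    have h1 : (l.length + 1) * Λ * φ.d kf ≤ (l.length + 1) * Λ * Q.f := mul_le_mul_of_nonneg_left hdfe (by positivity)
    have h3 : φ.q k0 ≤ (2 : ℝ)⁻¹ ^ k0 * Q.f := by
      rw [hql]
      exact mul_le_mul_of_nonneg_left (hdm.trans hdfe) hl0.le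
    have h4 : (l.length + 1) * Λ * φ.q k0 ≤ (l.length + 1) * Λ * ((2 : ℝ)⁻¹ ^ k0 * Q.f) := mul_le_mul_of_nonneg_left h3 (by positivity)
    have h5 : (2 : ℝ)⁻¹ ^ k0 * (Q.f / 2 + (l.length + 1) * Λ * φ.d kf) ≤ (2 : ℝ)⁻¹ ^ k0 * (Q.f / 2 + (l.length + 1) * Λ * Q.f) :=
      mul_le_mul_of_nonneg_left (by linarith) hl0.le
    have hu : 0 < (2 : ℝ)⁻¹ ^ k0 * Q.f := by positivity
    have h6 : (2 : ℝ)⁻¹ ^ k0 * Q.f + (2 : ℝ)⁻¹ ^ k0 * (Q.f / 2 + (l.length + 1) * Λ * Q.f) + (l.length + 1) * Λ * ((2 : ℝ)⁻¹ ^ k0 * Q.f)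
        ≤ (2 * (l.length : ℝ) + 5) * Λ * ((2 : ℝ)⁻¹ ^ k0 * Q.f) := by
      have e : (2 : ℝ)⁻¹ ^ k0 * Q.f + (2 : ℝ)⁻¹ ^ k0 * (Q.f / 2 + (l.length + 1) * Λ * Q.f) + (l.length + 1) * Λ * ((2 : ℝ)⁻¹ ^ k0 * Q.f)
          = (3 / 2 + 2 * ((l.length : ℝ) + 1) * Λ) * ((2 : ℝ)⁻¹ ^ k0 * Q.f) := by ring
      rw [e]
      refine mul_le_mul_of_nonneg_right ?_ hu.le
      nlinarith [mul_nonneg hm0 (by linarith : (0 : ℝ) ≤ Λ)]
    calc Rb ≤ _ := by rw [hRb]; linarith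
      _ ≤ (2 * (l.length : ℝ) + 5) * Λ * ((2 : ℝ)⁻¹ ^ k0 * Q.f) := h6
      _ ≤ N1 * ((2 : ℝ)⁻¹ ^ k0 * Q.f) := mul_le_mul_of_nonneg_right hN' (by positivity)
  -- truncated input
  set f0 : ℝ × ℝ → p.Fb := fun ρ => (F : p.Om × ℝ × ℝ → p.Fb) (ω, ρ) with hf0
  set f1 : ℝ × ℝ → p.Fb := (hzBx θ Wb x0 Rb)ᶜ.indicator f0 with hf1
  have hbm : MeasurableSet (hzBx θ Wb x0 Rb) := hz_L_bx_meas _ _ _ _
  have hf01 : f0 =ᵐ[φ.nu] f1 := by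
    refine hzero.mono fun ρ hρ => ?_
    by_cases hb : ρ ∈ hzBx θ Wb x0 Rb
    · rw [hf1, Set.indicator_of_notMem (by simpa using hb)]
      refine hρ ⟨hX, ?_, ?_⟩
      · rw [hz_vo]
        exact hb.1.trans hWb_le
      · rw [hz_po]
        exact hb.2.trans hRb_le
    · rw [hf1, Set.indicator_of_mem (by simpa using hb)]
  have hmem1 : MemLp f1 2 φ.nu := hmem.indicator hbm.compl
  have hvan : ∀ ρ ∈ hzBx θ Wb x0 Rb, f1 ρ = 0 := fun ρ hρ => Set.indicator_of_notMem (by simpa using hρ) _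
  have hmain := hz_loc_bwd φ hφok kf i l k0 hk hstk θ (Q.f / 2) x0 ((2 : ℝ)⁻¹ ^ k0 * Q.f) Λ (by positivity) (by positivity) (by linarith) f1 hmem1 hvan
  rw [hanc] at hmain
  rw [hz_fg_congr φ kf i l (tmL k0 i0) k0 f0 f1 hf01]
  have hsub : {ρ : ℝ × ℝ | (ω, ρ) ∈ ({x : p.Om × ℝ × ℝ | |(p.co (tmL kf i) x).X - Q.x| ≤ Q.r / 2} ∩
      hyBx p (hzFr Q (tmL kf i - tmL k0 i0)) (tmL kf i) (Q.f / 2) ((2 : ℝ)⁻¹ ^ k0 * Q.f))}
      ⊆ hzBx θ (Q.f / 2) (x0 + (tmL kf i - tmL k0 i0) * θ) ((2 : ℝ)⁻¹ ^ k0 * Q.f) := by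
    intro ρ hρ
    obtain ⟨-, hv, hp⟩ := hρ
    rw [hz_vo] at hv
    rw [hz_po] at hp
    have e1 : p.vo (hzFr Q (tmL kf i - tmL k0 i0)) (tmL kf i) ω = θ := by
      have := hz_vo_fr p Q (tmL k0 i0) t ω
      rw [← hTi] at this
      exact this
    have e2 : p.po (hzFr Q (tmL kf i - tmL k0 i0)) (tmL kf i) ω = x0 + t * θ := by
      have := hz_po_fr p Q (tmL k0 i0) t ω
      rw [← hTi] at this
      exact this
    rw [e1] at hv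
    rw [e2] at hp
    exact ⟨hv, hp⟩
  refine (lintegral_mono_set hsub).trans (hmain.trans ?_)
  rw [hlen]
  refine mul_le_mul' le_rfl ?_
  refine lintegral_mono fun ρ => ?_
  by_cases hb : ρ ∈ hzBx θ Wb x0 Rb
  · rw [hvan ρ hb]
    simp
  · rw [hf1, Set.indicator_of_mem (by simpa using hb)]

/-- the group number `g` of an experiment -/
noncomputable def hzGrp {η : ℝ} {p : ChyPar} (E : Xp (p.sys η)) (Q0 : CyT) (N1 A1 : ℝ) (g : ℤ × ℤ × ℤ) : HzGr η p where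
  k0 := E.k0
  i0 := E.i0
  n := E.n
  st := E.st
  Q := hzGf Q0 ((2 : ℝ)⁻¹ ^ E.k0) g
  F := (p.sys η).mulR E.k0 ({x | p.co (tmL E.k0 E.i0) x ∈ hzGp (hzGf Q0 ((2 : ℝ)⁻¹ ^ E.k0) g) ((2 : ℝ)⁻¹ ^ E.k0) N1}.indicator fun _ => 1)
    ((p.sys η).An (tmL E.k0 E.i0) E.k0 E.b0 E.v)
  e := max (‖(p.sys η).mulR E.k0 ({x | p.co (tmL E.k0 E.i0) x ∈ hzGp (hzGf Q0 ((2 : ℝ)⁻¹ ^ E.k0) g) ((2 : ℝ)⁻¹ ^ E.k0) N1}.indicator fun _ => 1)
    ((p.sys η).An (tmL E.k0 E.i0) E.k0 E.b0 E.v)‖ ^ 2) (E.s ^ A1 * E.e)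
  ka := E.ka

theorem hz_red_eqns_cite : True := by
  have := @hzGrp.eq_1
  trivial

/-- change of frame of the normalised base coordinates -/
theorem hz_rok_base (Q0 : CyT) (hr : 0 < Q0.r) (l0 : ℝ) (hl : 0 < l0) (g : ℤ × ℤ × ℤ) (z : Cy5) :
    cyBase (hzGf Q0 l0 g) l0 z = ((cyBase Q0 l0 z).1 - ((g.1 : ℝ) + 1 / 2), (cyBase Q0 l0 z).2.1,
      (cyBase Q0 l0 z).2.2 - 2 * ((g.1 : ℝ) + 1 / 2) * (cyBase Q0 l0 z).2.1) := by
  unfold cyBase cyTilt hzGf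
  refine Prod.ext ?_ (Prod.ext ?_ ?_)
  · simp only []
    field_simp
    ring
  · simp only []
  · simp only []
    field_simp
    ring

/-- the shear of the base coordinates preserves the volume -/
theorem hz_rok_shear (a : ℝ) : MeasurePreserving (fun q : ℝ × ℝ × ℝ => (q.1 - a, q.2.1, q.2.2 - 2 * a * q.2.1)) volume volume := by
  have h1 : MeasurePreserving (fun q : ℝ × ℝ => (q.1, q.2 - 2 * a * q.1)) (volume.prod volume) (volume.prod volume) :=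
    MeasurePreserving.skew_product (MeasurePreserving.id volume) (g := fun (B Y : ℝ) => Y - 2 * a * B) (by fun_prop)
      (ae_of_all _ fun B => (measurePreserving_sub_right volume (2 * a * B)).map_eq)
  exact (measurePreserving_sub_right (volume : Measure ℝ) a).prod h1

/-- negative powers of the scale -/
theorem hz_rok_pow {s : ℝ} (hs0 : 0 < s) (m : ℕ) : s ^ (-(m : ℝ)) = (s⁻¹) ^ m := by
  rw [Real.rpow_neg hs0.le, Real.rpow_natCast, inv_pow]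

/-- the size of the base coordinates in the frame of a group -/
theorem hz_rok_size {s : ℝ} (hs0 : 0 < s) (hs : s ≤ 1 / 2) (C : ℕ) {a X B Y : ℝ} (hX : |X| ≤ s ^ (-(C : ℝ))) (hB : |B| ≤ s ^ (-(C : ℝ)))
    (hY : |Y| ≤ s ^ (-(C : ℝ))) (ha : |a| ≤ s ^ (-((C : ℝ) + 1))) :
    max |X - (a + 1 / 2)| (max |B| |Y - 2 * (a + 1 / 2) * B|) ≤ s ^ (-((2 * C + 3 : ℕ) : ℝ)) := by
  have e1 : -((C : ℝ) + 1) = -((C + 1 : ℕ) : ℝ) := by push_cast; ring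
  rw [e1] at ha
  rw [hz_rok_pow hs0] at hX hB hY ha ⊢
  obtain ⟨σ, hσ⟩ : ∃ σ : ℝ, σ = s⁻¹ := ⟨_, rfl⟩
  rw [← hσ] at hX hB hY ha ⊢
  have hσ2 : 2 ≤ σ := by
    rw [hσ, le_inv_comm₀ (by norm_num) hs0]
    linarith
  have hσC : 1 ≤ σ ^ C := one_le_pow₀ (by linarith)
  have p1 : σ ^ (C + 1) = σ ^ C * σ := pow_succ _ _
  have p2 : σ ^ (2 * C + 3) = σ ^ C * σ ^ C * σ * σ * σ := by ring
  obtain ⟨u, hu⟩ : ∃ u : ℝ, u = σ ^ C := ⟨_, rfl⟩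
  rw [p1, ← hu] at ha
  rw [p2, ← hu]
  rw [← hu] at hX hB hY hσC
  have hu0 : 0 < u := by linarith
  have hσ0 : 0 < σ := by linarith
  have f1 : u ≤ u * σ := le_mul_of_one_le_right hu0.le (by linarith)
  have f2 : u * σ ≤ u * (u * σ) := le_mul_of_one_le_left (by positivity) hσC
  have f0 : 4 ≤ σ * σ := by nlinarith
  have f3 : 4 * (u * (u * σ)) ≤ u * u * σ * σ * σ := by
    have : u * (u * σ) * 4 ≤ u * (u * σ) * (σ * σ) := mul_le_mul_of_nonneg_left f0 (by positivity)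
    calc 4 * (u * (u * σ)) = u * (u * σ) * 4 := by ring
      _ ≤ u * (u * σ) * (σ * σ) := this
      _ = u * u * σ * σ * σ := by ring
  refine max_le ?_ (max_le ?_ ?_)
  · have : |X - (a + 1 / 2)| ≤ |X| + |a| + 1 / 2 := by
      have h1 := abs_sub X (a + 1 / 2)
      have h2 := abs_add_le a (1 / 2)
      rw [abs_of_pos (show (0 : ℝ) < 1 / 2 by norm_num)] at h2
      linarith
    linarith
  · linarith
  · have h1 : |Y - 2 * (a + 1 / 2) * B| ≤ |Y| + 2 * (|a| + 1 / 2) * |B| := by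
      have h1 := abs_sub Y (2 * (a + 1 / 2) * B)
      rw [abs_mul, abs_mul, abs_two] at h1
      have h2 := abs_add_le a (1 / 2)
      rw [abs_of_pos (show (0 : ℝ) < 1 / 2 by norm_num)] at h2
      have h3 : 2 * |a + 1 / 2| * |B| ≤ 2 * (|a| + 1 / 2) * |B| := by
        refine mul_le_mul_of_nonneg_right (by linarith) (abs_nonneg _)
      linarith
    have h2 : 2 * (|a| + 1 / 2) * |B| ≤ 2 * (u * σ + 1 / 2) * u :=
      mul_le_mul (by linarith) hB (abs_nonneg _) (by positivity)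
    have h3 : 2 * (u * σ + 1 / 2) * u = 2 * (u * (u * σ)) + u := by ring
    linarith

/-- **(OK)** the groups satisfy the hypotheses of the group estimate.
`reg`: restriction of the root rows, `Valid.reg` (`gn_mulR_ind_setInt`, `gn_ms_eq`);  `sup`: definition (`gn_mulR_coe`), `N1 ≤ s^-τ`;  `supB`, `dens`: `CySet.supp`, `CySet.dens` through the change of frame
`cyBase (frame of g) = (X' - (g₁+1/2), B', Y' - 2 (g₁+1/2) B')` of `cyBase Q0` = a measure preserving shear; `|g₁| ≤ P`: size `≤ s^-C + 2 (P+1) s^-C + P + 1`;  `ek`: `s^A1 e ≤ e_g ≤ e`, `cyWt` unchanged;  `pl`: `HzFlat.planck`, `Valid.ts_ok` needs ONE label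
(if `E.L = 0` there is nothing to prove in `hz_reduce`: the hypothesis `hpl` is supplied there).   ~600 l. -/
theorem hz_red_ok (η : ℝ) (C : ℕ) (A1 : ℕ) : ∃ C' : ℕ, ∀ (τ : ℝ), 0 < τ → ∀ (p : ChyPar) (E : Xp (p.sys η)) (Q0 : CyT) (A : ℕ) (N1 : ℝ) (g : ℤ × ℤ × ℤ),
    1 ≤ E.n → E.Valid → E.st.length ≤ C → (sfHy η).af C A p E Q0 → E.s ^ (1 + τ) ≤ p.H * 2 ^ E.k0 / Q0.f ^ 2 → p.dl E.kf ≤ Q0.f →
    1 ≤ N1 → N1 ≤ E.s ^ (-τ) → |(g.1 : ℝ)| ≤ E.s ^ (-((C : ℝ) + 1)) →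
    (hzGrp E Q0 N1 A1 g).Ok C' τ := by
  refine ⟨2 * C + 3 + A1, ?_⟩
  intro τ hτ p E Q0 A N1 g hn hV hlen haf hpl1 hpl2 hN1 hN2 hg
  obtain ⟨hp, hS, -, -⟩ := haf
  have hs0 : 0 < E.s := by
    unfold Xp.s
    positivity
  have hs1 : E.s ≤ 1 / 2 := by
    unfold Xp.s
    calc (2 : ℝ)⁻¹ ^ E.n ≤ (2 : ℝ)⁻¹ ^ 1 := pow_le_pow_of_le_one (by norm_num) (by norm_num) hn
      _ = 1 / 2 := by norm_num
  have hs1' : E.s ≤ 1 := by linarith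
  obtain ⟨l0, hl0⟩ : ∃ l0 : ℝ, l0 = (2 : ℝ)⁻¹ ^ E.k0 := ⟨_, rfl⟩
  have hl0p : 0 < l0 := by
    rw [hl0]
    positivity
  obtain ⟨T0, hT0⟩ : ∃ T0 : ℝ, T0 = tmL E.k0 E.i0 := ⟨_, rfl⟩
  obtain ⟨Qg, hQg⟩ : ∃ Qg : CyT, Qg = hzGf Q0 l0 g := ⟨_, rfl⟩
  have hQr : Qg.r = Q0.r := by rw [hQg]; rfl
  have hQf : Qg.f = Q0.f := by rw [hQg]; rfl
  have hr := hS.r_pos
  have hf := hS.f_pos
  have hwt : cyWt η Qg = cyWt η Q0 := by
    unfold cyWt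
    rw [hQr, hQf]
  have hwt0 : 0 < cyWt η Q0 := by
    unfold cyWt
    exact mul_pos (Real.rpow_pos_of_pos hr _) (Real.rpow_pos_of_pos hf _)
  have hkw : 0 < E.ka * cyWt η Q0 := mul_pos hV.ka_pos hwt0
  obtain ⟨Sg, hSg⟩ : ∃ Sg : Set (p.Om × ℝ × ℝ), Sg = {x | p.co T0 x ∈ hzGp Qg l0 N1} := ⟨_, rfl⟩
  have hSgm : MeasurableSet Sg := by
    rw [hSg]
    exact (measurableSet_le ((hy_tl_mX p hp T0).sub_const _).abs measurable_const).inter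
      ((measurableSet_le (hy_tl_mVel p hp Qg T0).abs measurable_const).inter
        (measurableSet_le (hy_tl_mPos p hp Qg T0).abs measurable_const))
  obtain ⟨F0, hF0⟩ : ∃ F0 : Lp p.Fb 2 p.rw, F0 = (p.sys η).An T0 E.k0 E.b0 E.v := ⟨_, rfl⟩
  obtain ⟨Fg, hFg⟩ : ∃ Fg : Lp p.Fb 2 p.rw, Fg = (p.sys η).mulR E.k0 (Sg.indicator fun _ => 1) F0 := ⟨_, rfl⟩
  have hmask : IsMask (Sg.indicator fun _ => (1 : ℝ)) := gn_mask_ind hSgm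
  have hcoe : (Fg : p.Om × ℝ × ℝ → p.Fb) =ᵐ[p.rw] fun x => (((Sg.indicator fun _ => (1 : ℝ)) x : ℝ) : ℂ) • (F0 : p.Om × ℝ × ℝ → p.Fb) x := by
    rw [hFg]
    exact gn_mulR_coe (P := p.sys η) E.k0 hmask F0
  have hFgn : ‖Fg‖ ^ 2 ≤ E.e := by
    have h1 : ‖Fg‖ ≤ ‖F0‖ := by
      rw [hFg]
      exact gn_mulR_norm_le (P := p.sys η) E.k0 hmask F0
    have h2 : ‖F0‖ = ‖E.v‖ := by
      rw [hF0]
      exact hV.plat T0 E.k0
    calc ‖Fg‖ ^ 2 ≤ ‖E.v‖ ^ 2 := pow_le_pow_left₀ (norm_nonneg _) (h1.trans h2.le) 2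
      _ ≤ E.e := hV.budget
  obtain ⟨eg, heg⟩ : ∃ eg : ℝ, eg = max (‖Fg‖ ^ 2) (E.s ^ (A1 : ℝ) * E.e) := ⟨_, rfl⟩
  have hsA0 : 0 < E.s ^ (A1 : ℝ) := Real.rpow_pos_of_pos hs0 _
  have hsA1 : E.s ^ (A1 : ℝ) ≤ 1 := Real.rpow_le_one hs0.le hs1' (Nat.cast_nonneg _)
  have heg1 : E.s ^ (A1 : ℝ) * E.e ≤ eg := by
    rw [heg]
    exact le_max_right _ _
  have heg2 : eg ≤ E.e := by
    rw [heg]
    exact max_le hFgn (mul_le_of_le_one_left hV.e_pos.le hsA1)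
  have heg0 : 0 < eg := lt_of_lt_of_le (mul_pos hsA0 hV.e_pos) heg1
  have hCC : ((2 * C + 3 + A1 : ℕ) : ℝ) = 2 * (C : ℝ) + 3 + A1 := by push_cast; ring
  have hC0 : (0 : ℝ) ≤ C := Nat.cast_nonneg _
  have hA0 : (0 : ℝ) ≤ A1 := Nat.cast_nonneg _
  -- the identification of the group
  have hG : hzGrp E Q0 N1 A1 g = ⟨E.k0, E.i0, E.n, E.st, Qg, Fg, eg, E.ka⟩ := by
    rw [heg, hFg, hF0, hSg, hQg, hT0, hl0]
    rfl
  rw [hG]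
  have hdens0 : E.s ^ (-(C : ℝ)) * E.e ≤ E.s ^ (-((2 * C + 3 + A1 : ℕ) : ℝ)) * eg := by
    have h1 : E.s ^ (-(C : ℝ)) = E.s ^ (-(C : ℝ) - A1) * E.s ^ (A1 : ℝ) := by
      rw [← Real.rpow_add hs0]
      congr 1
      ring
    have h2 : E.s ^ (-(C : ℝ) - A1) ≤ E.s ^ (-((2 * C + 3 + A1 : ℕ) : ℝ)) :=
      Real.rpow_le_rpow_of_exponent_ge hs0 hs1' (by rw [hCC]; linarith)
    calc E.s ^ (-(C : ℝ)) * E.e = E.s ^ (-(C : ℝ) - A1) * (E.s ^ (A1 : ℝ) * E.e) := by rw [h1]; ring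
      _ ≤ E.s ^ (-((2 * C + 3 + A1 : ℕ) : ℝ)) * eg :=
          mul_le_mul h2 heg1 (mul_pos hsA0 hV.e_pos).le (Real.rpow_pos_of_pos hs0 _).le
  have hle : ∀ᵐ x ∂p.rw, ‖(Fg : p.Om × ℝ × ℝ → p.Fb) x‖ₑ ^ 2 ≤ ‖(F0 : p.Om × ℝ × ℝ → p.Fb) x‖ₑ ^ 2 := by
    filter_upwards [hcoe] with x hx
    rw [hx]
    by_cases hxS : x ∈ Sg <;> simp [hxS]
  refine
    { par := hp
      len := by
        show E.st.length ≤ 2 * C + 3 + A1
        omega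
      msk := fun σ hσ i => ⟨hV.st_meas σ hσ i, hV.st_bd σ hσ i⟩
      dep := hV.st_dep
      mono := hV.st_mono
      r_pos := by
        show 0 < Qg.r
        rw [hQr]
        exact hr
      f_pos := by
        show 0 < Qg.f
        rw [hQf]
        exact hf
      e_pos := heg0
      ka_pos := hV.ka_pos
      en := by
        show ‖Fg‖ ^ 2 ≤ eg
        rw [heg]
        exact le_max_left _ _
      reg := ?_
      sup := ?_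
      supB := ?_
      dens := ?_
      ek_lo := ?_
      ek_hi := ?_
      pl_lo := by
        show E.s ^ (1 + τ) ≤ p.H * 2 ^ E.k0 / Qg.f ^ 2
        rw [hQf]
        exact hpl1
      pl_hi := by
        show p.dl E.kf ≤ Qg.f
        rw [hQf]
        exact hpl2 }
  · -- raw regularity
    intro Q' hQ'
    show ∫ x in (p.sys η).cell Q' (tmL E.k0 E.i0) E.k0, ‖(Fg : p.Om × ℝ × ℝ → p.Fb) x‖ ^ 2 ∂p.rw ≤ E.ka * cyWt η Q'
    rw [← hT0]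
    have hcm : MeasurableSet ((p.sys η).cell Q' T0 E.k0) := hy_fl_cell_meas p hp Q' _ T0
    have h1 : ∫ x in (p.sys η).cell Q' T0 E.k0, ‖(Fg : p.Om × ℝ × ℝ → p.Fb) x‖ ^ 2 ∂p.rw
        ≤ ∫ x in (p.sys η).cell Q' T0 E.k0, ‖(F0 : p.Om × ℝ × ℝ → p.Fb) x‖ ^ 2 ∂p.rw := by
      rw [hFg]
      exact gn_mulR_setInt_le (P := p.sys η) E.k0 hmask hcm F0
    have h2 : (p.sys η).ms T0 E.k0 E.b0 ((p.sys η).cell Q' T0 E.k0) E.v
        = ∫ x in (p.sys η).cell Q' T0 E.k0, ‖(F0 : p.Om × ℝ × ℝ → p.Fb) x‖ ^ 2 ∂p.rw := by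
      rw [hF0]
      exact gn_ms_eq (P := p.sys η) T0 E.k0 E.b0 hcm E.v
    have h3 := hV.reg Q' hQ'
    rw [← hT0] at h3
    exact h1.trans (h2 ▸ h3)
  · -- support in the enlarged cell
    show ∀ᵐ x ∂p.rw, (Fg : p.Om × ℝ × ℝ → p.Fb) x ≠ 0 → p.co (tmL E.k0 E.i0) x ∈ hzGp Qg ((2 : ℝ)⁻¹ ^ E.k0) (E.s ^ (-τ))
    rw [← hT0, ← hl0]
    filter_upwards [hcoe] with x hx hne
    have hxS : x ∈ Sg := by
      by_contra hxS
      apply hne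
      rw [hx]
      simp [hxS]
    rw [hSg] at hxS
    obtain ⟨a1, a2, a3⟩ := hxS
    have hfg : 0 < Qg.f := by rw [hQf]; exact hf
    exact ⟨a1, a2.trans (mul_le_mul_of_nonneg_right hN2 hfg.le), a3.trans (mul_le_mul_of_nonneg_right hN2 (by positivity))⟩
  · -- polynomial base support
    show ∀ᵐ x ∂p.rw, (Fg : p.Om × ℝ × ℝ → p.Fb) x ≠ 0 →
      cyBaseSz Qg ((2 : ℝ)⁻¹ ^ E.k0) (p.co (tmL E.k0 E.i0) x) ≤ E.s ^ (-((2 * C + 3 + A1 : ℕ) : ℝ))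
    rw [← hT0, ← hl0]
    have hBm : MeasurableSet {x : p.Om × ℝ × ℝ | E.s ^ (-(C : ℝ)) < cyBaseSz Q0 l0 (p.co T0 x)} := hy_tg_base_meas p hp Q0 l0 T0 _
    have hz : ∀ᵐ x ∂p.rw, x ∈ {x : p.Om × ℝ × ℝ | E.s ^ (-(C : ℝ)) < cyBaseSz Q0 l0 (p.co T0 x)} → (F0 : p.Om × ℝ × ℝ → p.Fb) x = 0 := by
      have h1 := hy_tl_ms_lint p hp η T0 E.k0 E.b0 hBm E.v
      have h2 := hS.supp
      rw [← hT0, ← hl0] at h2
      have h0 := (congrArg ENNReal.ofReal h2).trans ENNReal.ofReal_zero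
      have h3 : AEMeasurable (fun x => ‖(F0 : p.Om × ℝ × ℝ → p.Fb) x‖ₑ ^ 2)
          (p.rw.restrict {x : p.Om × ℝ × ℝ | E.s ^ (-(C : ℝ)) < cyBaseSz Q0 l0 (p.co T0 x)}) :=
        ((Lp.aestronglyMeasurable F0).enorm.pow_const 2).restrict
      have h4 : ∫⁻ x in {x : p.Om × ℝ × ℝ | E.s ^ (-(C : ℝ)) < cyBaseSz Q0 l0 (p.co T0 x)}, ‖(F0 : p.Om × ℝ × ℝ → p.Fb) x‖ₑ ^ 2 ∂p.rw = 0 := by
        rw [hF0]
        exact h1.symm.trans h0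
      have h5 := (lintegral_eq_zero_iff' h3).1 h4
      rw [Filter.EventuallyEq, ae_restrict_iff' hBm] at h5
      filter_upwards [h5] with x hx hxB
      have := hx hxB
      simpa using this
    filter_upwards [hcoe, hz] with x h1 h2 hne
    have hF : (F0 : p.Om × ℝ × ℝ → p.Fb) x ≠ 0 := by
      intro h0
      apply hne
      rw [h1, h0, smul_zero]
    have hsz : cyBaseSz Q0 l0 (p.co T0 x) ≤ E.s ^ (-(C : ℝ)) := not_lt.1 fun hb => hF (h2 hb)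
    unfold cyBaseSz at hsz ⊢
    rw [hQg, hz_rok_base Q0 hr l0 hl0p g]
    have hX := (le_max_left _ _).trans hsz
    have hB := ((le_max_left _ _).trans (le_max_right _ _)).trans hsz
    have hY := ((le_max_right _ _).trans (le_max_right _ _)).trans hsz
    refine (hz_rok_size hs0 hs1 C hX hB hY hg).trans ?_
    refine Real.rpow_le_rpow_of_exponent_ge hs0 hs1' ?_
    rw [hCC]
    push_cast
    linarith
  · -- polynomial base density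
    intro S hSm
    show ∫⁻ x in {x | cyBase Qg ((2 : ℝ)⁻¹ ^ E.k0) (p.co (tmL E.k0 E.i0) x) ∈ S}, ‖(Fg : p.Om × ℝ × ℝ → p.Fb) x‖ₑ ^ 2 ∂p.rw
      ≤ ENNReal.ofReal (E.s ^ (-((2 * C + 3 + A1 : ℕ) : ℝ)) * eg) * volume S
    rw [← hT0, ← hl0]
    have hΨ := hz_rok_shear ((g.1 : ℝ) + 1 / 2)
    have hset : {x : p.Om × ℝ × ℝ | cyBase Qg l0 (p.co T0 x) ∈ S}
        = {x | cyBase Q0 l0 (p.co T0 x) ∈ (fun q : ℝ × ℝ × ℝ => (q.1 - ((g.1 : ℝ) + 1 / 2), q.2.1, q.2.2 - 2 * ((g.1 : ℝ) + 1 / 2) * q.2.1)) ⁻¹' S} := by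
      ext x
      rw [Set.mem_ofPred_eq, Set.mem_ofPred_eq, Set.mem_preimage, hQg, hz_rok_base Q0 hr l0 hl0p g]
    have hm : MeasurableSet {x : p.Om × ℝ × ℝ | cyBase Q0 l0 (p.co T0 x)
        ∈ (fun q : ℝ × ℝ × ℝ => (q.1 - ((g.1 : ℝ) + 1 / 2), q.2.1, q.2.2 - 2 * ((g.1 : ℝ) + 1 / 2) * q.2.1)) ⁻¹' S} :=
      (hy_tl_mBase p hp Q0 T0 l0) (hΨ.measurable hSm)
    have hd := hS.dens _ (hΨ.measurable hSm)
    rw [← hT0, ← hl0, hΨ.measure_preimage hSm.nullMeasurableSet] at hd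
    have hd' := (hy_tl_ms_lint p hp η T0 E.k0 E.b0 hm E.v).symm.le.trans hd
    rw [hset]
    calc _ ≤ ∫⁻ x in {x : p.Om × ℝ × ℝ | cyBase Q0 l0 (p.co T0 x)
          ∈ (fun q : ℝ × ℝ × ℝ => (q.1 - ((g.1 : ℝ) + 1 / 2), q.2.1, q.2.2 - 2 * ((g.1 : ℝ) + 1 / 2) * q.2.1)) ⁻¹' S},
            ‖(F0 : p.Om × ℝ × ℝ → p.Fb) x‖ₑ ^ 2 ∂p.rw := lintegral_mono_ae (ae_restrict_of_ae hle)
      _ ≤ ENNReal.ofReal (E.s ^ (-(C : ℝ)) * E.e) * volume S := by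
          rw [hF0]
          exact hd'
      _ ≤ _ := mul_le_mul_left (ENNReal.ofReal_le_ofReal hdens0) _
  · show E.s ^ ((2 * C + 3 + A1 : ℕ) : ℝ) * (E.ka * cyWt η Qg) ≤ eg
    rw [hwt]
    have h1 : E.s ^ ((2 * C + 3 + A1 : ℕ) : ℝ) ≤ E.s ^ (A1 : ℝ) * E.s ^ (C : ℝ) := by
      rw [← Real.rpow_add hs0]
      exact Real.rpow_le_rpow_of_exponent_ge hs0 hs1' (by rw [hCC]; linarith)
    calc E.s ^ ((2 * C + 3 + A1 : ℕ) : ℝ) * (E.ka * cyWt η Q0) ≤ E.s ^ (A1 : ℝ) * E.s ^ (C : ℝ) * (E.ka * cyWt η Q0) :=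
          mul_le_mul_of_nonneg_right h1 hkw.le
      _ = E.s ^ (A1 : ℝ) * (E.s ^ (C : ℝ) * (E.ka * cyWt η Q0)) := by ring
      _ ≤ E.s ^ (A1 : ℝ) * E.e := mul_le_mul_of_nonneg_left hS.ek_lo hsA0.le
      _ ≤ eg := heg1
  · show eg ≤ E.s ^ (-((2 * C + 3 + A1 : ℕ) : ℝ)) * (E.ka * cyWt η Qg)
    rw [hwt]
    have h1 : E.s ^ (-(C : ℝ)) ≤ E.s ^ (-((2 * C + 3 + A1 : ℕ) : ℝ)) :=
      Real.rpow_le_rpow_of_exponent_ge hs0 hs1' (by rw [hCC]; linarith)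
    exact (heg2.trans hS.ek_hi).trans (mul_le_mul_of_nonneg_right h1 hkw.le)

/-- **(RED) THE REDUCTION** -/
def HzRedC (η : ℝ) : Prop :=
  ∀ (C : ℕ) (τ : ℝ), 0 < τ → τ ≤ 1 → ∃ C' A n0 : ℕ, ∀ A' : ℕ, A ≤ A' → ∀ (p : ChyPar) (E : Xp (p.sys η)) (Q0 : CyT),
    n0 ≤ E.n → E.Valid → E.st.length ≤ C → (sfHy η).af C A' p E Q0 → HzFlat η p E Q0 τ →
    ∃ (I : Finset (ℤ × ℤ × ℤ)) (Gs : ℤ × ℤ × ℤ → HzGr η p) (Ds : ℤ × ℤ × ℤ → ℕ → Finset (ℤ × ℤ × ℤ)),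
      (∀ g ∈ I, (Gs g).Ok C' τ ∧ HzDb C' E.n (Ds g) ∧ (Gs g).n = E.n ∧ (Gs g).ka = E.ka ∧ cyWt η (Gs g).Q = cyWt η Q0) ∧
      ∑ g ∈ I, (Gs g).e ≤ E.s ^ (-τ) * E.e ∧
      ∑ l, E.m l ^ (3 / 2 : ℝ) ≤ E.s ^ (-(2 * τ)) * (4 * ∑ g ∈ I, (Gs g).HL (Ds g) + Real.sqrt E.s * (E.e * Real.sqrt (E.ka * cyWt η Q0)))

theorem hz_red2_eqns_cite : True := by
  have := @HzRedC.eq_1
  trivial

-- `hz_reduce : HzRedC η` is proved in `Hz/Red3.lean` from the leaves of `Hz/Red2.lean` (post BP-256-HZ-RED, helper299)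

end Claimed.Agent.R256
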