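import Claimed.Agent.R256.Hz.Red

/-!
# Row 256, unit HZ, file 7b: THE REDUCTION, LEAVES      (post BP-256-HZ-RED, architect helper299 after the cut plan of helper280; prefix `hz_rd_`)

Assembly `hz_reduce` in `Hz/Red3.lean`.      Notation: `P = p.sys η` (`P.An T k b = p.an T k` for EVERY `b`: masses with different generations are equal by `rfl`, `hz_rd_ms_b`),
`n = E.n`, `s = E.s = 2⁻¹^n`, `l0 = 2⁻¹^k0`, `lf = 2⁻¹^kf`, `T0 = tmL k0 i0`, `Ti = tmL kf i`, `ti = Ti - T0 ∈ [0, l0]` for `i ∈ ivs k0 i0 kf` (`hz_rd_ti`), `F0 = An T0 k0 b0 v`.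
* `hzGx E Q0 i x`     group index of the row `x` at the final interval `i`
* `hzIx E Q0 i x`     (group index, lattice cell in the transported frame of the group)
* `hzMs E Q0 i j`     mass of `E.fin i` on the rows of index `j`
* `hzRt E Q0 N1 g`    rows of the enlarged root cell of the group `g`;   `hzCo E Q0 N1 g = An† (1_{(g+)ᶜ} F0)` the complementary state
* `hzE2 C n`          the Gaussian error `ε² = ((C+1) 52 exp(-n²/40))² 2^(n/2)`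
* `hzPn C n`, `hzBox N`      the near groups `|g|_∞ ≤ Pn = 3·2^(Cn) + (3C+5) n + 1`
EVERY LEAF IS PAPER FREE: the plan is in its docstring.  Prove in place, edit only your block, helper lemmas directly above it with the prefix of the leaf.
-/

set_option autoImplicit false

namespace Claimed.Agent.R256

open MeasureTheory
open scoped ENNReal

/-- group index of the row `x` at the final interval `i` -/
noncomputable def hzGx {η : ℝ} {p : ChyPar} (E : Xp (p.sys η)) (Q0 : CyT) (i : ℕ) (x : p.Om × ℝ × ℝ) : ℤ × ℤ × ℤ :=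
  hzGi Q0 ((2 : ℝ)⁻¹ ^ E.k0) (tmL E.kf i - tmL E.k0 E.i0) (p.co (tmL E.kf i) x)

/-- (group index, lattice cell in the transported frame of the group) -/
noncomputable def hzIx {η : ℝ} {p : ChyPar} (E : Xp (p.sys η)) (Q0 : CyT) (i : ℕ) (x : p.Om × ℝ × ℝ) : (ℤ × ℤ × ℤ) × (ℤ × ℤ × ℤ) :=
  (hzGx E Q0 i x, hzCell (hzFr (hzGf Q0 ((2 : ℝ)⁻¹ ^ E.k0) (hzGx E Q0 i x)) (tmL E.kf i - tmL E.k0 E.i0)) ((2 : ℝ)⁻¹ ^ E.kf) (p.ql E.kf)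
    (p.co (tmL E.kf i) x))

/-- mass of `E.fin i` on the rows of index `j` -/
noncomputable def hzMs {η : ℝ} {p : ChyPar} (E : Xp (p.sys η)) (Q0 : CyT) (i : ℕ) (j : (ℤ × ℤ × ℤ) × (ℤ × ℤ × ℤ)) : ℝ :=
  (p.sys η).ms (tmL E.kf i) E.kf 0 (hzIx E Q0 i ⁻¹' {j}) (E.fin i)

/-- rows of the enlarged root cell of the group `g` -/
def hzRt {η : ℝ} {p : ChyPar} (E : Xp (p.sys η)) (Q0 : CyT) (N1 : ℝ) (g : ℤ × ℤ × ℤ) : Set (p.Om × ℝ × ℝ) :=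
  {x | p.co (tmL E.k0 E.i0) x ∈ hzGp (hzGf Q0 ((2 : ℝ)⁻¹ ^ E.k0) g) ((2 : ℝ)⁻¹ ^ E.k0) N1}

/-- the complementary state of the group `g` -/
noncomputable def hzCo {η : ℝ} {p : ChyPar} (E : Xp (p.sys η)) (Q0 : CyT) (N1 : ℝ) (g : ℤ × ℤ × ℤ) : (p.sys η).Kc :=
  ContinuousLinearMap.adjoint ((p.sys η).An (tmL E.k0 E.i0) E.k0 0)
    ((p.sys η).mulR E.k0 ((hzRt E Q0 N1 g)ᶜ.indicator fun _ => 1) ((p.sys η).An (tmL E.k0 E.i0) E.k0 E.b0 E.v))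

/-- the Gaussian error -/
noncomputable def hzE2 (C n : ℕ) : ℝ := (((C : ℝ) + 1) * 52 * Real.exp (-((n : ℝ) ^ 2 / 40))) ^ 2 * 2 ^ ((n : ℝ) / 2)

/-- the range of the near groups -/
def hzPn (C n : ℕ) : ℕ := 3 * 2 ^ (C * n) + (3 * C + 5) * n + 1

/-- a box of group indices -/
noncomputable def hzBox (N : ℕ) : Finset (ℤ × ℤ × ℤ) :=
  Finset.Icc (-(N : ℤ)) N ×ˢ (Finset.Icc (-(N : ℤ)) N ×ˢ Finset.Icc (-(N : ℤ)) N)

theorem hz_rd_eqns_cite : True := by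
  have := @hzGx.eq_1
  have := @hzIx.eq_1
  have := @hzMs.eq_1
  have := @hzRt.eq_1
  have := @hzCo.eq_1
  have := @hzE2.eq_1
  have := @hzPn.eq_1
  have := @hzBox.eq_1
  trivial

/-! ## 0. trivia -/

/-- the generation is ignored by the hybrid system -/
theorem hz_rd_ms_b (η : ℝ) (p : ChyPar) (T : ℝ) (k b b' : ℕ) (S : Set (p.Om × ℝ × ℝ)) (v : (p.sys η).Kc) :
    (p.sys η).ms T k b S v = (p.sys η).ms T k b' S v := rfl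

theorem hz_rd_ti (k0 i0 kf i : ℕ) (hk : k0 ≤ kf) (hi : i ∈ ivs k0 i0 kf) :
    0 ≤ tmL kf i - tmL k0 i0 ∧ tmL kf i - tmL k0 i0 ≤ (2 : ℝ)⁻¹ ^ k0 := by
  have h1 := gn_cutle_anc hk i
  rw [(gn_mem_ivs k0 i0 kf i).1 hi] at h1
  exact ⟨by linarith [h1.2.1], by linarith [h1.2.2]⟩

/-- **(T1)** `q_k = 2^-k d_k`.   `Real.sqrt_eq_iff`/`Real.sqrt_mul_self`: `2⁻¹^k = sqrt ((2⁻¹^k)²)`, `← Real.sqrt_mul`.   ~15 l. -/
theorem hz_rd_ql (p : ChyPar) (h : p.Ok) (k : ℕ) : p.ql k = (2 : ℝ)⁻¹ ^ k * p.dl k := by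
  unfold ChyPar.ql ChyPar.dl
  have e : p.H / 2 ^ k = ((2 : ℝ)⁻¹ ^ k) ^ 2 * (p.H * 2 ^ k) := by
    rw [inv_pow]; field_simp
  rw [e, Real.sqrt_mul (by positivity) (p.H * 2 ^ k), Real.sqrt_sq (by positivity)]

/-- **(T2)** the Planck floor: `f² ≤ s^-(1+τ) H 2^k0 = s^-τ H 2^(k0+n) = s^-τ d(kf)²`  (`E.kf = E.k0 + E.n`, `E.s = 2⁻¹^n`, `gn_s_rpow`, `Real.le_sqrt`, `Real.sqrt_mul`).   ~40 l. -/
theorem hz_rd_fdl {η : ℝ} {p : ChyPar} (h : p.Ok) (E : Xp (p.sys η)) (Q0 : CyT) (hf : 0 < Q0.f) (τ : ℝ)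
    (hpl : E.s ^ (1 + τ) ≤ p.H * 2 ^ E.k0 / Q0.f ^ 2) : Q0.f ≤ E.s ^ (-(τ / 2)) * p.dl E.kf := by
  have hs := gn_s_pos E
  have hf2 : 0 < Q0.f ^ 2 := by positivity
  rw [le_div_iff₀ hf2] at hpl
  have hp : 0 < E.s ^ (-(τ / 2)) := Real.rpow_pos_of_pos hs _
  have hd : 0 ≤ p.dl E.kf := Real.sqrt_nonneg _
  have hH : 0 ≤ p.H * 2 ^ E.kf := mul_nonneg h.H_pos.le (by positivity)
  have e1 : (E.s ^ (-(τ / 2)) * p.dl E.kf) ^ 2 = E.s ^ (-τ) * (p.H * 2 ^ E.kf) := by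
    rw [mul_pow]
    unfold ChyPar.dl
    rw [Real.sq_sqrt hH, ← Real.rpow_natCast (E.s ^ (-(τ / 2))) 2, ← Real.rpow_mul hs.le]
    congr 2
    push_cast
    ring
  have e2 : (2 : ℝ) ^ E.kf = 2 ^ E.k0 * E.s ^ (-(1 : ℝ)) := by
    unfold Xp.kf
    rw [pow_add, gn_s_rpow, ← gn_two_nat E.n]
    congr 2
    ring
  have e3 : E.s ^ (-τ) * E.s ^ (-(1 : ℝ)) * E.s ^ (1 + τ) = 1 := by
    rw [← Real.rpow_add hs, ← Real.rpow_add hs]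
    have : -τ + -1 + (1 + τ) = 0 := by ring
    rw [this, Real.rpow_zero]
  have key : Q0.f ^ 2 ≤ (E.s ^ (-(τ / 2)) * p.dl E.kf) ^ 2 := by
    rw [e1, e2]
    have hq : 0 < E.s ^ (-τ) * E.s ^ (-(1 : ℝ)) := mul_pos (Real.rpow_pos_of_pos hs _) (Real.rpow_pos_of_pos hs _)
    calc Q0.f ^ 2 = E.s ^ (-τ) * E.s ^ (-(1 : ℝ)) * (E.s ^ (1 + τ) * Q0.f ^ 2) := by
          rw [← mul_assoc, e3, one_mul]
      _ ≤ E.s ^ (-τ) * E.s ^ (-(1 : ℝ)) * (p.H * 2 ^ E.k0) := mul_le_mul_of_nonneg_left hpl hq.le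
      _ = E.s ^ (-τ) * (p.H * (2 ^ E.k0 * E.s ^ (-(1 : ℝ)))) := by ring
  exact (pow_le_pow_iff_left₀ hf.le (mul_nonneg hp.le hd) (by norm_num)).1 key

theorem hz_rd_box_mem (N : ℕ) (g : ℤ × ℤ × ℤ) : g ∈ hzBox N ↔ |g.1| ≤ N ∧ |g.2.1| ≤ N ∧ |g.2.2| ≤ N := by
  simp only [hzBox, Finset.mem_product, Finset.mem_Icc, abs_le]

/-- **(T3)** `Finset.card_product`, `Int.card_Icc`.   ~15 l. -/
theorem hz_rd_box_card (N : ℕ) : ((hzBox N).card : ℝ) = (2 * (N : ℝ) + 1) ^ 3 := by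
  unfold hzBox
  rw [Finset.card_product, Finset.card_product, Int.card_Icc]
  have e : ((N : ℤ) + 1 - -(N : ℤ)).toNat = 2 * N + 1 := by omega
  rw [e]
  push_cast
  ring

/-! ## M. measurability -/

/-- **(M1)** three floors of measurable functions (`hy_tl_mX`, `hy_tl_mVel`, `hy_tl_mPos`, `Int.measurable_floor`/`Measurable.floor`); the set is the intersection of three preimages of singletons (`Prod.ext_iff`).   ~30 l. -/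
theorem hz_rd_gx_meas {η : ℝ} {p : ChyPar} (h : p.Ok) (E : Xp (p.sys η)) (Q0 : CyT) (i : ℕ) (g : ℤ × ℤ × ℤ) :
    MeasurableSet {x : p.Om × ℝ × ℝ | hzGx E Q0 i x = g} := by
  have h1 := hy_tl_mX p h (tmL E.kf i)
  have h2 := hy_tl_mVel p h (hzFr Q0 (tmL E.kf i - tmL E.k0 E.i0)) (tmL E.kf i)
  have h3 := hy_tl_mPos p h (hzFr Q0 (tmL E.kf i - tmL E.k0 E.i0)) (tmL E.kf i)
  have hm : Measurable (hzGx E Q0 i) := by
    unfold hzGx hzGi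
    exact (((h1.sub_const _).div_const _).floor).prodMk
      (((h2.div_const _).floor).prodMk (((h3.sub (h2.const_mul _)).div_const _).floor))
  exact hm (measurableSet_singleton g)

/-- **(M2)** as (M1): `hy_tl_mBase`, `hy_tl_mPos`.   ~30 l. -/
theorem hz_rd_cl_meas {η : ℝ} {p : ChyPar} (h : p.Ok) (G : HzGr η p) (i : ℕ) (c : ℤ × ℤ × ℤ) : MeasurableSet (G.cl i c) := by
  have h1 := hy_tl_mBase p h (G.Qi G.kf i) (tmL G.kf i) G.lf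
  have h3 := hy_tl_mPos p h (G.Qi G.kf i) (tmL G.kf i)
  have hm : Measurable fun x : p.Om × ℝ × ℝ => hzCell (G.Qi G.kf i) G.lf (p.ql G.kf) (p.co (tmL G.kf i) x) := by
    unfold hzCell
    exact ((measurable_fst.comp (measurable_snd.comp h1)).floor).prodMk
      (((measurable_snd.comp (measurable_snd.comp h1)).floor).prodMk ((h3.div_const _).floor))
  exact hm (measurableSet_singleton c)

/-- **(M3)** `hy_tl_mX`, `hy_tl_mVel`, `hy_tl_mPos`, `measurableSet_le`.   ~15 l. -/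
theorem hz_rd_rt_meas {η : ℝ} {p : ChyPar} (h : p.Ok) (E : Xp (p.sys η)) (Q0 : CyT) (N1 : ℝ) (g : ℤ × ℤ × ℤ) : MeasurableSet (hzRt E Q0 N1 g) := by
  have h1 := hy_tl_mX p h (tmL E.k0 E.i0)
  have h2 := hy_tl_mVel p h (hzGf Q0 ((2 : ℝ)⁻¹ ^ E.k0) g) (tmL E.k0 E.i0)
  have h3 := hy_tl_mPos p h (hzGf Q0 ((2 : ℝ)⁻¹ ^ E.k0) g) (tmL E.k0 E.i0)
  exact (measurableSet_le (h1.sub_const _).abs measurable_const).inter
    ((measurableSet_le h2.abs measurable_const).inter (measurableSet_le h3.abs measurable_const))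

/-- the rows of an index = (rows of the group) ∩ (lattice cell of the group) -/
theorem hz_rd_ix_pre {η : ℝ} {p : ChyPar} (E : Xp (p.sys η)) (Q0 : CyT) (N1 A1 : ℝ) (i : ℕ) (g c : ℤ × ℤ × ℤ) :
    hzIx E Q0 i ⁻¹' {(g, c)} = {x : p.Om × ℝ × ℝ | hzGx E Q0 i x = g} ∩ (hzGrp E Q0 N1 A1 g).cl i c := by
  ext x
  constructor
  · intro hx
    have h1 : hzGx E Q0 i x = g := congrArg Prod.fst hx
    have h2 := congrArg Prod.snd hx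
    refine ⟨h1, ?_⟩
    simp only [hzIx, h1] at h2
    exact h2
  · rintro ⟨h1, h2⟩
    have h1' : hzGx E Q0 i x = g := h1
    show hzIx E Q0 i x = (g, c)
    simp only [hzIx, h1']
    exact congrArg (Prod.mk g) h2

theorem hz_rd_ix_meas {η : ℝ} {p : ChyPar} (h : p.Ok) (E : Xp (p.sys η)) (Q0 : CyT) (i : ℕ) (j : (ℤ × ℤ × ℤ) × (ℤ × ℤ × ℤ)) :
    MeasurableSet (hzIx E Q0 i ⁻¹' {j}) := by
  obtain ⟨g, c⟩ := j
  rw [hz_rd_ix_pre E Q0 0 0 i g c]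
  exact (hz_rd_gx_meas h E Q0 i g).inter (hz_rd_cl_meas h _ i c)

/-! ## P. abstract inequalities -/

/-- **(P1)** disjoint measurable sets inside `R`.   `gn_ms_eq_mu`, `gn_mu_finite`, `hz_al_super`, `measureReal_biUnion_finset`/`measure_biUnion_finset`, `measureReal_mono`, `Real.rpow_le_rpow`.   ~50 l. -/
theorem hz_rd_super {P : PkSys} (T : ℝ) (k b : ℕ) (v : P.Kc) {ι : Type} (J : Finset ι) (A : ι → Set P.X) (R : Set P.X)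
    (hA : ∀ j ∈ J, MeasurableSet (A j)) (hR : MeasurableSet R) (hd : (J : Set ι).PairwiseDisjoint A) (hsub : ∀ j ∈ J, A j ⊆ R) :
    ∑ j ∈ J, P.ms T k b (A j) v ^ (3 / 2 : ℝ) ≤ P.ms T k b R v ^ (3 / 2 : ℝ) := by
  have := gn_mu_finite (P := P) T k b v
  have h1 : ∀ j ∈ J, P.ms T k b (A j) v = (P.mu T k b v).real (A j) := fun j hj => gn_ms_eq_mu T k b (hA j hj) v
  rw [gn_ms_eq_mu T k b hR v, Finset.sum_congr rfl (fun j hj => by rw [h1 j hj])]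
  refine (hz_al_super J _ (fun j _ => measureReal_nonneg)).trans ?_
  refine Real.rpow_le_rpow (Finset.sum_nonneg fun j _ => measureReal_nonneg) ?_ (by norm_num)
  rw [← measureReal_biUnion_finset hd hA]
  exact measureReal_mono (Set.iUnion₂_subset hsub)

theorem hz_rd_tri_pw (x : ℝ) (hx : 0 ≤ x) : x ^ (3 / 2 : ℝ) = Real.sqrt x ^ 3 := by
  rw [Real.sqrt_eq_rpow, ← Real.rpow_natCast, ← Real.rpow_mul hx]
  norm_num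

theorem hz_rd_tri_cube (a b : ℝ) (ha : 0 ≤ a) (hb : 0 ≤ b) : (a + b) ^ 3 ≤ 4 * (a ^ 3 + b ^ 3) := by
  nlinarith [mul_nonneg (add_nonneg ha hb) (sq_nonneg (a - b))]

/-- **(P2)** `x^(3/2) = (sqrt x)³` (`Real.sqrt_eq_rpow`, `← Real.rpow_natCast`, `← Real.rpow_mul`);  `sqrt (ms (A c) (u+w)) ≤ sqrt (ms (A c) u) + sqrt (ms (A c) w)` (`gn_en_tri` with `gn_mask_ind`; `ms = en (indicator)` by `rfl`);
`(a+b)³ ≤ 4 (a³ + b³)` for `a, b ≥ 0` (`nlinarith [mul_nonneg (add_nonneg ha hb) (sq_nonneg (a-b))]`);  `ms (A c) u ≤ ms (B c) u` (`gn_ms_mono`);  `Σ_c ms (A c) w^(3/2) ≤ ms R w^(3/2)` (`hz_rd_super`).   ~80 l. -/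
theorem hz_rd_tri {P : PkSys} (T : ℝ) (k b : ℕ) (u w : P.Kc) {ι : Type} (D : Finset ι) (A B : ι → Set P.X) (R : Set P.X)
    (hA : ∀ c ∈ D, MeasurableSet (A c)) (hB : ∀ c ∈ D, MeasurableSet (B c)) (hR : MeasurableSet R) (hd : (D : Set ι).PairwiseDisjoint A)
    (hAB : ∀ c ∈ D, A c ⊆ B c) (hAR : ∀ c ∈ D, A c ⊆ R) :
    ∑ c ∈ D, P.ms T k b (A c) (u + w) ^ (3 / 2 : ℝ) ≤ 4 * ∑ c ∈ D, P.ms T k b (B c) u ^ (3 / 2 : ℝ) + 4 * P.ms T k b R w ^ (3 / 2 : ℝ) := by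
  have h1 : ∀ c ∈ D, P.ms T k b (A c) (u + w) ^ (3 / 2 : ℝ) ≤
      4 * P.ms T k b (B c) u ^ (3 / 2 : ℝ) + 4 * P.ms T k b (A c) w ^ (3 / 2 : ℝ) := by
    intro c hc
    have e1 : Real.sqrt (P.ms T k b (A c) (u + w)) ≤ Real.sqrt (P.ms T k b (A c) u) + Real.sqrt (P.ms T k b (A c) w) :=
      gn_en_tri T k b (gn_mask_ind (hA c hc)) u w
    have e2 : P.ms T k b (A c) u ^ (3 / 2 : ℝ) ≤ P.ms T k b (B c) u ^ (3 / 2 : ℝ) :=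
      Real.rpow_le_rpow (gn_ms_nonneg T k b _ _) (gn_ms_mono T k b (hA c hc) (hB c hc) (hAB c hc) u) (by norm_num)
    calc P.ms T k b (A c) (u + w) ^ (3 / 2 : ℝ) = Real.sqrt (P.ms T k b (A c) (u + w)) ^ 3 := hz_rd_tri_pw _ (gn_ms_nonneg T k b _ _)
      _ ≤ (Real.sqrt (P.ms T k b (A c) u) + Real.sqrt (P.ms T k b (A c) w)) ^ 3 := pow_le_pow_left₀ (Real.sqrt_nonneg _) e1 3
      _ ≤ 4 * (Real.sqrt (P.ms T k b (A c) u) ^ 3 + Real.sqrt (P.ms T k b (A c) w) ^ 3) :=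
          hz_rd_tri_cube _ _ (Real.sqrt_nonneg _) (Real.sqrt_nonneg _)
      _ = 4 * P.ms T k b (A c) u ^ (3 / 2 : ℝ) + 4 * P.ms T k b (A c) w ^ (3 / 2 : ℝ) := by
          rw [← hz_rd_tri_pw _ (gn_ms_nonneg T k b _ _), ← hz_rd_tri_pw _ (gn_ms_nonneg T k b _ _)]
          ring
      _ ≤ _ := by linarith
  calc ∑ c ∈ D, P.ms T k b (A c) (u + w) ^ (3 / 2 : ℝ)
      ≤ ∑ c ∈ D, (4 * P.ms T k b (B c) u ^ (3 / 2 : ℝ) + 4 * P.ms T k b (A c) w ^ (3 / 2 : ℝ)) := Finset.sum_le_sum h1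
    _ = 4 * ∑ c ∈ D, P.ms T k b (B c) u ^ (3 / 2 : ℝ) + 4 * ∑ c ∈ D, P.ms T k b (A c) w ^ (3 / 2 : ℝ) := by
        rw [Finset.sum_add_distrib, Finset.mul_sum, Finset.mul_sum]
    _ ≤ _ := by
        have := hz_rd_super T k b w D A R hA hR hd hAR
        linarith

/-- **(P3)** reindexing of a sum over pairs.   `Finset.sum_fiberwise_of_maps_to` (map `Prod.fst` into `I`), then `Finset.sum_image` (`Prod.snd` is injective on a fibre of `Prod.fst`), `Finset.filter_filter`.   ~40 l. -/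
theorem hz_rd_reindex {α β : Type} [DecidableEq α] [DecidableEq β] (Cc : Finset (α × β)) (I : Finset α) (f : α × β → ℝ) :
    ∑ j ∈ Cc.filter (fun j => j.1 ∈ I), f j = ∑ g ∈ I, ∑ c ∈ (Cc.filter fun j => j.1 = g).image Prod.snd, f (g, c) := by
  rw [← Finset.sum_fiberwise_of_maps_to (s := Cc.filter (fun j => j.1 ∈ I)) (t := I) (g := Prod.fst)
    (fun j hj => (Finset.mem_filter.1 hj).2)]
  refine Finset.sum_congr rfl fun g hg => ?_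
  rw [Finset.sum_image]
  · have e : (Cc.filter (fun j => j.1 ∈ I)).filter (fun j => j.1 = g) = Cc.filter fun j => j.1 = g := by
      ext j
      simp only [Finset.mem_filter]
      constructor
      · rintro ⟨⟨h1, -⟩, h3⟩
        exact ⟨h1, h3⟩
      · rintro ⟨h1, h3⟩
        exact ⟨⟨h1, h3 ▸ hg⟩, h3⟩
    rw [e]
    refine Finset.sum_congr rfl fun j hj => ?_
    have h1 : j.1 = g := (Finset.mem_filter.1 hj).2
    rw [← h1]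
  · intro j hj j' hj' h
    have h1 : j.1 = g := (Finset.mem_filter.1 hj).2
    have h2 : j'.1 = g := (Finset.mem_filter.1 hj').2
    exact Prod.ext (h1.trans h2.symm) h

open Classical in
/-- **(P4)** bounded overlap.   `‖mulR k 1_{A g} F‖² = ∫_{A g} ‖F‖²` (`gn_mulR_ind_normsq`) `= ∫ 1_{A g} ‖F‖²` (`integral_indicator`);  `Σ_g` inside (`integral_finsetSum`, `gn_sq_integrable`);
pointwise `Σ_{g ∈ I} 1_{A g}(x) ‖F x‖² = card {g ∈ I | x ∈ A g} ‖F x‖² ≤ K ‖F x‖²` (`Finset.sum_indicator_eq_sum_filter`/`Finset.sum_filter`, `Finset.sum_const`);  `gn_norm_sq`.   ~70 l. -/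
theorem hz_rd_overlap {P : PkSys} (k : ℕ) (F : Lp P.Fb 2 (P.rho k)) {ι : Type} (I : Finset ι) (A : ι → Set P.X) (hA : ∀ g ∈ I, MeasurableSet (A g)) (K : ℝ)
    (hK : ∀ x, (((I.filter fun g => x ∈ A g).card : ℕ) : ℝ) ≤ K) :
    ∑ g ∈ I, ‖P.mulR k ((A g).indicator fun _ => 1) F‖ ^ 2 ≤ K * ‖F‖ ^ 2 := by
  have hint : ∀ g ∈ I, Integrable ((A g).indicator fun x => ‖(F : P.X → P.Fb) x‖ ^ 2) (P.rho k) :=
    fun g hg => (gn_sq_integrable F).indicator (hA g hg)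
  have e1 : ∑ g ∈ I, ‖P.mulR k ((A g).indicator fun _ => 1) F‖ ^ 2
      = ∫ x, ∑ g ∈ I, (A g).indicator (fun x => ‖(F : P.X → P.Fb) x‖ ^ 2) x ∂(P.rho k) := by
    rw [integral_finsetSum I hint]
    refine Finset.sum_congr rfl fun g hg => ?_
    rw [gn_mulR_ind_normsq k (hA g hg), integral_indicator (hA g hg)]
  rw [e1, gn_norm_sq F, ← integral_const_mul]
  refine integral_mono (integrable_finsetSum I hint) ((gn_sq_integrable F).const_mul K) fun x => ?_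
  have e2 : ∑ g ∈ I, (A g).indicator (fun x => ‖(F : P.X → P.Fb) x‖ ^ 2) x
      = (((I.filter fun g => x ∈ A g).card : ℕ) : ℝ) * ‖(F : P.X → P.Fb) x‖ ^ 2 := by
    rw [Finset.card_eq_sum_ones, Nat.cast_sum, Finset.sum_mul, Finset.sum_filter]
    refine Finset.sum_congr rfl fun g _ => ?_
    by_cases hx : x ∈ A g <;> simp [hx]
  show ∑ g ∈ I, (A g).indicator (fun x => ‖(F : P.X → P.Fb) x‖ ^ 2) x ≤ K * ‖(F : P.X → P.Fb) x‖ ^ 2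
  rw [e2]
  exact mul_le_mul_of_nonneg_right (hK x) (by positivity)

/-- **(P5)** the energy against a weight is the integral against the energy measure.   `PkSys.mu`, `PkSys.en`;  `integral_withDensity_eq_integral_toReal_smul` (the density is measurable: `(Lp.stronglyMeasurable _).norm.pow`..., finite) , `ENNReal.toReal_ofReal`, `smul_eq_mul`, `mul_comm`.   ~25 l. -/
theorem hz_rd_en_mu {P : PkSys} (T : ℝ) (k b : ℕ) (θ : P.X → ℝ) (v : P.Kc) : P.en T k b θ v = ∫ x, θ x ∂(P.mu T k b v) := by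
  unfold PkSys.mu PkSys.en
  have hm : Measurable fun x => ENNReal.ofReal (‖(P.An T k b v : P.X → P.Fb) x‖ ^ 2) :=
    ((Lp.stronglyMeasurable (P.An T k b v)).norm.measurable.pow_const 2).ennreal_ofReal
  rw [integral_withDensity_eq_integral_toReal_smul hm (Filter.Eventually.of_forall fun x => ENNReal.ofReal_lt_top)]
  refine integral_congr_ae (Filter.Eventually.of_forall fun x => ?_)
  simp only [smul_eq_mul]
  rw [ENNReal.toReal_ofReal (by positivity), mul_comm]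

/-! ## A. labels -> lattice cells -/

/-- **(A0)** the position index is polynomially bounded.   `z = p.co Ti x`, `g = hzGx E Q0 i x`:  `hz_gi_mem` (with `hz_rd_ti`): `|cyPos (hzFr (hzGf Q0 l0 g) ti) z| ≤ l0 f`;   `q(kf) = lf d(kf)` (`hz_rd_ql`), `l0/lf = 2^n`, so
`|cyPos/q(kf)| ≤ 2^n f/d(kf) ≤ 2^n s^(-τ/2) ≤ 2^(3n/2)`;   `|⌊u⌋| ≤ |u| + 1`;   `2^(3n/2) + 1 ≤ 2^(3n)` for `n ≥ 1`;  cast to `ℤ` at the end (`Int.cast_le`, `Int.cast_abs`).   `d(kf) > 0` from `h.H_pos`.   ~90 l. -/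
theorem hz_rd_ix_bd {η : ℝ} {p : ChyPar} (h : p.Ok) (E : Xp (p.sys η)) (Q0 : CyT) (hr : 0 < Q0.r) (hf : 0 < Q0.f) (τ : ℝ) (hτ1 : τ ≤ 1) (hn : 1 ≤ E.n)
    (hfd : Q0.f ≤ E.s ^ (-(τ / 2)) * p.dl E.kf) (i : ℕ) (hi : i ∈ ivs E.k0 E.i0 E.kf) (x : p.Om × ℝ × ℝ) :
    |(hzIx E Q0 i x).2.2.2| ≤ 2 ^ (3 * E.n) := by
  have hl0 : (0 : ℝ) < (2 : ℝ)⁻¹ ^ E.k0 := by positivity
  obtain ⟨ht0, ht1⟩ := hz_rd_ti E.k0 E.i0 E.kf i (Nat.le_add_right _ _) hi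
  have hm := (hz_gi_mem Q0 hr hf _ _ hl0 ht0 ht1 (hzGx E Q0 i x) (p.co (tmL E.kf i) x) rfl).2.2
  obtain ⟨u, hu⟩ : ∃ u : ℝ, u = cyPos (hzFr (hzGf Q0 ((2 : ℝ)⁻¹ ^ E.k0) (hzGx E Q0 i x)) (tmL E.kf i - tmL E.k0 E.i0)) (p.co (tmL E.kf i) x) := ⟨_, rfl⟩
  rw [← hu] at hm
  have hd : 0 < p.dl E.kf := Real.sqrt_pos.2 (mul_pos h.H_pos (by positivity))
  have hq : p.ql E.kf = (2 : ℝ)⁻¹ ^ E.kf * p.dl E.kf := hz_rd_ql p h E.kf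
  have hq0 : 0 < p.ql E.kf := by rw [hq]; positivity
  have hs0 : 0 < E.s := by unfold Xp.s; positivity
  have hs1 : E.s ≤ 1 := pow_le_one₀ (by norm_num) (by norm_num)
  have hsτ : E.s ^ (-(τ / 2)) ≤ 2 ^ E.n := by
    calc E.s ^ (-(τ / 2)) ≤ E.s ^ (-1 : ℝ) := Real.rpow_le_rpow_of_exponent_ge hs0 hs1 (by linarith)
      _ = 2 ^ E.n := by
        rw [Real.rpow_neg_one]
        unfold Xp.s
        rw [inv_pow, inv_inv]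
  have hkf : (2 : ℝ)⁻¹ ^ E.kf = (2 : ℝ)⁻¹ ^ E.k0 * (2 : ℝ)⁻¹ ^ E.n := by
    unfold Xp.kf
    rw [pow_add]
  have hb : |u / p.ql E.kf| ≤ 2 ^ (2 * E.n) := by
    rw [abs_div, abs_of_pos hq0, div_le_iff₀ hq0, hq, hkf]
    calc |u| ≤ (2 : ℝ)⁻¹ ^ E.k0 * Q0.f := hm
      _ ≤ (2 : ℝ)⁻¹ ^ E.k0 * (2 ^ E.n * p.dl E.kf) :=
          mul_le_mul_of_nonneg_left (hfd.trans (mul_le_mul_of_nonneg_right hsτ hd.le)) hl0.le
      _ = 2 ^ (2 * E.n) * ((2 : ℝ)⁻¹ ^ E.k0 * (2 : ℝ)⁻¹ ^ E.n * p.dl E.kf) := by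
          rw [two_mul, pow_add, inv_pow 2 E.n]
          field_simp
  have hgoal : (hzIx E Q0 i x).2.2.2 = ⌊u / p.ql E.kf⌋ := by rw [hu]; rfl
  rw [hgoal]
  have hfl : |((⌊u / p.ql E.kf⌋ : ℤ) : ℝ)| ≤ 2 ^ (2 * E.n) + 1 := by
    have a1 := Int.floor_le (u / p.ql E.kf)
    have a2 := Int.lt_floor_add_one (u / p.ql E.kf)
    rw [abs_le] at hb ⊢
    constructor <;> linarith [hb.1, hb.2]
  have hfin : (2 : ℝ) ^ (2 * E.n) + 1 ≤ 2 ^ (3 * E.n) := by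
    have e : (2 : ℝ) ^ (3 * E.n) = 2 ^ (2 * E.n) * 2 ^ E.n := by
      rw [← pow_add]
      congr 1
      ring
    have h2 : (2 : ℝ) ≤ 2 ^ E.n := by
      calc (2 : ℝ) = 2 ^ 1 := (pow_one 2).symm
        _ ≤ 2 ^ E.n := pow_le_pow_right₀ one_le_two hn
    have h3 : (1 : ℝ) ≤ 2 ^ (2 * E.n) := one_le_pow₀ one_le_two
    rw [e]
    nlinarith
  have hcast : ((|⌊u / p.ql E.kf⌋| : ℤ) : ℝ) ≤ (((2 : ℤ) ^ (3 * E.n) : ℤ) : ℝ) := by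
    push_cast
    linarith
  exact_mod_cast hcast

/-- **(A1)** the cell of a label meets few indices.   `Q = E.ts l`, `T = tmL kf (iv l)`, `t = T - T0` (`hE.iv_in`, `gn_mem_ivs`, `hz_rd_ti`), `σ = s^-τ ≥ 1`.   `hE.th_supp`: `th l x ≠ 0 → cyIn Q lf (p.co T x)`.
`hF.cost2`, `hF.cost1` + `hz_cost_unfold` give the hypotheses of `hz_taylor Q (hzFr Q0 t) lf σ`; its conclusion (with `hF.wf`) is `hbox` of `hz_count Q Q0 l0 lf t (p.ql kf) σ _ _`;   `a = q(kf) = lf d(kf) ≤ lf f` (`hz_rd_ql`, `hE.ts_ok l`, `hF.wf`).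
Card: `2·10^5 σ³ (lf f/q(kf)) = 2·10^5 s^(-3τ) f/d(kf) ≤ 2·10^5 s^(-3τ) s^(-τ/2)` (`hz_rd_fdl`).   Take `S.filter (|j.2.2.2| ≤ 2^(3n))` and `hz_rd_ix_bd`.   ~200 l. -/
theorem hz_rd_label {η : ℝ} {p : ChyPar} (h : p.Ok) (E : Xp (p.sys η)) (hE : E.Valid) (Q0 : CyT) (hr : 0 < Q0.r) (hf : 0 < Q0.f) (τ : ℝ) (hτ0 : 0 < τ) (hτ1 : τ ≤ 1)
    (hn : 1 ≤ E.n) (hF : HzFlat η p E Q0 τ) (l : Fin E.L) (hl : E.m l ≠ 0) :
    ∃ S : Finset ((ℤ × ℤ × ℤ) × (ℤ × ℤ × ℤ)), (S.card : ℝ) ≤ 2 * 10 ^ 5 * E.s ^ (-(7 * τ / 2)) ∧ (∀ x, E.th l x ≠ 0 → hzIx E Q0 (E.iv l) x ∈ S) ∧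
      ∀ j ∈ S, |j.2.2.2| ≤ 2 ^ (3 * E.n) := by
  classical
  obtain ⟨Q, hQ⟩ : ∃ Q : CyT, Q = E.ts l := ⟨_, rfl⟩
  have hQr : Q.r = Q0.r := by rw [hQ]; exact hF.wr l
  have hQf : Q.f = Q0.f := by rw [hQ]; exact hF.wf l
  have hs := gn_s_pos E
  have hs1 := gn_s_le_one E
  have hk : E.k0 ≤ E.kf := Nat.le_add_right _ _
  have hi : E.iv l ∈ ivs E.k0 E.i0 E.kf := (gn_mem_ivs _ _ _ _).2 (hE.iv_in l)
  obtain ⟨ht0, ht⟩ := hz_rd_ti E.k0 E.i0 E.kf (E.iv l) hk hi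
  have hlf : (0 : ℝ) < (2 : ℝ)⁻¹ ^ E.kf := by positivity
  have hll : (2 : ℝ)⁻¹ ^ E.kf ≤ (2 : ℝ)⁻¹ ^ E.k0 := pow_le_pow_of_le_one (by norm_num) (by norm_num) hk
  have hσ : 1 ≤ E.s ^ (-τ) := Real.one_le_rpow_of_pos_of_le_one_of_nonpos hs hs1 (by linarith)
  have hdl : 0 < p.dl E.kf := Real.sqrt_pos.2 (mul_pos h.H_pos (by positivity))
  have hql : p.ql E.kf = (2 : ℝ)⁻¹ ^ E.kf * p.dl E.kf := hz_rd_ql p h E.kf
  have ha : 0 < p.ql E.kf := by rw [hql]; positivity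
  have hdf : p.dl E.kf ≤ Q0.f := by
    have := (hE.ts_ok l).2.2
    rw [← hQf, hQ]
    exact this
  have hal : p.ql E.kf ≤ (2 : ℝ)⁻¹ ^ E.kf * Q0.f := by
    rw [hql]
    exact mul_le_mul_of_nonneg_left hdf hlf.le
  have hfd := hz_rd_fdl h E Q0 hf τ hF.planck
  obtain ⟨u2, u1⟩ := hz_cost_unfold Q Q0 (tmL E.kf (E.iv l)) (tmL E.k0 E.i0) ((2 : ℝ)⁻¹ ^ E.kf)
  have c2 := hF.cost2 l hl
  have c1 := hF.cost1 l hl
  rw [← hQ, u2] at c2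
  rw [← hQ, u1] at c1
  obtain ⟨S, hS1, hS2⟩ := hz_count Q Q0 ((2 : ℝ)⁻¹ ^ E.k0) ((2 : ℝ)⁻¹ ^ E.kf) (tmL E.kf (E.iv l) - tmL E.k0 E.i0) (p.ql E.kf) (E.s ^ (-τ)) _ _
    hr hf hQr hQf hlf hll ht0 ht ha hal hσ (fun z hz => by
      have := hz_taylor Q (hzFr Q0 (tmL E.kf (E.iv l) - tmL E.k0 E.i0)) ((2 : ℝ)⁻¹ ^ E.kf) (E.s ^ (-τ)) hlf.le (by rw [hQr]; exact hr) (by rw [hQf]; exact hf) c2 c1 z hz
      rw [hQf] at this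
      exact this)
  refine ⟨S.filter (fun j => |j.2.2.2| ≤ 2 ^ (3 * E.n)), ?_, ?_, ?_⟩
  · have k1 : ((S.filter (fun j => |j.2.2.2| ≤ 2 ^ (3 * E.n))).card : ℝ) ≤ S.card := by
      exact_mod_cast Finset.card_filter_le _ _
    refine k1.trans (hS1.trans ?_)
    have e1 : (2 : ℝ)⁻¹ ^ E.kf * Q0.f / p.ql E.kf = Q0.f / p.dl E.kf := by
      rw [hql]
      field_simp
    have e2 : Q0.f / p.dl E.kf ≤ E.s ^ (-(τ / 2)) := by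
      rw [div_le_iff₀ hdl]
      exact hfd
    have e3 : (E.s ^ (-τ)) ^ 3 * E.s ^ (-(τ / 2)) = E.s ^ (-(7 * τ / 2)) := by
      rw [← Real.rpow_natCast, ← Real.rpow_mul hs.le, ← Real.rpow_add hs]
      congr 1
      push_cast
      ring
    rw [e1, ← e3, mul_assoc]
    exact mul_le_mul_of_nonneg_left (mul_le_mul_of_nonneg_left e2 (by positivity)) (by norm_num)
  · intro x hx
    rw [Finset.mem_filter]
    refine ⟨?_, hz_rd_ix_bd h E Q0 hr hf τ hτ1 hn hfd (E.iv l) hi x⟩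
    have hc : cyIn Q ((2 : ℝ)⁻¹ ^ E.kf) (p.co (tmL E.kf (E.iv l)) x) := by
      rw [hQ]
      exact hE.th_supp l x hx
    exact hS2 _ hc
  · intro j hj
    exact (Finset.mem_filter.1 hj).2

/-- **(A2)** the lattice lemma summed over the final intervals (ABSTRACT).   For fixed `i`: `hz_lattice` with `μ = P.mu Ti kf bT (fin i)` (`gn_mu_finite`), `θ_l = if iv l = i ∧ m l ≠ 0 then th l else 0`, `c i`, `S'_l = if iv l = i then S l else ∅`;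
`∫ θ_l dμ = m l` or `0` (`hz_rd_en_mu`, `Xp.m`), `μ.real (c i ⁻¹' {j}) = ms ..` (`gn_ms_eq_mu`), `Σ_l θ_l ≤ 1` (`hE.th_sum i`, `hE.th_nn`).
Then `Σ_l m_l^(3/2) = Σ_{i ∈ ivs} Σ_{l : iv l = i} m_l^(3/2)` (`hE.iv_in`, `gn_mem_ivs`, `Finset.sum_fiberwise_of_maps_to`), `0^(3/2) = 0`.   ~200 l. -/
theorem hz_rd_lat {P : PkSys} (E : Xp P) (hE : E.Valid) {ι : Type} [DecidableEq ι] (c : ℕ → P.X → ι) (hc : ∀ i j, MeasurableSet (c i ⁻¹' {j}))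
    (S : Fin E.L → Finset ι) (N0 : ℝ) (hS : ∀ l, ((S l).card : ℝ) ≤ N0) (hsup : ∀ l, E.m l ≠ 0 → ∀ x, E.th l x ≠ 0 → c (E.iv l) x ∈ S l) :
    ∑ l, E.m l ^ (3 / 2 : ℝ) ≤ Real.sqrt N0 * ∑ i ∈ ivs E.k0 E.i0 E.kf, ∑ j ∈ Finset.univ.biUnion (fun l => if E.iv l = i then S l else ∅),
      P.ms (tmL E.kf i) E.kf E.bT (c i ⁻¹' {j}) (E.fin i) ^ (3 / 2 : ℝ) := by
  classical
  have key : ∀ i, ∑ l, (if E.iv l = i then E.m l ^ (3 / 2 : ℝ) else 0)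
      ≤ Real.sqrt N0 * ∑ j ∈ Finset.univ.biUnion (fun l => if E.iv l = i then S l else ∅),
        P.ms (tmL E.kf i) E.kf E.bT (c i ⁻¹' {j}) (E.fin i) ^ (3 / 2 : ℝ) := by
    intro i
    have := gn_mu_finite (P := P) (tmL E.kf i) E.kf E.bT (E.fin i)
    have h := hz_lattice (P.mu (tmL E.kf i) E.kf E.bT (E.fin i)) (L := E.L)
      (fun l => if E.iv l = i ∧ E.m l ≠ 0 then E.th l else fun _ => 0)
      (by
        intro l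
        by_cases hl : E.iv l = i ∧ E.m l ≠ 0
        · simp only [if_pos hl]; exact hE.th_meas l
        · simp only [if_neg hl]; exact measurable_const)
      (by
        intro l x
        by_cases hl : E.iv l = i ∧ E.m l ≠ 0
        · simp only [if_pos hl]; exact hE.th_nn l x
        · simp only [if_neg hl]; exact le_rfl)
      (by
        intro x
        refine le_trans (Finset.sum_le_sum fun l _ => ?_) (hE.th_sum i x)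
        by_cases hl : E.iv l = i ∧ E.m l ≠ 0
        · simp only [if_pos hl, if_pos hl.1]; exact le_rfl
        · simp only [if_neg hl]
          by_cases hl1 : E.iv l = i
          · rw [if_pos hl1]; exact hE.th_nn l x
          · rw [if_neg hl1])
      (c i) (hc i) (fun l => if E.iv l = i then S l else ∅) N0
      (by
        intro l
        by_cases hl1 : E.iv l = i
        · simp only [if_pos hl1]; exact hS l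
        · simp only [if_neg hl1, Finset.card_empty, Nat.cast_zero]
          exact (Nat.cast_nonneg _).trans (hS l))
      (by
        intro l x hx
        by_cases hl : E.iv l = i ∧ E.m l ≠ 0
        · simp only [if_pos hl] at hx
          simp only [if_pos hl.1]
          have := hsup l hl.2 x hx
          rwa [hl.1] at this
        · simp only [if_neg hl] at hx
          exact absurd rfl hx)
    have e1 : ∀ l, (∫ x, (if E.iv l = i ∧ E.m l ≠ 0 then E.th l else fun _ => 0) x ∂(P.mu (tmL E.kf i) E.kf E.bT (E.fin i))) ^ (3 / 2 : ℝ)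
        = if E.iv l = i then E.m l ^ (3 / 2 : ℝ) else 0 := by
      intro l
      have h0 : (0 : ℝ) ^ (3 / 2 : ℝ) = 0 := Real.zero_rpow (by norm_num)
      by_cases hl : E.iv l = i ∧ E.m l ≠ 0
      · simp only [if_pos hl, if_pos hl.1]
        rw [← hz_rd_en_mu]
        obtain ⟨h1, -⟩ := hl
        subst h1
        rfl
      · simp only [if_neg hl, integral_zero, h0]
        by_cases hl1 : E.iv l = i
        · have : E.m l = 0 := by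
            by_contra hne
            exact hl ⟨hl1, hne⟩
          rw [if_pos hl1, this, h0]
        · rw [if_neg hl1]
    rw [Finset.sum_congr rfl fun l _ => e1 l] at h
    refine h.trans (le_of_eq ?_)
    congr 1
    refine Finset.sum_congr rfl fun j _ => ?_
    rw [gn_ms_eq_mu _ _ _ (hc i j)]
  have e2 : ∑ l, E.m l ^ (3 / 2 : ℝ) = ∑ i ∈ ivs E.k0 E.i0 E.kf, ∑ l, (if E.iv l = i then E.m l ^ (3 / 2 : ℝ) else 0) := by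
    rw [Finset.sum_comm]
    refine Finset.sum_congr rfl fun l _ => ?_
    rw [Finset.sum_ite_eq, if_pos ((gn_mem_ivs _ _ _ _).2 (hE.iv_in l))]
  rw [e2, Finset.mul_sum]
  exact Finset.sum_le_sum fun i _ => key i

/-! ## B. near groups -/

/-- **(B1)** `v = G.v + hzCo`:  `hy_tl_split` at the root (`hz_rd_rt_meas`), `map_add` of the adjoint, `gn_adj_an (hy_tight η p h) .. hE.plat`, `gn_run_add` (`gn_valid_stm`);   `G.v`, `G.syn`, `G.F`, `hzCo`, `hzRt`, `Xp.fin` unfold by `rfl`.   ~40 l. -/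
theorem hz_rd_split {η : ℝ} {p : ChyPar} (h : p.Ok) (E : Xp (p.sys η)) (hE : E.Valid) (Q0 : CyT) (N1 A1 : ℝ) (g : ℤ × ℤ × ℤ) (i : ℕ) :
    E.fin i = Xp.run E.kf i E.st (hzGrp E Q0 N1 A1 g).v + Xp.run E.kf i E.st (hzCo E Q0 N1 g) := by
  have hS := hz_rd_rt_meas h E Q0 N1 g
  have h1 := hy_tl_split (P := p.sys η) E.k0 hS ((p.sys η).An (tmL E.k0 E.i0) E.k0 E.b0 E.v)
  have h2 : ContinuousLinearMap.adjoint ((p.sys η).An (tmL E.k0 E.i0) E.k0 0) ((p.sys η).An (tmL E.k0 E.i0) E.k0 E.b0 E.v) = E.v :=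
    gn_adj_an (hy_tight η p h) (tmL E.k0 E.i0) E.k0 E.b0 hE.plat
  have h3 : (hzGrp E Q0 N1 A1 g).v + hzCo E Q0 N1 g = E.v := by
    show ContinuousLinearMap.adjoint ((p.sys η).An (tmL E.k0 E.i0) E.k0 0)
        ((p.sys η).mulR E.k0 ((hzRt E Q0 N1 g).indicator fun _ => 1) ((p.sys η).An (tmL E.k0 E.i0) E.k0 E.b0 E.v))
      + ContinuousLinearMap.adjoint ((p.sys η).An (tmL E.k0 E.i0) E.k0 0)
        ((p.sys η).mulR E.k0 ((hzRt E Q0 N1 g)ᶜ.indicator fun _ => 1) ((p.sys η).An (tmL E.k0 E.i0) E.k0 E.b0 E.v)) = E.v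
    exact ((map_add (ContinuousLinearMap.adjoint ((p.sys η).An (tmL E.k0 E.i0) E.k0 0)) _ _).symm.trans (congrArg _ h1)).trans h2
  show Xp.run E.kf i E.st E.v = _
  rw [← gn_run_add _ _ _ (gn_valid_stm E hE), h3]

/-- **(B2)** the complementary state has negligible mass on the rows of the group.   `hz_red_bwd η p h k0 i0 kf i hi _ E.st (gn_valid_stm ..) hE.st_dep hE.st_mono (hzGf Q0 l0 g) hf hpl (Λ := n) N1 ..` with `F = mulR k0 1_{(g+)ᶜ} F0`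
(`hF`: `gn_mulR_coe`, the indicator vanishes on `hzRt`);   the rows of the group lie in the set of `hz_red_bwd` (`hz_gi_mem`, `hz_rd_ti`; `(hzGf ..).r = Q0.r`, `(hzGf ..).f = Q0.f` by `rfl`), `gn_ms_mono` (`hz_rd_gx_meas`, `hy_tl_mX`, `hy_tl_mBx`);
`‖F‖² ≤ ‖F0‖² ≤ ‖v‖² ≤ e` (`gn_mulR_norm_le`, `(hy_tight η p h).contr`, `hE.budget`);  `(kf : ℝ) - k0 = n`;  `st.length ≤ C`.   ~120 l. -/
theorem hz_rd_bwd {η : ℝ} {p : ChyPar} (h : p.Ok) (E : Xp (p.sys η)) (hE : E.Valid) (C : ℕ) (hC : E.st.length ≤ C) (Q0 : CyT) (hr : 0 < Q0.r) (hf : 0 < Q0.f)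
    (hpl : p.dl E.kf ≤ Q0.f) (hn : 1 ≤ E.n) (N1 : ℝ) (hN : (2 * (C : ℝ) + 5) * E.n ≤ N1) (g : ℤ × ℤ × ℤ) (i : ℕ) (hi : i ∈ ivs E.k0 E.i0 E.kf) :
    (p.sys η).ms (tmL E.kf i) E.kf 0 {x : p.Om × ℝ × ℝ | hzGx E Q0 i x = g} (Xp.run E.kf i E.st (hzCo E Q0 N1 g)) ≤ hzE2 C E.n * E.e := by
  have hk : E.k0 ≤ E.kf := Nat.le_add_right _ _
  have hl0 : (0 : ℝ) < (2 : ℝ)⁻¹ ^ E.k0 := by positivity
  have hn1 : (1 : ℝ) ≤ (E.n : ℝ) := by exact_mod_cast hn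
  have hlen : (E.st.length : ℝ) ≤ C := by exact_mod_cast hC
  have hS := hz_rd_rt_meas h E Q0 N1 g
  have hmask := gn_mask_ind (X := (p.sys η).X) hS.compl
  obtain ⟨F0, hF0⟩ : ∃ F0, F0 = (p.sys η).An (tmL E.k0 E.i0) E.k0 E.b0 E.v := ⟨_, rfl⟩
  have hN' : (2 * (E.st.length : ℝ) + 5) * (E.n : ℝ) ≤ N1 := by
    refine le_trans ?_ hN
    exact mul_le_mul_of_nonneg_right (by linarith) (by linarith)
  have hFz : ∀ᵐ x ∂p.rw, p.co (tmL E.k0 E.i0) x ∈ hzGp (hzGf Q0 ((2 : ℝ)⁻¹ ^ E.k0) g) ((2 : ℝ)⁻¹ ^ E.k0) N1 →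
      ((p.sys η).mulR E.k0 ((hzRt E Q0 N1 g)ᶜ.indicator fun _ => 1) F0 : p.Om × ℝ × ℝ → p.Fb) x = 0 := by
    filter_upwards [gn_mulR_coe (P := p.sys η) E.k0 hmask F0] with x hx hmem
    have hnot : x ∉ (hzRt E Q0 N1 g)ᶜ := fun hc => hc hmem
    refine hx.trans ?_
    have e : ((hzRt E Q0 N1 g)ᶜ.indicator (fun _ => (1 : ℝ)) x) = 0 := Set.indicator_of_notMem hnot _
    have e2 : ((((hzRt E Q0 N1 g)ᶜ.indicator (fun _ => (1 : ℝ)) x : ℝ)) : ℂ) = 0 := by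
      rw [e]
      exact Complex.ofReal_zero
    exact (congrArg (fun c : ℂ => c • (F0 : (p.sys η).X → (p.sys η).Fb) x) e2).trans (zero_smul _ _)
  have key := hz_red_bwd η p h E.k0 E.i0 E.kf i hi hk E.st (gn_valid_stm E hE) hE.st_dep hE.st_mono (hzGf Q0 ((2 : ℝ)⁻¹ ^ E.k0) g) hf hpl
    (E.n : ℝ) N1 hn1 hN' ((p.sys η).mulR E.k0 ((hzRt E Q0 N1 g)ᶜ.indicator fun _ => 1) F0) hFz
  obtain ⟨ht0, ht⟩ := hz_rd_ti E.k0 E.i0 E.kf i hk hi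
  have hsub : {x : p.Om × ℝ × ℝ | hzGx E Q0 i x = g} ⊆ {x | |(p.co (tmL E.kf i) x).X - (hzGf Q0 ((2 : ℝ)⁻¹ ^ E.k0) g).x| ≤ (hzGf Q0 ((2 : ℝ)⁻¹ ^ E.k0) g).r / 2} ∩
      hyBx p (hzFr (hzGf Q0 ((2 : ℝ)⁻¹ ^ E.k0) g) (tmL E.kf i - tmL E.k0 E.i0)) (tmL E.kf i) ((hzGf Q0 ((2 : ℝ)⁻¹ ^ E.k0) g).f / 2)
        ((2 : ℝ)⁻¹ ^ E.k0 * (hzGf Q0 ((2 : ℝ)⁻¹ ^ E.k0) g).f) := by
    intro x hx
    obtain ⟨a1, a2, a3⟩ := hz_gi_mem Q0 hr hf ((2 : ℝ)⁻¹ ^ E.k0) (tmL E.kf i - tmL E.k0 E.i0) hl0 ht0 ht g (p.co (tmL E.kf i) x) hx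
    exact ⟨a1, a2, a3⟩
  have hm2 : MeasurableSet ({x : p.Om × ℝ × ℝ | |(p.co (tmL E.kf i) x).X - (hzGf Q0 ((2 : ℝ)⁻¹ ^ E.k0) g).x| ≤ (hzGf Q0 ((2 : ℝ)⁻¹ ^ E.k0) g).r / 2} ∩
      hyBx p (hzFr (hzGf Q0 ((2 : ℝ)⁻¹ ^ E.k0) g) (tmL E.kf i - tmL E.k0 E.i0)) (tmL E.kf i) ((hzGf Q0 ((2 : ℝ)⁻¹ ^ E.k0) g).f / 2)
        ((2 : ℝ)⁻¹ ^ E.k0 * (hzGf Q0 ((2 : ℝ)⁻¹ ^ E.k0) g).f)) :=
    (measurableSet_le ((hy_tl_mX p h (tmL E.kf i)).sub_const _).abs measurable_const).inter (hy_tl_mBx p h _ _ _ _)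
  have hmono := gn_ms_mono (P := p.sys η) (tmL E.kf i) E.kf 0 (hz_rd_gx_meas h E Q0 i g) hm2 hsub (Xp.run E.kf i E.st (hzCo E Q0 N1 g))
  have hco : hzCo E Q0 N1 g = ContinuousLinearMap.adjoint ((p.sys η).An (tmL E.k0 E.i0) E.k0 0)
      ((p.sys η).mulR E.k0 ((hzRt E Q0 N1 g)ᶜ.indicator fun _ => 1) F0) := by
    rw [hF0]
    rfl
  rw [← hco] at key
  refine hmono.trans (key.trans ?_)
  have hnorm : ‖(p.sys η).mulR E.k0 ((hzRt E Q0 N1 g)ᶜ.indicator fun _ => 1) F0‖ ^ 2 ≤ E.e := by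
    have b1 := gn_mulR_norm_le (P := p.sys η) E.k0 hmask F0
    have b2 : ‖F0‖ ≤ ‖E.v‖ := by
      rw [hF0]
      exact (hy_tight η p h).contr _ _ _ _
    calc ‖(p.sys η).mulR E.k0 ((hzRt E Q0 N1 g)ᶜ.indicator fun _ => 1) F0‖ ^ 2 ≤ ‖E.v‖ ^ 2 :=
          pow_le_pow_left₀ (norm_nonneg _) (b1.trans b2) 2
      _ ≤ E.e := hE.budget
  have hkn : ((E.kf : ℝ) - E.k0) = E.n := by
    have : E.kf = E.k0 + E.n := rfl
    rw [this]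
    push_cast
    ring
  rw [hkn]
  unfold hzE2
  have hexp : 0 ≤ Real.exp (-((E.n : ℝ) ^ 2 / 40)) := (Real.exp_pos _).le
  have c1 : ((E.st.length : ℝ) + 1) * 52 * Real.exp (-((E.n : ℝ) ^ 2 / 40)) ≤ ((C : ℝ) + 1) * 52 * Real.exp (-((E.n : ℝ) ^ 2 / 40)) :=
    mul_le_mul_of_nonneg_right (by linarith) hexp
  have c2 : (((E.st.length : ℝ) + 1) * 52 * Real.exp (-((E.n : ℝ) ^ 2 / 40))) ^ 2 ≤ (((C : ℝ) + 1) * 52 * Real.exp (-((E.n : ℝ) ^ 2 / 40))) ^ 2 :=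
    pow_le_pow_left₀ (by positivity) c1 2
  have c3 : (0 : ℝ) ≤ 2 ^ ((E.n : ℝ) / 2) := by positivity
  exact mul_le_mul (mul_le_mul_of_nonneg_right c2 c3) hnorm (by positivity) (by positivity)

/-- **(B)** NEAR GROUPS.   `hz_rd_split`, `hz_rd_tri` with `A c = hzIx ⁻¹' {(g,c)}` (`hz_rd_ix_pre`: `⊆ cl i c`, `⊆ R = {hzGx = g}`; disjoint: preimages of distinct singletons), `hz_rd_bwd`, `Real.rpow_le_rpow`.   `G.mf` unfolds by `rfl`.   ~70 l. -/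
theorem hz_rd_near {η : ℝ} {p : ChyPar} (h : p.Ok) (E : Xp (p.sys η)) (hE : E.Valid) (C : ℕ) (hC : E.st.length ≤ C) (Q0 : CyT) (hr : 0 < Q0.r) (hf : 0 < Q0.f)
    (hpl : p.dl E.kf ≤ Q0.f) (hn : 1 ≤ E.n) (N1 A1 : ℝ) (hN : (2 * (C : ℝ) + 5) * E.n ≤ N1) (g : ℤ × ℤ × ℤ) (i : ℕ) (hi : i ∈ ivs E.k0 E.i0 E.kf)
    (D : Finset (ℤ × ℤ × ℤ)) :
    ∑ c ∈ D, hzMs E Q0 i (g, c) ^ (3 / 2 : ℝ)
      ≤ 4 * ∑ c ∈ D, (hzGrp E Q0 N1 A1 g).mf (hzGrp E Q0 N1 A1 g).v i ((hzGrp E Q0 N1 A1 g).cl i c) ^ (3 / 2 : ℝ) + 4 * (hzE2 C E.n * E.e) ^ (3 / 2 : ℝ) := by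
  have hsplit := hz_rd_split h E hE Q0 N1 A1 g i
  have hR : MeasurableSet {x : p.Om × ℝ × ℝ | hzGx E Q0 i x = g} := hz_rd_gx_meas h E Q0 i g
  have hdisj : ((D : Finset (ℤ × ℤ × ℤ)) : Set (ℤ × ℤ × ℤ)).PairwiseDisjoint (fun c => hzIx E Q0 i ⁻¹' {(g, c)}) := by
    intro c _ c' _ hcc
    show Disjoint (hzIx E Q0 i ⁻¹' {(g, c)}) (hzIx E Q0 i ⁻¹' {(g, c')})
    refine Disjoint.preimage _ ?_
    rw [Set.disjoint_singleton]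
    intro hh
    exact hcc (Prod.mk.inj hh).2
  have htri := hz_rd_tri (P := p.sys η) (tmL E.kf i) E.kf 0 (Xp.run E.kf i E.st (hzGrp E Q0 N1 A1 g).v) (Xp.run E.kf i E.st (hzCo E Q0 N1 g)) D
      (fun c => hzIx E Q0 i ⁻¹' {(g, c)}) (fun c => (hzGrp E Q0 N1 A1 g).cl i c) {x : p.Om × ℝ × ℝ | hzGx E Q0 i x = g}
      (fun c _ => hz_rd_ix_meas h E Q0 i (g, c)) (fun c _ => hz_rd_cl_meas h _ i c) hR hdisj
      (fun c _ => by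
        show hzIx E Q0 i ⁻¹' {(g, c)} ⊆ (hzGrp E Q0 N1 A1 g).cl i c
        rw [hz_rd_ix_pre E Q0 N1 A1 i g c]
        exact Set.inter_subset_right)
      (fun c _ => by
        show hzIx E Q0 i ⁻¹' {(g, c)} ⊆ {x : p.Om × ℝ × ℝ | hzGx E Q0 i x = g}
        rw [hz_rd_ix_pre E Q0 N1 A1 i g c]
        exact Set.inter_subset_left)
  rw [← hsplit] at htri
  have hb := hz_rd_bwd h E hE C hC Q0 hr hf hpl hn N1 hN g i hi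
  have hb' := Real.rpow_le_rpow (gn_ms_nonneg _ _ _ _ _) hb (by norm_num : (0 : ℝ) ≤ 3 / 2)
  refine le_trans htri ?_
  have h4 := mul_le_mul_of_nonneg_left hb' (by norm_num : (0 : ℝ) ≤ 4)
  exact add_le_add le_rfl h4

/-! ## C. far groups -/

/-- **(C1)** no mass outside the base support.   `W = {ω | s^-C < |X ω - x0|/r}` is measurable (`h.mX`);  `hyW p W ⊆ {x | s^-C < cyBaseSz Q0 l0 (p.co T0 x)}` (`le_max_left`, `abs_div`, `abs_of_pos`; the latter set is measurable by `hy_tl_mBase`);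
`gn_ms_mono`, `hS.supp`, `gn_ms_nonneg`;  `hy_tl_ind_le p h η (hy_tight η p h) hW T0 k0 b0 Ti kf 0 kf i E.st (gn_valid_stm ..) E.v`.   ~50 l. -/
theorem hz_rd_far_X {η : ℝ} {p : ChyPar} (h : p.Ok) (E : Xp (p.sys η)) (hE : E.Valid) (C A : ℕ) (Q0 : CyT) (hS : CySet (p.sys η) p.co η False C A E Q0) (i : ℕ) :
    (p.sys η).ms (tmL E.kf i) E.kf 0 (hyW p {ω | E.s ^ (-(C : ℝ)) < |p.X ω - Q0.x| / Q0.r}) (E.fin i) = 0 := by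
  have hW : MeasurableSet {ω : p.Om | E.s ^ (-(C : ℝ)) < |p.X ω - Q0.x| / Q0.r} :=
    measurableSet_lt measurable_const (((h.mX.sub measurable_const).abs).div_const _)
  have hB : MeasurableSet {x : p.Om × ℝ × ℝ | E.s ^ (-(C : ℝ)) < cyBaseSz Q0 ((2 : ℝ)⁻¹ ^ E.k0) (p.co (tmL E.k0 E.i0) x)} := by
    have hm := hy_tl_mBase p h Q0 (tmL E.k0 E.i0) ((2 : ℝ)⁻¹ ^ E.k0)
    unfold cyBaseSz
    exact measurableSet_lt measurable_const (hm.fst.abs.max (hm.snd.fst.abs.max hm.snd.snd.abs))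
  have hsub : hyW p {ω | E.s ^ (-(C : ℝ)) < |p.X ω - Q0.x| / Q0.r} ⊆
      {x : p.Om × ℝ × ℝ | E.s ^ (-(C : ℝ)) < cyBaseSz Q0 ((2 : ℝ)⁻¹ ^ E.k0) (p.co (tmL E.k0 E.i0) x)} := by
    intro x hx
    have hx' : E.s ^ (-(C : ℝ)) < |p.X x.1 - Q0.x| / Q0.r := hx
    refine lt_of_lt_of_le hx' (le_trans (le_of_eq ?_) (le_max_left _ _))
    show |p.X x.1 - Q0.x| / Q0.r = |(p.X x.1 - Q0.x) / Q0.r|
    rw [abs_div, abs_of_pos hS.r_pos]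
  have h1 := hy_tl_ind_le p h η (hy_tight η p h) hW (tmL E.k0 E.i0) E.k0 E.b0 (tmL E.kf i) E.kf 0 E.kf i E.st (gn_valid_stm E hE) E.v
  have h2 := gn_ms_mono (P := p.sys η) (tmL E.k0 E.i0) E.k0 E.b0 (hy_tl_mW p hW) hB hsub E.v
  exact le_antisymm (h1.trans (h2.trans (le_of_eq hS.supp))) (gn_ms_nonneg _ _ _ _ _)

/-- **(C2)** propagation of the normal tails.   `hy_tl_chain η (HyKer from hy_loc_ker, as in hy_tail) p h (hy_tight η p h) (Λ := n) _ kf i 0 E.st k0 b0 Q0 a b a' b₂ F0 ..` with `a = s^-C f`, `b = s^-C (l0 f)`, `a' = (s^-C + (C+1) n) f`, `b₂ = 2 (s^-C + (C+1) n) (l0 f)`;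
`ancI kf k0 i = i0` (`gn_mem_ivs`), `hz_fr_mv`, `gn_adj_an` (`E.fin i = run (An† F0)`);   side conditions: `d(kf) ≤ f`, `q(k0) = l0 d(k0) ≤ l0 d(kf) ≤ l0 f` (`hz_rd_ql`, `hy_tl_dl_mono`), `ti ≤ l0` (`hz_rd_ti`), `st.length ≤ C`;
`‖1_{box0ᶜ} F0‖² = ms T0 k0 b0 box0ᶜ v ≤ s^A e` (`hy_tl_ms_norm`, `hy_tl_nor_box`, `hS.tail`);  `‖F0‖² ≤ e`;  `(x+y)² ≤ 2x² + 2y²`;  `(2^(n/4))² = 2^(n/2)`;  `Real.sqrt_le_left`/`Real.sqrt_le_iff`.   ~200 l. -/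
theorem hz_rd_far_N {η : ℝ} {p : ChyPar} (h : p.Ok) (E : Xp (p.sys η)) (hE : E.Valid) (C A : ℕ) (hC : E.st.length ≤ C) (Q0 : CyT)
    (hS : CySet (p.sys η) p.co η False C A E Q0) (hpl : p.dl E.kf ≤ Q0.f) (hn : 1 ≤ E.n) (i : ℕ) (hi : i ∈ ivs E.k0 E.i0 E.kf) :
    (p.sys η).ms (tmL E.kf i) E.kf 0 (hyBx p (hzFr Q0 (tmL E.kf i - tmL E.k0 E.i0)) (tmL E.kf i) ((E.s ^ (-(C : ℝ)) + ((C : ℝ) + 1) * E.n) * Q0.f)
        (2 * (E.s ^ (-(C : ℝ)) + ((C : ℝ) + 1) * E.n) * ((2 : ℝ)⁻¹ ^ E.k0 * Q0.f)))ᶜ (E.fin i)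
      ≤ (2 * E.s ^ (A : ℝ) + 2 * hzE2 C E.n) * E.e := by
  have hT := hy_tight η p h
  have hK : HyKer η := fun p hp Λ hΛ T k T' k' hc S S' hS hS' hn F b b' => hy_loc_ker η p hp Λ hΛ T k T' k' hc S S' hS hS' hn F b b'
  have hf := hS.f_pos
  have hk : E.k0 ≤ E.kf := Nat.le_add_right _ _
  have hanc : ancI E.kf E.k0 i = E.i0 := (gn_mem_ivs _ _ _ _).1 hi
  obtain ⟨ht0, ht1⟩ := hz_rd_ti E.k0 E.i0 E.kf i hk hi
  have hnR : (1 : ℝ) ≤ E.n := by exact_mod_cast hn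
  have hl0 : (0 : ℝ) < (2 : ℝ)⁻¹ ^ E.k0 := by positivity
  have hsC : 0 < E.s ^ (-(C : ℝ)) := Real.rpow_pos_of_pos (gn_s_pos E) _
  have hlen : (E.st.length : ℝ) ≤ C := by exact_mod_cast hC
  have hlen0 : (0 : ℝ) ≤ (E.st.length : ℝ) := Nat.cast_nonneg _
  have hd0 := hy_tl_dl_nonneg p E.kf
  have hq : p.ql E.k0 ≤ (2 : ℝ)⁻¹ ^ E.k0 * Q0.f := by
    rw [hz_rd_ql p h]
    exact mul_le_mul_of_nonneg_left ((hy_tl_dl_mono p h hk).trans hpl) hl0.le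
  have hq0 := hy_tl_ql_nonneg p E.k0
  obtain ⟨F0, hF0⟩ : ∃ F0 : Lp p.Fb 2 p.rw, F0 = (p.sys η).An (tmL E.k0 E.i0) E.k0 E.b0 E.v := ⟨_, rfl⟩
  have hch := hy_tl_chain η hK p h hT (E.n : ℝ) hnR E.kf i 0 E.st E.k0 E.b0 Q0 (E.s ^ (-(C : ℝ)) * Q0.f) (E.s ^ (-(C : ℝ)) * ((2 : ℝ)⁻¹ ^ E.k0 * Q0.f))
    ((E.s ^ (-(C : ℝ)) + ((C : ℝ) + 1) * E.n) * Q0.f) (2 * (E.s ^ (-(C : ℝ)) + ((C : ℝ) + 1) * E.n) * ((2 : ℝ)⁻¹ ^ E.k0 * Q0.f)) F0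
    (gn_valid_stm E hE) hE.st_dep hk hE.st_mono (by positivity)
    (by
      have e1 : ((E.st.length : ℝ) + 1) * ((E.n : ℝ) * p.dl E.kf) ≤ ((C : ℝ) + 1) * ((E.n : ℝ) * Q0.f) := by gcongr
      nlinarith)
    (by
      rw [hanc]
      have e1 : ((E.st.length : ℝ) + 1) * ((E.n : ℝ) * p.ql E.k0) ≤ ((C : ℝ) + 1) * ((E.n : ℝ) * ((2 : ℝ)⁻¹ ^ E.k0 * Q0.f)) := by gcongr
      have e2 : (tmL E.kf i - tmL E.k0 E.i0) * ((E.s ^ (-(C : ℝ)) + ((C : ℝ) + 1) * E.n) * Q0.f)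
          ≤ (2 : ℝ)⁻¹ ^ E.k0 * ((E.s ^ (-(C : ℝ)) + ((C : ℝ) + 1) * E.n) * Q0.f) := by
        refine mul_le_mul_of_nonneg_right ht1 ?_
        positivity
      nlinarith)
  rw [hanc, ← hz_fr_mv] at hch
  have hadj : ContinuousLinearMap.adjoint ((p.sys η).An (tmL E.k0 E.i0) E.k0 E.b0) F0 = E.v := by
    rw [hF0]
    exact gn_adj_an (P := p.sys η) hT _ _ _ hE.plat
  rw [hadj] at hch
  have hfin : Xp.run E.kf i E.st E.v = E.fin i := rfl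
  rw [hfin] at hch
  -- the two terms
  have hx : ‖(p.sys η).mulR E.k0 ((hyBx p Q0 (tmL E.k0 E.i0) (E.s ^ (-(C : ℝ)) * Q0.f) (E.s ^ (-(C : ℝ)) * ((2 : ℝ)⁻¹ ^ E.k0 * Q0.f)))ᶜ.indicator fun _ => 1) F0‖ ^ 2
      ≤ E.s ^ (A : ℝ) * E.e := by
    rw [hF0]
    have e := hy_tl_ms_norm (P := p.sys η) (tmL E.k0 E.i0) E.k0 E.b0
      (hy_tl_mBx p h Q0 (tmL E.k0 E.i0) (E.s ^ (-(C : ℝ)) * Q0.f) (E.s ^ (-(C : ℝ)) * ((2 : ℝ)⁻¹ ^ E.k0 * Q0.f))).compl E.v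
    refine le_trans (le_of_eq e.symm) ?_
    have e2 := hy_tl_nor_box p Q0 hf (tmL E.k0 E.i0) ((2 : ℝ)⁻¹ ^ E.k0) (E.s ^ (-(C : ℝ))) hl0
    have e3 := congrArg (fun S => (p.sys η).ms (tmL E.k0 E.i0) E.k0 E.b0 S E.v) e2.symm
    exact (le_of_eq e3).trans hS.tail
  have hy : ‖F0‖ ^ 2 ≤ E.e := by
    rw [hF0]
    refine le_trans ?_ hE.budget
    exact pow_le_pow_left₀ (norm_nonneg _) (hT.contr _ _ _ _) 2
  have hkk : ((E.kf : ℕ) : ℝ) - E.k0 = E.n := by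
    simp [Xp.kf]
  rw [hkk] at hch
  obtain ⟨X, hX⟩ : ∃ X : ℝ, X = ‖(p.sys η).mulR E.k0 ((hyBx p Q0 (tmL E.k0 E.i0) (E.s ^ (-(C : ℝ)) * Q0.f) (E.s ^ (-(C : ℝ)) * ((2 : ℝ)⁻¹ ^ E.k0 * Q0.f)))ᶜ.indicator fun _ => 1) F0‖ := ⟨_, rfl⟩
  rw [← hX] at hch hx
  have hX0 : 0 ≤ X := by rw [hX]; exact norm_nonneg _
  obtain ⟨Y, hY⟩ : ∃ Y : ℝ, Y = ((E.st.length : ℝ) + 1) * (52 * Real.exp (-((E.n : ℝ) ^ 2 / 40)) * 2 ^ ((E.n : ℝ) / 4)) * ‖F0‖ := ⟨_, rfl⟩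
  rw [← hY] at hch
  have hY0 : 0 ≤ Y := by rw [hY]; positivity
  have hY2 : Y ^ 2 ≤ hzE2 C E.n * E.e := by
    rw [hY, hzE2]
    have e1 : ((2 : ℝ) ^ ((E.n : ℝ) / 4)) ^ 2 = 2 ^ ((E.n : ℝ) / 2) := by
      rw [← Real.rpow_natCast ((2 : ℝ) ^ ((E.n : ℝ) / 4)) 2, ← Real.rpow_mul (by norm_num)]
      congr 1
      push_cast
      ring
    have e2 : (((E.st.length : ℝ) + 1) * (52 * Real.exp (-((E.n : ℝ) ^ 2 / 40)) * 2 ^ ((E.n : ℝ) / 4)) * ‖F0‖) ^ 2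
        = (((E.st.length : ℝ) + 1) * 52 * Real.exp (-((E.n : ℝ) ^ 2 / 40))) ^ 2 * 2 ^ ((E.n : ℝ) / 2) * ‖F0‖ ^ 2 := by
      rw [← e1]
      ring
    rw [e2]
    gcongr
  have hms := (Real.sqrt_le_left (by positivity)).1 hch
  calc _ ≤ (X + Y) ^ 2 := hms
    _ ≤ 2 * X ^ 2 + 2 * Y ^ 2 := by nlinarith [sq_nonneg (X - Y)]
    _ ≤ (2 * E.s ^ (A : ℝ) + 2 * hzE2 C E.n) * E.e := by nlinarith

/-- the floor of a bounded real -/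
theorem hz_rd_geo_fl (u : ℝ) (N : ℕ) (h : |u| + 1 ≤ N) : |⌊u⌋| ≤ (N : ℤ) := by
  have h1 := abs_le.1 (le_refl |u|)
  rw [abs_le]
  constructor
  · rw [Int.le_floor]
    push_cast
    linarith [h1.1]
  · have h2 : (⌊u⌋ : ℝ) ≤ (N : ℝ) := (Int.floor_le u).trans (by linarith [h1.2])
    exact_mod_cast h2

/-- **(C3)** geometry: a row in the base support and in the normal box has a near group index.   `|cyPos - t cyVel| ≤ 2R l0 f + l0 R f`;  `u ≤ 3R → ⌊u⌋ ≤ N`, `-3R ≤ u → -N ≤ ⌊u⌋` (`Int.floor_le`, `Int.lt_floor_add_one`, casts);  `hz_rd_box_mem`.   ~70 l. -/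
theorem hz_rd_geo (Q0 : CyT) (hr : 0 < Q0.r) (hf : 0 < Q0.f) (l0 t : ℝ) (hl0 : 0 < l0) (ht0 : 0 ≤ t) (ht : t ≤ l0) (R : ℝ) (z : Cy5)
    (h1 : |z.X - Q0.x| / Q0.r ≤ R) (h2 : |cyVel (hzFr Q0 t) z| ≤ R * Q0.f) (h3 : |cyPos (hzFr Q0 t) z| ≤ 2 * R * (l0 * Q0.f)) (N : ℕ) (hN : 3 * R + 1 ≤ N) :
    hzGi Q0 l0 t z ∈ hzBox N := by
  have hR : 0 ≤ R := le_trans (div_nonneg (abs_nonneg _) hr.le) h1
  rw [hz_rd_box_mem]
  refine ⟨hz_rd_geo_fl _ N ?_, hz_rd_geo_fl _ N ?_, hz_rd_geo_fl _ N ?_⟩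
  · rw [abs_div, abs_of_pos hr]
    linarith
  · rw [abs_div, abs_of_pos hf]
    have : |cyVel (hzFr Q0 t) z| / Q0.f ≤ R := (div_le_iff₀ hf).2 h2
    linarith
  · rw [abs_div, abs_of_pos (mul_pos hl0 hf)]
    have h4 : |cyPos (hzFr Q0 t) z - t * cyVel (hzFr Q0 t) z| ≤ 3 * R * (l0 * Q0.f) := by
      refine (abs_sub _ _).trans ?_
      rw [abs_mul, abs_of_nonneg ht0]
      have h5 : t * |cyVel (hzFr Q0 t) z| ≤ l0 * (R * Q0.f) := mul_le_mul ht h2 (abs_nonneg _) hl0.le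
      linarith
    have : |cyPos (hzFr Q0 t) z - t * cyVel (hzFr Q0 t) z| / (l0 * Q0.f) ≤ 3 * R := (div_le_iff₀ (mul_pos hl0 hf)).2 h4
    linarith

/-- **(C)** FAR GROUPS.   `{x | hzGx ∉ box} ⊆ hyW p W ∪ (normal box)ᶜ` (`hz_rd_geo` with `R = s^-C + (C+1) n`; `s^-C = 2^(C n)`: `gn_s_rpow`, `3R + 1 ≤ hzPn C n` by `push_cast [hzPn]`, `nlinarith`/`linarith`);
mass of a union `≤` sum (`gn_ms_eq_mu`, `measureReal_union_le`; or `gn_ms_iUnion_le` with `Fin 2`);  `hz_rd_far_X`, `hz_rd_far_N`.   Measurability: the far set is the complement of a finite union of the sets of `hz_rd_gx_meas`.   ~110 l. -/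
theorem hz_rd_far {η : ℝ} {p : ChyPar} (h : p.Ok) (E : Xp (p.sys η)) (hE : E.Valid) (C A : ℕ) (hC : E.st.length ≤ C) (Q0 : CyT)
    (hS : CySet (p.sys η) p.co η False C A E Q0) (hpl : p.dl E.kf ≤ Q0.f) (hn : 1 ≤ E.n) (i : ℕ) (hi : i ∈ ivs E.k0 E.i0 E.kf) :
    (p.sys η).ms (tmL E.kf i) E.kf 0 {x : p.Om × ℝ × ℝ | hzGx E Q0 i x ∉ hzBox (hzPn C E.n)} (E.fin i) ≤ (2 * E.s ^ (A : ℝ) + 2 * hzE2 C E.n) * E.e := by
  have hr := hS.r_pos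
  have hf := hS.f_pos
  have hX := hz_rd_far_X h E hE C A Q0 hS i
  have hNn := hz_rd_far_N h E hE C A hC Q0 hS hpl hn i hi
  obtain ⟨ht0, ht1⟩ := hz_rd_ti E.k0 E.i0 E.kf i (Nat.le_add_right _ _) hi
  obtain ⟨R, hRdef⟩ : ∃ R : ℝ, R = E.s ^ (-(C : ℝ)) + ((C : ℝ) + 1) * E.n := ⟨_, rfl⟩
  rw [← hRdef] at hNn
  have hs : E.s ^ (-(C : ℝ)) = (2 : ℝ) ^ (C * E.n) := by
    rw [gn_s_rpow, ← Real.rpow_natCast]
    congr 1
    push_cast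
    ring
  have hn0 : (0 : ℝ) ≤ E.n := Nat.cast_nonneg _
  have hC0 : (0 : ℝ) ≤ C := Nat.cast_nonneg _
  have hsR : E.s ^ (-(C : ℝ)) ≤ R := by
    rw [hRdef]
    have : 0 ≤ ((C : ℝ) + 1) * E.n := by positivity
    linarith
  have hPn : 3 * R + 1 ≤ (hzPn C E.n : ℕ) := by
    rw [hRdef, hs]
    unfold hzPn
    push_cast
    nlinarith
  have hW : MeasurableSet {ω : p.Om | E.s ^ (-(C : ℝ)) < |p.X ω - Q0.x| / Q0.r} :=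
    measurableSet_lt measurable_const ((h.mX.sub_const _).abs.div_const _)
  have hmW := hy_tl_mW p hW
  have hmB := (hy_tl_mBx p h (hzFr Q0 (tmL E.kf i - tmL E.k0 E.i0)) (tmL E.kf i) (R * Q0.f) (2 * R * ((2 : ℝ)⁻¹ ^ E.k0 * Q0.f))).compl
  have hFar : MeasurableSet {x : p.Om × ℝ × ℝ | hzGx E Q0 i x ∉ hzBox (hzPn C E.n)} := by
    have h1 : {x : p.Om × ℝ × ℝ | hzGx E Q0 i x ∉ hzBox (hzPn C E.n)} = (⋃ g ∈ hzBox (hzPn C E.n), {x : p.Om × ℝ × ℝ | hzGx E Q0 i x = g})ᶜ := by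
      ext x
      simp
    rw [h1]
    exact (Finset.measurableSet_biUnion _ fun g _ => hz_rd_gx_meas h E Q0 i g).compl
  have hsub : {x : p.Om × ℝ × ℝ | hzGx E Q0 i x ∉ hzBox (hzPn C E.n)} ⊆ hyW p {ω : p.Om | E.s ^ (-(C : ℝ)) < |p.X ω - Q0.x| / Q0.r}
      ∪ (hyBx p (hzFr Q0 (tmL E.kf i - tmL E.k0 E.i0)) (tmL E.kf i) (R * Q0.f) (2 * R * ((2 : ℝ)⁻¹ ^ E.k0 * Q0.f)))ᶜ := by
    intro x hx
    by_contra hcon
    rw [Set.mem_union, not_or] at hcon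
    obtain ⟨h1, h2⟩ := hcon
    have h1' : |p.X x.1 - Q0.x| / Q0.r ≤ E.s ^ (-(C : ℝ)) := not_lt.1 h1
    have h2' : x ∈ hyBx p (hzFr Q0 (tmL E.kf i - tmL E.k0 E.i0)) (tmL E.kf i) (R * Q0.f) (2 * R * ((2 : ℝ)⁻¹ ^ E.k0 * Q0.f)) := Set.notMem_compl_iff.1 h2
    exact hx (hz_rd_geo Q0 hr hf ((2 : ℝ)⁻¹ ^ E.k0) (tmL E.kf i - tmL E.k0 E.i0) (by positivity) ht0 ht1 R (p.co (tmL E.kf i) x) (h1'.trans hsR) h2'.1 h2'.2
      (hzPn C E.n) hPn)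
  have hfin := gn_mu_finite (P := p.sys η) (tmL E.kf i) E.kf 0 (E.fin i)
  calc (p.sys η).ms (tmL E.kf i) E.kf 0 {x : p.Om × ℝ × ℝ | hzGx E Q0 i x ∉ hzBox (hzPn C E.n)} (E.fin i)
      ≤ (p.sys η).ms (tmL E.kf i) E.kf 0 (hyW p {ω : p.Om | E.s ^ (-(C : ℝ)) < |p.X ω - Q0.x| / Q0.r}
      ∪ (hyBx p (hzFr Q0 (tmL E.kf i - tmL E.k0 E.i0)) (tmL E.kf i) (R * Q0.f) (2 * R * ((2 : ℝ)⁻¹ ^ E.k0 * Q0.f)))ᶜ) (E.fin i) :=
        gn_ms_mono _ _ _ hFar (hmW.union hmB) hsub _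
    _ ≤ (p.sys η).ms (tmL E.kf i) E.kf 0 (hyW p {ω : p.Om | E.s ^ (-(C : ℝ)) < |p.X ω - Q0.x| / Q0.r}) (E.fin i)
        + (p.sys η).ms (tmL E.kf i) E.kf 0 (hyBx p (hzFr Q0 (tmL E.kf i - tmL E.k0 E.i0)) (tmL E.kf i) (R * Q0.f) (2 * R * ((2 : ℝ)⁻¹ ^ E.k0 * Q0.f)))ᶜ (E.fin i) := by
        have e1 := gn_ms_eq_mu (P := p.sys η) (tmL E.kf i) E.kf 0 (hmW.union hmB) (E.fin i)
        have e2 := gn_ms_eq_mu (P := p.sys η) (tmL E.kf i) E.kf 0 hmW (E.fin i)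
        have e3 := gn_ms_eq_mu (P := p.sys η) (tmL E.kf i) E.kf 0 hmB (E.fin i)
        exact e1.le.trans ((measureReal_union_le _ _).trans (add_le_add e2.ge e3.ge))
    _ ≤ (2 * E.s ^ (A : ℝ) + 2 * hzE2 C E.n) * E.e := by
        rw [hX, zero_add]
        exact hNn

/-! ## D. the budgets -/

theorem hz_rd_cnt_int (c R : ℝ) (hR : 0 ≤ R) : ((Finset.Icc ⌈c - R⌉ ⌊c + R⌋).card : ℝ) ≤ 2 * R + 1 := by
  rw [Int.card_Icc]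
  have h1 : (((⌊c + R⌋ + 1 - ⌈c - R⌉).toNat : ℕ) : ℤ) = max (⌊c + R⌋ + 1 - ⌈c - R⌉) 0 := Int.toNat_eq_max _
  have h2 : (((⌊c + R⌋ + 1 - ⌈c - R⌉).toNat : ℕ) : ℝ) = max ((⌊c + R⌋ : ℝ) + 1 - ⌈c - R⌉) 0 := by
    have h3 : ((((⌊c + R⌋ + 1 - ⌈c - R⌉).toNat : ℕ) : ℤ) : ℝ) = ((max (⌊c + R⌋ + 1 - ⌈c - R⌉) 0 : ℤ) : ℝ) := by rw [h1]
    rw [Int.cast_natCast] at h3
    rw [h3]
    push_cast
    rfl
  rw [h2]
  refine max_le ?_ (by linarith)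
  linarith [Int.floor_le (c + R), Int.le_ceil (c - R)]

theorem hz_rd_cnt_mem {A w R : ℝ} (hw : 0 < w) (g : ℤ) (h : |A - ((g : ℝ) + 1 / 2) * w| ≤ R * w) :
    g ∈ Finset.Icc ⌈A / w - 1 / 2 - R⌉ ⌊A / w - 1 / 2 + R⌋ := by
  rw [Finset.mem_Icc, Int.ceil_le, Int.le_floor]
  obtain ⟨h1, h2⟩ := abs_le.1 h
  have a1 : A / w ≤ R + g + 1 / 2 := by
    rw [div_le_iff₀ hw]
    linarith
  have a2 : (g : ℝ) + 1 / 2 - R ≤ A / w := by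
    rw [le_div_iff₀ hw]
    linarith
  constructor <;> linarith

open Classical in
/-- **(D1)** a root row lies in at most `2 (2N1+1)²` enlarged root cells.   `hzGp`, `hzGf`, `cyVel`, `cyPos` unfold: `z ∈ g+` iff `|u₁ - g₁ - 1/2| ≤ 1/2`, `|u₂ - g₂ - 1/2| ≤ N1`, `|u₃ - g₃ - 1/2| ≤ N1` with `u₁ = (X - x0)/r`, `u₂ = cyVel Q0 z/f`, `u₃ = cyPos Q0 z/(l0 f)`.
The filter is contained in a product of three `Finset.Icc ⌈u - 1/2 - R⌉ ⌊u - 1/2 + R⌋` of cards `≤ 2R + 1` (`Int.card_Icc`, `Int.toNat`, `Int.floor_le`, `Int.le_ceil`);  `Finset.card_le_card`, `Finset.card_product`.   ~120 l. -/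
theorem hz_rd_cnt (Q0 : CyT) (hr : 0 < Q0.r) (hf : 0 < Q0.f) (l0 : ℝ) (hl0 : 0 < l0) (N1 : ℝ) (hN1 : 0 ≤ N1) (z : Cy5) (I : Finset (ℤ × ℤ × ℤ)) :
    (((I.filter fun g => z ∈ hzGp (hzGf Q0 l0 g) l0 N1).card : ℕ) : ℝ) ≤ 2 * (2 * N1 + 1) ^ 2 := by
  have hlf : 0 < l0 * Q0.f := mul_pos hl0 hf
  have hsub : (I.filter fun g => z ∈ hzGp (hzGf Q0 l0 g) l0 N1) ⊆
      Finset.Icc ⌈(z.X - Q0.x) / Q0.r - 1 / 2 - 1 / 2⌉ ⌊(z.X - Q0.x) / Q0.r - 1 / 2 + 1 / 2⌋ ×ˢ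
        (Finset.Icc ⌈cyVel Q0 z / Q0.f - 1 / 2 - N1⌉ ⌊cyVel Q0 z / Q0.f - 1 / 2 + N1⌋ ×ˢ
          Finset.Icc ⌈cyPos Q0 z / (l0 * Q0.f) - 1 / 2 - N1⌉ ⌊cyPos Q0 z / (l0 * Q0.f) - 1 / 2 + N1⌋) := by
    intro g hg
    obtain ⟨-, h1, h2, h3⟩ := Finset.mem_filter.1 hg
    rw [Finset.mem_product, Finset.mem_product]
    refine ⟨hz_rd_cnt_mem hr _ ?_, hz_rd_cnt_mem hf _ ?_, hz_rd_cnt_mem hlf _ ?_⟩
    · have e : z.X - Q0.x - ((g.1 : ℝ) + 1 / 2) * Q0.r = z.X - (hzGf Q0 l0 g).x := by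
        simp only [hzGf]
        ring
      rw [e]
      refine h1.trans (le_of_eq ?_)
      simp only [hzGf]
      ring
    · have e : cyVel Q0 z - ((g.2.1 : ℝ) + 1 / 2) * Q0.f = cyVel (hzGf Q0 l0 g) z := by
        simp only [hzGf, cyVel]
        ring
      rw [e]
      exact h2
    · have e : cyPos Q0 z - ((g.2.2 : ℝ) + 1 / 2) * (l0 * Q0.f) = cyPos (hzGf Q0 l0 g) z := by
        simp only [hzGf, cyPos]
        ring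
      rw [e]
      exact h3
  have hcard := Finset.card_le_card hsub
  rw [Finset.card_product, Finset.card_product] at hcard
  have c1 := hz_rd_cnt_int ((z.X - Q0.x) / Q0.r - 1 / 2) (1 / 2) (by norm_num)
  have c2 := hz_rd_cnt_int (cyVel Q0 z / Q0.f - 1 / 2) N1 hN1
  have c3 := hz_rd_cnt_int (cyPos Q0 z / (l0 * Q0.f) - 1 / 2) N1 hN1
  calc (((I.filter fun g => z ∈ hzGp (hzGf Q0 l0 g) l0 N1).card : ℕ) : ℝ)
      ≤ ((Finset.Icc ⌈(z.X - Q0.x) / Q0.r - 1 / 2 - 1 / 2⌉ ⌊(z.X - Q0.x) / Q0.r - 1 / 2 + 1 / 2⌋).card : ℝ) *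
        (((Finset.Icc ⌈cyVel Q0 z / Q0.f - 1 / 2 - N1⌉ ⌊cyVel Q0 z / Q0.f - 1 / 2 + N1⌋).card : ℝ) *
          ((Finset.Icc ⌈cyPos Q0 z / (l0 * Q0.f) - 1 / 2 - N1⌉ ⌊cyPos Q0 z / (l0 * Q0.f) - 1 / 2 + N1⌋).card : ℝ)) := by
        exact_mod_cast hcard
    _ ≤ (2 * (1 / 2) + 1) * ((2 * N1 + 1) * (2 * N1 + 1)) := by
        gcongr
    _ = 2 * (2 * N1 + 1) ^ 2 := by ring

/-- **(D)** `e_g = max (‖F_g‖²) (s^A1 e) ≤ ‖F_g‖² + s^A1 e`;  `Σ_g ‖F_g‖² ≤ 2 (2N1+1)² ‖F0‖²` (`hz_rd_overlap` with `A g = hzRt E Q0 N1 g`, `hz_rd_rt_meas`, `hz_rd_cnt`);  `‖F0‖² ≤ ‖v‖² ≤ e`;  `Finset.sum_add_distrib`, `Finset.sum_const`.   `(hzGrp ..).e` unfolds by `rfl`.   ~70 l. -/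
theorem hz_rd_budget {η : ℝ} {p : ChyPar} (h : p.Ok) (E : Xp (p.sys η)) (hE : E.Valid) (Q0 : CyT) (hr : 0 < Q0.r) (hf : 0 < Q0.f) (N1 : ℝ) (hN1 : 0 ≤ N1) (A1 : ℝ)
    (I : Finset (ℤ × ℤ × ℤ)) :
    ∑ g ∈ I, (hzGrp E Q0 N1 A1 g).e ≤ (2 * (2 * N1 + 1) ^ 2 + (I.card : ℝ) * E.s ^ A1) * E.e := by
  classical
  have hs : 0 ≤ E.s ^ A1 := Real.rpow_nonneg (by unfold Xp.s; positivity) _
  have he : 0 ≤ E.s ^ A1 * E.e := mul_nonneg hs hE.e_pos.le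
  have hF0 : ‖(p.sys η).An (tmL E.k0 E.i0) E.k0 E.b0 E.v‖ ^ 2 ≤ E.e :=
    (pow_le_pow_left₀ (norm_nonneg _) ((hy_tight η p h).contr _ _ _ _) 2).trans hE.budget
  have hov := hz_rd_overlap (P := p.sys η) E.k0 ((p.sys η).An (tmL E.k0 E.i0) E.k0 E.b0 E.v) I (fun g => hzRt E Q0 N1 g)
    (fun g _ => hz_rd_rt_meas h E Q0 N1 g) (2 * (2 * N1 + 1) ^ 2)
    (fun x => by
      exact hz_rd_cnt Q0 hr hf ((2 : ℝ)⁻¹ ^ E.k0) (by positivity) N1 hN1 (p.co (tmL E.k0 E.i0) x) I)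
  have hterm : ∀ g ∈ I, (hzGrp E Q0 N1 A1 g).e ≤
      ‖(p.sys η).mulR E.k0 ((hzRt E Q0 N1 g).indicator fun _ => 1) ((p.sys η).An (tmL E.k0 E.i0) E.k0 E.b0 E.v)‖ ^ 2 + E.s ^ A1 * E.e := by
    intro g _
    exact max_le (le_add_of_nonneg_right he) (le_add_of_nonneg_left (sq_nonneg _))
  calc ∑ g ∈ I, (hzGrp E Q0 N1 A1 g).e
      ≤ ∑ g ∈ I, (‖(p.sys η).mulR E.k0 ((hzRt E Q0 N1 g).indicator fun _ => 1) ((p.sys η).An (tmL E.k0 E.i0) E.k0 E.b0 E.v)‖ ^ 2 + E.s ^ A1 * E.e) :=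
        Finset.sum_le_sum hterm
    _ = ∑ g ∈ I, ‖(p.sys η).mulR E.k0 ((hzRt E Q0 N1 g).indicator fun _ => 1) ((p.sys η).An (tmL E.k0 E.i0) E.k0 E.b0 E.v)‖ ^ 2
          + (I.card : ℝ) * (E.s ^ A1 * E.e) := by
        rw [Finset.sum_add_distrib, Finset.sum_const, nsmul_eq_mul]
    _ ≤ 2 * (2 * N1 + 1) ^ 2 * E.e + (I.card : ℝ) * (E.s ^ A1 * E.e) := by
        have : 2 * (2 * N1 + 1) ^ 2 * ‖(p.sys η).An (tmL E.k0 E.i0) E.k0 E.b0 E.v‖ ^ 2 ≤ 2 * (2 * N1 + 1) ^ 2 * E.e :=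
          mul_le_mul_of_nonneg_left hF0 (by positivity)
        exact add_le_add (hov.trans this) le_rfl
    _ = _ := by ring

/-! ## E. numerology      (`s = 2⁻¹^n`;  `s^y = 2^(-(y n))`: `Real.rpow_natCast`, `Real.inv_rpow`, `← Real.rpow_mul`;  `gn_absorb K δ : ∃ n0, ∀ n ≥ n0, K ≤ 2^(δ n)`) -/

/-- **(E0)** a polynomial is absorbed by an exponential.   E.g. `n ≤ 2^(n δ')·c`: from `Real.add_one_le_exp`/`Real.add_pow_le_pow_mul_pow_of_add_eq_one`...; simplest: `tendsto_pow_const_div_const_pow_of_one_lt a (r := 2^δ)` (`n^a / r^n → 0`), `Filter.Tendsto.eventually`, `Filter.eventually_atTop`.   ~50 l. -/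
theorem hz_rd_num_poly (K δ : ℝ) (hδ : 0 < δ) (a : ℕ) : ∃ n0 : ℕ, ∀ n : ℕ, n0 ≤ n → K * (n : ℝ) ^ a ≤ 2 ^ (δ * n) := by
  have hr : (1 : ℝ) < 2 ^ δ := Real.one_lt_rpow (by norm_num) hδ
  have ht := tendsto_pow_const_div_const_pow_of_one_lt a hr
  have hpos : (0 : ℝ) < 1 / (|K| + 1) := by positivity
  have hev := ht.eventually (gt_mem_nhds hpos)
  obtain ⟨n0, hn0⟩ := Filter.eventually_atTop.1 hev
  refine ⟨n0, fun n hn => ?_⟩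
  have h1 := hn0 n hn
  have hrn : 0 < ((2 : ℝ) ^ δ) ^ n := by positivity
  rw [div_lt_div_iff₀ hrn (by positivity)] at h1
  have e : (2 : ℝ) ^ (δ * n) = ((2 : ℝ) ^ δ) ^ n := by
    rw [Real.rpow_mul (by norm_num), Real.rpow_natCast]
  rw [e]
  have h2 : K * (n : ℝ) ^ a ≤ (|K| + 1) * (n : ℝ) ^ a := by
    gcongr
    linarith [le_abs_self K]
  linarith

theorem hz_rd_num_s (n : ℕ) (y : ℝ) : ((2 : ℝ)⁻¹ ^ n) ^ (-y) = 2 ^ (y * n) := by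
  have h : (0 : ℝ) ≤ 2 ^ n := by positivity
  rw [inv_pow, Real.inv_rpow h, Real.rpow_neg h, inv_inv, ← Real.rpow_natCast, ← Real.rpow_mul (by norm_num)]
  congr 1
  ring

/-- **(E1)** `sqrt (2·10^5) ≤ 448`, `sqrt (s^(-7τ/2)) = s^(-7τ/4)`, `448 ≤ 2^(τ n/4)` (`gn_absorb`).   ~50 l. -/
theorem hz_rd_num_sqrt (τ : ℝ) (hτ : 0 < τ) : ∃ n0 : ℕ, ∀ n : ℕ, n0 ≤ n →
    Real.sqrt (2 * 10 ^ 5 * ((2 : ℝ)⁻¹ ^ n) ^ (-(7 * τ / 2))) ≤ ((2 : ℝ)⁻¹ ^ n) ^ (-(2 * τ)) := by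
  obtain ⟨n0, hn0⟩ := hz_rd_num_poly (2 * 10 ^ 5) (τ / 2) (by linarith) 0
  refine ⟨n0, fun n hn => ?_⟩
  have h1 := hn0 n hn
  rw [pow_zero, mul_one] at h1
  rw [hz_rd_num_s, hz_rd_num_s, Real.sqrt_le_iff]
  refine ⟨by positivity, ?_⟩
  calc 2 * 10 ^ 5 * (2 : ℝ) ^ (7 * τ / 2 * n) ≤ 2 ^ (τ / 2 * n) * 2 ^ (7 * τ / 2 * n) := by gcongr
    _ = (2 ^ (2 * τ * n)) ^ 2 := by
        rw [← Real.rpow_add (by norm_num), ← Real.rpow_natCast (2 ^ (2 * τ * n)) 2, ← Real.rpow_mul (by norm_num)]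
        congr 1
        push_cast
        ring

/-- **(E2)** `hz_rd_num_poly (2C+5) τ _ 1`.   ~20 l. -/
theorem hz_rd_num_N1 (C : ℕ) (τ : ℝ) (hτ : 0 < τ) : ∃ n0 : ℕ, ∀ n : ℕ, n0 ≤ n → (2 * (C : ℝ) + 5) * n ≤ ((2 : ℝ)⁻¹ ^ n) ^ (-τ) := by
  obtain ⟨n0, hn0⟩ := hz_rd_num_poly (2 * (C : ℝ) + 5) τ hτ 1
  refine ⟨n0, fun n hn => ?_⟩
  have h1 := hn0 n hn
  rw [pow_one] at h1
  rw [hz_rd_num_s]
  exact h1

/-- `s^y = 2^(-(y n))` -/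
theorem hz_rd_num_Pn_s (n : ℕ) (y : ℝ) : ((2 : ℝ)⁻¹ ^ n) ^ y = 2 ^ (-(y * n)) := by
  rw [← Real.rpow_natCast, ← Real.rpow_mul (by norm_num), Real.inv_rpow (by norm_num), ← Real.rpow_neg (by norm_num)]
  congr 1
  ring

/-- `s^(-m) = 2^(m n)` for a natural exponent -/
theorem hz_rd_num_Pn_sn (n m : ℕ) : ((2 : ℝ)⁻¹ ^ n) ^ (-(m : ℝ)) = 2 ^ (m * n) := by
  rw [hz_rd_num_Pn_s, ← Real.rpow_natCast]
  congr 1
  push_cast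
  ring

/-- **(E3)** `3·2^(Cn) + (3C+5) n + 1 ≤ 2^(Cn) (3 + (3C+5) n + 1) ≤ 2^(Cn) 2^n` for `n ≥ n0` (`hz_rd_num_poly`).   ~40 l. -/
theorem hz_rd_num_Pn (C : ℕ) : ∃ n0 : ℕ, ∀ n : ℕ, n0 ≤ n → (hzPn C n : ℝ) ≤ ((2 : ℝ)⁻¹ ^ n) ^ (-((C : ℝ) + 1)) := by
  obtain ⟨n0, h0⟩ := hz_rd_num_poly (3 * (C : ℝ) + 9) 1 one_pos 1
  refine ⟨max n0 1, fun n hn => ?_⟩
  have h1 := h0 n ((le_max_left _ _).trans hn)
  have hn1 : (1 : ℝ) ≤ n := by exact_mod_cast (le_max_right _ _).trans hn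
  have e : ((2 : ℝ)⁻¹ ^ n) ^ (-((C : ℝ) + 1)) = 2 ^ (C * n) * 2 ^ n := by
    have := hz_rd_num_Pn_sn n (C + 1)
    push_cast at this
    rw [this, ← pow_add]
    congr 1
    ring
  rw [e]
  have h2 : (2 : ℝ) ^ ((1 : ℝ) * n) = 2 ^ n := by rw [one_mul, Real.rpow_natCast]
  rw [h2, pow_one] at h1
  have h3 : (1 : ℝ) ≤ 2 ^ (C * n) := one_le_pow₀ (by norm_num)
  have hC : (0 : ℝ) ≤ C := Nat.cast_nonneg _
  unfold hzPn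
  push_cast
  have h4 : 4 + (3 * (C : ℝ) + 5) * n ≤ 2 ^ n := by nlinarith
  have h5 : 0 ≤ (3 * (C : ℝ) + 5) * n + 1 := by positivity
  nlinarith

/-- **(E4)** `2 Pn + 1 ≤ 3·2^((C+1) n) ≤ 2^((C+2) n)` for `n ≥ 2` (`hz_rd_num_Pn`), so `(2Pn+1)³ s^(3C+6) ≤ 1`;   `2 (2 (2C+5) n + 1)² + 1 ≤ K n² + K' ≤ 2^(τ n)` (`hz_rd_num_poly`).   ~80 l. -/
theorem hz_rd_num_bud (C : ℕ) (τ : ℝ) (hτ : 0 < τ) : ∃ n0 : ℕ, ∀ n : ℕ, n0 ≤ n →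
    2 * (2 * ((2 * (C : ℝ) + 5) * n) + 1) ^ 2 + (2 * (hzPn C n : ℝ) + 1) ^ 3 * ((2 : ℝ)⁻¹ ^ n) ^ (((3 * C + 6 : ℕ) : ℝ)) ≤ ((2 : ℝ)⁻¹ ^ n) ^ (-τ) := by
  obtain ⟨n1, h1⟩ := hz_rd_num_Pn C
  obtain ⟨n2, h2⟩ := hz_rd_num_poly (2 * (4 * (C : ℝ) + 11) ^ 2 + 1) τ hτ 2
  refine ⟨max (max n1 n2) 2, fun n hn => ?_⟩
  have a1 := h1 n ((le_max_left _ _).trans ((le_max_left _ _).trans hn))
  have a2 := h2 n ((le_max_right _ _).trans ((le_max_left _ _).trans hn))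
  have hn2 : 2 ≤ n := (le_max_right _ _).trans hn
  have hn2' : (2 : ℝ) ≤ n := by exact_mod_cast hn2
  have hC : (0 : ℝ) ≤ C := Nat.cast_nonneg _
  have e1 : ((2 : ℝ)⁻¹ ^ n) ^ (-τ) = 2 ^ (τ * n) := by
    rw [hz_rd_num_Pn_s]
    congr 1
    ring
  have e2 : ((2 : ℝ)⁻¹ ^ n) ^ (-((C : ℝ) + 1)) = 2 ^ ((C + 1) * n) := by
    have := hz_rd_num_Pn_sn n (C + 1)
    push_cast at this
    exact this
  rw [e2] at a1
  rw [e1]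
  have hP1 : (1 : ℝ) ≤ hzPn C n := by
    have : 1 ≤ hzPn C n := by
      unfold hzPn
      omega
    exact_mod_cast this
  have h4 : (4 : ℝ) ≤ 2 ^ n := by
    calc (4 : ℝ) = 2 ^ 2 := by norm_num
      _ ≤ 2 ^ n := pow_le_pow_right₀ (by norm_num) hn2
  have b1 : 2 * (hzPn C n : ℝ) + 1 ≤ 2 ^ ((C + 2) * n) := by
    have : (2 : ℝ) ^ ((C + 2) * n) = 2 ^ ((C + 1) * n) * 2 ^ n := by
      rw [← pow_add]
      congr 1
      ring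
    rw [this]
    have h5 : (0 : ℝ) < 2 ^ ((C + 1) * n) := by positivity
    nlinarith
  have b2 : (2 * (hzPn C n : ℝ) + 1) ^ 3 * ((2 : ℝ)⁻¹ ^ n) ^ (((3 * C + 6 : ℕ) : ℝ)) ≤ 1 := by
    have c1 : (2 * (hzPn C n : ℝ) + 1) ^ 3 ≤ (2 ^ ((C + 2) * n)) ^ 3 := pow_le_pow_left₀ (by positivity) b1 3
    have c2 : ((2 : ℝ)⁻¹ ^ n) ^ (((3 * C + 6 : ℕ) : ℝ)) = ((2 ^ ((C + 2) * n)) ^ 3)⁻¹ := by
      rw [Real.rpow_natCast, ← pow_mul, ← pow_mul, inv_pow]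
      congr 2
      ring
    rw [c2]
    have c3 : (0 : ℝ) < (2 ^ ((C + 2) * n)) ^ 3 := by positivity
    rw [← div_eq_mul_inv, div_le_one c3]
    exact c1
  have b3 : 2 * (2 * ((2 * (C : ℝ) + 5) * n) + 1) ^ 2 + 1 ≤ (2 * (4 * (C : ℝ) + 11) ^ 2 + 1) * (n : ℝ) ^ 2 := by
    have c1 : 2 * ((2 * (C : ℝ) + 5) * n) + 1 ≤ (4 * (C : ℝ) + 11) * n := by nlinarith
    have c2 : (2 * ((2 * (C : ℝ) + 5) * n) + 1) ^ 2 ≤ ((4 * (C : ℝ) + 11) * n) ^ 2 := pow_le_pow_left₀ (by positivity) c1 2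
    have c3 : (1 : ℝ) ≤ (n : ℝ) ^ 2 := by nlinarith
    nlinarith
  linarith

/-- **(E5)** a Gaussian beats every power.   `hzE2 C n = K exp(-n²/20) 2^(n/2)`, `K = ((C+1) 52)²`;   `2^x = exp (x log 2) ≤ exp x`;   for `n ≥ 20 (B + 1 + K)`: `-n²/20 + n/2 + B n + log K ≤ 0` (`Real.add_one_le_exp`: `K ≤ exp K`).   ~70 l. -/
theorem hz_rd_num_gau (C B : ℕ) : ∃ n0 : ℕ, ∀ n : ℕ, n0 ≤ n → hzE2 C n ≤ ((2 : ℝ)⁻¹ ^ n) ^ (B : ℝ) := by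
  refine ⟨20 * (B + 1 + ((C + 1) * 52) ^ 2), fun n hn => ?_⟩
  set K : ℝ := (((C : ℝ) + 1) * 52) ^ 2 with hK
  have hK0 : 0 ≤ K := by positivity
  have hn' : 20 * ((B : ℝ) + 1 + K) ≤ n := by
    have : ((20 * (B + 1 + ((C + 1) * 52) ^ 2) : ℕ) : ℝ) ≤ n := by exact_mod_cast hn
    push_cast at this
    rw [hK]
    exact this
  have hB : (0 : ℝ) ≤ B := Nat.cast_nonneg _
  have hn0 : (20 : ℝ) ≤ n := by nlinarith
  have h2exp : ∀ x : ℝ, 0 ≤ x → (2 : ℝ) ^ x ≤ Real.exp x := by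
    intro x hx
    rw [Real.rpow_def_of_pos (by norm_num : (0 : ℝ) < 2)]
    refine Real.exp_le_exp.2 ?_
    have : Real.log 2 ≤ 1 := by
      have := Real.log_two_lt_d9
      linarith
    nlinarith
  have e1 : hzE2 C n = K * Real.exp (-((n : ℝ) ^ 2 / 20)) * 2 ^ ((n : ℝ) / 2) := by
    unfold hzE2
    rw [mul_pow, ← Real.exp_nat_mul]
    congr 3
    push_cast
    ring
  have e2 : ((2 : ℝ)⁻¹ ^ n) ^ (B : ℝ) = ((2 : ℝ) ^ ((B : ℝ) * n))⁻¹ := by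
    rw [← Real.rpow_natCast, ← Real.rpow_mul (by norm_num), Real.inv_rpow (by norm_num)]
    congr 2
    ring
  rw [e1, e2]
  have hpos : (0 : ℝ) < 2 ^ ((B : ℝ) * n) := by positivity
  rw [← one_div, le_div_iff₀ hpos]
  have hKe : K ≤ Real.exp K := by
    have := Real.add_one_le_exp K
    linarith
  calc K * Real.exp (-((n : ℝ) ^ 2 / 20)) * 2 ^ ((n : ℝ) / 2) * 2 ^ ((B : ℝ) * n)
      ≤ Real.exp K * Real.exp (-((n : ℝ) ^ 2 / 20)) * Real.exp ((n : ℝ) / 2) * Real.exp ((B : ℝ) * n) := by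
        gcongr
        · exact h2exp _ (by positivity)
        · exact h2exp _ (by positivity)
    _ = Real.exp (K + -((n : ℝ) ^ 2 / 20) + (n : ℝ) / 2 + (B : ℝ) * n) := by
        rw [Real.exp_add, Real.exp_add, Real.exp_add]
    _ ≤ Real.exp 0 := by
        refine Real.exp_le_exp.2 ?_
        have h1 : (n : ℝ) * (20 * ((B : ℝ) + 1 + K)) ≤ (n : ℝ) * n := mul_le_mul_of_nonneg_left hn' (by positivity)
        nlinarith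
    _ = 1 := Real.exp_zero

/-- the error term, `s` a real variable -/
theorem hz_rd_num_err_aux (C : ℕ) (s ε Pn e kw sA : ℝ) (hs0 : 0 < s) (hs : s ≤ 1 / 4) (hε0 : 0 ≤ ε) (hε : ε ≤ s ^ (3 * (C : ℝ) + 8))
    (hsA0 : 0 ≤ sA) (hsA : sA ≤ s ^ (3 * (C : ℝ) + 8)) (hP0 : 0 ≤ Pn) (hP : Pn ≤ s ^ (-((C : ℝ) + 1))) (he : 0 < e)
    (hek : e ≤ s ^ (-(C : ℝ)) * kw) :
    s⁻¹ * (4 * ((2 * Pn + 1) ^ 3 * (ε * e) ^ (3 / 2 : ℝ)) + ((2 * sA + 2 * ε) * e) ^ (3 / 2 : ℝ)) ≤ Real.sqrt s * (e * Real.sqrt kw) := by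
  have hs1 : s ≤ 1 := by linarith
  have hC0 : (0 : ℝ) ≤ C := Nat.cast_nonneg _
  have hb0 : 0 < s ^ (3 * (C : ℝ) + 8) := Real.rpow_pos_of_pos hs0 _
  -- Step A
  have hA : (2 * Pn + 1) ^ 3 ≤ s ^ (-(3 * (C : ℝ) + 6)) := by
    have h1 : 1 ≤ s ^ (-((C : ℝ) + 1)) := Real.one_le_rpow_of_pos_of_le_one_of_nonpos hs0 hs1 (by linarith)
    have h2 : (3 : ℝ) ≤ s ^ (-1 : ℝ) := by
      rw [Real.rpow_neg_one, le_inv_comm₀ (by norm_num) hs0]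
      linarith
    have h3 : 2 * Pn + 1 ≤ s ^ (-((C : ℝ) + 2)) := by
      have : s ^ (-((C : ℝ) + 2)) = s ^ (-1 : ℝ) * s ^ (-((C : ℝ) + 1)) := by
        rw [← Real.rpow_add hs0]; congr 1; ring
      rw [this]
      calc 2 * Pn + 1 ≤ 3 * s ^ (-((C : ℝ) + 1)) := by linarith
        _ ≤ s ^ (-1 : ℝ) * s ^ (-((C : ℝ) + 1)) := mul_le_mul_of_nonneg_right h2 (by linarith)
    calc (2 * Pn + 1) ^ 3 ≤ (s ^ (-((C : ℝ) + 2))) ^ 3 := pow_le_pow_left₀ (by positivity) h3 3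
      _ = s ^ (-(3 * (C : ℝ) + 6)) := by
          rw [← Real.rpow_natCast, ← Real.rpow_mul hs0.le]; congr 1; push_cast; ring
  -- Step C
  have hkw : 0 < kw := by
    have h1 : 0 < s ^ (-(C : ℝ)) * kw := lt_of_lt_of_le he hek
    exact (pos_iff_pos_of_mul_pos h1).1 (Real.rpow_pos_of_pos hs0 _)
  have hE : e ^ (3 / 2 : ℝ) ≤ e * (s ^ (-(C : ℝ) / 2) * Real.sqrt kw) := by
    have h1 : e ^ (3 / 2 : ℝ) = e * Real.sqrt e := by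
      rw [Real.sqrt_eq_rpow, show (3 / 2 : ℝ) = 1 + 1 / 2 by norm_num, Real.rpow_add he, Real.rpow_one]
    have h2 : Real.sqrt e ≤ s ^ (-(C : ℝ) / 2) * Real.sqrt kw := by
      calc Real.sqrt e ≤ Real.sqrt (s ^ (-(C : ℝ)) * kw) := Real.sqrt_le_sqrt hek
        _ = Real.sqrt (s ^ (-(C : ℝ))) * Real.sqrt kw := Real.sqrt_mul (Real.rpow_nonneg hs0.le _) _
        _ = s ^ (-(C : ℝ) / 2) * Real.sqrt kw := by
            rw [Real.sqrt_eq_rpow, ← Real.rpow_mul hs0.le]; congr 2; ring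
    rw [h1]
    exact mul_le_mul_of_nonneg_left h2 he.le
  have hE0 : 0 ≤ e ^ (3 / 2 : ℝ) := Real.rpow_nonneg he.le _
  -- Step B
  have hpow : (s ^ (3 * (C : ℝ) + 8)) ^ (3 / 2 : ℝ) = s ^ ((9 * (C : ℝ) + 24) / 2) := by
    rw [← Real.rpow_mul hs0.le]; congr 1; ring
  have hB : (ε * e) ^ (3 / 2 : ℝ) ≤ s ^ ((9 * (C : ℝ) + 24) / 2) * e ^ (3 / 2 : ℝ) := by
    calc (ε * e) ^ (3 / 2 : ℝ) ≤ (s ^ (3 * (C : ℝ) + 8) * e) ^ (3 / 2 : ℝ) :=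
          Real.rpow_le_rpow (by positivity) (mul_le_mul_of_nonneg_right hε he.le) (by norm_num)
      _ = s ^ ((9 * (C : ℝ) + 24) / 2) * e ^ (3 / 2 : ℝ) := by
          rw [Real.mul_rpow hb0.le he.le, hpow]
  -- Step D
  have h48 : (4 : ℝ) ^ (3 / 2 : ℝ) = 8 := by
    rw [show (4 : ℝ) = 2 ^ (2 : ℝ) by norm_num, ← Real.rpow_mul (by norm_num)]
    norm_num
  have hD : ((2 * sA + 2 * ε) * e) ^ (3 / 2 : ℝ) ≤ 8 * (s ^ ((9 * (C : ℝ) + 24) / 2) * e ^ (3 / 2 : ℝ)) := by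
    calc ((2 * sA + 2 * ε) * e) ^ (3 / 2 : ℝ) ≤ (4 * (s ^ (3 * (C : ℝ) + 8) * e)) ^ (3 / 2 : ℝ) := by
          apply Real.rpow_le_rpow (by positivity) _ (by norm_num)
          have : 2 * sA + 2 * ε ≤ 4 * s ^ (3 * (C : ℝ) + 8) := by linarith
          calc (2 * sA + 2 * ε) * e ≤ 4 * s ^ (3 * (C : ℝ) + 8) * e := mul_le_mul_of_nonneg_right this he.le
            _ = 4 * (s ^ (3 * (C : ℝ) + 8) * e) := by ring
      _ = 8 * (s ^ ((9 * (C : ℝ) + 24) / 2) * e ^ (3 / 2 : ℝ)) := by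
          rw [Real.mul_rpow (by norm_num) (by positivity), Real.mul_rpow hb0.le he.le, hpow, h48]
  -- Step E
  have hEE : 4 * s ^ ((C : ℝ) + 5) + 8 * s ^ (4 * (C : ℝ) + 11) ≤ Real.sqrt s := by
    have h3 : s ^ (3 : ℝ) ≤ s / 16 := by
      have : s ^ (3 : ℝ) = s * (s * s) := by
        rw [show (3 : ℝ) = ((3 : ℕ) : ℝ) by norm_num, Real.rpow_natCast]; ring
      rw [this]
      have h4 : s * s ≤ 1 / 4 * (1 / 4) := mul_le_mul hs hs hs0.le (by norm_num)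
      have h5 : s * (s * s) ≤ s * (1 / 4 * (1 / 4)) := mul_le_mul_of_nonneg_left h4 hs0.le
      linarith
    have h1 : s ^ ((C : ℝ) + 5) ≤ s ^ (3 : ℝ) := Real.rpow_le_rpow_of_exponent_ge hs0 hs1 (by linarith)
    have h2 : s ^ (4 * (C : ℝ) + 11) ≤ s ^ (3 : ℝ) := Real.rpow_le_rpow_of_exponent_ge hs0 hs1 (by linarith)
    have h6 : s ≤ Real.sqrt s := by
      rw [Real.le_sqrt' hs0]
      nlinarith
    linarith
  have hq0 : 0 ≤ Real.sqrt kw := Real.sqrt_nonneg _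
  have hw0 : 0 < s ^ (-(C : ℝ) / 2) := Real.rpow_pos_of_pos hs0 _
  have hv0 : 0 < s ^ ((9 * (C : ℝ) + 24) / 2) := Real.rpow_pos_of_pos hs0 _
  have hx0 : 0 < s ^ (-(3 * (C : ℝ) + 6)) := Real.rpow_pos_of_pos hs0 _
  have hinv : s⁻¹ = s ^ (-1 : ℝ) := (Real.rpow_neg_one s).symm
  have t1 : (2 * Pn + 1) ^ 3 * (ε * e) ^ (3 / 2 : ℝ)
      ≤ s ^ (-(3 * (C : ℝ) + 6)) * (s ^ ((9 * (C : ℝ) + 24) / 2) * (e * (s ^ (-(C : ℝ) / 2) * Real.sqrt kw))) := by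
    apply mul_le_mul hA _ (Real.rpow_nonneg (by positivity) _) hx0.le
    exact hB.trans (mul_le_mul_of_nonneg_left hE hv0.le)
  have t2 : ((2 * sA + 2 * ε) * e) ^ (3 / 2 : ℝ) ≤ 8 * (s ^ ((9 * (C : ℝ) + 24) / 2) * (e * (s ^ (-(C : ℝ) / 2) * Real.sqrt kw))) := by
    refine hD.trans (mul_le_mul_of_nonneg_left ?_ (by norm_num))
    exact mul_le_mul_of_nonneg_left hE hv0.le
  have x1 : s ^ (-1 : ℝ) * s ^ (-(3 * (C : ℝ) + 6)) * s ^ ((9 * (C : ℝ) + 24) / 2) * s ^ (-(C : ℝ) / 2) = s ^ ((C : ℝ) + 5) := by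
    rw [← Real.rpow_add hs0, ← Real.rpow_add hs0, ← Real.rpow_add hs0]; congr 1; ring
  have x2 : s ^ (-1 : ℝ) * s ^ ((9 * (C : ℝ) + 24) / 2) * s ^ (-(C : ℝ) / 2) = s ^ (4 * (C : ℝ) + 11) := by
    rw [← Real.rpow_add hs0, ← Real.rpow_add hs0]; congr 1; ring
  calc s⁻¹ * (4 * ((2 * Pn + 1) ^ 3 * (ε * e) ^ (3 / 2 : ℝ)) + ((2 * sA + 2 * ε) * e) ^ (3 / 2 : ℝ))
      ≤ s⁻¹ * (4 * (s ^ (-(3 * (C : ℝ) + 6)) * (s ^ ((9 * (C : ℝ) + 24) / 2) * (e * (s ^ (-(C : ℝ) / 2) * Real.sqrt kw))))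
          + 8 * (s ^ ((9 * (C : ℝ) + 24) / 2) * (e * (s ^ (-(C : ℝ) / 2) * Real.sqrt kw)))) := by
        apply mul_le_mul_of_nonneg_left _ (by positivity)
        linarith
    _ = (4 * (s ^ (-1 : ℝ) * s ^ (-(3 * (C : ℝ) + 6)) * s ^ ((9 * (C : ℝ) + 24) / 2) * s ^ (-(C : ℝ) / 2))
          + 8 * (s ^ (-1 : ℝ) * s ^ ((9 * (C : ℝ) + 24) / 2) * s ^ (-(C : ℝ) / 2))) * (e * Real.sqrt kw) := by
        rw [hinv]; ring
    _ = (4 * s ^ ((C : ℝ) + 5) + 8 * s ^ (4 * (C : ℝ) + 11)) * (e * Real.sqrt kw) := by rw [x1, x2]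
    _ ≤ Real.sqrt s * (e * Real.sqrt kw) := mul_le_mul_of_nonneg_right hEE (by positivity)

/-- **(E6)** THE ERROR.   `B = 3C+8`: `ε² := hzE2 C n ≤ s^B` (`hz_rd_num_gau`), `s^A' ≤ s^B`, `(2Pn+1)³ ≤ s^-(3C+6)` (as in E4).   `(x e)^(3/2) = x^(3/2) e sqrt e` (`Real.mul_rpow`), `sqrt e ≤ s^(-C/2) sqrt kw`.
`2^n = s^-1`.   Sum of the exponents: first term `4 s^(-1 - (3C+6) + 3B/2 - C/2) = 4 s^(C+5)`, second `(4 s^B)^(3/2) s^(-1-C/2) = 8 s^(4C+11)`;   `4 s^(C+5) + 8 s^(4C+11) ≤ s^(1/2)` as soon as `n ≥ 1`  (`s ≤ 1/2`).   ~200 l. -/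
theorem hz_rd_num_err (C : ℕ) : ∃ n0 : ℕ, ∀ n : ℕ, n0 ≤ n → ∀ A' : ℕ, 3 * C + 8 ≤ A' → ∀ e kw : ℝ, 0 < e → e ≤ ((2 : ℝ)⁻¹ ^ n) ^ (-(C : ℝ)) * kw →
    2 ^ n * (4 * ((2 * (hzPn C n : ℝ) + 1) ^ 3 * (hzE2 C n * e) ^ (3 / 2 : ℝ)) + ((2 * ((2 : ℝ)⁻¹ ^ n) ^ (A' : ℝ) + 2 * hzE2 C n) * e) ^ (3 / 2 : ℝ))
      ≤ Real.sqrt ((2 : ℝ)⁻¹ ^ n) * (e * Real.sqrt kw) := by
  obtain ⟨n1, h1⟩ := hz_rd_num_gau C (3 * C + 8)
  obtain ⟨n2, h2⟩ := hz_rd_num_Pn C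
  refine ⟨max 2 (max n1 n2), ?_⟩
  intro n hn A' hA' e kw he hek
  have hn2 : 2 ≤ n := (le_max_left _ _).trans hn
  have hn1 : n1 ≤ n := ((le_max_left _ _).trans (le_max_right _ _)).trans hn
  have hn2' : n2 ≤ n := ((le_max_right _ _).trans (le_max_right _ _)).trans hn
  set s : ℝ := (2 : ℝ)⁻¹ ^ n with hs
  have hs0 : 0 < s := by rw [hs]; positivity
  have hs4 : s ≤ 1 / 4 := by
    have : (2 : ℝ)⁻¹ ^ n ≤ (2 : ℝ)⁻¹ ^ 2 := pow_le_pow_of_le_one (by norm_num) (by norm_num) hn2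
    rw [hs]; refine this.trans (by norm_num)
  have hs1 : s ≤ 1 := by linarith
  have e2n : (2 : ℝ) ^ n = s⁻¹ := by
    rw [hs, inv_pow, inv_inv]
  have hε0 : 0 ≤ hzE2 C n := by unfold hzE2; positivity
  have hcast : ((3 * C + 8 : ℕ) : ℝ) = 3 * (C : ℝ) + 8 := by push_cast; ring
  have hε : hzE2 C n ≤ s ^ (3 * (C : ℝ) + 8) := by
    have := h1 n hn1
    rwa [hcast] at this
  have hsA : s ^ (A' : ℝ) ≤ s ^ (3 * (C : ℝ) + 8) := by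
    apply Real.rpow_le_rpow_of_exponent_ge hs0 hs1
    rw [← hcast]
    exact_mod_cast hA'
  rw [e2n]
  exact hz_rd_num_err_aux C s (hzE2 C n) (hzPn C n) e kw (s ^ (A' : ℝ)) hs0 hs4 hε0 hε (Real.rpow_nonneg hs0.le _) hsA
    (Nat.cast_nonneg _) (h2 n hn2') he hek

end Claimed.Agent.R256
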