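import Claimed.Agent.R256.Hz.Red2

/-!
# Row 256, unit HZ, file 7c: THE REDUCTION, ASSEMBLY      (post BP-256-HZ-RED, helper299)
-/

set_option autoImplicit false

namespace Claimed.Agent.R256

open MeasureTheory
open scoped ENNReal

/-- one final interval: near + far -/
theorem hz_rd_int {η : ℝ} {p : ChyPar} (h : p.Ok) (E : Xp (p.sys η)) (hE : E.Valid) (C A : ℕ) (hC : E.st.length ≤ C) (Q0 : CyT)
    (hS : CySet (p.sys η) p.co η False C A E Q0) (hpl : p.dl E.kf ≤ Q0.f) (hn : 1 ≤ E.n) (N1 A1 : ℝ) (hN : (2 * (C : ℝ) + 5) * E.n ≤ N1)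
    (i : ℕ) (hi : i ∈ ivs E.k0 E.i0 E.kf) (Cc : Finset ((ℤ × ℤ × ℤ) × (ℤ × ℤ × ℤ))) :
    ∑ j ∈ Cc, hzMs E Q0 i j ^ (3 / 2 : ℝ)
      ≤ 4 * ∑ g ∈ hzBox (hzPn C E.n), ∑ c ∈ (Cc.filter fun j => j.1 = g).image Prod.snd,
            (hzGrp E Q0 N1 A1 g).mf (hzGrp E Q0 N1 A1 g).v i ((hzGrp E Q0 N1 A1 g).cl i c) ^ (3 / 2 : ℝ)
        + (4 * ((2 * (hzPn C E.n : ℝ) + 1) ^ 3 * (hzE2 C E.n * E.e) ^ (3 / 2 : ℝ)) + ((2 * E.s ^ (A : ℝ) + 2 * hzE2 C E.n) * E.e) ^ (3 / 2 : ℝ)) := by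
  have hr := hS.r_pos
  have hf := hS.f_pos
  rw [← Finset.sum_filter_add_sum_filter_not Cc (fun j => j.1 ∈ hzBox (hzPn C E.n))]
  have hnear : ∑ j ∈ Cc.filter (fun j => j.1 ∈ hzBox (hzPn C E.n)), hzMs E Q0 i j ^ (3 / 2 : ℝ)
      ≤ 4 * ∑ g ∈ hzBox (hzPn C E.n), ∑ c ∈ (Cc.filter fun j => j.1 = g).image Prod.snd,
            (hzGrp E Q0 N1 A1 g).mf (hzGrp E Q0 N1 A1 g).v i ((hzGrp E Q0 N1 A1 g).cl i c) ^ (3 / 2 : ℝ)
        + 4 * ((2 * (hzPn C E.n : ℝ) + 1) ^ 3 * (hzE2 C E.n * E.e) ^ (3 / 2 : ℝ)) := by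
    rw [hz_rd_reindex Cc (hzBox (hzPn C E.n)) (fun j => hzMs E Q0 i j ^ (3 / 2 : ℝ))]
    refine (Finset.sum_le_sum fun g _ => hz_rd_near h E hE C hC Q0 hr hf hpl hn N1 A1 hN g i hi _).trans (le_of_eq ?_)
    rw [Finset.sum_add_distrib, ← Finset.mul_sum, Finset.sum_const, nsmul_eq_mul, hz_rd_box_card]
    ring
  have hfar : ∑ j ∈ Cc.filter (fun j => ¬ j.1 ∈ hzBox (hzPn C E.n)), hzMs E Q0 i j ^ (3 / 2 : ℝ)
      ≤ ((2 * E.s ^ (A : ℝ) + 2 * hzE2 C E.n) * E.e) ^ (3 / 2 : ℝ) := by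
    have hRm : MeasurableSet {x : p.Om × ℝ × ℝ | hzGx E Q0 i x ∉ hzBox (hzPn C E.n)} := by
      have e : {x : p.Om × ℝ × ℝ | hzGx E Q0 i x ∉ hzBox (hzPn C E.n)} = (⋃ g ∈ hzBox (hzPn C E.n), {x : p.Om × ℝ × ℝ | hzGx E Q0 i x = g})ᶜ := by
        ext x
        simp
      rw [e]
      exact (Finset.measurableSet_biUnion _ fun g _ => hz_rd_gx_meas h E Q0 i g).compl
    refine (hz_rd_super (P := p.sys η) (tmL E.kf i) E.kf 0 (E.fin i) _ (fun j => hzIx E Q0 i ⁻¹' {j}) _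
      (fun j _ => hz_rd_ix_meas h E Q0 i j) hRm ?_ ?_).trans ?_
    · intro j _ j' _ hjj'
      exact Disjoint.preimage _ (Set.disjoint_singleton.2 hjj')
    · intro j hj x hx
      have hx' : hzIx E Q0 i x = j := hx
      have : hzGx E Q0 i x = j.1 := by rw [← hx']; rfl
      show hzGx E Q0 i x ∉ _
      rw [this]
      exact (Finset.mem_filter.1 hj).2
    · exact Real.rpow_le_rpow (gn_ms_nonneg _ _ _ _ _) (hz_rd_far h E hE C A hC Q0 hS hpl hn i hi) (by norm_num)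
  linarith

/-- **(RED)** -/
theorem hz_reduce (η : ℝ) (h0 : 0 < η) (h1 : η < 1) : HzRedC η := by
  intro C τ hτ0 hτ1
  obtain ⟨C0, hOk⟩ := hz_red_ok η C (3 * C + 6)
  obtain ⟨n1, hn1⟩ := hz_rd_num_sqrt τ hτ0
  obtain ⟨n2, hn2⟩ := hz_rd_num_N1 C τ hτ0
  obtain ⟨n3, hn3⟩ := hz_rd_num_Pn C
  obtain ⟨n4, hn4⟩ := hz_rd_num_bud C τ hτ0
  obtain ⟨n5, hn5⟩ := hz_rd_num_err C
  refine ⟨max C0 3, 3 * C + 8, max 1 (max n1 (max n2 (max n3 (max n4 n5)))), fun A' hA' p E Q0 hn hE hC haf hF => ?_⟩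
  obtain ⟨hp, hS, -, -⟩ := id haf
  have hr := hS.r_pos
  have hf := hS.f_pos
  have g0 : 1 ≤ E.n := (le_max_left _ _).trans hn
  have g1 : n1 ≤ E.n := ((le_max_left _ _).trans (le_max_right _ _)).trans hn
  have g2 : n2 ≤ E.n := ((le_max_left _ _).trans ((le_max_right _ _).trans (le_max_right _ _))).trans hn
  have g3 : n3 ≤ E.n := ((le_max_left _ _).trans ((le_max_right _ _).trans ((le_max_right _ _).trans (le_max_right _ _)))).trans hn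
  have g4 : n4 ≤ E.n :=
    ((le_max_left _ _).trans ((le_max_right _ _).trans ((le_max_right _ _).trans ((le_max_right _ _).trans (le_max_right _ _))))).trans hn
  have g5 : n5 ≤ E.n :=
    ((le_max_right _ _).trans ((le_max_right _ _).trans ((le_max_right _ _).trans ((le_max_right _ _).trans (le_max_right _ _))))).trans hn
  have hs0 : 0 < E.s := gn_s_pos E
  have hw0 : 0 ≤ Real.sqrt E.s * (E.e * Real.sqrt (E.ka * cyWt η Q0)) := by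
    have := hE.e_pos
    positivity
  by_cases hL : E.L = 0
  · -- no label
    refine ⟨∅, fun g => hzGrp E Q0 0 0 g, fun _ _ => ∅, by simp, ?_, ?_⟩
    · rw [Finset.sum_empty]
      have := hE.e_pos
      positivity
    · have : IsEmpty (Fin E.L) := by rw [hL]; infer_instance
      rw [Finset.univ_eq_empty, Finset.sum_empty, Finset.sum_empty]
      have : 0 < E.s ^ (-(2 * τ)) := Real.rpow_pos_of_pos hs0 _
      positivity
  -- the Planck floor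
  have hpl : p.dl E.kf ≤ Q0.f := by
    have l0 : Fin E.L := ⟨0, Nat.pos_of_ne_zero hL⟩
    have := (hE.ts_ok l0).2.2
    rwa [hF.wf l0] at this
  -- the labels
  have hlab := fun (l : Fin E.L) (hl : E.m l ≠ 0) => hz_rd_label hp E hE Q0 hr hf τ hτ0 hτ1 g0 hF l hl
  classical
  obtain ⟨S, hS1, hS2, hS3⟩ : ∃ S : Fin E.L → Finset ((ℤ × ℤ × ℤ) × (ℤ × ℤ × ℤ)), (∀ l, ((S l).card : ℝ) ≤ 2 * 10 ^ 5 * E.s ^ (-(7 * τ / 2))) ∧
      (∀ l, E.m l ≠ 0 → ∀ x, E.th l x ≠ 0 → hzIx E Q0 (E.iv l) x ∈ S l) ∧ ∀ l, ∀ j ∈ S l, |j.2.2.2| ≤ 2 ^ (3 * E.n) := by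
    refine ⟨fun l => if hl : E.m l ≠ 0 then (hlab l hl).choose else ∅, fun l => ?_, fun l hl => ?_, fun l => ?_⟩
    · by_cases hl : E.m l ≠ 0
      · simp only [dif_pos hl]
        exact (hlab l hl).choose_spec.1
      · simp only [dif_neg hl, Finset.card_empty, Nat.cast_zero]
        have : 0 < E.s ^ (-(7 * τ / 2)) := Real.rpow_pos_of_pos hs0 _
        positivity
    · simp only [dif_pos hl]
      exact (hlab l hl).choose_spec.2.1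
    · by_cases hl : E.m l ≠ 0
      · simp only [dif_pos hl]
        exact (hlab l hl).choose_spec.2.2
      · simp only [dif_neg hl]
        intro j hj
        exact absurd hj (Finset.notMem_empty j)
  obtain ⟨Cc, hCc⟩ : ∃ Cc : ℕ → Finset ((ℤ × ℤ × ℤ) × (ℤ × ℤ × ℤ)), Cc = fun i => Finset.univ.biUnion (fun l => if E.iv l = i then S l else ∅) := ⟨_, rfl⟩
  have hCb : ∀ i, ∀ j ∈ Cc i, |j.2.2.2| ≤ 2 ^ (3 * E.n) := by
    intro i j hj
    rw [hCc] at hj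
    obtain ⟨l, -, hl⟩ := Finset.mem_biUnion.1 hj
    by_cases hi : E.iv l = i
    · rw [if_pos hi] at hl
      exact hS3 l j hl
    · rw [if_neg hi] at hl
      exact absurd hl (Finset.notMem_empty j)
  obtain ⟨N1, hN1⟩ : ∃ N1 : ℝ, N1 = (2 * (C : ℝ) + 5) * E.n := ⟨_, rfl⟩
  have hnR : (1 : ℝ) ≤ E.n := by exact_mod_cast g0
  have hN1a : 1 ≤ N1 := by
    rw [hN1]
    have : (0 : ℝ) ≤ C := Nat.cast_nonneg _
    nlinarith
  have hN1b : N1 ≤ E.s ^ (-τ) := by rw [hN1]; exact hn2 E.n g2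
  refine ⟨hzBox (hzPn C E.n), fun g => hzGrp E Q0 N1 ((3 * C + 6 : ℕ) : ℝ) g, fun g i => ((Cc i).filter fun j => j.1 = g).image Prod.snd, ?_, ?_, ?_⟩
  · intro g hg
    refine ⟨?_, ?_, rfl, rfl, rfl⟩
    · refine hz_ok_mono _ (le_max_left C0 3) τ (hOk τ hτ0 p E Q0 A' N1 g g0 hE hC haf hF.planck hpl hN1a hN1b ?_)
      have h3 := ((hz_rd_box_mem _ g).1 hg).1
      have h4 : |(g.1 : ℝ)| ≤ (hzPn C E.n : ℝ) := by exact_mod_cast h3
      exact h4.trans (hn3 E.n g3)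
    · intro i c hc
      obtain ⟨j, hj, rfl⟩ := Finset.mem_image.1 hc
      refine (hCb i j (Finset.mem_filter.1 hj).1).trans ?_
      exact pow_le_pow_right₀ (by norm_num) (Nat.mul_le_mul_right _ (le_max_right C0 3))
  · refine (hz_rd_budget hp E hE Q0 hr hf N1 (by linarith) _ _).trans ?_
    refine mul_le_mul_of_nonneg_right ?_ hE.e_pos.le
    rw [hz_rd_box_card, hN1]
    exact hn4 E.n g4
  · have a2 := hz_rd_lat E hE (fun i => hzIx E Q0 i) (fun i j => hz_rd_ix_meas hp E Q0 i j) S _ hS1 hS2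
    refine a2.trans ?_
    have hsum : ∑ i ∈ ivs E.k0 E.i0 E.kf, ∑ j ∈ Cc i, hzMs E Q0 i j ^ (3 / 2 : ℝ)
        ≤ 4 * ∑ g ∈ hzBox (hzPn C E.n), (hzGrp E Q0 N1 ((3 * C + 6 : ℕ) : ℝ) g).HL (fun i => ((Cc i).filter fun j => j.1 = g).image Prod.snd)
          + Real.sqrt E.s * (E.e * Real.sqrt (E.ka * cyWt η Q0)) := by
      refine (Finset.sum_le_sum fun i hi => hz_rd_int hp E hE C A' hC Q0 hS hpl g0 N1 ((3 * C + 6 : ℕ) : ℝ) hN1.ge i hi (Cc i)).trans ?_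
      rw [Finset.sum_add_distrib, ← Finset.mul_sum, Finset.sum_comm, Finset.sum_const, gn_ivs_card, nsmul_eq_mul]
      refine add_le_add (le_of_eq rfl) ?_
      have e1 : E.kf - E.k0 = E.n := by simp [Xp.kf]
      rw [e1]
      push_cast
      exact hn5 E.n g5 A' hA' E.e (E.ka * cyWt η Q0) hE.e_pos hS.ek_hi
    have hsum0 : 0 ≤ ∑ i ∈ ivs E.k0 E.i0 E.kf, ∑ j ∈ Cc i, hzMs E Q0 i j ^ (3 / 2 : ℝ) :=
      Finset.sum_nonneg fun i _ => Finset.sum_nonneg fun j _ => Real.rpow_nonneg (gn_ms_nonneg _ _ _ _ _) _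
    have hfin : Real.sqrt (2 * 10 ^ 5 * E.s ^ (-(7 * τ / 2))) * ∑ i ∈ ivs E.k0 E.i0 E.kf, ∑ j ∈ Cc i, hzMs E Q0 i j ^ (3 / 2 : ℝ)
        ≤ E.s ^ (-(2 * τ)) * (4 * ∑ g ∈ hzBox (hzPn C E.n), (hzGrp E Q0 N1 ((3 * C + 6 : ℕ) : ℝ) g).HL (fun i => ((Cc i).filter fun j => j.1 = g).image Prod.snd)
          + Real.sqrt E.s * (E.e * Real.sqrt (E.ka * cyWt η Q0))) :=
      mul_le_mul (hn1 E.n g1) hsum hsum0 (Real.rpow_nonneg hs0.le _)
    subst hCc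
    exact hfin

end Claimed.Agent.R256
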